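import Vale.Agent.Lib.P338.SimDefs

/-!
# P338, module CallColl: collect the output of `A` and clean its tapes

`CK = un k`, and the configuration `c` of `A` satisfies `Within c k`. Program:
```
rewind: loop (some tape .tp i does not scan mk) (on all tapes .tp i that do not scan mk move left)
        ; on all tapes .tp i move right                     -- all heads are on cell 1
cond (state tape scans blank)                               -- A has halted
  ( loop (the tape .tp A.out scans `emb (A.bit b)`) (if b = true: push OUT true, else push OUT false ;
      move right on .tp A.out) ; rewind )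
  (write blank on the state tape)
whileNE CK ( pop CK ; on all tapes .tp i write blank and move right )    -- erase k cells
rewind
```
The heads are at cells `≤ k + 1`, so a rewind takes `≤ C * (k + 1)` steps. The output word has
at most `k` bits (its cells are not blank: `A.blank_ne`), and the symbol after it is blank. After
the erasure all cells `≥ 1` of the tapes of `A` are blank (`Within`), and the final tapes are
`base`, because `base` is `Ready`. (For the condition on some tape use a classical `decide` on
`∀ i, r (.tp i) = .mk`.) The symbol `b` is recovered from `emb (A.bit b)` by `A.bit_inj` and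
`A.blank_ne`.
-/

namespace Vale.Agent.P338

section coll

variable {A : TM}

/-- tapes with prescribed contents of the tapes of `A` and of the state tape -/
private def mkT (base : BTapes A) (T : A.K → ℕ → BSym A) (H : A.K → ℕ) (S : ℕ → BSym A) :
    BTapes A where
  tape := fun k => match k with
    | Sum.inl x => base.tape (Sum.inl x)
    | Sum.inr (Sum.inl i) => T i
    | Sum.inr (Sum.inr j) => if j = 0 then S else base.tape (Sum.inr (Sum.inr j))
  head := fun k => match k with
    | Sum.inl x => base.head (Sum.inl x)
    | Sum.inr (Sum.inl i) => H i
    | Sum.inr (Sum.inr j) => if j = 0 then 0 else base.head (Sum.inr (Sum.inr j))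

private theorem simT_eq (base : BTapes A) (c : A.Cfg) (st : BSym A) :
    simT base c st = mkT base (fun i p => if p = 0 then .mk else emb (c.tape i (p - 1)))
      (fun i => c.head i + 1) (fun p => if p = 0 then st else .blank) := rfl

private theorem base_eq {base : BTapes A} (h : Ready base) :
    mkT base (fun _ p => if p = 0 then .mk else .blank) (fun _ => 1) (fun _ => .blank) = base := by
  ext k p
  · rcases k with x | i | j
    · rfl
    · show (if p = 0 then BSym.mk else BSym.blank) = base.tape (.tp i) p
      rw [h.tape i]
    · show (if j = 0 then (fun _ => BSym.blank) else base.tape (Sum.inr (Sum.inr j))) p =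
        base.tape (Sum.inr (Sum.inr j)) p
      by_cases hj : j = 0
      · subst hj
        rw [if_pos rfl]
        have h2 := h.sta
        rw [show base.tape (Sum.inr (Sum.inr 0)) = base.tape .sta from rfl, h2]
      · rw [if_neg hj]
  · rcases k with x | i | j
    · rfl
    · show 1 = base.head (.tp i)
      rw [h.head i]
    · show (if j = 0 then 0 else base.head (Sum.inr (Sum.inr j))) = base.head (Sum.inr (Sum.inr j))
      by_cases hj : j = 0
      · subst hj
        rw [if_pos rfl]
        exact h.stah.symm
      · rw [if_neg hj]

/-- act on the tapes of `A` -/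
private def onTp (f : A.K → BSym A → BSym A × Move) (r : BK A → BSym A) : BK A → BSym A × Move :=
  fun k => match k with
    | Sum.inl x => (r (Sum.inl x), .stay)
    | Sum.inr (Sum.inl i) => f i (r (.tp i))
    | Sum.inr (Sum.inr j) => (r (Sum.inr (Sum.inr j)), .stay)

/-- write on the state tape -/
private def onSta (x : BSym A) (r : BK A → BSym A) : BK A → BSym A × Move :=
  fun k => match k with
    | Sum.inl x => (r (Sum.inl x), .stay)
    | Sum.inr (Sum.inl i) => (r (.tp i), .stay)
    | Sum.inr (Sum.inr j) => if j = 0 then (x, .stay) else (r (Sum.inr (Sum.inr j)), .stay)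

private theorem act_onTp (f : A.K → BSym A → BSym A × Move) (base : BTapes A)
    (T : A.K → ℕ → BSym A) (H : A.K → ℕ) (S : ℕ → BSym A) (s : St) :
    (enc (mkT base T H S) s).act (onTp f (enc (mkT base T H S) s).read) =
      enc (mkT base (fun i => Function.update (T i) (H i) (f i (T i (H i))).1)
        (fun i => (f i (T i (H i))).2.apply (H i)) S) s := by
  ext k p
  · rcases k with x | i | j
    · show Function.update (stk (s x)) (s x).length (stk (s x) (s x).length) p = stk (s x) p
      rw [Function.update_eq_self]
    · rfl
    · show Function.update ((enc (mkT base T H S) s).tape (Sum.inr (Sum.inr j)))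
        ((enc (mkT base T H S) s).head (Sum.inr (Sum.inr j)))
        ((enc (mkT base T H S) s).tape (Sum.inr (Sum.inr j))
          ((enc (mkT base T H S) s).head (Sum.inr (Sum.inr j)))) p = _
      rw [Function.update_eq_self]
      rfl
  · rcases k with x | i | j
    · rfl
    · rfl
    · rfl

private theorem act_onSta (x : BSym A) (base : BTapes A)
    (T : A.K → ℕ → BSym A) (H : A.K → ℕ) (S : ℕ → BSym A) (s : St) :
    (enc (mkT base T H S) s).act (onSta x (enc (mkT base T H S) s).read) =
      enc (mkT base T H (Function.update S 0 x)) s := by
  ext k p
  · rcases k with y | i | j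
    · show Function.update (stk (s y)) (s y).length (stk (s y) (s y).length) p = stk (s y) p
      rw [Function.update_eq_self]
    · show Function.update (T i) (H i) (T i (H i)) p = T i p
      rw [Function.update_eq_self]
    · by_cases hj : j = 0
      · subst hj
        rfl
      · simp only [Tapes.act, onSta, enc, mkT, Tapes.read, Sum.elim_inr, if_neg hj,
          Function.update_eq_self]
  · rcases k with y | i | j
    · rfl
    · rfl
    · by_cases hj : j = 0
      · subst hj
        rfl
      · simp only [Tapes.act, onSta, enc, mkT, Sum.elim_inr, if_neg hj, Move.apply]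

private theorem tr_onTp (f : A.K → BSym A → BSym A × Move) (base : BTapes A)
    (T : A.K → ℕ → BSym A) (H : A.K → ℕ) (S : ℕ → BSym A) (s : St) :
    Tr (Prog.prim (onTp f)) (mkT base T H S) s 1
      (mkT base (fun i => Function.update (T i) (H i) (f i (T i (H i))).1)
        (fun i => (f i (T i (H i))).2.apply (H i)) S) s := by
  refine ⟨1, le_rfl, ?_⟩
  have h := Prog.run_prim (onTp f) (enc (mkT base T H S) s)
  rw [act_onTp] at h
  exact h

private theorem tr_onSta (x : BSym A) (base : BTapes A)
    (T : A.K → ℕ → BSym A) (H : A.K → ℕ) (S : ℕ → BSym A) (s : St) :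
    Tr (Prog.prim (onSta x)) (mkT base T H S) s 1 (mkT base T H (Function.update S 0 x)) s := by
  refine ⟨1, le_rfl, ?_⟩
  have h := Prog.run_prim (onSta x) (enc (mkT base T H S) s)
  rw [act_onSta] at h
  exact h

private theorem Tr.congr {P : BProg A} {b b1 b' b'' : BTapes A} {s s' s'' : St} {n n' : ℕ}
    (h : Tr P b s n b' s') (h1 : b1 = b) (hn : n ≤ n') (hb : b' = b'') (hs : s' = s'') :
    Tr P b1 s n' b'' s'' := by
  subst h1
  subst hb
  subst hs
  exact h.mono hn

/-! ### rewind -/

/-- is the symbol the end marker -/
private def isMk : BSym A → Bool
  | .mk => true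
  | _ => false

private theorem isMk_iff (x : BSym A) : isMk x = true ↔ x = .mk := by
  cases x <;> simp [isMk]

open Classical in
/-- some tape of `A` does not scan the end marker -/
private noncomputable def notAll (r : BK A → BSym A) : Bool :=
  !(decide (∀ i : A.K, isMk (r (.tp i)) = true))

/-- move left if the end marker is not scanned -/
private def lft (_ : A.K) (x : BSym A) : BSym A × Move :=
  (x, bif isMk x then .stay else .left)

/-- move right -/
private def rgt (_ : A.K) (x : BSym A) : BSym A × Move := (x, .right)

/-- the heads of the tapes of `A` go to cell `1` -/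
private noncomputable def rewind : BProg A :=
  Prog.seq (Prog.loop notAll (Prog.prim (onTp lft))) (Prog.prim (onTp rgt))

private theorem tr_rewindLoop (base : BTapes A) (T : A.K → ℕ → BSym A) (S : ℕ → BSym A) (s : St)
    (hT0 : ∀ i, T i 0 = .mk) (hT : ∀ i p, p ≠ 0 → T i p ≠ .mk) :
    ∀ (m : ℕ) (H : A.K → ℕ), (∀ i, H i ≤ m) →
      Tr (Prog.loop notAll (Prog.prim (onTp lft))) (mkT base T H S) s (2 * m + 1)
        (mkT base T (fun _ => 0) S) s := by
  classical
  intro m
  induction m with
  | zero =>
    intro H hH
    have h0 : H = fun _ => 0 := by
      funext i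
      exact Nat.le_zero.mp (hH i)
    subst h0
    apply tr_loop_false
    unfold notAll
    rw [Bool.not_eq_false', decide_eq_true_eq]
    intro i
    rw [isMk_iff]
    exact hT0 i
  | succ m ih =>
    intro H hH
    by_cases hall : ∀ i, H i = 0
    · have h0 : H = fun _ => 0 := funext hall
      subst h0
      refine (tr_loop_false ?_).mono (by omega)
      unfold notAll
      rw [Bool.not_eq_false', decide_eq_true_eq]
      intro i
      rw [isMk_iff]
      exact hT0 i
    · have hstep := tr_onTp lft base T H S s
      have hT' : (fun i => Function.update (T i) (H i) (lft i (T i (H i))).1) = T := by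
        funext i
        show Function.update (T i) (H i) (T i (H i)) = T i
        rw [Function.update_eq_self]
      have hH' : (fun i => (lft i (T i (H i))).2.apply (H i)) = fun i => H i - 1 := by
        funext i
        by_cases hi : H i = 0
        · have h1 : isMk (T i (H i)) = true := by
            rw [isMk_iff, hi]
            exact hT0 i
          simp only [lft, h1, cond_true, Move.apply]
          omega
        · have h1 : isMk (T i (H i)) = false := by
            rw [← Bool.not_eq_true, isMk_iff]
            exact hT i _ hi
          simp only [lft, h1, cond_false, Move.apply]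
      rw [hT', hH'] at hstep
      have hrec := ih (fun i => H i - 1) (fun i => by
        have := hH i
        omega)
      refine (tr_loop_true ?_ hstep hrec).mono (by omega)
      unfold notAll
      rw [Bool.not_eq_true', decide_eq_false_iff_not]
      intro hc
      apply hall
      intro i
      by_contra hi
      have h2 := hc i
      rw [isMk_iff] at h2
      exact hT i _ hi h2

private theorem tr_rewind (base : BTapes A) (T : A.K → ℕ → BSym A) (S : ℕ → BSym A) (s : St)
    (hT0 : ∀ i, T i 0 = .mk) (hT : ∀ i p, p ≠ 0 → T i p ≠ .mk) (m : ℕ) (H : A.K → ℕ)
    (hH : ∀ i, H i ≤ m) :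
    Tr rewind (mkT base T H S) s (2 * m + 2) (mkT base T (fun _ => 1) S) s := by
  have h1 := tr_rewindLoop base T S s hT0 hT m H hH
  have h2 := tr_onTp rgt base T (fun _ => 0) S s
  have hT' : (fun i => Function.update (T i) 0 (rgt i (T i 0)).1) = T := by
    funext i
    show Function.update (T i) 0 (T i 0) = T i
    rw [Function.update_eq_self]
  rw [hT'] at h2
  exact (h1.seq h2).congr rfl (by omega) rfl rfl

/-! ### copying the output -/

open Classical in
/-- the bit represented by a symbol -/
private noncomputable def rb (x : BSym A) : Option Bool :=
  if x = emb (A.bit true) then some true else if x = emb (A.bit false) then some false else none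

private theorem emb_inj {x y : A.Γ} (h : (emb x : BSym A) = emb y) : x = y := by
  have h1 := congrArg ext h
  rwa [ext_emb, ext_emb] at h1

private theorem rb_bit (b : Bool) : rb (emb (A.bit b) : BSym A) = some b := by
  unfold rb
  cases b
  · rw [if_neg, if_pos rfl]
    intro h
    exact A.bit_inj (emb_inj h)
  · rw [if_pos rfl]

private theorem rb_blank : rb (.blank : BSym A) = none := by
  unfold rb
  have h : (.blank : BSym A) = emb A.blank := by
    unfold emb
    rw [if_pos rfl]
  rw [if_neg, if_neg]
  · rw [h]
    intro h2
    exact A.blank_ne false (emb_inj h2).symm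
  · rw [h]
    intro h2
    exact A.blank_ne true (emb_inj h2).symm

open Classical in
/-- move right on the output tape of `A` -/
private noncomputable def rgtOut (i : A.K) (x : BSym A) : BSym A × Move :=
  (x, if i = A.out then .right else .stay)

/-- the body of the copying loop -/
private noncomputable def copyBody : BProg A :=
  Prog.seq (Prog.cond (fun r => rb (r (.tp A.out)) == some true) (push .OUT true)
    (push .OUT false)) (Prog.prim (onTp rgtOut))

/-- the copying loop -/
private noncomputable def copyLoop : BProg A :=
  Prog.loop (fun r => (rb (r (.tp A.out))).isSome) copyBody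

open Classical in
/-- the output tape of `A` at cell `h`, the other tapes at cell `1` -/
private noncomputable def HO (h : ℕ) (i : A.K) : ℕ := if i = A.out then h else 1

private theorem tr_copyBody (base : BTapes A) (T : A.K → ℕ → BSym A) (S : ℕ → BSym A) (s : St)
    (h : ℕ) (b : Bool) (hb : T A.out h = emb (A.bit b)) :
    Tr copyBody (mkT base T (HO h) S) s 4 (mkT base T (HO (h + 1)) S)
      (up s .OUT (b :: s .OUT)) := by
  have hread : (enc (mkT base T (HO h) S) s).read (.tp A.out) = emb (A.bit b) := by
    show T A.out (HO h A.out) = _
    unfold HO
    rw [if_pos rfl]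
    exact hb
  have h1 : Tr (Prog.cond (fun r => rb (r (.tp A.out)) == some true) (push .OUT true)
      (push .OUT false) : BProg A) (mkT base T (HO h) S) s (2 + 1) (mkT base T (HO h) S)
      (up s .OUT (b :: s .OUT)) := by
    cases b with
    | true =>
      apply tr_cond_true
      · rw [hread, rb_bit]
        rfl
      · exact tr_push .OUT true _ s
    | false =>
      apply tr_cond_false
      · rw [hread, rb_bit]
        rfl
      · exact tr_push .OUT false _ s
  have h2 := tr_onTp rgtOut base T (HO h) S (up s .OUT (b :: s .OUT))
  have hT' : (fun i => Function.update (T i) (HO h i) (rgtOut i (T i (HO h i))).1) = T := by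
    funext i
    show Function.update (T i) (HO h i) (T i (HO h i)) = T i
    rw [Function.update_eq_self]
  have hH' : (fun i => (rgtOut i (T i (HO h i))).2.apply (HO h i)) =
      (HO (h + 1) : A.K → ℕ) := by
    funext i
    unfold rgtOut HO
    by_cases hi : i = A.out
    · simp only [if_pos hi, Move.apply]
    · simp only [if_neg hi, Move.apply]
  rw [hT', hH'] at h2
  exact (h1.seq h2).congr rfl (by omega) rfl rfl

private theorem tr_copyLoop (base : BTapes A) (T : A.K → ℕ → BSym A) (S : ℕ → BSym A) :
    ∀ (w : List Bool) (s : St) (h : ℕ), (∀ j, (hj : j < w.length) →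
      T A.out (h + j) = emb (A.bit w[j])) → T A.out (h + w.length) = .blank →
      Tr copyLoop (mkT base T (HO h) S) s (5 * w.length + 1) (mkT base T (HO (h + w.length)) S)
        (up s .OUT (w.reverse ++ s .OUT)) := by
  intro w
  induction w with
  | nil =>
    intro s h _ hbl
    simp only [List.length_nil, Nat.add_zero, List.reverse_nil, List.nil_append] at hbl ⊢
    rw [up_id]
    apply tr_loop_false
    have hread : (enc (mkT base T (HO h) S) s).read (.tp A.out) = .blank := by
      show T A.out (HO h A.out) = _
      unfold HO
      rw [if_pos rfl]
      exact hbl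
    rw [hread, rb_blank]
    rfl
  | cons b w ih =>
    intro s h hw hbl
    have hb : T A.out h = emb (A.bit b) := by
      have := hw 0 (by simp)
      simpa using this
    have h1 := tr_copyBody base T S s h b hb
    have h2 := ih (up s .OUT (b :: s .OUT)) (h + 1) (fun j hj => by
      have := hw (j + 1) (by simpa using hj)
      rw [show h + (j + 1) = h + 1 + j by omega] at this
      simpa using this) (by
      rw [← hbl]
      congr 1
      rw [List.length_cons]
      omega)
    have hread : (enc (mkT base T (HO h) S) s).read (.tp A.out) = emb (A.bit b) := by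
      show T A.out (HO h A.out) = _
      unfold HO
      rw [if_pos rfl]
      exact hb
    have h3 := tr_loop_true (p := fun r => (rb (r (.tp A.out))).isSome) (by
      rw [hread, rb_bit]
      rfl) h1 h2
    refine h3.congr rfl ?_ ?_ ?_
    · rw [List.length_cons]
      omega
    · rw [List.length_cons, show h + (w.length + 1) = h + 1 + w.length by omega]
    · rw [up_self, up_up]
      congr 1
      rw [List.reverse_cons, List.append_assoc]
      rfl

/-! ### erasing -/

/-- write blank and move right -/
private def era (_ : A.K) (_ : BSym A) : BSym A × Move := (.blank, .right)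

/-- erase as many cells as there are symbols on the clock -/
private def erase : BProg A := whileNE .CK (Prog.seq (pop .CK) (Prog.prim (onTp era)))

/-- the tapes `T` with the cells `1, ..., j` erased -/
private def TE (T : A.K → ℕ → BSym A) (j : ℕ) (i : A.K) (p : ℕ) : BSym A :=
  if 1 ≤ p ∧ p ≤ j then .blank else T i p

private theorem tr_erase (base : BTapes A) (T : A.K → ℕ → BSym A) (S : ℕ → BSym A) :
    ∀ (m j : ℕ) (s : St), s .CK = un m →
      Tr erase (mkT base (TE T j) (fun _ => j + 1) S) s (3 * m + 1)
        (mkT base (TE T (j + m)) (fun _ => j + m + 1) S) (up s .CK []) := by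
  intro m
  induction m with
  | zero =>
    intro j s hs
    have hs' : s .CK = [] := hs
    have h1 : Tr erase (mkT base (TE T j) (fun _ => j + 1) S) s 1
        (mkT base (TE T j) (fun _ => j + 1) S) s := tr_loop_false (read_nil hs' _)
    refine h1.congr rfl (by omega) rfl ?_
    rw [← hs', up_id]
  | succ m ih =>
    intro j s hs
    have hne : s .CK ≠ [] := by
      rw [hs, un_succ]
      exact List.cons_ne_nil _ _
    have h1 := tr_pop .CK (mkT base (TE T j) (fun _ => j + 1) S) s
    have htail : (s .CK).tail = un m := by
      rw [hs, un_succ]
      rfl
    rw [htail] at h1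
    have h2 := tr_onTp era base (TE T j) (fun _ => j + 1) S (up s .CK (un m))
    have hT' : (fun i => Function.update (TE T j i) (j + 1) (era i (TE T j i (j + 1))).1) =
        TE T (j + 1) := by
      funext i p
      show Function.update (TE T j i) (j + 1) BSym.blank p = TE T (j + 1) i p
      by_cases hp : p = j + 1
      · subst hp
        rw [Function.update_self]
        unfold TE
        rw [if_pos ⟨by omega, le_rfl⟩]
      · rw [Function.update_of_ne hp]
        unfold TE
        by_cases h3 : 1 ≤ p ∧ p ≤ j
        · rw [if_pos h3, if_pos ⟨h3.1, by omega⟩]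
        · rw [if_neg h3, if_neg]
          intro h4
          apply h3
          exact ⟨h4.1, by omega⟩
    rw [hT'] at h2
    have h3 := ih (j + 1) (up s .CK (un m)) (up_self _ _ _)
    have h4 := tr_loop_true (p := fun r => isBit (r (.st .CK))) (read_ne hne _) (h1.seq h2) h3
    refine h4.congr rfl (by omega) ?_ ?_
    · rw [show j + (m + 1) = j + 1 + m by omega]
    · rw [up_up]

/-! ### assembly -/

/-- is the symbol blank -/
private def isBl : BSym A → Bool
  | .blank => true
  | _ => false

private noncomputable def collProg : BProg A :=
  Prog.seq rewind (Prog.seq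
    (Prog.cond (fun r => isBl (r .sta)) (Prog.seq copyLoop rewind) (Prog.prim (onSta .blank)))
    (Prog.seq erase rewind))

private theorem tail_part {base : BTapes A} (hb : Ready base) {c : A.Cfg} {k : ℕ}
    (hc : Within c k) (s : St) (hs : s .CK = un k) :
    Tr (Prog.seq erase rewind) (mkT base (fun i p => if p = 0 then .mk else emb (c.tape i (p - 1)))
      (fun _ => 1) (fun _ => .blank)) s ((3 * k + 1) + (2 * (k + 1) + 2)) base
      (up s .CK []) := by
  have hTE0 : TE (fun (i : A.K) p => if p = 0 then BSym.mk else emb (c.tape i (p - 1))) 0 =
      fun i p => if p = 0 then BSym.mk else emb (c.tape i (p - 1)) := by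
    funext i p
    unfold TE
    rw [if_neg]
    omega
  have hTEk : TE (fun (i : A.K) p => if p = 0 then BSym.mk else emb (c.tape i (p - 1))) (0 + k) =
      fun _ p => if p = 0 then BSym.mk else BSym.blank := by
    funext i p
    unfold TE
    by_cases hp : p = 0
    · rw [if_neg (by omega), if_pos hp]
      exact if_pos hp
    · rw [if_neg hp]
      by_cases h2 : 1 ≤ p ∧ p ≤ 0 + k
      · rw [if_pos h2]
      · rw [if_neg h2]
        have h3 : (if p = 0 then BSym.mk else emb (c.tape i (p - 1)) : BSym A) = BSym.blank := by
          rw [if_neg hp, hc.2 i (p - 1) (by omega)]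
          unfold emb
          rw [if_pos rfl]
        exact h3
  have h1 := tr_erase base (fun (i : A.K) p => if p = 0 then BSym.mk else emb (c.tape i (p - 1)))
    (fun _ => .blank) k 0 s hs
  rw [hTE0, hTEk] at h1
  have h2 := tr_rewind base (fun _ p => if p = 0 then BSym.mk else BSym.blank)
    (fun _ => .blank) (up s .CK []) (fun _ => if_pos rfl) (fun _ p hp => by
      rw [if_neg hp]
      simp) (k + 1) (fun _ => 0 + k + 1) (fun _ => by omega)
  exact (h1.seq h2).congr rfl le_rfl (base_eq hb) rfl

end coll

/-- `A` has halted with the output `w` -/
theorem exists_collect (A : TM) : ∃ (P : BProg A) (C : ℕ), ∀ (base : BTapes A) (s : St)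
    (c : A.Cfg) (k : ℕ), Ready base → Within c k → s .CK = un k → s .OUT = [] →
    (∀ w : List Bool, A.Outputs c (w.map A.bit) →
      Tr P (simT base c .blank) s (C * (k + 1)) base (up (up s .CK []) .OUT w.reverse)) ∧
    (∀ q : A.Q, Tr P (simT base c (.st q)) s (C * (k + 1)) base (up s .CK [])) := by
  refine ⟨collProg, 40, ?_⟩
  intro base s c k hb hc hCK hOUT
  have hT0 : ∀ i : A.K, (fun (i : A.K) p => if p = 0 then BSym.mk else emb (c.tape i (p - 1))) i 0 =
      BSym.mk := fun _ => if_pos rfl
  have hT : ∀ (i : A.K) (p : ℕ), p ≠ 0 →
      (fun (i : A.K) p => if p = 0 then BSym.mk else emb (c.tape i (p - 1))) i p ≠ BSym.mk := by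
    intro i p hp
    simp only [if_neg hp]
    exact emb_ne_mk _
  refine ⟨?_, ?_⟩
  · intro w hw
    have hlen : w.length ≤ k := by
      by_contra hcon
      push Not at hcon
      have h1 := hw k
      rw [hc.2 A.out k le_rfl, List.getD_eq_getElem?_getD, List.getElem?_map,
        List.getElem?_eq_getElem hcon] at h1
      exact A.blank_ne _ h1.symm
    have hbl : (fun p : ℕ => if p = 0 then (BSym.blank : BSym A) else BSym.blank) =
        fun _ => BSym.blank := by
      funext p
      split_ifs <;> rfl
    rw [simT_eq, hbl]
    have h1 := tr_rewind base (fun (i : A.K) p => if p = 0 then BSym.mk else emb (c.tape i (p - 1)))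
      (fun _ => .blank) s hT0 hT (k + 1) (fun i => c.head i + 1) (fun i => by
        have := hc.1 i
        omega)
    have hHO : (fun _ => 1 : A.K → ℕ) = HO 1 := by
      funext i
      unfold HO
      split_ifs <;> rfl
    have h2 := tr_copyLoop base (fun (i : A.K) p => if p = 0 then BSym.mk else
      emb (c.tape i (p - 1))) (fun _ => .blank) w s 1 (by
        intro j hj
        rw [if_neg (by omega)]
        congr 1
        have h3 := hw j
        rw [show 1 + j - 1 = j by omega, h3, List.getD_eq_getElem?_getD, List.getElem?_map,
          List.getElem?_eq_getElem hj]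
        rfl) (by
        rw [if_neg (by omega)]
        have h3 := hw w.length
        rw [show 1 + w.length - 1 = w.length by omega, h3, List.getD_eq_getElem?_getD,
          List.getElem?_map, List.getElem?_eq_none_iff.mpr le_rfl]
        unfold emb
        exact if_pos rfl)
    rw [hOUT, List.append_nil] at h2
    have h3 := tr_rewind base (fun (i : A.K) p => if p = 0 then BSym.mk else emb (c.tape i (p - 1)))
      (fun _ => .blank) (up s .OUT w.reverse) hT0 hT (k + 1) (HO (1 + w.length)) (fun i => by
        unfold HO
        split_ifs <;> omega)
    have h4 : Tr (Prog.cond (fun r => isBl (r .sta)) (Prog.seq copyLoop rewind)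
        (Prog.prim (onSta .blank)) : BProg A)
        (mkT base (fun (i : A.K) p => if p = 0 then BSym.mk else emb (c.tape i (p - 1)))
          (fun _ => 1) (fun _ => .blank)) s (((5 * w.length + 1) + (2 * (k + 1) + 2)) + 1)
        (mkT base (fun (i : A.K) p => if p = 0 then BSym.mk else emb (c.tape i (p - 1)))
          (fun _ => 1) (fun _ => .blank)) (up s .OUT w.reverse) := by
      apply tr_cond_true
      · rfl
      · rw [hHO]
        rw [hHO] at h3
        exact h2.seq h3
    have h5 := tail_part hb hc (up s .OUT w.reverse) (by
      rw [up_of_ne _ (by decide)]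
      exact hCK)
    refine (h1.seq (h4.seq h5)).congr rfl (by omega) rfl ?_
    rw [up_comm _ (by decide)]
  · intro q
    rw [simT_eq]
    have h1 := tr_rewind base (fun (i : A.K) p => if p = 0 then BSym.mk else emb (c.tape i (p - 1)))
      (fun p => if p = 0 then .st q else .blank) s hT0 hT (k + 1) (fun i => c.head i + 1)
      (fun i => by
        have := hc.1 i
        omega)
    have hupd : Function.update (fun p : ℕ => if p = 0 then (BSym.st q : BSym A) else BSym.blank) 0
        BSym.blank = fun _ => BSym.blank := by
      funext p
      by_cases hp : p = 0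
      · subst hp
        rw [Function.update_self]
      · rw [Function.update_of_ne hp, if_neg hp]
    have h2 := tr_onSta .blank base (fun (i : A.K) p => if p = 0 then BSym.mk else
      emb (c.tape i (p - 1))) (fun _ => 1) (fun p => if p = 0 then .st q else .blank) s
    rw [hupd] at h2
    have h4 : Tr (Prog.cond (fun r => isBl (r .sta)) (Prog.seq copyLoop rewind)
        (Prog.prim (onSta .blank)) : BProg A)
        (mkT base (fun (i : A.K) p => if p = 0 then BSym.mk else emb (c.tape i (p - 1)))
          (fun _ => 1) (fun p => if p = 0 then .st q else .blank)) s (1 + 1)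
        (mkT base (fun (i : A.K) p => if p = 0 then BSym.mk else emb (c.tape i (p - 1)))
          (fun _ => 1) (fun _ => .blank)) s := by
      apply tr_cond_false
      · rfl
      · exact h2
    have h5 := tail_part hb hc s hCK
    exact (h1.seq (h4.seq h5)).congr rfl (by omega) rfl rfl

end Vale.Agent.P338
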