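import Vale.Agent.Lib.P338.SimDefs

/-!
# P338, module CallLoad: write the input `x # y` on the first tape of `A`

`X0 = x`, `X1 = y` (first bit on top). Start: `base` is `Ready` (markers in cell `0`, heads of the
tapes of `A` on cell `1`, all blank).
```
whileNE X0 ( ifTrue X0 (W true) (W false) )    where W b = pop X0 ; write `emb (A.bit b)` on the tape
                                               `.tp A.inp` and move right (a `Prog.prim`) ; push CK true
write `emb A.sep` and move right ; push CK true
whileNE X1 ( ... the same with X1 )
loop (the scanned symbol of the tape `.tp A.inp` is not `mk`) (move left)   (cost 2 |input| + 2)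
move right
write `.st A.start` on the state tape (do not move)
```
Final tapes: `simT base (A.init (A.mulInput x y)) (.st A.start)`. The clock `CK` has
`2 |x| + 1` symbols. Invariant of the writing loops: the tape `.tp A.inp` contains
`fun p => if p = 0 then .mk else ((w.map emb)[p - 1]?).getD .blank` for the part `w` written so far,
the head is on cell `w.length + 1`. Use the rules `Tr.seq`, `tr_push`, `tr_pop`, `tr_cond_true`,
`tr_loop_true` (intermediate `base`s are arbitrary tapes).
`emb (A.bit b)`, `emb A.sep` are not `.blank` by `A.blank_ne`, `A.sep_ne`, but this is not needed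
here; what is needed is `emb γ ≠ .mk`.
-/

namespace Vale.Agent.P338

namespace CallLoad

variable {A : TM}

open Classical in
/-- act on one of the tapes which are not stacks -/
noncomputable def onBase (k0 : A.K ⊕ Fin 3) (f : BSym A → BSym A × Move) (r : BK A → BSym A)
    (k : BK A) : BSym A × Move :=
  if k = Sum.inr k0 then f (r k) else (r k, .stay)

open Classical in
/-- the effect on the tapes -/
noncomputable def updB (base : BTapes A) (k0 : A.K ⊕ Fin 3) (f : BSym A → BSym A × Move) :
    BTapes A where
  tape := fun k => if k = Sum.inr k0 then
    Function.update (base.tape k) (base.head k) (f (base.read k)).1 else base.tape k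
  head := fun k => if k = Sum.inr k0 then (f (base.read k)).2.apply (base.head k) else base.head k

theorem tr_onBase (k0 : A.K ⊕ Fin 3) (f : BSym A → BSym A × Move) (base : BTapes A) (s : St) :
    Tr (Prog.prim (onBase k0 f)) base s 1 (updB base k0 f) s := by
  refine ⟨1, le_rfl, ?_⟩
  have h := Prog.run_prim (onBase k0 f) (enc base s)
  have e : (enc base s).act (onBase k0 f (enc base s).read) = enc (updB base k0 f) s := by
    ext k p
    · rcases k with y | k
      · simp [Tapes.act, onBase, enc, Tapes.read]
      · by_cases hk : k = k0
        · subst hk
          simp [Tapes.act, onBase, enc, Tapes.read, updB]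
        · simp [Tapes.act, onBase, enc, Tapes.read, updB, hk]
    · rcases k with y | k
      · simp [Tapes.act, onBase, enc, Move.apply]
      · by_cases hk : k = k0
        · subst hk
          simp [Tapes.act, onBase, enc, Tapes.read, updB]
        · simp [Tapes.act, onBase, enc, Tapes.read, updB, hk, Move.apply]
  rw [e] at h
  exact h

open Classical in
/-- the word `w` has been written on the first tape, the head is on cell `h` -/
noncomputable def wT (base : BTapes A) (w : List A.Γ) (h : ℕ) : BTapes A where
  tape := fun k => match k with
    | Sum.inl x => base.tape (Sum.inl x)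
    | Sum.inr (Sum.inl i) => fun p => if p = 0 then .mk else
        emb (if i = A.inp then w.getD (p - 1) A.blank else A.blank)
    | Sum.inr (Sum.inr j) => base.tape (Sum.inr (Sum.inr j))
  head := fun k => match k with
    | Sum.inl x => base.head (Sum.inl x)
    | Sum.inr (Sum.inl i) => if i = A.inp then h else 1
    | Sum.inr (Sum.inr j) => base.head (Sum.inr (Sum.inr j))

theorem emb_blank : emb A.blank = (.blank : BSym A) := by
  simp [emb]

theorem wT_nil {base : BTapes A} (hb : Ready base) : wT base [] 1 = base := by
  ext k p
  · rcases k with y | i | j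
    · rfl
    · have h := congrFun (hb.tape i) p
      simp only [wT, List.getD_nil, ite_self, emb_blank]
      exact h.symm
    · rfl
  · rcases k with y | i | j
    · rfl
    · have h := hb.head i
      simp only [wT, ite_self]
      exact h.symm
    · rfl

theorem updB_write (base : BTapes A) (w : List A.Γ) (γ : A.Γ) :
    updB (wT base w (w.length + 1)) (Sum.inl A.inp) (fun _ => (emb γ, .right))
      = wT base (w ++ [γ]) (w.length + 2) := by
  ext k p
  · rcases k with y | i | j
    · simp [updB, wT]
    · by_cases hi : i = A.inp
      · subst hi
        simp only [updB, wT, if_true]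
        by_cases hp : p = w.length + 1
        · subst hp
          rw [Function.update_self]
          simp
        · rw [Function.update_of_ne hp]
          by_cases hp0 : p = 0
          · simp [hp0]
          · rw [if_neg hp0, if_neg hp0]
            congr 1
            rw [List.getD_eq_getElem?_getD, List.getD_eq_getElem?_getD]
            by_cases hlt : p - 1 < w.length
            · rw [List.getElem?_append_left hlt]
            · have h1 : w[p - 1]? = none := by
                rw [List.getElem?_eq_none_iff]
                omega
              have h2 : (w ++ [γ])[p - 1]? = none := by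
                rw [List.getElem?_eq_none_iff]
                simp
                omega
              rw [h1, h2]
      · simp [updB, wT, hi]
    · simp [updB, wT]
  · rcases k with y | i | j
    · simp [updB, wT]
    · by_cases hi : i = A.inp
      · subst hi
        simp [updB, wT, Move.apply]
      · simp [updB, wT, hi]
    · simp [updB, wT]

/-- write the symbol `γ`, move right -/
noncomputable def wr (γ : A.Γ) : BProg A :=
  Prog.prim (onBase (Sum.inl A.inp) (fun _ => (emb γ, .right)))

theorem tr_wr (base : BTapes A) (w : List A.Γ) (γ : A.Γ) (s : St) :
    Tr (wr γ) (wT base w (w.length + 1)) s 1 (wT base (w ++ [γ]) ((w ++ [γ]).length + 1)) s := by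
  have h := tr_onBase (Sum.inl A.inp) (fun _ => (emb γ, .right)) (wT base w (w.length + 1)) s
  rw [updB_write] at h
  rw [List.length_append, List.length_singleton]
  exact h

/-- one round of the writing loop -/
noncomputable def rnd (x : SName) (b : Bool) : BProg A :=
  Prog.seq (pop x) (Prog.seq (wr (A.bit b)) (push .CK true))

theorem tr_rnd {x : SName} (hx : x ≠ .CK) (base : BTapes A) (w : List A.Γ) (b : Bool)
    (l : List Bool) (s : St) (hs : s x = b :: l) :
    Tr (rnd x b) (wT base w (w.length + 1)) s 4
      (wT base (w ++ [A.bit b]) ((w ++ [A.bit b]).length + 1))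
      (up (up s x l) .CK (true :: s .CK)) := by
  have h1 := tr_pop x (wT base w (w.length + 1)) s
  rw [hs, List.tail_cons] at h1
  have h2 := tr_wr base w (A.bit b) (up s x l)
  have h3 := tr_push .CK true (wT base (w ++ [A.bit b]) ((w ++ [A.bit b]).length + 1)) (up s x l)
  rw [up_of_ne _ (Ne.symm hx)] at h3
  exact (h1.seq (h2.seq h3)).mono (by omega)

/-- the writing loop -/
noncomputable def wrAll (x : SName) : BProg A :=
  whileNE x (ifTrue x (rnd x true) (rnd x false))

theorem tr_wrAll {x : SName} (hx : x ≠ .CK) (base : BTapes A) (l : List Bool) :
    ∀ (w : List A.Γ) (s : St), s x = l →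
    Tr (wrAll x) (wT base w (w.length + 1)) s (6 * l.length + 1)
      (wT base (w ++ l.map A.bit) ((w ++ l.map A.bit).length + 1))
      (up (up s x []) .CK (un l.length ++ s .CK)) := by
  induction l with
  | nil =>
    intro w s hs
    have h := tr_loop_false (P := ifTrue x (rnd x true) (rnd x false))
      (p := fun r => isBit (r (.st x))) (read_nil hs (wT base w (w.length + 1)))
    rw [List.map_nil, List.append_nil]
    have e : up (up s x []) .CK (un ([] : List Bool).length ++ s .CK) = s := by
      rw [← hs, up_id]
      have e2 : un (s x).length ++ s .CK = s .CK := by rw [hs]; rfl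
      rw [e2, up_id]
    rw [e]
    exact h.mono (by simp)
  | cons b l ih =>
    intro w s hs
    have h1 := tr_rnd hx base w b l s hs
    have h2 : Tr (ifTrue x (rnd x true) (rnd x false)) (wT base w (w.length + 1)) s 5
        (wT base (w ++ [A.bit b]) ((w ++ [A.bit b]).length + 1))
        (up (up s x l) .CK (true :: s .CK)) := by
      cases b with
      | true => exact tr_cond_true (read_true hs _) h1
      | false =>
        refine tr_cond_false (read_not_true ?_ _) h1
        rw [hs]
        simp
    have h3 := ih (w ++ [A.bit b]) (up (up s x l) .CK (true :: s .CK))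
      (by rw [up_of_ne _ hx, up_self])
    have h4 := tr_loop_true (p := fun r => isBit (r (.st x)))
      (read_ne (by rw [hs]; simp) (wT base w (w.length + 1))) h2 h3
    have e1 : w ++ [A.bit b] ++ l.map A.bit = w ++ (b :: l).map A.bit := by simp
    have e2 : up (up (up (up s x l) .CK (true :: s .CK)) x []) .CK
        (un l.length ++ (up (up s x l) .CK (true :: s .CK)) .CK)
        = up (up s x []) .CK (un (b :: l).length ++ s .CK) := by
      rw [up_self, up_comm _ (Ne.symm hx), up_up, up_up]
      congr 1
      rw [List.length_cons, ← un_append l.length 1, List.append_assoc]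
      rfl
    rw [e1, e2] at h4
    exact h4.mono (by simp only [List.length_cons]; omega)

/-- is the symbol the marker -/
def notMk : BSym A → Bool
  | .mk => false
  | _ => true

theorem notMk_emb (γ : A.Γ) : notMk (emb γ) = true := by
  have h := emb_ne_mk γ
  revert h
  generalize emb γ = z
  intro h
  cases z with
  | mk => exact absurd rfl h
  | blank => rfl
  | sep => rfl
  | bit b => rfl
  | a γ => rfl
  | st q => rfl

/-- move left -/
noncomputable def goL : BProg A := Prog.prim (onBase (Sum.inl A.inp) (fun z => (z, .left)))

/-- move right -/
noncomputable def goR : BProg A := Prog.prim (onBase (Sum.inl A.inp) (fun z => (z, .right)))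

theorem updB_move (base : BTapes A) (w : List A.Γ) (h : ℕ) (m : Move) :
    updB (wT base w h) (Sum.inl A.inp) (fun z => (z, m)) = wT base w (m.apply h) := by
  ext k p
  · rcases k with y | i | j
    · simp [updB, wT]
    · by_cases hi : i = A.inp
      · subst hi
        simp only [updB, if_true, Tapes.read, Function.update_eq_self]
        rfl
      · simp [updB, wT, hi]
    · simp [updB, wT]
  · rcases k with y | i | j
    · simp [updB, wT]
    · by_cases hi : i = A.inp
      · subst hi
        simp [updB, wT]
      · simp [updB, wT, hi]
    · simp [updB, wT]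

/-- the rewinding loop -/
noncomputable def rew : BProg A := Prog.loop (fun r => notMk (r (.tp A.inp))) goL

theorem read_wT (base : BTapes A) (w : List A.Γ) (h : ℕ) (s : St) :
    (enc (wT base w h) s).read (.tp A.inp)
      = if h = 0 then .mk else emb (w.getD (h - 1) A.blank) := by
  simp [enc, Tapes.read, wT]

theorem tr_rew (base : BTapes A) (w : List A.Γ) (s : St) (h : ℕ) :
    Tr rew (wT base w h) s (2 * h + 1) (wT base w 0) s := by
  induction h with
  | zero =>
    refine (tr_loop_false ?_).mono (by omega)
    rw [read_wT]
    rfl
  | succ h ih =>
    have h1 := tr_onBase (Sum.inl A.inp) (fun z => (z, .left)) (wT base w (h + 1)) s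
    rw [updB_move] at h1
    have h2 : Tr goL (wT base w (h + 1)) s 1 (wT base w h) s := h1
    have h3 := tr_loop_true (p := fun r => notMk (r (.tp A.inp))) (P := goL)
      (by rw [read_wT, if_neg (Nat.succ_ne_zero h)]; exact notMk_emb _) h2 ih
    exact h3.mono (by omega)

theorem updB_state {base : BTapes A} (hb : Ready base) (w : List A.Γ) (z : BSym A) :
    updB (wT base w 1) (Sum.inr 0) (fun _ => (z, .stay)) = simT base (A.init w) z := by
  ext k p
  · rcases k with y | i | j
    · simp [updB, wT, simT]
    · simp [updB, wT, simT, TM.init]
    · by_cases hj : j = 0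
      · subst hj
        have h1 := hb.sta
        have h2 := hb.stah
        have h3 : base.tape (Sum.inr (Sum.inr 0)) = fun _ => BSym.blank := h1
        have h4 : base.head (Sum.inr (Sum.inr 0)) = 0 := h2
        simp only [updB, wT, simT, if_true, h3, h4]
        by_cases hp : p = 0
        · subst hp
          simp
        · rw [Function.update_of_ne hp, if_neg hp]
      · simp [updB, wT, simT, hj]
  · rcases k with y | i | j
    · simp [updB, wT, simT]
    · simp [updB, wT, simT, TM.init]
    · by_cases hj : j = 0
      · subst hj
        have h4 : base.head (Sum.inr (Sum.inr 0)) = 0 := hb.stah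
        simp [updB, wT, simT, Move.apply, h4]
      · simp [updB, wT, simT, hj]

end CallLoad

open CallLoad in
theorem exists_load (A : TM) : ∃ (P : BProg A) (C : ℕ), ∀ (base : BTapes A) (s : St),
    Ready base → 1 ≤ (s .X0).length → (s .X1).length = (s .X0).length → s .CK = [] →
    Tr P base s (C * (s .X0).length)
      (simT base (A.init (A.mulInput (s .X0) (s .X1))) (.st A.start))
      (up (up (up s .X0 []) .X1 []) .CK (un (2 * (s .X0).length + 1))) := by
  refine ⟨Prog.seq (wrAll .X0) (Prog.seq (wr A.sep) (Prog.seq (push .CK true)
    (Prog.seq (wrAll .X1) (Prog.seq rew (Prog.seq goR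
      (Prog.prim (onBase (Sum.inr 0) (fun _ => (.st A.start, .stay))))))))), 40, ?_⟩
  intro base s hb h0 h1 hck
  have t1 := tr_wrAll (A := A) (x := .X0) (by decide) base (s .X0) [] s rfl
  rw [List.nil_append, hck, List.append_nil] at t1
  have t1' : Tr (wrAll .X0) base s (6 * (s .X0).length + 1)
      (wT base ((s .X0).map A.bit) (((s .X0).map A.bit).length + 1))
      (up (up s .X0 []) .CK (un (s .X0).length)) := by
    have e : wT base ([] : List A.Γ) (([] : List A.Γ).length + 1) = base := wT_nil hb
    rw [e] at t1
    exact t1
  have t2 := tr_wr base ((s .X0).map A.bit) A.sep (up (up s .X0 []) .CK (un (s .X0).length))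
  have t3 := tr_push .CK true
    (wT base ((s .X0).map A.bit ++ [A.sep]) (((s .X0).map A.bit ++ [A.sep]).length + 1))
    (up (up s .X0 []) .CK (un (s .X0).length))
  rw [up_self, up_up] at t3
  have t4 := tr_wrAll (A := A) (x := .X1) (by decide) base (s .X1)
    ((s .X0).map A.bit ++ [A.sep]) (up (up s .X0 []) .CK (true :: un (s .X0).length))
    (by rw [up_of_ne _ (by decide), up_of_ne _ (by decide)])
  have t5 := tr_rew base ((s .X0).map A.bit ++ [A.sep] ++ (s .X1).map A.bit)
    (up (up (up (up s .X0 []) .CK (true :: un (s .X0).length)) .X1 []) .CK
      (un (s .X1).length ++ (up (up s .X0 []) .CK (true :: un (s .X0).length)) .CK))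
    (((s .X0).map A.bit ++ [A.sep] ++ (s .X1).map A.bit).length + 1)
  have t6 := tr_onBase (Sum.inl A.inp) (fun z => (z, .right))
    (wT base ((s .X0).map A.bit ++ [A.sep] ++ (s .X1).map A.bit) 0)
    (up (up (up (up s .X0 []) .CK (true :: un (s .X0).length)) .X1 []) .CK
      (un (s .X1).length ++ (up (up s .X0 []) .CK (true :: un (s .X0).length)) .CK))
  rw [updB_move] at t6
  have t7 := tr_onBase (Sum.inr 0) (fun _ => (.st A.start, .stay))
    (wT base ((s .X0).map A.bit ++ [A.sep] ++ (s .X1).map A.bit) 1)
    (up (up (up (up s .X0 []) .CK (true :: un (s .X0).length)) .X1 []) .CK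
      (un (s .X1).length ++ (up (up s .X0 []) .CK (true :: un (s .X0).length)) .CK))
  rw [updB_state hb] at t7
  have e : up (up (up (up s .X0 []) .CK (true :: un (s .X0).length)) .X1 []) .CK
      (un (s .X1).length ++ (up (up s .X0 []) .CK (true :: un (s .X0).length)) .CK)
      = up (up (up s .X0 []) .X1 []) .CK (un (2 * (s .X0).length + 1)) := by
    rw [up_self, up_comm (up s .X0 []) (show SName.CK ≠ SName.X1 by decide), up_up]
    congr 1
    rw [← un_succ, un_append, h1]
    congr 1
    omega
  have t := t1'.seq (t2.seq (t3.seq (t4.seq (t5.seq (Tr.seq t6 t7)))))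
  rw [e] at t
  refine Tr.mono t ?_
  simp only [List.length_append, List.length_map, List.length_singleton, h1]
  omega

end Vale.Agent.P338
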