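import Vale.Agent.Lib.P338.CallStep

/-!
# P338, module CallSim: simulation of `A` with a budget

`exists_sim`: the budget is `h * N` steps, `HS = un h`, `WA` has length `N`. With
`running r := r .sta` is of the form `.st q`:
```
loop (running and HS nonempty) (
  mv HS HSk
  loop (running and WA nonempty) ( mv WA WB ; step )
  mvAll WB WA )
mvAll HSk HS
```
`T` is the halting time. If `T < h * N` the loop is left with the state symbol `.blank` after
`T + 1` executions of `step`. Otherwise it is left after `h * N` executions, with the configuration
`A.run (h * N) c0` and some state symbol `.st q`. (`WA` is a general list of length `N`; it is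
restored: `mv WA WB` and `mvAll WB WA` preserve the contents.)
The cost of a round is at most `20 * (steps + N)`, and in the first case there are at most
`T / N + 1` rounds, so the total cost is `≤ C * (T + N + h)`.
-/

namespace Vale.Agent.P338

namespace SimAux

variable {A : TM}

/-- is the symbol a state of `A` -/
def isSt : BSym A → Bool
  | .st _ => true
  | _ => false

theorem tr_sat {P : BProg A} {s s' : St} {n : ℕ} (h : ∀ b : BTapes A, Tr P b s n b s')
    (b : BTapes A) : Tr P b s n b s' := h b

theorem tr_mv {x y : SName} (hxy : x ≠ y) {s : St} {c : Bool} {l : List Bool}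
    (hs : s x = c :: l) (b : BTapes A) : Tr (mv x y : BProg A) b s 4 b
      (up (up s x l) y (c :: s y)) := by
  have h1 : ∀ c, Tr (Prog.seq (pop x) (push y c) : BProg A) b s 3 b
      (up (up s x l) y (c :: s y)) := by
    intro c
    have h2 := (tr_pop (A := A) x b s).seq (tr_push y c b _)
    rw [hs, List.tail_cons, up_of_ne _ (Ne.symm hxy)] at h2
    exact h2
  cases c with
  | true => exact tr_cond_true (read_true hs b) (h1 true)
  | false =>
    refine tr_cond_false (read_not_true ?_ b) (h1 false)
    rw [hs]
    simp

theorem tr_mvAll {x y : SName} (hxy : x ≠ y) (s : St) (b : BTapes A) :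
    Tr (mvAll x y : BProg A) b s (5 * (s x).length + 1) b
      (up (up s x []) y ((s x).reverse ++ s y)) := by
  obtain ⟨l, hl⟩ : ∃ l, s x = l := ⟨_, rfl⟩
  rw [hl]
  induction l generalizing s with
  | nil =>
    have h0 : Tr (mvAll x y : BProg A) b s 1 b s := tr_loop_false (read_nil hl b)
    have e : up (up s x []) y (([] : List Bool).reverse ++ s y) = s := by
      rw [List.reverse_nil, List.nil_append, ← hl, up_id, up_id]
    rw [e]
    exact h0.mono (by simp)
  | cons c l ih =>
    have h1 := tr_mv (A := A) hxy hl b
    have h2 := ih (up (up s x l) y (c :: s y)) (by rw [up_of_ne _ hxy, up_self])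
    have h3 : Tr (mvAll x y : BProg A) b s _ b _ :=
      tr_loop_true (read_ne (by rw [hl]; simp) b) h1 h2
    have e : up (up (up (up s x l) y (c :: s y)) x []) y
        (l.reverse ++ up (up s x l) y (c :: s y) y) =
        up (up s x []) y ((c :: l).reverse ++ s y) := by
      rw [up_self, up_comm _ (Ne.symm hxy), up_up, up_up]
      simp
    rw [e] at h3
    refine h3.mono ?_
    simp only [List.length_cons]
    omega

theorem run_succ (c0 : A.Cfg) (t : ℕ) :
    A.run (t + 1) c0 = (A.step (A.run t c0)).getD (A.run t c0) := by
  unfold TM.run
  rw [Function.iterate_succ_apply']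

/-- the state in the inner loop -/
def inn (s : St) (l l' : List Bool) (k : ℕ) : St := up (up (up s .WA l) .WB l') .CK (un k)

/-- the condition of the inner loop -/
def pin (r : BK A → BSym A) : Bool := isSt (r .sta) && isBit (r (.st .WA))

/-- the condition of the outer loop -/
def pout (r : BK A → BSym A) : Bool := isSt (r .sta) && isBit (r (.st .HS))

theorem read_sta (b : BTapes A) (s : St) (c : A.Cfg) (x : BSym A) :
    (enc (simT b c x) s).read .sta = x := by
  show (simT b c x).tape .sta ((simT b c x).head .sta) = x
  simp [simT]

/-- the body of the inner loop, one step -/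
theorem tr_body {S : BProg A} (hS : ∀ (base : BTapes A) (s : St) (c : A.Cfg),
    (A.step c = none → Tr S (simT base c (.st c.q)) s 4 (simT base c .blank)
      (up s .CK (true :: s .CK))) ∧
    (∀ c', A.step c = some c' → Tr S (simT base c (.st c.q)) s 4 (simT base c' (.st c'.q))
      (up s .CK (true :: s .CK)))) (base : BTapes A) (s : St) (c : A.Cfg) (x : Bool)
    (l l' : List Bool) (k : ℕ) :
    (A.step c = none → Tr (Prog.seq (mv .WA .WB) S) (simT base c (.st c.q))
      (inn s (x :: l) l' k) 8 (simT base c .blank) (inn s l (x :: l') (k + 1))) ∧
    (∀ c', A.step c = some c' → Tr (Prog.seq (mv .WA .WB) S) (simT base c (.st c.q))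
      (inn s (x :: l) l' k) 8 (simT base c' (.st c'.q)) (inn s l (x :: l') (k + 1))) := by
  have h1 : Tr (mv .WA .WB : BProg A) (simT base c (.st c.q)) (inn s (x :: l) l' k) 4
      (simT base c (.st c.q)) (inn s l (x :: l') k) := by
    have h2 := tr_mv (A := A) (x := .WA) (y := .WB) (by decide) (s := inn s (x :: l) l' k)
      (c := x) (l := l) (by simp [inn, up]) (simT base c (.st c.q))
    have e : up (up (inn s (x :: l) l' k) .WA l) .WB (x :: inn s (x :: l) l' k .WB) =
        inn s l (x :: l') k := by
      funext z
      cases z <;> simp [inn, up]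
    rw [e] at h2
    exact h2
  have e : up (inn s l (x :: l') k) .CK (true :: inn s l (x :: l') k .CK) =
      inn s l (x :: l') (k + 1) := by
    funext z
    cases z <;> simp [inn, up, un_succ]
  constructor
  · intro h
    have h3 := h1.seq ((hS base (inn s l (x :: l') k) c).1 h)
    rw [e] at h3
    exact h3
  · intro c' h
    have h3 := h1.seq ((hS base (inn s l (x :: l') k) c).2 c' h)
    rw [e] at h3
    exact h3

/-- the inner loop -/
theorem tr_inner {S : BProg A} (hS : ∀ (base : BTapes A) (s : St) (c : A.Cfg),
    (A.step c = none → Tr S (simT base c (.st c.q)) s 4 (simT base c .blank)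
      (up s .CK (true :: s .CK))) ∧
    (∀ c', A.step c = some c' → Tr S (simT base c (.st c.q)) s 4 (simT base c' (.st c'.q))
      (up s .CK (true :: s .CK)))) (base : BTapes A) (s : St) (c0 : A.Cfg) (T : ℕ)
    (hT : A.step (A.run T c0) = none) (hT' : ∀ t < T, A.step (A.run t c0) ≠ none)
    (l : List Bool) : ∀ (l' : List Bool) (t k : ℕ), t ≤ T →
    (t + l.length ≤ T → Tr (Prog.loop pin (Prog.seq (mv .WA .WB) S))
      (simT base (A.run t c0) (.st (A.run t c0).q)) (inn s l l' k) (9 * l.length + 1)
      (simT base (A.run (t + l.length) c0) (.st (A.run (t + l.length) c0).q))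
      (inn s [] (l.reverse ++ l') (k + l.length))) ∧
    (T < t + l.length → Tr (Prog.loop pin (Prog.seq (mv .WA .WB) S))
      (simT base (A.run t c0) (.st (A.run t c0).q)) (inn s l l' k) (9 * (T - t + 1) + 1)
      (simT base (A.run T c0) .blank)
      (inn s (l.drop (T - t + 1)) ((l.take (T - t + 1)).reverse ++ l') (k + (T - t + 1)))) := by
  induction l with
  | nil =>
    intro l' t k ht
    constructor
    · intro _
      refine (tr_loop_false ?_).mono (by simp)
      simp [pin, enc_read, inn, up, isBit]
    · intro h
      simp at h
      omega
  | cons x l ih =>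
    intro l' t k ht
    have hp : pin (enc (simT base (A.run t c0) (.st (A.run t c0).q)) (inn s (x :: l) l' k)).read =
        true := by
      unfold pin
      rw [read_sta, enc_read]
      simp [inn, up, isBit, isSt]
    have hb := tr_body hS base s (A.run t c0) x l l' k
    by_cases hlt : t < T
    · obtain ⟨c', hc'⟩ := Option.ne_none_iff_exists'.1 (hT' t hlt)
      have hr : A.run (t + 1) c0 = c' := by
        rw [run_succ, hc']
        rfl
      have h1 := hb.2 c' hc'
      rw [← hr] at h1
      obtain ⟨i1, i2⟩ := ih (x :: l') (t + 1) (k + 1) (by omega)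
      constructor
      · intro h
        have h' : t + 1 + l.length ≤ T := by
          simp only [List.length_cons] at h
          omega
        have h2 := tr_loop_true hp h1 (i1 h')
        have e1 : t + 1 + l.length = t + (x :: l).length := by
          simp only [List.length_cons]; omega
        have e2 : l.reverse ++ x :: l' = (x :: l).reverse ++ l' := by simp
        have e3 : k + 1 + l.length = k + (x :: l).length := by
          simp only [List.length_cons]; omega
        rw [e1, e2, e3] at h2
        refine h2.mono ?_
        simp only [List.length_cons]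
        omega
      · intro h
        have h' : T < t + 1 + l.length := by
          simp only [List.length_cons] at h
          omega
        have h2 := tr_loop_true hp h1 (i2 h')
        have e1 : T - t = T - (t + 1) + 1 := by omega
        have e2 : (l.take (T - (t + 1) + 1)).reverse ++ x :: l' =
            ((x :: l).take (T - t + 1)).reverse ++ l' := by
          rw [e1]
          simp
        have e3 : k + 1 + (T - (t + 1) + 1) = k + (T - t + 1) := by omega
        have e4 : l.drop (T - (t + 1) + 1) = (x :: l).drop (T - t + 1) := by
          rw [e1]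
          simp
        rw [e2, e3, e4] at h2
        refine h2.mono ?_
        omega
    · have htT : t = T := by omega
      subst htT
      constructor
      · intro h
        simp at h
      · intro _
        have h1 := hb.1 hT
        have h3 : Tr (Prog.loop pin (Prog.seq (mv .WA .WB) S)) (simT base (A.run t c0) .blank)
            (inn s l (x :: l') (k + 1)) 1 (simT base (A.run t c0) .blank)
            (inn s l (x :: l') (k + 1)) := by
          refine tr_loop_false ?_
          unfold pin
          rw [read_sta]
          rfl
        have h2 := tr_loop_true hp h1 h3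
        have e : t - t + 1 = 1 := by omega
        rw [e]
        simpa using h2

/-- the state in the outer loop -/
def out (s : St) (h g k : ℕ) : St := up (up (up s .HS (un h)) .HSk (un g)) .CK (un k)

/-- the body of the outer loop -/
def obody (S : BProg A) : BProg A :=
  Prog.seq (mv .HS .HSk) (Prog.seq (Prog.loop pin (Prog.seq (mv .WA .WB) S)) (mvAll .WB .WA))

theorem tr_obody {S : BProg A} (hS : ∀ (base : BTapes A) (s : St) (c : A.Cfg),
    (A.step c = none → Tr S (simT base c (.st c.q)) s 4 (simT base c .blank)
      (up s .CK (true :: s .CK))) ∧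
    (∀ c', A.step c = some c' → Tr S (simT base c (.st c.q)) s 4 (simT base c' (.st c'.q))
      (up s .CK (true :: s .CK)))) (base : BTapes A) (s : St) (c0 : A.Cfg) (T : ℕ)
    (hT : A.step (A.run T c0) = none) (hT' : ∀ t < T, A.step (A.run t c0) ≠ none)
    (hWB : s .WB = []) (h g k t : ℕ) (ht : t ≤ T) :
    (t + (s .WA).length ≤ T → Tr (obody S)
      (simT base (A.run t c0) (.st (A.run t c0).q)) (out s (h + 1) g k)
      (14 * (s .WA).length + 6)
      (simT base (A.run (t + (s .WA).length) c0) (.st (A.run (t + (s .WA).length) c0).q))
      (out s h (g + 1) (k + (s .WA).length))) ∧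
    (T < t + (s .WA).length → Tr (obody S)
      (simT base (A.run t c0) (.st (A.run t c0).q)) (out s (h + 1) g k)
      (14 * (T - t + 1) + 6)
      (simT base (A.run T c0) .blank) (out s h (g + 1) (k + (T - t + 1)))) := by
  have h1 : Tr (mv .HS .HSk : BProg A) (simT base (A.run t c0) (.st (A.run t c0).q))
      (out s (h + 1) g k) 4 (simT base (A.run t c0) (.st (A.run t c0).q)) (out s h (g + 1) k) := by
    have h2 := tr_mv (A := A) (x := .HS) (y := .HSk) (by decide) (s := out s (h + 1) g k)
      (c := true) (l := un h) (by simp [out, up, un_succ])
      (simT base (A.run t c0) (.st (A.run t c0).q))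
    have e : up (up (out s (h + 1) g k) .HS (un h)) .HSk (true :: out s (h + 1) g k .HSk) =
        out s h (g + 1) k := by
      funext z
      cases z <;> simp [out, up, un_succ]
    rw [e] at h2
    exact h2
  have e0 : out s h (g + 1) k = inn (out s h (g + 1) k) (s .WA) [] k := by
    funext z
    cases z <;> simp [out, inn, up, hWB]
  have hi := tr_inner hS base (out s h (g + 1) k) c0 T hT hT' (s .WA) [] t k ht
  rw [← e0] at hi
  constructor
  · intro hle
    have h2 := hi.1 hle
    have h3 := tr_mvAll (A := A) (x := .WB) (y := .WA) (by decide)
      (inn (out s h (g + 1) k) [] ((s .WA).reverse ++ []) (k + (s .WA).length))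
      (simT base (A.run (t + (s .WA).length) c0) (.st (A.run (t + (s .WA).length) c0).q))
    have h4 := h1.seq (h2.seq h3)
    have e : up (up (inn (out s h (g + 1) k) [] ((s .WA).reverse ++ []) (k + (s .WA).length))
        .WB []) .WA ((inn (out s h (g + 1) k) [] ((s .WA).reverse ++ []) (k + (s .WA).length)
        .WB).reverse ++ inn (out s h (g + 1) k) [] ((s .WA).reverse ++ [])
          (k + (s .WA).length) .WA) = out s h (g + 1) (k + (s .WA).length) := by
      funext z
      cases z <;> simp [out, inn, up, hWB]
    rw [e] at h4
    refine h4.mono ?_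
    simp [inn, up]
    omega
  · intro hlt
    have h2 := hi.2 hlt
    have h3 := tr_mvAll (A := A) (x := .WB) (y := .WA) (by decide)
      (inn (out s h (g + 1) k) ((s .WA).drop (T - t + 1))
        (((s .WA).take (T - t + 1)).reverse ++ []) (k + (T - t + 1)))
      (simT base (A.run T c0) .blank)
    have h4 := h1.seq (h2.seq h3)
    have e : up (up (inn (out s h (g + 1) k) ((s .WA).drop (T - t + 1))
        (((s .WA).take (T - t + 1)).reverse ++ []) (k + (T - t + 1))) .WB []) .WA
        ((inn (out s h (g + 1) k) ((s .WA).drop (T - t + 1))
        (((s .WA).take (T - t + 1)).reverse ++ []) (k + (T - t + 1)) .WB).reverse ++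
        inn (out s h (g + 1) k) ((s .WA).drop (T - t + 1))
        (((s .WA).take (T - t + 1)).reverse ++ []) (k + (T - t + 1)) .WA) =
        out s h (g + 1) (k + (T - t + 1)) := by
      funext z
      cases z <;> simp [out, inn, up, hWB]
    rw [e] at h4
    refine h4.mono ?_
    simp [inn, up]
    omega

/-- the outer loop -/
theorem tr_outer {S : BProg A} (hS : ∀ (base : BTapes A) (s : St) (c : A.Cfg),
    (A.step c = none → Tr S (simT base c (.st c.q)) s 4 (simT base c .blank)
      (up s .CK (true :: s .CK))) ∧
    (∀ c', A.step c = some c' → Tr S (simT base c (.st c.q)) s 4 (simT base c' (.st c'.q))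
      (up s .CK (true :: s .CK)))) (base : BTapes A) (s : St) (c0 : A.Cfg) (T : ℕ)
    (hT : A.step (A.run T c0) = none) (hT' : ∀ t < T, A.step (A.run t c0) ≠ none)
    (hWB : s .WB = []) (hWA : 1 ≤ (s .WA).length) (h : ℕ) : ∀ (g k t : ℕ), t ≤ T →
    (t + h * (s .WA).length ≤ T → Tr (Prog.loop pout (obody S))
      (simT base (A.run t c0) (.st (A.run t c0).q)) (out s h g k)
      (21 * (h * (s .WA).length) + 1)
      (simT base (A.run (t + h * (s .WA).length) c0)
        (.st (A.run (t + h * (s .WA).length) c0).q))
      (out s 0 (g + h) (k + h * (s .WA).length))) ∧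
    (T < t + h * (s .WA).length → ∃ r, r ≤ h ∧ Tr (Prog.loop pout (obody S))
      (simT base (A.run t c0) (.st (A.run t c0).q)) (out s h g k)
      (21 * (T - t + (s .WA).length) + 8)
      (simT base (A.run T c0) .blank) (out s (h - r) (g + r) (k + (T - t + 1)))) := by
  induction h with
  | zero =>
    intro g k t ht
    constructor
    · intro _
      have h1 : Tr (Prog.loop pout (obody S)) (simT base (A.run t c0) (.st (A.run t c0).q))
          (out s 0 g k) 1 (simT base (A.run t c0) (.st (A.run t c0).q)) (out s 0 g k) := by
        refine tr_loop_false ?_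
        unfold pout
        rw [enc_read]
        simp [out, up, isBit]
      simpa using h1
    · intro h
      simp at h
      omega
  | succ h ih =>
    intro g k t ht
    have hp : pout (enc (simT base (A.run t c0) (.st (A.run t c0).q)) (out s (h + 1) g k)).read =
        true := by
      unfold pout
      rw [read_sta, enc_read]
      simp [out, up, isBit, isSt, un_succ]
    have hb := tr_obody hS base s c0 T hT hT' hWB h g k t ht
    have hmul : (h + 1) * (s .WA).length = h * (s .WA).length + (s .WA).length := by ring
    by_cases hN : t + (s .WA).length ≤ T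
    · obtain ⟨i1, i2⟩ := ih (g + 1) (k + (s .WA).length) (t + (s .WA).length) hN
      have h1 := hb.1 hN
      constructor
      · intro hle
        have h2 := tr_loop_true hp h1 (i1 (by rw [hmul] at hle; omega))
        have e1 : t + (s .WA).length + h * (s .WA).length = t + (h + 1) * (s .WA).length := by
          rw [hmul]; omega
        have e2 : g + 1 + h = g + (h + 1) := by omega
        have e3 : k + (s .WA).length + h * (s .WA).length = k + (h + 1) * (s .WA).length := by
          rw [hmul]; omega
        rw [e1, e2, e3] at h2
        refine h2.mono ?_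
        rw [hmul]
        omega
      · intro hlt
        obtain ⟨r, hr, h3⟩ := i2 (by rw [hmul] at hlt; omega)
        refine ⟨r + 1, by omega, ?_⟩
        have h2 := tr_loop_true hp h1 h3
        have e1 : h - r = h + 1 - (r + 1) := by omega
        have e2 : g + 1 + r = g + (r + 1) := by omega
        have e3 : k + (s .WA).length + (T - (t + (s .WA).length) + 1) = k + (T - t + 1) := by
          omega
        rw [e1, e2, e3] at h2
        refine h2.mono ?_
        omega
    · have hN' : T < t + (s .WA).length := by omega
      have h1 := hb.2 hN'
      constructor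
      · intro hle
        exfalso
        rw [hmul] at hle
        have : 0 ≤ h * (s .WA).length := Nat.zero_le _
        omega
      · intro _
        refine ⟨1, by omega, ?_⟩
        have h3 : Tr (Prog.loop pout (obody S)) (simT base (A.run T c0) .blank)
            (out s h (g + 1) (k + (T - t + 1))) 1 (simT base (A.run T c0) .blank)
            (out s h (g + 1) (k + (T - t + 1))) := by
          refine tr_loop_false ?_
          unfold pout
          rw [read_sta]
          rfl
        have h2 := tr_loop_true hp h1 h3
        have e1 : h = h + 1 - 1 := by omega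
        have h4 : Tr (Prog.loop pout (obody S)) (simT base (A.run t c0) (.st (A.run t c0).q))
            (out s (h + 1) g k) (14 * (T - t + 1) + 6 + 1 + 1) (simT base (A.run T c0) .blank)
            (out s (h + 1 - 1) (g + 1) (k + (T - t + 1))) := by
          rw [← e1]
          exact h2
        refine h4.mono ?_
        omega

end SimAux

open SimAux in
theorem exists_sim (A : TM) : ∃ (P : BProg A) (C : ℕ), ∀ (base : BTapes A) (s : St)
    (c0 : A.Cfg) (T h k : ℕ), A.step (A.run T c0) = none → (∀ t < T, A.step (A.run t c0) ≠ none) →
    s .HS = un h → s .HSk = [] → s .WB = [] → 1 ≤ (s .WA).length → s .CK = un k →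
    (T < h * (s .WA).length → Tr P (simT base c0 (.st c0.q)) s (C * (T + (s .WA).length + h))
      (simT base (A.run T c0) .blank) (up s .CK (un (T + 1 + k)))) ∧
    (h * (s .WA).length ≤ T → ∃ q : A.Q, Tr P (simT base c0 (.st c0.q)) s
      (C * (h * (s .WA).length + 1)) (simT base (A.run (h * (s .WA).length) c0) (.st q))
      (up s .CK (un (h * (s .WA).length + k)))) := by
  obtain ⟨S, hS⟩ := exists_step A
  refine ⟨Prog.seq (Prog.loop pout (obody S)) (mvAll .HSk .HS), 40, ?_⟩
  intro base s c0 T h k hT hT' hHS hHSk hWB hWA hCK
  have h0 := tr_outer hS base s c0 T hT hT' hWB hWA h 0 k 0 (Nat.zero_le _)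
  have e0 : out s h 0 k = s := by
    funext z
    cases z <;> simp [out, up, hHS, hHSk, hCK]
  have er : A.run 0 c0 = c0 := rfl
  rw [e0, er] at h0
  constructor
  · intro hlt
    obtain ⟨r, hr, h1⟩ := h0.2 (by omega)
    have h2 := tr_mvAll (A := A) (x := .HSk) (y := .HS) (by decide)
      (out s (h - r) (0 + r) (k + (T - 0 + 1))) (simT base (A.run T c0) .blank)
    have h3 := h1.seq h2
    have e : up (up (out s (h - r) (0 + r) (k + (T - 0 + 1))) .HSk []) .HS
        ((out s (h - r) (0 + r) (k + (T - 0 + 1)) .HSk).reverse ++
          out s (h - r) (0 + r) (k + (T - 0 + 1)) .HS) = up s .CK (un (T + 1 + k)) := by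
      have e1 : un r ++ un (h - r) = un h := by
        rw [un_append]
        congr 1
        omega
      have e2 : k + (T - 0 + 1) = T + 1 + k := by omega
      have e3 : 0 + r = r := by omega
      funext z
      cases z <;> simp [out, up, hHS, hHSk, e3, -List.replicate_append_replicate, e1]
      omega
    rw [e] at h3
    refine h3.mono ?_
    simp [out, up]
    omega
  · intro hle
    refine ⟨(A.run (0 + h * (s .WA).length) c0).q, ?_⟩
    have h1 := h0.1 (by omega)
    have h2 := tr_mvAll (A := A) (x := .HSk) (y := .HS) (by decide)
      (out s 0 (0 + h) (k + h * (s .WA).length))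
      (simT base (A.run (0 + h * (s .WA).length) c0)
        (.st (A.run (0 + h * (s .WA).length) c0).q))
    have h3 := h1.seq h2
    have e : up (up (out s 0 (0 + h) (k + h * (s .WA).length)) .HSk []) .HS
        ((out s 0 (0 + h) (k + h * (s .WA).length) .HSk).reverse ++
          out s 0 (0 + h) (k + h * (s .WA).length) .HS) =
        up s .CK (un (h * (s .WA).length + k)) := by
      have e2 : k + h * (s .WA).length = h * (s .WA).length + k := by omega
      have e3 : 0 + h = h := by omega
      funext z
      cases z <;> simp [out, up, hHS, hHSk, e2, e3]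
    rw [e] at h3
    have e4 : 0 + h * (s .WA).length = h * (s .WA).length := by omega
    rw [e4] at h3 ⊢
    refine h3.mono ?_
    have hh : h ≤ h * (s .WA).length := Nat.le_mul_of_pos_right h hWA
    simp [out, up]
    omega

end Vale.Agent.P338
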