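import Vale.Agent.Lib.P338.CallLoad
import Vale.Agent.Lib.P338.CallSim
import Vale.Agent.Lib.P338.CallColl

/-!
# P338, module CallMain: the multiplication subroutine

`X0 = x`, `X1 = y` of the same length `N ≥ 1`, `HS = un h`, `WA` of length `N`. The program is
load ; sim ; collect. Let `c0 = A.init (A.mulInput x y)` and `T = A.time (A.mulInput x y)`. Since
`A` multiplies, it halts on this input, `T` is the least `t` with `A.step (A.run t c0) = none`
(`Nat.sInf_mem`, `Nat.notMem_of_lt_sInf`), `A.run T c0` is the final configuration (a halted machine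
does not change), and `T ≤ A.mulTime N` (`Finset.le_sup`, with `x = List.ofFn _`).
`Within (A.run t c0) (2 N + 1 + t)` by induction on `t` (the input has `2 N + 1` symbols, heads move
by at most one cell, a step writes only at the head position). So `Within _ k` with the clock
`k = T + 1 + (2 N + 1)` resp. `k = h * N + (2 N + 1)` (`Within` is monotone in `k`).
Cost: `C * (N + h + min T (h * N))` and this is at most
`C * (N + h + min (A.mulTime N) (h * N))`.
-/

namespace Vale.Agent.P338

theorem callMain_ofFn {N : ℕ} (x : List Bool) (hx : x.length = N) :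
    ∃ f : Fin N → Bool, List.ofFn f = x := by
  subst hx
  exact ⟨x.get, List.ofFn_get x⟩

theorem callMain_run_succ (A : TM) (t : ℕ) (c : A.Cfg) :
    A.run (t + 1) c = (A.step (A.run t c)).getD (A.run t c) := by
  unfold TM.run
  rw [Function.iterate_succ_apply']

theorem callMain_run_halted (A : TM) (c : A.Cfg) {T : ℕ} (h : A.step (A.run T c) = none) (k : ℕ) :
    A.run (T + k) c = A.run T c := by
  induction k with
  | zero => rfl
  | succ k ih =>
    rw [← Nat.add_assoc, callMain_run_succ, ih, h]
    rfl

theorem time_spec (A : TM) (hA : A.Multiplies) {N : ℕ} (hN : 1 ≤ N) {x y : List Bool}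
    (hx : x.length = N) (hy : y.length = N) :
    A.step (A.run (A.time (A.mulInput x y)) (A.init (A.mulInput x y))) = none ∧
    (∀ t < A.time (A.mulInput x y), A.step (A.run t (A.init (A.mulInput x y))) ≠ none) ∧
    A.Outputs (A.run (A.time (A.mulInput x y)) (A.init (A.mulInput x y)))
      ((bin (2 * N) (val x * val y)).map A.bit) ∧
    A.time (A.mulInput x y) ≤ A.mulTime N := by
  obtain ⟨t, c, ⟨h1, h2⟩, h3⟩ := hA N hN x y hx hy
  have hmem : t ∈ {t | ∃ c, A.HaltsWithin (A.mulInput x y) t c} := ⟨c, h1, h2⟩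
  have hT : A.time (A.mulInput x y) ∈ {t | ∃ c, A.HaltsWithin (A.mulInput x y) t c} :=
    Nat.sInf_mem ⟨t, hmem⟩
  have hle : A.time (A.mulInput x y) ≤ t := Nat.sInf_le hmem
  obtain ⟨c', h4, h5⟩ := hT
  have h6 : A.step (A.run (A.time (A.mulInput x y)) (A.init (A.mulInput x y))) = none := by
    rw [h4]
    exact h5
  refine ⟨h6, ?_, ?_, ?_⟩
  · intro t' ht' h7
    exact Nat.notMem_of_lt_sInf ht' ⟨_, rfl, h7⟩
  · have h8 : A.run t (A.init (A.mulInput x y)) =
        A.run (A.time (A.mulInput x y)) (A.init (A.mulInput x y)) := by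
      obtain ⟨k, hk⟩ := Nat.exists_eq_add_of_le hle
      conv_lhs => rw [hk]
      exact callMain_run_halted A _ h6 k
    rw [← h8, h1]
    exact h3
  · obtain ⟨f, rfl⟩ := callMain_ofFn x hx
    obtain ⟨g, rfl⟩ := callMain_ofFn y hy
    have key := Finset.le_sup (s := Finset.univ) (f := fun p : (Fin N → Bool) × (Fin N → Bool) =>
      A.time (A.mulInput (List.ofFn p.1) (List.ofFn p.2))) (Finset.mem_univ (f, g))
    unfold TM.mulTime
    exact key

theorem callMain_within_mono {A : TM} {c : A.Cfg} {k k' : ℕ} (h : Within c k) (hk : k ≤ k') :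
    Within c k' :=
  ⟨fun i => (h.1 i).trans hk, fun i p hp => h.2 i p (hk.trans hp)⟩

theorem callMain_apply_le (m : Move) (p : ℕ) : m.apply p ≤ p + 1 := by
  cases m <;> simp only [Move.apply] <;> omega

theorem within_run (A : TM) {w : List A.Γ} {k : ℕ} (hw : w.length ≤ k) (t : ℕ) :
    Within (A.run t (A.init w)) (k + t) := by
  induction t with
  | zero =>
    refine ⟨fun i => Nat.zero_le _, fun i p hp => ?_⟩
    simp only [TM.run, Function.iterate_zero, id_eq, TM.init]
    split_ifs
    · rw [List.getD_eq_default]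
      omega
    · rfl
  | succ t ih =>
    rw [callMain_run_succ]
    cases hs : A.step (A.run t (A.init w)) with
    | none => exact callMain_within_mono ih (by omega)
    | some c' =>
      unfold TM.step at hs
      rw [Option.map_eq_some_iff] at hs
      obtain ⟨a, _, rfl⟩ := hs
      refine ⟨fun i => ?_, fun i p hp => ?_⟩
      · show (a.2 i).2.apply ((A.run t (A.init w)).head i) ≤ k + (t + 1)
        have h1 := callMain_apply_le (a.2 i).2 ((A.run t (A.init w)).head i)
        have h2 := ih.1 i
        omega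
      · show Function.update ((A.run t (A.init w)).tape i) ((A.run t (A.init w)).head i)
          (a.2 i).1 p = A.blank
        have h2 := ih.1 i
        rw [Function.update_of_ne (by omega)]
        exact ih.2 i p (by omega)

theorem exists_call (A : TM) (hA : A.Multiplies) : ∃ (P : BProg A) (C : ℕ), ∀ (s : St)
    (N h : ℕ), 1 ≤ N → (s .X0).length = N → (s .X1).length = N → (s .WA).length = N →
    s .HS = un h → s .HSk = [] → s .WB = [] → s .CK = [] → s .OUT = [] →
    Sat P s (C * (N + h + min (A.mulTime N) (h * N)))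
      (up (up (up s .X0 []) .X1 []) .OUT
        (if A.time (A.mulInput (s .X0) (s .X1)) < h * N then
          (bin (2 * N) (val (s .X0) * val (s .X1))).reverse else [])) := by
  obtain ⟨P1, C1, hP1⟩ := exists_load A
  obtain ⟨P2, C2, hP2⟩ := exists_sim A
  obtain ⟨P3, C3, hP3⟩ := exists_collect A
  refine ⟨Prog.seq P1 (Prog.seq P2 P3), C1 + C2 + 5 * C3, ?_⟩
  intro s N h hN hX0 hX1 hWA hHS hHSk hWB hCK hOUT base hb
  obtain ⟨t1, t2, t3, t4⟩ := time_spec A hA hN hX0 hX1
  set x := s .X0 with hx
  set y := s .X1 with hy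
  set T := A.time (A.mulInput x y) with hT
  set c0 := A.init (A.mulInput x y) with hc0
  set s' : St := up (up s .X0 []) .X1 [] with hs'
  have hl : (A.mulInput x y).length = 2 * N + 1 := by
    unfold TM.mulInput
    simp only [List.length_append, List.length_map, List.length_singleton]
    omega
  have e1 : s' .CK = [] := by
    rw [hs', up_of_ne _ (by decide), up_of_ne _ (by decide)]
    exact hCK
  have e2 : s' .OUT = [] := by
    rw [hs', up_of_ne _ (by decide), up_of_ne _ (by decide)]
    exact hOUT
  have L1 : Tr P1 base s (C1 * N) (simT base c0 (.st A.start)) (up s' .CK (un (2 * N + 1))) := by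
    have := hP1 base s hb (by rw [← hx, hX0]; exact hN) (by rw [← hx, ← hy]; omega) hCK
    rw [← hx, ← hy, hX0] at this
    exact this
  set s1 : St := up s' .CK (un (2 * N + 1)) with hs1
  have f1 : s1 .HS = un h := by
    rw [hs1, up_of_ne _ (by decide), hs', up_of_ne _ (by decide), up_of_ne _ (by decide)]
    exact hHS
  have f2 : s1 .HSk = [] := by
    rw [hs1, up_of_ne _ (by decide), hs', up_of_ne _ (by decide), up_of_ne _ (by decide)]
    exact hHSk
  have f3 : s1 .WB = [] := by
    rw [hs1, up_of_ne _ (by decide), hs', up_of_ne _ (by decide), up_of_ne _ (by decide)]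
    exact hWB
  have f4 : s1 .WA = s .WA := by
    rw [hs1, up_of_ne _ (by decide), hs', up_of_ne _ (by decide), up_of_ne _ (by decide)]
  have f5 : s1 .CK = un (2 * N + 1) := by
    rw [hs1, up_self]
  have f6 : s1 .OUT = [] := by
    rw [hs1, up_of_ne _ (by decide)]
    exact e2
  obtain ⟨S1, S2⟩ := hP2 base s1 c0 T h (2 * N + 1) t1 t2 f1 f2 f3 (by rw [f4]; omega) f5
  rw [f4, hWA] at S1 S2
  by_cases hlt : T < h * N
  · rw [if_pos hlt]
    have S1' := S1 hlt
    set s2 : St := up s1 .CK (un (T + 1 + (2 * N + 1))) with hs2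
    have hW : Within (A.run T c0) (T + 1 + (2 * N + 1)) :=
      callMain_within_mono (within_run A hl.le T) (by omega)
    have K := (hP3 base s2 (A.run T c0) (T + 1 + (2 * N + 1)) hb hW (by rw [hs2, up_self])
      (by rw [hs2, up_of_ne _ (by decide)]; exact f6)).1 _ t3
    have e3 : up s2 .CK [] = s' := by
      rw [hs2, hs1, up_up, up_up, ← e1, up_id]
    rw [e3] at K
    refine (L1.seq (S1'.seq K)).mono ?_
    have h1 : T ≤ min (A.mulTime N) (h * N) := le_min t4 hlt.le
    generalize min (A.mulTime N) (h * N) = m at h1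
    have g1 : C1 * N ≤ C1 * (N + h + m) := Nat.mul_le_mul_left _ (by omega)
    have g2 : C2 * (T + N + h) ≤ C2 * (N + h + m) := Nat.mul_le_mul_left _ (by omega)
    have g3 : C3 * (T + 1 + (2 * N + 1) + 1) ≤ C3 * (5 * (N + h + m)) :=
      Nat.mul_le_mul_left _ (by omega)
    calc C1 * N + (C2 * (T + N + h) + C3 * (T + 1 + (2 * N + 1) + 1))
        ≤ C1 * (N + h + m) + (C2 * (N + h + m) + C3 * (5 * (N + h + m))) := by omega
      _ = (C1 + C2 + 5 * C3) * (N + h + m) := by ring
  · rw [if_neg hlt]
    obtain ⟨q, S2'⟩ := S2 (not_lt.1 hlt)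
    set s2 : St := up s1 .CK (un (h * N + (2 * N + 1))) with hs2
    have hW : Within (A.run (h * N) c0) (h * N + (2 * N + 1)) :=
      callMain_within_mono (within_run A hl.le (h * N)) (by omega)
    have K := (hP3 base s2 (A.run (h * N) c0) (h * N + (2 * N + 1)) hb hW
      (by rw [hs2, up_self]) (by rw [hs2, up_of_ne _ (by decide)]; exact f6)).2 q
    have e3 : up s2 .CK [] = s' := by
      rw [hs2, hs1, up_up, up_up, ← e1, up_id]
    rw [e3] at K
    have e4 : up s' .OUT [] = s' := by
      rw [← e2, up_id]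
    rw [e4]
    refine (L1.seq (S2'.seq K)).mono ?_
    have h1 : h * N ≤ min (A.mulTime N) (h * N) :=
      le_min ((not_lt.1 hlt).trans t4) le_rfl
    generalize min (A.mulTime N) (h * N) = m at h1
    generalize h * N = w at h1
    have g1 : C1 * N ≤ C1 * (N + h + m) := Nat.mul_le_mul_left _ (by omega)
    have g2 : C2 * (w + 1) ≤ C2 * (N + h + m) := Nat.mul_le_mul_left _ (by omega)
    have g3 : C3 * (w + (2 * N + 1) + 1) ≤ C3 * (5 * (N + h + m)) :=
      Nat.mul_le_mul_left _ (by omega)
    calc C1 * N + (C2 * (w + 1) + C3 * (w + (2 * N + 1) + 1))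
        ≤ C1 * (N + h + m) + (C2 * (N + h + m) + C3 * (5 * (N + h + m))) := by omega
      _ = (C1 + C2 + 5 * C3) * (N + h + m) := by ring

end Vale.Agent.P338
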