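import Vale.Agent.Lib.P338.SimDefs

/-!
# P338, module CallStep: simulation of `A` with a budget

`exists_step`: one step of `A`. First `Prog.prim` with the action: read the state tape; if it is
`.st q` compute `A.δ q (fun i => ext (r (.tp i)))`; if this is `none`, write `.blank` on the state
tape and nothing else changes; if it is `some (q', w)`, write `.st q'` on the state tape and on
each tape `.tp i` write `emb (w i).1` and move `(w i).2`. Then a second `Prog.prim`: on each tape
`.tp i` whose scanned symbol is `.mk` move right (this repairs a move to the left from cell `0` of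
`A`; `emb γ ≠ .mk`). Then `push CK true` (2 steps). Total 4 steps.

-/

namespace Vale.Agent.P338

variable {A : TM}

/-- write the result of a transition on the tapes of `A` and on the state tape -/
private noncomputable def csWrite (o : Option (A.Q × (A.K → A.Γ × Move))) (r : BK A → BSym A) :
    BK A → BSym A × Move := match o with
  | none => fun k => match k with
    | Sum.inl x => (r (Sum.inl x), .stay)
    | Sum.inr (Sum.inl i) => (r (Sum.inr (Sum.inl i)), .stay)
    | Sum.inr (Sum.inr j) => if j = 0 then (.blank, .stay) else (r (Sum.inr (Sum.inr j)), .stay)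
  | some a => fun k => match k with
    | Sum.inl x => (r (Sum.inl x), .stay)
    | Sum.inr (Sum.inl i) => (emb (a.2 i).1, (a.2 i).2)
    | Sum.inr (Sum.inr j) => if j = 0 then (.st a.1, .stay) else (r (Sum.inr (Sum.inr j)), .stay)

/-- the first action -/
private noncomputable def csOne (r : BK A → BSym A) : BK A → BSym A × Move :=
  match r .sta with
  | .st q => csWrite (A.δ q fun i => ext (r (.tp i))) r
  | _ => Prog.idle r

/-- move right if the left end marker is scanned -/
private def csMove (x : BSym A) : Move := match x with
  | .mk => .right
  | _ => .stay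

/-- the second action -/
private def csTwo (r : BK A → BSym A) : BK A → BSym A × Move := fun k => match k with
  | Sum.inl x => (r (Sum.inl x), .stay)
  | Sum.inr (Sum.inl i) => (r (Sum.inr (Sum.inl i)), csMove (r (Sum.inr (Sum.inl i))))
  | Sum.inr (Sum.inr j) => (r (Sum.inr (Sum.inr j)), .stay)

private theorem csMove_emb (γ : A.Γ) : csMove (emb γ) = .stay := by
  unfold csMove
  have h := emb_ne_mk γ
  cases h1 : emb γ <;> simp_all

private theorem cs_read_sta (base : BTapes A) (s : St) (c : A.Cfg) (x : BSym A) :
    (enc (simT base c x) s).read .sta = x := by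
  simp [enc, simT, Tapes.read]

private theorem cs_read_tp (base : BTapes A) (s : St) (c : A.Cfg) (x : BSym A) (i : A.K) :
    (enc (simT base c x) s).read (.tp i) = emb (c.tape i (c.head i)) := by
  simp [enc, simT, Tapes.read]

private theorem cs_one (base : BTapes A) (s : St) (c : A.Cfg) :
    csOne (enc (simT base c (.st c.q)) s).read =
      csWrite (A.δ c.q fun i => c.tape i (c.head i)) (enc (simT base c (.st c.q)) s).read := by
  unfold csOne
  rw [cs_read_sta]
  show csWrite (A.δ c.q fun i => ext ((enc (simT base c (.st c.q)) s).read (.tp i))) _ = _
  simp only [cs_read_tp, ext_emb]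

private theorem cs_update (f : ℕ → A.Γ) (n : ℕ) (γ : A.Γ) :
    Function.update (fun p => if p = 0 then (BSym.mk : BSym A) else emb (f (p - 1))) (n + 1)
      (emb γ) = fun p => if p = 0 then BSym.mk else emb (Function.update f n γ (p - 1)) := by
  funext p
  by_cases hp : p = n + 1
  · subst hp
    simp
  · rw [Function.update_of_ne hp]
    by_cases h0 : p = 0
    · simp [h0]
    · have h1 : p - 1 ≠ n := by omega
      rw [if_neg h0, if_neg h0, Function.update_of_ne h1]

private theorem cs_none (base : BTapes A) (s : St) (c : A.Cfg)
    (h : (A.δ c.q fun i => c.tape i (c.head i)) = none) :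
    (enc (simT base c (.st c.q)) s).act (csOne (enc (simT base c (.st c.q)) s).read) =
      enc (simT base c .blank) s := by
  rw [cs_one, h]
  ext k p
  · rcases k with x | i | j
    · simp [Tapes.act, csWrite, enc, Tapes.read]
    · have h1 := cs_read_tp base s c (.st c.q) i
      have h2 := cs_update (c.tape i) (c.head i) (c.tape i (c.head i))
      rw [Function.update_eq_self] at h2
      show Function.update (fun p => if p = 0 then BSym.mk else emb (c.tape i (p - 1)))
        (c.head i + 1) ((enc (simT base c (.st c.q)) s).read (.tp i)) p =
        (fun p => if p = 0 then BSym.mk else emb (c.tape i (p - 1))) p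
      rw [h1, h2]
    · by_cases hj : j = 0
      · subst hj
        simp only [Tapes.act, csWrite, enc, simT, Sum.elim_inr, if_true]
        by_cases hp : p = 0
        · subst hp
          simp
        · simp [hp]
      · simp [Tapes.act, csWrite, enc, Tapes.read, simT, hj]
  · rcases k with x | i | j
    · simp [Tapes.act, csWrite, enc, Move.apply]
    · simp [Tapes.act, csWrite, enc, simT, Move.apply]
    · by_cases hj : j = 0
      · subst hj
        simp [Tapes.act, csWrite, enc, simT, Move.apply]
      · simp [Tapes.act, csWrite, enc, simT, hj, Move.apply]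

private theorem cs_two_idle (base : BTapes A) (s : St) (c : A.Cfg) (x : BSym A) :
    (enc (simT base c x) s).act (csTwo (enc (simT base c x) s).read) =
      enc (simT base c x) s := by
  have h : csTwo (enc (simT base c x) s).read = Prog.idle (enc (simT base c x) s).read := by
    funext k
    rcases k with y | i | j
    · rfl
    · unfold csTwo Prog.idle
      have h1 := cs_read_tp base s c x i
      show ((enc (simT base c x) s).read (.tp i), csMove ((enc (simT base c x) s).read (.tp i))) =
        ((enc (simT base c x) s).read (.tp i), Move.stay)
      rw [h1, csMove_emb]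
    · rfl
  rw [h, Prog.act_idle]

private theorem cs_head' (f : ℕ → A.Γ) (q q' : ℕ) (h : q = 0 → q' = 1) (h' : q ≠ 0 → q' = q) :
    (csMove (if q = 0 then (BSym.mk : BSym A) else emb (f (q - 1)))).apply q = q' := by
  by_cases hq : q = 0
  · subst hq
    rw [if_pos rfl, h rfl]
    rfl
  · rw [if_neg hq, csMove_emb, h' hq]
    rfl

private theorem cs_head (f : ℕ → A.Γ) (n : ℕ) (m : Move) :
    (csMove (if m.apply (n + 1) = 0 then (BSym.mk : BSym A)
      else emb (f (m.apply (n + 1) - 1)))).apply (m.apply (n + 1)) = m.apply n + 1 := by
  refine cs_head' f _ _ ?_ ?_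
  · cases m <;> simp only [Move.apply] <;> omega
  · intro hq
    cases m with
    | left =>
      simp only [Move.apply] at hq ⊢
      omega
    | right => rfl
    | stay => rfl

private theorem cs_some (base : BTapes A) (s : St) (c : A.Cfg)
    (a : A.Q × (A.K → A.Γ × Move)) (h : (A.δ c.q fun i => c.tape i (c.head i)) = some a) :
    ((enc (simT base c (.st c.q)) s).act (csOne (enc (simT base c (.st c.q)) s).read)).act
      (csTwo ((enc (simT base c (.st c.q)) s).act
        (csOne (enc (simT base c (.st c.q)) s).read)).read) =
      enc (simT base { q := a.1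
                       tape := fun i => Function.update (c.tape i) (c.head i) (a.2 i).1
                       head := fun i => (a.2 i).2.apply (c.head i) } (.st a.1)) s := by
  rw [cs_one, h]
  ext k p
  · rcases k with x | i | j
    · simp [Tapes.act, csWrite, csTwo, enc, Tapes.read]
    · simp only [Tapes.act, csWrite, csTwo, enc, Tapes.read, simT, Sum.elim_inr]
      rw [Function.update_eq_self, cs_update]
    · by_cases hj : j = 0
      · subst hj
        simp only [Tapes.act, csWrite, csTwo, enc, Tapes.read, simT, Sum.elim_inr, if_true]
        rw [Function.update_eq_self]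
        by_cases hp : p = 0
        · subst hp
          simp
        · simp [hp]
      · simp [Tapes.act, csWrite, csTwo, enc, Tapes.read, simT, hj]
  · rcases k with x | i | j
    · simp [Tapes.act, csWrite, csTwo, enc, Move.apply]
    · simp only [Tapes.act, csWrite, csTwo, enc, Tapes.read, simT, Sum.elim_inr]
      rw [cs_update]
      exact cs_head _ _ _
    · by_cases hj : j = 0
      · subst hj
        simp [Tapes.act, csWrite, csTwo, enc, simT, Move.apply]
      · simp [Tapes.act, csWrite, csTwo, enc, simT, hj, Move.apply]

private theorem cs_tr {P : BProg A} {b b' : BTapes A} {s : St} (h : P.Run (enc b s) (1 + 1) (enc b' s)) :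
    Tr (Prog.seq P (push .CK true)) b s 4 b' (up s .CK (true :: s .CK)) :=
  Tr.seq (n := 2) (n' := 2) ⟨1 + 1, le_rfl, h⟩ (tr_push .CK true b' s)

theorem exists_step (A : TM) : ∃ P : BProg A, ∀ (base : BTapes A) (s : St) (c : A.Cfg),
    (A.step c = none → Tr P (simT base c (.st c.q)) s 4 (simT base c .blank)
      (up s .CK (true :: s .CK))) ∧
    (∀ c', A.step c = some c' → Tr P (simT base c (.st c.q)) s 4 (simT base c' (.st c'.q))
      (up s .CK (true :: s .CK))) := by
  refine ⟨Prog.seq (Prog.seq (Prog.prim csOne) (Prog.prim csTwo)) (push .CK true), ?_⟩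
  intro base s c
  have hrun := Prog.run_seq (Prog.run_prim csOne (enc (simT base c (.st c.q)) s))
    (Prog.run_prim csTwo _)
  constructor
  · intro h
    have h1 : (A.δ c.q fun i => c.tape i (c.head i)) = none := by
      unfold TM.step at h
      rwa [Option.map_eq_none_iff] at h
    rw [cs_none base s c h1, cs_two_idle] at hrun
    exact cs_tr hrun
  · intro c' h
    unfold TM.step at h
    rw [Option.map_eq_some_iff] at h
    obtain ⟨a, ha, rfl⟩ := h
    rw [cs_some base s c a ha] at hrun
    exact cs_tr hrun

end Vale.Agent.P338
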