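import Mathlib

/-!
# P338: deterministic multitape Turing machines, multiplication, transposition

Tapes are one-way infinite, with cells numbered `0, 1, 2, ...`. All heads start on cell `0` (the
leftmost cell). A head that is told to move left on cell `0` stays there.
-/

namespace Vale.Agent.P338

/-- Moves of a head. -/
inductive Move
  | left
  | right
  | stay
  deriving DecidableEq

/-- The new position of a head. -/
def Move.apply : Move → ℕ → ℕ
  | .left, p => p - 1
  | .right, p => p + 1
  | .stay, p => p

/-- A deterministic multitape Turing machine: finite sets `Q` of states, `Γ` of tape symbols and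
`K` of tapes. The symbols `blank`, `bit false`, `bit true`, `sep` are distinct. The transition
function `δ` gets the state and the scanned symbols; it returns `none` (the machine halts) or the
new state and for each tape the symbol to be written and the move of the head. -/
structure TM where
  Q : Type
  Γ : Type
  K : Type
  finQ : Finite Q
  finΓ : Finite Γ
  finK : Finite K
  blank : Γ
  bit : Bool → Γ
  sep : Γ
  bit_inj : bit false ≠ bit true
  blank_ne : ∀ b, bit b ≠ blank
  sep_ne : sep ≠ blank ∧ ∀ b, sep ≠ bit b
  /-- the first tape -/
  inp : K
  /-- the output tape -/
  out : K
  start : Q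
  δ : Q → (K → Γ) → Option (Q × (K → Γ × Move))

namespace TM

/-- Configurations: state, contents of the tapes, positions of the heads. -/
structure Cfg (M : TM) where
  q : M.Q
  tape : M.K → ℕ → M.Γ
  head : M.K → ℕ

variable (M : TM)

/-- One step, `none` if the machine has halted. -/
def step (c : M.Cfg) : Option M.Cfg :=
  (M.δ c.q (fun i => c.tape i (c.head i))).map fun a =>
    { q := a.1
      tape := fun i => Function.update (c.tape i) (c.head i) (a.2 i).1
      head := fun i => (a.2 i).2.apply (c.head i) }

open Classical in
/-- The initial configuration with the input `w` on the first tape. -/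
noncomputable def init (w : List M.Γ) : M.Cfg where
  q := M.start
  tape := fun i p => if i = M.inp then w.getD p M.blank else M.blank
  head := fun _ => 0

/-- The configuration after `t` steps (a halted machine does not move). -/
def run (t : ℕ) (c : M.Cfg) : M.Cfg := (fun c => (M.step c).getD c)^[t] c

/-- On the input `w` the machine has halted after at most `t` steps, in the configuration `c`. -/
def HaltsWithin (w : List M.Γ) (t : ℕ) (c : M.Cfg) : Prop :=
  M.run t (M.init w) = c ∧ M.step c = none

/-- The output tape contains the word `w`, in the cells `0, 1, ...`, and nothing else. -/
def Outputs (c : M.Cfg) (w : List M.Γ) : Prop := ∀ p, c.tape M.out p = w.getD p M.blank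

/-- The running time on the input `w`. -/
noncomputable def time (w : List M.Γ) : ℕ := sInf {t | ∃ c, M.HaltsWithin w t c}

end TM

/-- The value of a binary string; the leftmost bit is the most significant one. -/
def val (x : List Bool) : ℕ := x.foldl (fun v b => 2 * v + b.toNat) 0

/-- The binary representation of `z`, with `k` digits. -/
def bin (k z : ℕ) : List Bool := (List.range k).map fun i => z.testBit (k - 1 - i)

namespace TM

/-- The input `x # y`. -/
def mulInput (M : TM) (x y : List Bool) : List M.Γ := x.map M.bit ++ [M.sep] ++ y.map M.bit

/-- `M` multiplies: for all `n ≥ 1` and all `x`, `y` of length `n` it halts on `x # y` with the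
binary representation of the product, with `2 n` digits, on the output tape. -/
def Multiplies (M : TM) : Prop :=
  ∀ n, 1 ≤ n → ∀ x y : List Bool, x.length = n → y.length = n →
    ∃ t c, M.HaltsWithin (M.mulInput x y) t c ∧
      M.Outputs c ((bin (2 * n) (val x * val y)).map M.bit)

/-- Worst-case running time on pairs of numbers with `n` digits. -/
noncomputable def mulTime (M : TM) (n : ℕ) : ℕ :=
  Finset.univ.sup fun p : (Fin n → Bool) × (Fin n → Bool) =>
    M.time (M.mulInput (List.ofFn p.1) (List.ofFn p.2))

end TM

/-- The transpose of an `n × n` matrix of bits; matrices are written row by row. -/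
def transpose (n : ℕ) (x : List Bool) : List Bool :=
  (List.range (n * n)).map fun k => x.getD (k % n * n + k / n) false

namespace TM

/-- `M` transposes: for all `n ≥ 1` it halts on each `n × n` matrix of bits (written row by row)
with the transposed matrix on the output tape. -/
def Transposes (M : TM) : Prop :=
  ∀ n, 1 ≤ n → ∀ x : List Bool, x.length = n * n →
    ∃ t c, M.HaltsWithin (x.map M.bit) t c ∧ M.Outputs c ((transpose n x).map M.bit)

/-- Worst-case running time on `n × n` matrices of bits. -/
noncomputable def transTime (M : TM) (n : ℕ) : ℕ :=
  Finset.univ.sup fun x : Fin (n * n) → Bool => M.time ((List.ofFn x).map M.bit)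

end TM

end Vale.Agent.P338
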