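import Vale.Agent.Lib.P338.Macro

/-!
# P338: the states before and after the recursion
-/

namespace Vale.Agent.P338

/-- the state with the stack `GD = x` and all other stacks empty -/
def only (x : List Bool) : St := up (fun _ => []) .GD x

/-- the state between `front` and `back` -/
def mid (n : ℕ) (x : List Bool) : St :=
  up (up (up (up (fun _ => []) .GD x) .LS (un (Nat.clog 2 n))) .LN (un n)) .LP
    (un (2 ^ Nat.clog 2 n - n))

end Vale.Agent.P338
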