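import Vale.Agent.Lib.P338.Defs

/-!
# P338: the functions on bit strings that are computed by the programs

Strings are lists of bits; `val` reads the leftmost bit as the most significant one.
-/

namespace Vale.Agent.P338

/-- block number `k` of width `w` -/
def blk (w : ℕ) (l : List Bool) (k : ℕ) : List Bool := (l.drop (k * w)).take w

/-- concatenation of `g 0, ..., g (n - 1)` -/
def cat (n : ℕ) (g : ℕ → List Bool) : List Bool := (List.range n).flatMap g

/-- apply `f` to each of the consecutive chunks of length `c` -/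
def chunkF (c : ℕ) (f : List Bool → List Bool) (l : List Bool) : List Bool :=
  cat (l.length / c) fun k => f (blk c l k)

/-- an array of `a × a` cells of `E` bits, written row by row, is transposed -/
def swapF (a E : ℕ) (l : List Bool) : List Bool :=
  cat a fun j => cat a fun i => blk E l (i * a + j)

/-- rotate row `i` of an array of `a × a` cells of `E` bits to the right by `i` cells -/
def shearP (a E : ℕ) (l : List Bool) : List Bool :=
  cat a fun i => (blk (a * E) l i).drop ((a - i) * E) ++ (blk (a * E) l i).take ((a - i) * E)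

/-- rotate row `i` of an array of `a × a` cells of `E` bits to the left by `i` cells -/
def shearM (a E : ℕ) (l : List Bool) : List Bool :=
  cat a fun i => (blk (a * E) l i).drop (i * E) ++ (blk (a * E) l i).take (i * E)

/-- each of the `n` entries `x` of `a` bits is replaced by the slot `0 ... 0 x (not x)` of
`14 * a` bits -/
def encodeF (a n : ℕ) (l : List Bool) : List Bool :=
  cat n fun k => List.replicate (12 * a) false ++ (blk a l k ++ (blk a l k).map not)

/-- shift to the left by `t`, the length is preserved if `t ≤ x.length` -/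
def shl (t : ℕ) (x : List Bool) : List Bool := x.drop t ++ List.replicate t false

/-- addition modulo `M` of `v, k ≤ M`; the result is `≤ M` -/
def addV (M v k : ℕ) : ℕ := if v + k ≤ M then v + k else v + k - M

/-- the registers at the beginning of row `i`: exponent, its increment for the next row, the
increment of the exponent for the next cell -/
def rowReg (M τ δ δ2 κ κ2 : ℕ) : ℕ → ℕ × ℕ × ℕ
  | 0 => (τ, δ, κ)
  | i + 1 => (addV M (rowReg M τ δ δ2 κ κ2 i).1 (rowReg M τ δ δ2 κ κ2 i).2.1,
      addV M (rowReg M τ δ δ2 κ κ2 i).2.1 δ2, addV M (rowReg M τ δ δ2 κ κ2 i).2.2 κ2)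

/-- the exponent at cell `j` of a row that starts with the exponent `τ` -/
def cellReg (M τ κ : ℕ) : ℕ → ℕ
  | 0 => τ
  | j + 1 => addV M (cellReg M τ κ j) κ

/-- the exponent in row `i` and cell `j` -/
def tauF (M τ δ δ2 κ κ2 i j : ℕ) : ℕ :=
  cellReg M (rowReg M τ δ δ2 κ κ2 i).1 (rowReg M τ δ δ2 κ κ2 i).2.2 j

/-- exponents `- i ^ 2` modulo `2 * a` -/
def tau0 (a : ℕ) : ℕ → ℕ → ℕ := tauF (2 * a) 0 (2 * a - 1) (2 * a - 2) 0 0

/-- exponents `- 2 * i ^ 2 + 2 * i * j` modulo `2 * a` -/
def tau1 (a : ℕ) : ℕ → ℕ → ℕ := tauF (2 * a) 0 (2 * a - 2) (2 * a - 4) 0 2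

/-- exponents `- i ^ 2 - h` modulo `2 * a` -/
def tau2 (a h : ℕ) : ℕ → ℕ → ℕ := tauF (2 * a) (2 * a - h) (2 * a - 1) (2 * a - 2) 0 0

/-- exponents `(i + 1) ^ 2` modulo `2 * a` -/
def tauG (a : ℕ) : ℕ → ℕ → ℕ := tauF (2 * a) 1 3 2 0 0

/-- `a` rows of `a` cells of `q` slots of `14 * a` bits; each slot of the cell `j` of the row `i` is
shifted by `τ i j` -/
def shiftF (a q : ℕ) (τ : ℕ → ℕ → ℕ) (l : List Bool) : List Bool :=
  cat a fun i => cat a fun j => cat q fun e => shl (τ i j) (blk (14 * a) l ((i * a + j) * q + e))

/-- `a` rows `0 ... 0 1` of `a * q * (14 * a)` bits -/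
def patF (a q : ℕ) : List Bool :=
  cat a fun _ => List.replicate (a * q * (14 * a) - 1) false ++ [true]

/-- the second factor -/
def GF (a q : ℕ) : List Bool := shiftF a q (tauG a) (patF a q)

/-- the sum of the two halves of a string of length `2 * N` -/
def foldF (N : ℕ) (z : List Bool) : List Bool := bin N (val (z.take N) + val (z.drop N))

/-- the product, folded (modulo `2 ^ N - 1` if there is no overflow) -/
def mulFold (N : ℕ) (x y : List Bool) : List Bool := foldF N (bin (2 * N) (val x * val y))

/-- addition of `w`-digit numbers with end-around carry -/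
def eacF (w : ℕ) (x y : List Bool) : List Bool :=
  if val x + val y < 2 ^ w then bin w (val x + val y) else bin w (val x + val y - 2 ^ w + 1)

/-- the sum of the seven digits of `2 * a` bits of a slot, with end-around carries; the first half
of the result is the entry -/
def decode1 (a : ℕ) (x : List Bool) : List Bool :=
  (((List.range 7).foldl (fun acc k => eacF (2 * a) acc (blk (2 * a) x k))
    (List.replicate (2 * a) false))).take a

/-- decode `n` slots -/
def decodeF (a n : ℕ) (l : List Bool) : List Bool := cat n fun k => decode1 a (blk (14 * a) l k)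

/-- the transposition of an `a × a` array of cells of `q * a` bits, computed with two
multiplications -/
def opF (a q h : ℕ) (l : List Bool) : List Bool :=
  shearM a (q * a) (decodeF a (q * a ^ 2) (shiftF a q (tau2 a h)
    (mulFold (14 * (q * a ^ 3)) (shiftF a q (tau1 a)
      (mulFold (14 * (q * a ^ 3)) (shiftF a q (tau0 a) (encodeF a (q * a ^ 2)
        (shearP a (q * a) l))) (GF a q))) (GF a q))))

/-- even pieces, then odd pieces; there are `2 * m` pieces of `E` bits -/
def unrifF (m E : ℕ) (l : List Bool) : List Bool :=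
  cat m (fun i => blk E l (2 * i)) ++ cat m (fun i => blk E l (2 * i + 1))

/-- the inverse operation: the two halves are interleaved -/
def rifF (m E : ℕ) (l : List Bool) : List Bool :=
  cat m fun i => blk E l i ++ blk E l (m + i)

/-- transposition of a `2 × 2` matrix -/
def base4F (l : List Bool) : List Bool :=
  [l.getD 0 false, l.getD 2 false, l.getD 1 false, l.getD 3 false]

/-- first half of a level of the recursion, for matrices of size `2 ^ L`, `L ≥ 2` -/
def downF (L : ℕ) (l : List Bool) : List Bool :=
  chunkF ((2 ^ (L / 2)) ^ 4) (swapF (2 ^ (L / 2)) ((2 ^ (L / 2)) ^ 2))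
    (chunkF ((2 ^ (L / 2)) ^ 3) (swapF (2 ^ (L / 2)) (2 ^ (L / 2)))
      (if L % 2 = 1 then chunkF (4 * (2 ^ (L / 2)) ^ 4)
        (unrifF (2 * (2 ^ (L / 2)) ^ 2) ((2 ^ (L / 2)) ^ 2)) l else l))

/-- second half of a level of the recursion -/
def upF (L : ℕ) (l : List Bool) : List Bool :=
  if L % 2 = 1 then chunkF (2 * (2 ^ (L / 2)) ^ 4) (rifF ((2 ^ (L / 2)) ^ 2) ((2 ^ (L / 2)) ^ 2))
      (chunkF ((2 ^ (L / 2)) ^ 3) (swapF (2 ^ (L / 2)) (2 ^ (L / 2))) l)
    else chunkF ((2 ^ (L / 2)) ^ 3) (swapF (2 ^ (L / 2)) (2 ^ (L / 2))) l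

/-- transposes all `2 ^ L × 2 ^ L` matrices -/
def recF (L : ℕ) (l : List Bool) : List Bool :=
  if L = 0 then l else if L = 1 then chunkF 4 base4F l else upF L (recF (L / 2) (downF L l))
termination_by L
decreasing_by omega

/-- an `n × n` matrix is extended by zeros to an `m × m` matrix -/
def padF (n m : ℕ) (l : List Bool) : List Bool :=
  cat n (fun i => blk n l i ++ List.replicate (m - n) false) ++
    List.replicate ((m - n) * m) false

/-- the upper left `n × n` part of an `m × m` matrix -/
def unpadF (n m : ℕ) (l : List Bool) : List Bool := cat n fun i => (blk m l i).take n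

end Vale.Agent.P338
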