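import Vale.Agent.Lib.P338.Defs

/-!
# P338: the cost of a level
-/

namespace Vale.Agent.P338

/-- the time for a call of the multiplication, for a chunk of `c` bits, with the exponent `h` -/
noncomputable def tA (A : TM) (h c : ℕ) : ℕ := min (A.mulTime (14 * c)) (h * (14 * c))

/-- cost of a level, with `W` bits of data and `a = 2 ^ h` -/
noncomputable def lvl (A : TM) (W h : ℕ) : ℕ :=
  W + W / (2 ^ h) ^ 3 * tA A h ((2 ^ h) ^ 3) + W / (2 ^ h) ^ 4 * tA A h ((2 ^ h) ^ 4)

end Vale.Agent.P338
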