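import Vale.Agent.Lib.P338.MCost

/-!
# P338, modules MAsym, MGap: asymptotics of the sum over the levels

`sumS_isLittleO`: let `ε > 0` and `T N ≤ ε N log N` for `N ≥ N0`. For `h ≥ h0` both
`14 * 8 ^ h` and `14 * 16 ^ h` are `≥ N0` and `T (14 c) / c ≤ 14 ε log (14 c) ≤ C0 ε h` for
`c = 8 ^ h, 16 ^ h` (`h ≥ 1`, `C0 = 14 (log 14 + 4 log 2)`). In all cases `termS A h ≤ 1 + 2 h`. So
`termS A h ≤ 1 + 2 h0 + 2 C0 ε h` for all `h`, and
`sumS A L ≤ (1 + 2 h0) * Nat.log 2 L + 2 C0 ε L`, because `∑ i ≥ 1, L / 2 ^ i ≤ L` (by `sumS_succ`-like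
induction: `∑ i ∈ Icc 1 (log 2 L), L / 2 ^ i ≤ L`). `Nat.log 2 L = o(L)`.

`sumS_gap`: suppose `c L ≤ sumS A L` for large `L`. Choose `i0 ≥ 1` with `2 / 2 ^ i0 ≤ c / 4`. The
levels `i > i0` contribute at most `∑ (1 + 2 L / 2 ^ i) ≤ Nat.log 2 L + 2 L / 2 ^ i0`, and
`Nat.log 2 L ≤ c L / 4` for large `L` (also take the `1`'s of all levels into account). So for large
`L` there is `1 ≤ i ≤ i0` with `min h (T (14 * 8 ^ h) / 8 ^ h) + min h (T (14 * 16 ^ h) / 16 ^ h)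
≥ c L / (4 i0)`, `h = L / 2 ^ i` (we may assume `i ≤ Nat.log 2 L`). Hence for `N = 14 * 8 ^ h` or
`N = 14 * 16 ^ h` we have `T N ≥ (N / 14) * c L / (8 i0)` and `log N ≤ log 14 + 4 h log 2 ≤ C1 L`.
Given `x` large, take `L = Nat.log 2 x / 2 - 4`, so that `14 * 16 ^ (L / 2) ≤ 2 ^ (4 + 2 L) ≤ x`,
and `N ≥ 14 * 8 ^ (L / 2 ^ i0) ≥ 14 * 8 ^ (L / 2 ^ i0 - 1)` (real exponents) `≥ x ^ δ` with
`δ = 1 / 2 ^ i0` (real power, for large `x`): `8 ^ (L / 2 ^ i0 - 1) = 2 ^ (3 L / 2 ^ i0 - 3)` and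
`3 L ≥ 3 / 2 * log2 x - 15`, so `δ = 1 / 2 ^ i0` is fine for large `x`.
-/

namespace Vale.Agent.P338

open Filter Asymptotics

private theorem mulTime_aux (A : TM)
    (hA : (fun n : ℕ => (A.mulTime n : ℝ)) =o[atTop] (fun n : ℕ => (n : ℝ) * Real.log n))
    (b : ℕ) (hb : 2 ≤ b) (hb' : b ≤ 16) {ε : ℝ} (hε : 0 < ε) :
    ∀ᶠ h : ℕ in atTop, (A.mulTime (14 * b ^ h) : ℝ) / (b : ℝ) ^ h ≤ ε * h := by
  have hl14 : 0 < Real.log 14 := Real.log_pos (by norm_num)
  have hl16 : 0 < Real.log 16 := Real.log_pos (by norm_num)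
  set C0 : ℝ := 14 * (Real.log 14 + Real.log 16) with hC0
  have hC0p : 0 < C0 := by positivity
  have h1 := hA.def (c := ε / C0) (by positivity)
  have ht : Tendsto (fun h : ℕ => 14 * b ^ h) atTop atTop := by
    have := tendsto_pow_atTop_atTop_of_one_lt (show 1 < b by omega)
    exact Tendsto.const_mul_atTop' (by norm_num) this
  filter_upwards [ht.eventually h1, eventually_ge_atTop 1] with h hh h1'
  have hbR : (2 : ℝ) ≤ b := by exact_mod_cast hb
  have hbR' : (b : ℝ) ≤ 16 := by exact_mod_cast hb'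
  have hbp : 0 < (b : ℝ) ^ h := by positivity
  have hlogb : Real.log b ≤ Real.log 16 := Real.log_le_log (by positivity) hbR'
  have hlogb0 : 0 ≤ Real.log b := Real.log_nonneg (by linarith)
  have hh1 : (1 : ℝ) ≤ h := by exact_mod_cast h1'
  have e1 : (((14 * b ^ h : ℕ) : ℝ)) = 14 * (b : ℝ) ^ h := by push_cast; ring
  have e2 : Real.log (14 * (b : ℝ) ^ h) = Real.log 14 + h * Real.log b := by
    rw [Real.log_mul (by norm_num) (by positivity), Real.log_pow]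
  rw [e1, e2, Real.norm_of_nonneg (by positivity), Real.norm_of_nonneg (by positivity)] at hh
  rw [div_le_iff₀ hbp]
  refine hh.trans ?_
  have e3 : Real.log 14 + h * Real.log b ≤ h * (Real.log 14 + Real.log 16) := by
    have : Real.log 14 ≤ h * Real.log 14 := by nlinarith
    have : h * Real.log b ≤ h * Real.log 16 := by
      apply mul_le_mul_of_nonneg_left hlogb (by positivity)
    linarith
  calc ε / C0 * (14 * (b : ℝ) ^ h * (Real.log 14 + h * Real.log b))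
      ≤ ε / C0 * (14 * (b : ℝ) ^ h * (h * (Real.log 14 + Real.log 16))) := by gcongr
    _ = ε / C0 * C0 * (h * (b : ℝ) ^ h) := by rw [hC0]; ring
    _ = ε * h * (b : ℝ) ^ h := by rw [div_mul_cancel₀ _ hC0p.ne']; ring

private theorem termS_aux (A : TM)
    (hA : (fun n : ℕ => (A.mulTime n : ℝ)) =o[atTop] (fun n : ℕ => (n : ℝ) * Real.log n))
    {ε : ℝ} (hε : 0 < ε) : ∃ K : ℝ, 0 ≤ K ∧ ∀ h : ℕ, termS A h ≤ K + 2 * ε * h := by
  have h8 := mulTime_aux A hA 8 (by norm_num) (by norm_num) hε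
  have h16 := mulTime_aux A hA 16 (by norm_num) le_rfl hε
  obtain ⟨h0, hh0⟩ := eventually_atTop.1 (h8.and h16)
  refine ⟨1 + 2 * h0, by positivity, ?_⟩
  intro h
  unfold termS
  by_cases hle : h0 ≤ h
  · obtain ⟨a1, a2⟩ := hh0 h hle
    push_cast at a1 a2
    have b1 := (min_le_right (h : ℝ) ((A.mulTime (14 * 8 ^ h) : ℝ) / 8 ^ h)).trans a1
    have b2 := (min_le_right (h : ℝ) ((A.mulTime (14 * 16 ^ h) : ℝ) / 16 ^ h)).trans a2
    have : (0 : ℝ) ≤ h0 := by positivity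
    linarith
  · have b1 := min_le_left (h : ℝ) ((A.mulTime (14 * 8 ^ h) : ℝ) / 8 ^ h)
    have b2 := min_le_left (h : ℝ) ((A.mulTime (14 * 16 ^ h) : ℝ) / 16 ^ h)
    have b3 : (h : ℝ) ≤ h0 := by exact_mod_cast (by omega : h ≤ h0)
    have b4 : 0 ≤ 2 * ε * h := by positivity
    linarith

private theorem sum_half_pow_le (n : ℕ) : ∑ i ∈ Finset.Icc 1 n, (1 / 2 : ℝ) ^ i ≤ 1 := by
  have key : ∑ i ∈ Finset.Icc 1 n, (1 / 2 : ℝ) ^ i = 1 - (1 / 2) ^ n := by
    induction n with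
    | zero => simp
    | succ n ih =>
      rw [Finset.sum_Icc_succ_top (by omega), ih, pow_succ]
      ring
  rw [key]
  have : (0 : ℝ) ≤ (1 / 2) ^ n := by positivity
  linarith

private theorem sum_div_le (L n : ℕ) : ∑ i ∈ Finset.Icc 1 n, ((L / 2 ^ i : ℕ) : ℝ) ≤ L := by
  have h1 : ∑ i ∈ Finset.Icc 1 n, ((L / 2 ^ i : ℕ) : ℝ) ≤
      ∑ i ∈ Finset.Icc 1 n, (L : ℝ) * (1 / 2 : ℝ) ^ i := by
    refine Finset.sum_le_sum fun i _ => ?_
    refine (Nat.cast_div_le).trans ?_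
    push_cast
    rw [one_div, inv_pow, div_eq_mul_inv]
  refine h1.trans ?_
  rw [← Finset.mul_sum]
  have h2 := sum_half_pow_le n
  have h3 : (0 : ℝ) ≤ L := by positivity
  nlinarith

private theorem natLog_littleO :
    (fun L : ℕ => (Nat.log 2 L : ℝ)) =o[atTop] (fun L : ℕ => (L : ℝ)) := by
  have h1 : (fun L : ℕ => Real.log (L : ℝ)) =o[atTop] (fun L : ℕ => (L : ℝ)) :=
    Real.isLittleO_log_id_atTop.comp_tendsto tendsto_natCast_atTop_atTop
  have h2 : (fun L : ℕ => (Nat.log 2 L : ℝ)) =O[atTop] (fun L : ℕ => Real.log (L : ℝ)) := by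
    refine IsBigO.of_bound (1 / Real.log 2) ?_
    filter_upwards [eventually_ge_atTop 1] with L hL
    have hL1 : (1 : ℝ) ≤ L := by exact_mod_cast hL
    have hl : 0 ≤ Real.log L := Real.log_nonneg hL1
    rw [Real.norm_of_nonneg (by positivity), Real.norm_of_nonneg hl]
    have h3 := Real.natLog_le_logb L 2
    rw [Real.logb] at h3
    push_cast at h3
    rw [one_div, inv_mul_eq_div]
    exact h3
  exact h2.trans_isLittleO h1

theorem sumS_isLittleO (A : TM)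
    (hA : (fun n : ℕ => (A.mulTime n : ℝ)) =o[atTop] (fun n : ℕ => (n : ℝ) * Real.log n)) :
    (fun L : ℕ => sumS A L) =o[atTop] (fun L : ℕ => (L : ℝ)) := by
  rw [isLittleO_iff]
  intro c hc
  obtain ⟨K, hK, hterm⟩ := termS_aux A hA (ε := c / 4) (by positivity)
  have hlog := natLog_littleO.def (c := c / (2 * (K + 1))) (by positivity)
  filter_upwards [hlog] with L hL
  rw [Real.norm_of_nonneg (by positivity), Real.norm_of_nonneg (by positivity)] at hL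
  rw [Real.norm_of_nonneg (sumS_nonneg A L), Real.norm_of_nonneg (by positivity)]
  have h1 : sumS A L ≤ ∑ i ∈ Finset.Icc 1 (Nat.log 2 L),
      (K + 2 * (c / 4) * ((L / 2 ^ i : ℕ) : ℝ)) := by
    unfold sumS
    exact Finset.sum_le_sum fun i _ => hterm _
  rw [Finset.sum_add_distrib, ← Finset.mul_sum] at h1
  simp only [Finset.sum_const, Nat.card_Icc, Nat.add_sub_cancel, nsmul_eq_mul] at h1
  have h2 := sum_div_le L (Nat.log 2 L)
  have h3 : (Nat.log 2 L : ℝ) * K ≤ c / 2 * L := by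
    calc (Nat.log 2 L : ℝ) * K ≤ (Nat.log 2 L : ℝ) * (K + 1) := by gcongr; linarith
      _ ≤ c / (2 * (K + 1)) * L * (K + 1) := by gcongr
      _ = c / 2 * L := by field_simp
  have h4 : 2 * (c / 4) * ∑ i ∈ Finset.Icc 1 (Nat.log 2 L), ((L / 2 ^ i : ℕ) : ℝ) ≤
      2 * (c / 4) * L := by gcongr
  linarith

end Vale.Agent.P338
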