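import Vale.Agent.Lib.P338.Fun

/-!
# P338, module MBlk: blocks and concatenations

Proofs: `cat n g` is `(List.range n).flatMap g`; use `List.range_succ` and induction on `n`
(`cat_succ`), `List.drop_append`, `List.take_append`. `cat_succ'` splits off the first block.
For `blk_cat` write `cat n g = cat k g ++ (g k ++ rest)`.
-/

namespace Vale.Agent.P338

theorem cat_zero (g : ℕ → List Bool) : cat 0 g = [] := rfl

theorem cat_succ (n : ℕ) (g : ℕ → List Bool) : cat (n + 1) g = cat n g ++ g n := by
  simp [cat, List.range_succ]

theorem cat_one (g : ℕ → List Bool) : cat 1 g = g 0 := by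
  rw [cat_succ, cat_zero, List.nil_append]

theorem cat_succ' (n : ℕ) (g : ℕ → List Bool) :
    cat (n + 1) g = g 0 ++ cat n (fun i => g (i + 1)) := by
  induction n with
  | zero => rw [cat_one, cat_zero, List.append_nil]
  | succ n ih => rw [cat_succ, ih, cat_succ n (fun i => g (i + 1)), List.append_assoc]

theorem cat_congr {n : ℕ} {g g' : ℕ → List Bool} (h : ∀ i < n, g i = g' i) :
    cat n g = cat n g' := by
  induction n with
  | zero => rfl
  | succ n ih =>
    rw [cat_succ, cat_succ, ih (fun i hi => h i (Nat.lt_succ_of_lt hi)), h n (Nat.lt_succ_self n)]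

theorem length_cat {n w : ℕ} {g : ℕ → List Bool} (h : ∀ i < n, (g i).length = w) :
    (cat n g).length = n * w := by
  induction n with
  | zero => simp [cat_zero]
  | succ n ih =>
    rw [cat_succ, List.length_append, ih (fun i hi => h i (Nat.lt_succ_of_lt hi)),
      h n (Nat.lt_succ_self n), Nat.succ_mul]

theorem length_blk {w k : ℕ} {l : List Bool} (h : (k + 1) * w ≤ l.length) :
    (blk w l k).length = w := by
  have h1 : k * w + w ≤ l.length := by rw [← Nat.succ_mul]; exact h
  rw [blk, List.length_take, List.length_drop]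
  omega

theorem cat_add (n m : ℕ) (g : ℕ → List Bool) :
    cat (n + m) g = cat n g ++ cat m (fun i => g (n + i)) := by
  induction m with
  | zero => simp [cat_zero]
  | succ m ih => rw [← Nat.add_assoc, cat_succ, ih, cat_succ, List.append_assoc]

theorem drop_cat {n w k : ℕ} {g : ℕ → List Bool} (h : ∀ i < n, (g i).length = w) (hk : k ≤ n) :
    (cat n g).drop (k * w) = cat (n - k) (fun i => g (k + i)) := by
  obtain ⟨m, rfl⟩ := Nat.exists_eq_add_of_le hk
  have hl : (cat k g).length = k * w := length_cat fun i hi => h i (by omega)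
  rw [cat_add, Nat.add_sub_cancel_left, ← hl, List.drop_left]

theorem take_cat {n w k : ℕ} {g : ℕ → List Bool} (h : ∀ i < n, (g i).length = w) (hk : k ≤ n) :
    (cat n g).take (k * w) = cat k g := by
  obtain ⟨m, rfl⟩ := Nat.exists_eq_add_of_le hk
  have hl : (cat k g).length = k * w := length_cat fun i hi => h i (by omega)
  rw [cat_add, ← hl, List.take_left]

theorem blk_cat {n w k : ℕ} {g : ℕ → List Bool} (h : ∀ i < n, (g i).length = w) (hk : k < n) :
    blk w (cat n g) k = g k := by
  obtain ⟨m, hm⟩ : ∃ m, n - k = m + 1 := ⟨n - k - 1, by omega⟩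
  rw [blk, drop_cat h hk.le, hm, cat_succ', Nat.add_zero]
  have hl : (g k).length = w := h k hk
  rw [← hl, List.take_left]

theorem cat_blk {n w : ℕ} {l : List Bool} (h : l.length = n * w) : cat n (blk w l) = l := by
  have key : ∀ k ≤ n, cat k (blk w l) = l.take (k * w) := by
    intro k hk
    induction k with
    | zero => simp [cat_zero]
    | succ k ih =>
      rw [cat_succ, ih (by omega), blk, Nat.succ_mul, List.take_add]
  rw [key n le_rfl, ← h, List.take_length]

/-- strings are equal if all blocks are equal -/
theorem ext_blk {n w : ℕ} {l l' : List Bool} (h : l.length = n * w) (h' : l'.length = n * w)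
    (hb : ∀ k < n, blk w l k = blk w l' k) : l = l' := by
  rw [← cat_blk h, ← cat_blk h']
  exact cat_congr hb

theorem blk_blk {w m i j : ℕ} (l : List Bool) (hj : j < m) :
    blk w (blk (m * w) l i) j = blk w l (i * m + j) := by
  unfold blk
  have h1 : w ≤ m * w - j * w := by
    have : (j + 1) * w ≤ m * w := Nat.mul_le_mul_right w hj
    rw [Nat.succ_mul] at this
    omega
  rw [List.drop_take, List.take_take, List.drop_drop, Nat.min_eq_left h1]
  congr 2
  rw [Nat.add_mul, Nat.mul_assoc]

theorem cat_cat (n m : ℕ) (g : ℕ → ℕ → List Bool) :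
    cat n (fun i => cat m (g i)) = cat (n * m) (fun k => g (k / m) (k % m)) := by
  induction n with
  | zero => simp [cat_zero]
  | succ n ih =>
    rw [cat_succ, ih, Nat.succ_mul, cat_add]
    congr 1
    apply cat_congr
    intro i hi
    have hm : 0 < m := by omega
    have h1 : (n * m + i) / m = n := by
      rw [Nat.mul_comm, Nat.mul_add_div hm, Nat.div_eq_of_lt hi, Nat.add_zero]
    have h2 : (n * m + i) % m = i := by
      rw [Nat.mul_comm, Nat.mul_add_mod, Nat.mod_eq_of_lt hi]
    rw [h1, h2]

theorem getD_blk {w k j : ℕ} (l : List Bool) (hj : j < w) :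
    (blk w l k).getD j false = l.getD (k * w + j) false := by
  unfold blk
  simp [List.getD_eq_getElem?_getD, List.getElem?_drop, hj]

theorem getD_cat {n w k j : ℕ} {g : ℕ → List Bool} (h : ∀ i < n, (g i).length = w) (hk : k < n)
    (hj : j < w) : (cat n g).getD (k * w + j) false = (g k).getD j false := by
  rw [← getD_blk (cat n g) hj, blk_cat h hk]

theorem length_shl {t : ℕ} {x : List Bool} (h : t ≤ x.length) : (shl t x).length = x.length := by
  rw [shl, List.length_append, List.length_drop, List.length_replicate]
  omega

end Vale.Agent.P338
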