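import Vale.Agent.Lib.P338.MBlk

/-!
# P338, module MLists: blocks of the transposed, sheared, encoded string; chunks

Use `blk_cat`, `ext_blk`, `cat_cat`, `blk_blk` of `MBlk`. A row of the sheared array is the
concatenation of the last `i` cells and the first `a - i` cells of the row: write the row as
`cat a (blk E row)` (`cat_blk`), use `drop_cat`, `take_cat` and `cat_add`.
-/

namespace Vale.Agent.P338

theorem mlists_idx {a i j : ℕ} (hi : i < a) (hj : j < a) : i * a + j + 1 ≤ a * a := by
  calc i * a + j + 1 ≤ i * a + a := by omega
    _ = (i + 1) * a := by ring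
    _ ≤ a * a := Nat.mul_le_mul_right a hi

theorem mlists_len {a E i j : ℕ} {l : List Bool} (h : l.length = a * a * E) (hi : i < a)
    (hj : j < a) : (blk E l (i * a + j)).length = E := by
  apply length_blk
  rw [h]
  exact Nat.mul_le_mul_right E (mlists_idx hi hj)

theorem mlists_row {a E i : ℕ} {l : List Bool} (h : l.length = a * a * E) (hi : i < a) :
    (blk (a * E) l i).length = a * E := by
  apply length_blk
  rw [h, mul_assoc]
  exact Nat.mul_le_mul_right (a * E) hi

theorem mlists_rot_length {a E s : ℕ} {row : List Bool} (h : row.length = a * E) (hs : s ≤ a) :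
    (row.drop (s * E) ++ row.take (s * E)).length = a * E := by
  have h1 : s * E ≤ a * E := Nat.mul_le_mul_right E hs
  rw [List.length_append, List.length_drop, List.length_take, h]
  omega

theorem mlists_rot {a E s : ℕ} {row : List Bool} (h : row.length = a * E) (hs : s ≤ a) :
    row.drop (s * E) ++ row.take (s * E) = cat a (fun c => blk E row ((c + s) % a)) := by
  have hlen : ∀ i < a, (blk E row i).length = E := by
    intro i hi
    apply length_blk
    rw [h]
    exact Nat.mul_le_mul_right E hi
  have e0 : row = cat a (blk E row) := (cat_blk h).symm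
  have e1 : row.drop (s * E) = cat (a - s) (fun k => blk E row (s + k)) := by
    conv_lhs => rw [e0]
    exact drop_cat hlen hs
  have e2 : row.take (s * E) = cat s (blk E row) := by
    conv_lhs => rw [e0]
    exact take_cat hlen hs
  have e3 : cat a (fun c => blk E row ((c + s) % a)) =
      cat ((a - s) + s) (fun c => blk E row ((c + s) % a)) := by
    rw [Nat.sub_add_cancel hs]
  rw [e1, e2, e3, cat_add]
  congr 1
  · apply cat_congr
    intro i hi
    show blk E row (s + i) = blk E row ((i + s) % a)
    rw [Nat.mod_eq_of_lt (by omega), add_comm]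
  · apply cat_congr
    intro i hi
    show blk E row i = blk E row ((a - s + i + s) % a)
    have e4 : a - s + i + s = i + a := by omega
    rw [e4, Nat.add_mod_right, Nat.mod_eq_of_lt (by omega)]

theorem length_swapF {a E : ℕ} {l : List Bool} (h : l.length = a * a * E) :
    (swapF a E l).length = l.length := by
  unfold swapF
  rw [length_cat (w := a * E), h, mul_assoc]
  intro j hj
  exact length_cat fun i hi => mlists_len h hi hj

/-- the cells of the transposed array -/
theorem blk_swapF {a E i j : ℕ} {l : List Bool} (h : l.length = a * a * E) (hi : i < a)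
    (hj : j < a) : blk E (swapF a E l) (j * a + i) = blk E l (i * a + j) := by
  have h1 : ∀ j < a, (cat a fun i => blk E l (i * a + j)).length = a * E := fun j hj =>
    length_cat fun i hi => mlists_len h hi hj
  rw [← blk_blk (swapF a E l) hi]
  unfold swapF
  rw [blk_cat h1 hj]
  exact blk_cat (fun i hi => mlists_len h hi hj) hi

theorem length_shearP {a E : ℕ} {l : List Bool} (h : l.length = a * a * E) :
    (shearP a E l).length = l.length := by
  unfold shearP
  rw [length_cat (w := a * E), h, mul_assoc]
  intro i hi
  exact mlists_rot_length (mlists_row h hi) (Nat.sub_le _ _)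

/-- the cells of the sheared array -/
theorem blk_shearP {a E i c : ℕ} {l : List Bool} (h : l.length = a * a * E) (hi : i < a)
    (hc : c < a) :
    blk E (shearP a E l) (i * a + c) = blk E l (i * a + (c + a - i) % a) := by
  rw [← blk_blk (shearP a E l) hc]
  unfold shearP
  rw [blk_cat (fun i hi => mlists_rot_length (mlists_row h hi) (Nat.sub_le _ _)) hi,
    mlists_rot (mlists_row h hi) (Nat.sub_le _ _)]
  have ha : 0 < a := by omega
  have hlen : ∀ j < a, (blk E (blk (a * E) l i) ((j + (a - i)) % a)).length = E := by
    intro j _
    have hj := Nat.mod_lt (j + (a - i)) ha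
    rw [blk_blk l hj]
    exact mlists_len h hi hj
  rw [blk_cat hlen hc, blk_blk l (Nat.mod_lt _ ha)]
  have e : c + (a - i) = c + a - i := by omega
  rw [e]

theorem length_shearM {a E : ℕ} {l : List Bool} (h : l.length = a * a * E) :
    (shearM a E l).length = l.length := by
  unfold shearM
  rw [length_cat (w := a * E), h, mul_assoc]
  intro i hi
  exact mlists_rot_length (mlists_row h hi) hi.le

theorem blk_shearM {a E i c : ℕ} {l : List Bool} (h : l.length = a * a * E) (hi : i < a)
    (hc : c < a) :
    blk E (shearM a E l) (i * a + c) = blk E l (i * a + (c + i) % a) := by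
  rw [← blk_blk (shearM a E l) hc]
  unfold shearM
  rw [blk_cat (fun i hi => mlists_rot_length (mlists_row h hi) hi.le) hi,
    mlists_rot (mlists_row h hi) hi.le]
  have ha : 0 < a := by omega
  have hlen : ∀ j < a, (blk E (blk (a * E) l i) ((j + i) % a)).length = E := by
    intro j _
    have hj := Nat.mod_lt (j + i) ha
    rw [blk_blk l hj]
    exact mlists_len h hi hj
  rw [blk_cat hlen hc, blk_blk l (Nat.mod_lt _ ha)]

theorem mlists_enc {a n k : ℕ} {l : List Bool} (h : l.length = n * a) (hk : k < n) :
    (List.replicate (12 * a) false ++ (blk a l k ++ (blk a l k).map not)).length = 14 * a := by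
  have h1 : (blk a l k).length = a := by
    apply length_blk
    rw [h]
    exact Nat.mul_le_mul_right a hk
  rw [List.length_append, List.length_append, List.length_map, List.length_replicate, h1]
  ring

theorem length_encodeF {a n : ℕ} {l : List Bool} (h : l.length = n * a) :
    (encodeF a n l).length = n * (14 * a) := by
  unfold encodeF
  exact length_cat fun k hk => mlists_enc h hk

theorem blk_encodeF {a n k : ℕ} {l : List Bool} (h : l.length = n * a) (hk : k < n) :
    blk (14 * a) (encodeF a n l) k =
      List.replicate (12 * a) false ++ (blk a l k ++ (blk a l k).map not) := by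
  unfold encodeF
  rw [blk_cat (fun k hk => mlists_enc h hk) hk]

theorem mlists_chunk {c k : ℕ} {l : List Bool} (hl : c ∣ l.length) (hk : k < l.length / c) :
    (blk c l k).length = c := by
  apply length_blk
  calc (k + 1) * c ≤ l.length / c * c := Nat.mul_le_mul_right c hk
    _ = l.length := Nat.div_mul_cancel hl

/-- chunks: if `f` preserves the length `c`, then so does `chunkF c f` -/
theorem length_chunkF {c : ℕ} {f : List Bool → List Bool} {l : List Bool} (hc : 0 < c)
    (hf : ∀ x : List Bool, x.length = c → (f x).length = c) (hl : c ∣ l.length) :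
    (chunkF c f l).length = l.length := by
  unfold chunkF
  rw [length_cat (w := c) fun k hk => hf _ (mlists_chunk hl hk), Nat.div_mul_cancel hl]

theorem blk_chunkF {c k : ℕ} {f : List Bool → List Bool} {l : List Bool} (hc : 0 < c)
    (hf : ∀ x : List Bool, x.length = c → (f x).length = c) (hl : c ∣ l.length)
    (hk : k < l.length / c) : blk c (chunkF c f l) k = f (blk c l k) := by
  unfold chunkF
  exact blk_cat (fun k hk => hf _ (mlists_chunk hl hk)) hk

/-- a chunk operation on smaller chunks, on chunks -/
theorem chunkF_chunkF {c m : ℕ} {f : List Bool → List Bool} {l : List Bool} (hc : 0 < c)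
    (hm : 0 < m) (hf : ∀ x : List Bool, x.length = c → (f x).length = c)
    (hl : m * c ∣ l.length) : chunkF (m * c) (chunkF c f) l = chunkF c f l := by
  obtain ⟨N, hN⟩ := hl
  have hmc : 0 < m * c := Nat.mul_pos hm hc
  have e1 : l.length / (m * c) = N := by rw [hN]; exact Nat.mul_div_cancel_left N hmc
  have e2 : l.length / c = N * m := by
    have : l.length = N * m * c := by rw [hN]; ring
    rw [this]
    exact Nat.mul_div_cancel _ hc
  have e3 : chunkF (m * c) (chunkF c f) l =
      cat N fun k => cat m fun j => f (blk c l (k * m + j)) := by
    show cat (l.length / (m * c)) (fun k => chunkF c f (blk (m * c) l k)) = _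
    rw [e1]
    apply cat_congr
    intro k hk
    have h1 : (blk (m * c) l k).length = m * c := by
      apply length_blk
      rw [hN, mul_comm (m * c) N]
      exact Nat.mul_le_mul_right _ hk
    show cat ((blk (m * c) l k).length / c) (fun j => f (blk c (blk (m * c) l k) j)) = _
    rw [h1, Nat.mul_div_cancel m hc]
    apply cat_congr
    intro j hj
    show f (blk c (blk (m * c) l k) j) = f (blk c l (k * m + j))
    rw [blk_blk l hj]
  rw [e3, cat_cat N m (fun k j => f (blk c l (k * m + j)))]
  show _ = cat (l.length / c) (fun k => f (blk c l k))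
  rw [e2]
  apply cat_congr
  intro q _
  show f (blk c l (q / m * m + q % m)) = f (blk c l q)
  rw [Nat.div_add_mod' q m]

/-- composition of chunk operations with the same chunk size -/
theorem chunkF_comp {c : ℕ} {f g : List Bool → List Bool} {l : List Bool} (hc : 0 < c)
    (hf : ∀ x : List Bool, x.length = c → (f x).length = c) (hl : c ∣ l.length) :
    chunkF c g (chunkF c f l) = chunkF c (fun x => g (f x)) l := by
  show cat ((chunkF c f l).length / c) (fun k => g (blk c (chunkF c f l) k)) =
    cat (l.length / c) (fun k => g (f (blk c l k)))
  rw [length_chunkF hc hf hl]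
  apply cat_congr
  intro k hk
  show g (blk c (chunkF c f l) k) = g (f (blk c l k))
  rw [blk_chunkF hc hf hl hk]

theorem chunkF_congr {c : ℕ} {f g : List Bool → List Bool} {l : List Bool} (hc : 0 < c)
    (h : ∀ x : List Bool, x.length = c → f x = g x) (hl : c ∣ l.length) :
    chunkF c f l = chunkF c g l := by
  unfold chunkF
  apply cat_congr
  intro k hk
  exact h _ (mlists_chunk hl hk)

theorem chunkF_self {c : ℕ} {f : List Bool → List Bool} {l : List Bool} (hc : 0 < c)
    (hl : l.length = c) : chunkF c f l = f l := by
  unfold chunkF
  rw [hl, Nat.div_self hc, cat_one]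
  have e : blk c l 0 = l := by
    unfold blk
    rw [Nat.zero_mul, List.drop_zero, ← hl, List.take_length]
  rw [e]

end Vale.Agent.P338
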