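import Vale.Agent.Lib.P338.Fun

/-!
# P338, module MTau: the exponents

`addV M v k` is congruent to `v + k` modulo `M` and `≤ M` if `v, k ≤ M`. By induction
`(rowReg M τ δ δ2 κ κ2 i).1 ≡ τ + i δ + i (i - 1) / 2 * δ2`, `.2.1 ≡ δ + i δ2`,
`.2.2 ≡ κ + i κ2`, `cellReg M τ κ j ≡ τ + j κ`, and all registers are `≤ M`. (To avoid the
division by `2` prove the special cases directly: e.g. for `tau0` the invariant is
`.1 ≡ - i ^ 2` and `.2.1 ≡ - 2 i - 1`; for `tau1` it is `.1 ≡ - 2 i ^ 2`, `.2.1 ≡ - 4 i - 2`,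
`.2.2 ≡ 2 i`; for `tau2` it is `.1 ≡ - i ^ 2 - h`, `.2.1 ≡ - 2 i - 1`; for `tauG` it is
`.1 ≡ (i + 1) ^ 2`, `.2.1 ≡ 2 i + 3`.) If `κ = κ2 = 0` the registers `.2.2` are `0` and
`cellReg M τ 0 j = τ` for `τ ≤ M`.
-/

namespace Vale.Agent.P338

theorem addV_le {M v k : ℕ} (hv : v ≤ M) (hk : k ≤ M) : addV M v k ≤ M := by
  unfold addV
  split_ifs <;> omega

theorem addV_zero {M v : ℕ} (hv : v ≤ M) : addV M v 0 = v := by
  unfold addV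
  rw [if_pos (by omega)]
  rfl

theorem addV_mod (M v k : ℕ) : (addV M v k : ℤ) ≡ v + k [ZMOD M] := by
  unfold addV
  split_ifs with h
  · push_cast
    exact Int.ModEq.refl _
  · rw [Int.modEq_iff_dvd]
    have h1 : M ≤ v + k := by omega
    rw [Nat.cast_sub h1]
    push_cast
    exact ⟨1, by ring⟩

theorem rowReg_le {M τ δ δ2 κ κ2 : ℕ} (h1 : τ ≤ M) (h2 : δ ≤ M) (h3 : δ2 ≤ M) (h4 : κ ≤ M)
    (h5 : κ2 ≤ M) (i : ℕ) : (rowReg M τ δ δ2 κ κ2 i).1 ≤ M ∧ (rowReg M τ δ δ2 κ κ2 i).2.1 ≤ M ∧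
      (rowReg M τ δ δ2 κ κ2 i).2.2 ≤ M := by
  induction i with
  | zero => exact ⟨h1, h2, h4⟩
  | succ i ih => exact ⟨addV_le ih.1 ih.2.1, addV_le ih.2.1 h3, addV_le ih.2.2 h5⟩

theorem cellReg_le {M τ κ : ℕ} (h1 : τ ≤ M) (h2 : κ ≤ M) (j : ℕ) : cellReg M τ κ j ≤ M := by
  induction j with
  | zero => exact h1
  | succ j ih => exact addV_le ih h2

theorem tauF_le {M τ δ δ2 κ κ2 : ℕ} (h1 : τ ≤ M) (h2 : δ ≤ M) (h3 : δ2 ≤ M) (h4 : κ ≤ M)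
    (h5 : κ2 ≤ M) (i j : ℕ) : tauF M τ δ δ2 κ κ2 i j ≤ M := by
  have h := rowReg_le h1 h2 h3 h4 h5 i
  exact cellReg_le h.1 h.2.2 j

theorem tau0_le {a : ℕ} (ha : 2 ≤ a) (i j : ℕ) : tau0 a i j ≤ 2 * a :=
  tauF_le (by omega) (by omega) (by omega) (by omega) (by omega) i j

theorem tau1_le {a : ℕ} (ha : 2 ≤ a) (i j : ℕ) : tau1 a i j ≤ 2 * a :=
  tauF_le (by omega) (by omega) (by omega) (by omega) (by omega) i j

theorem tau2_le {a h : ℕ} (ha : 2 ≤ a) (hh : h ≤ 2 * a) (i j : ℕ) : tau2 a h i j ≤ 2 * a :=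
  have _ := hh
  tauF_le (by omega) (by omega) (by omega) (by omega) (by omega) i j

theorem tauG_le {a : ℕ} (ha : 2 ≤ a) (i j : ℕ) : tauG a i j ≤ 2 * a :=
  tauF_le (by omega) (by omega) (by omega) (by omega) (by omega) i j

private theorem mtau_row {M τ δ δ2 κ κ2 : ℕ} (f g : ℕ → ℤ) (hf0 : (τ : ℤ) ≡ f 0 [ZMOD M])
    (hg0 : (δ : ℤ) ≡ g 0 [ZMOD M]) (hf : ∀ i, f i + g i ≡ f (i + 1) [ZMOD M])
    (hg : ∀ i, g i + δ2 ≡ g (i + 1) [ZMOD M]) (i : ℕ) :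
    ((rowReg M τ δ δ2 κ κ2 i).1 : ℤ) ≡ f i [ZMOD M] ∧
      ((rowReg M τ δ δ2 κ κ2 i).2.1 : ℤ) ≡ g i [ZMOD M] := by
  induction i with
  | zero => exact ⟨hf0, hg0⟩
  | succ i ih =>
    constructor
    · exact ((addV_mod _ _ _).trans (ih.1.add ih.2)).trans (hf i)
    · exact ((addV_mod _ _ _).trans (ih.2.add_right _)).trans (hg i)

private theorem mtau_row2 {M τ δ δ2 κ κ2 : ℕ} (i : ℕ) :
    ((rowReg M τ δ δ2 κ κ2 i).2.2 : ℤ) ≡ κ + i * κ2 [ZMOD M] := by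
  induction i with
  | zero =>
    simp only [rowReg, Nat.cast_zero, zero_mul, add_zero]
    exact Int.ModEq.refl _
  | succ i ih =>
    refine ((addV_mod _ _ _).trans (ih.add_right _)).trans ?_
    push_cast
    have e : (κ : ℤ) + i * κ2 + κ2 = κ + (i + 1) * κ2 := by ring
    rw [e]

private theorem mtau_cell {M τ κ : ℕ} (j : ℕ) : (cellReg M τ κ j : ℤ) ≡ τ + j * κ [ZMOD M] := by
  induction j with
  | zero =>
    simp only [cellReg, Nat.cast_zero, zero_mul, add_zero]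
    exact Int.ModEq.refl _
  | succ j ih =>
    refine ((addV_mod _ _ _).trans (ih.add_right _)).trans ?_
    push_cast
    have e : (τ : ℤ) + j * κ + κ = τ + (j + 1) * κ := by ring
    rw [e]

private theorem mtau_F {M τ δ δ2 κ κ2 : ℕ} (f g : ℕ → ℤ) (hf0 : (τ : ℤ) ≡ f 0 [ZMOD M])
    (hg0 : (δ : ℤ) ≡ g 0 [ZMOD M]) (hf : ∀ i, f i + g i ≡ f (i + 1) [ZMOD M])
    (hg : ∀ i, g i + δ2 ≡ g (i + 1) [ZMOD M]) (i j : ℕ) :
    (tauF M τ δ δ2 κ κ2 i j : ℤ) ≡ f i + j * (κ + i * κ2) [ZMOD M] := by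
  unfold tauF
  exact (mtau_cell j).trans ((mtau_row f g hf0 hg0 hf hg i).1.add ((mtau_row2 i).mul_left _))

private theorem mtau_dvd {M x y : ℤ} (c : ℤ) (h : y - x = M * c) : x ≡ y [ZMOD M] := by
  rw [Int.modEq_iff_dvd]
  exact ⟨c, h⟩

theorem tau0_mod {a : ℕ} (ha : 2 ≤ a) (i j : ℕ) :
    (tau0 a i j : ℤ) ≡ -(i : ℤ) ^ 2 [ZMOD (2 * a : ℕ)] := by
  have h := mtau_F (M := 2 * a) (τ := 0) (δ := 2 * a - 1) (δ2 := 2 * a - 2) (κ := 0) (κ2 := 0)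
    (fun i => -(i : ℤ) ^ 2) (fun i => -2 * (i : ℤ) - 1) (mtau_dvd 0 (by simp))
    (mtau_dvd (-1) (by push_cast [Nat.cast_sub (show 1 ≤ 2 * a by omega)]; ring))
    (fun i => mtau_dvd 0 (by push_cast; ring))
    (fun i => mtau_dvd (-1) (by push_cast [Nat.cast_sub (show 2 ≤ 2 * a by omega)]; ring)) i j
  refine h.trans (mtau_dvd 0 ?_)
  push_cast
  ring

theorem tau1_mod {a : ℕ} (ha : 2 ≤ a) (i j : ℕ) :
    (tau1 a i j : ℤ) ≡ -2 * (i : ℤ) ^ 2 + 2 * i * j [ZMOD (2 * a : ℕ)] := by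
  have h := mtau_F (M := 2 * a) (τ := 0) (δ := 2 * a - 2) (δ2 := 2 * a - 4) (κ := 0) (κ2 := 2)
    (fun i => -2 * (i : ℤ) ^ 2) (fun i => -4 * (i : ℤ) - 2) (mtau_dvd 0 (by simp))
    (mtau_dvd (-1) (by push_cast [Nat.cast_sub (show 2 ≤ 2 * a by omega)]; ring))
    (fun i => mtau_dvd 0 (by push_cast; ring))
    (fun i => mtau_dvd (-1) (by push_cast [Nat.cast_sub (show 4 ≤ 2 * a by omega)]; ring)) i j
  refine h.trans (mtau_dvd 0 ?_)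
  push_cast
  ring

theorem tau2_mod {a h : ℕ} (ha : 2 ≤ a) (hh : h ≤ 2 * a) (i j : ℕ) :
    (tau2 a h i j : ℤ) ≡ -(i : ℤ) ^ 2 - h [ZMOD (2 * a : ℕ)] := by
  have h1 := mtau_F (M := 2 * a) (τ := 2 * a - h) (δ := 2 * a - 1) (δ2 := 2 * a - 2) (κ := 0)
    (κ2 := 0) (fun i => -(i : ℤ) ^ 2 - h) (fun i => -2 * (i : ℤ) - 1)
    (mtau_dvd (-1) (by push_cast [Nat.cast_sub hh]; ring))
    (mtau_dvd (-1) (by push_cast [Nat.cast_sub (show 1 ≤ 2 * a by omega)]; ring))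
    (fun i => mtau_dvd 0 (by push_cast; ring))
    (fun i => mtau_dvd (-1) (by push_cast [Nat.cast_sub (show 2 ≤ 2 * a by omega)]; ring)) i j
  refine h1.trans (mtau_dvd 0 ?_)
  push_cast
  ring

theorem tauG_mod {a : ℕ} (ha : 2 ≤ a) (i j : ℕ) :
    (tauG a i j : ℤ) ≡ ((i : ℤ) + 1) ^ 2 [ZMOD (2 * a : ℕ)] := by
  have _ := ha
  have h1 := mtau_F (M := 2 * a) (τ := 1) (δ := 3) (δ2 := 2) (κ := 0)
    (κ2 := 0) (fun i => ((i : ℤ) + 1) ^ 2) (fun i => 2 * (i : ℤ) + 3)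
    (mtau_dvd 0 (by simp))
    (mtau_dvd 0 (by simp))
    (fun i => mtau_dvd 0 (by push_cast; ring))
    (fun i => mtau_dvd 0 (by push_cast; ring)) i j
  refine h1.trans (mtau_dvd 0 ?_)
  push_cast
  ring

/-- `tauG` does not depend on the cell -/
theorem tauG_cell {a : ℕ} (ha : 2 ≤ a) (i j : ℕ) : tauG a i j = tauG a i 0 := by
  unfold tauG tauF
  have h1 : (rowReg (2 * a) 1 3 2 0 0 i).2.2 = 0 := by
    induction i with
    | zero => rfl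
    | succ i ih =>
      simp only [rowReg]
      rw [ih, addV_zero (by omega)]
  have h2 : (rowReg (2 * a) 1 3 2 0 0 i).1 ≤ 2 * a :=
    (rowReg_le (by omega) (by omega) (by omega) (by omega) (by omega) i).1
  rw [h1]
  induction j with
  | zero => rfl
  | succ j ih =>
    show addV (2 * a) (cellReg (2 * a) (rowReg (2 * a) 1 3 2 0 0 i).1 0 j) 0 = _
    rw [ih]
    exact addV_zero h2

end Vale.Agent.P338
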