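import Vale.Agent.Lib.P338.MDig
import Vale.Agent.Lib.P338.MLists
import Vale.Agent.Lib.P338.MTau

/-!
# P338, module MConv: the folded product is a cyclic convolution of the rows, slot by slot

Put `w = 14 * a` (slot width), `S = a * q` (slots in a row), `W = S * w` (row width), `N = a * W`.

* The row `r` of `GF a q` is `0 ... 0 1` with the last slot shifted by `tauG a r (a - 1)
  = tauG a r 0 ≤ 2 * a`, its value is `2 ^ tauG a r 0`; so `val (GF a q) = ∑ r < a,
  2 ^ g r * 2 ^ (W * (a - 1 - r))`, `g r = tauG a r 0` (`val_cat`, rows = blocks of width `W`).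
* `val l = ∑ i < a, R i * 2 ^ (W * (a - 1 - i))` with `R i = val (blk W l i)`, and
  `R i = ∑ c < S, v i c * 2 ^ (w * (S - 1 - c))`, where `v i c` is the value of the slot
  `i * S + c`.
* The product is `∑ i r, R i * 2 ^ g r * 2 ^ (W * (2 a - 2 - i - r))`. The terms with
  `i + r ≤ a - 2` have exponent `W * (a + (a - 2 - i - r))`, the others have exponent
  `W * (2 a - 2 - i - r)` with `2 a - 2 - i - r < a`. Both partial sums, divided by `2 ^ N`
  resp. as they are, have the form `∑ k < a, Y k * 2 ^ (W * (a - 1 - k))` with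
  `Y k ≤ Z k := ∑ r < a, 2 ^ g r * R ((k + a - 1 - r) % a) < 2 ^ W` (`k ≡ i + r + 1` modulo `a`).
  Therefore the sum of the quotient and the remainder modulo `2 ^ N` is
  `∑ k < a, Z k * 2 ^ (W * (a - 1 - k))`.
* `Z k = ∑ c < S, (∑ r < a, 2 ^ g r * v ((k + a - 1 - r) % a) c) * 2 ^ (w * (S - 1 - c))` and the
  inner sums are `< 2 ^ w`, since they are at most `a * 2 ^ (2 a) * (2 ^ b - 1) < 2 ^ (b + 3 a)`
  (`a ≤ 2 ^ a`).
* Then use `mulFold_eq`, `blk_bin` (twice, or with all `a * S` slots at once).
-/

namespace Vale.Agent.P338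

theorem mconv_slot_length {a q : ℕ} {τ : ℕ → ℕ → ℕ} {l : List Bool}
    (hτ : ∀ i < a, ∀ j < a, τ i j ≤ 14 * a) (hl : l.length = 14 * (q * a ^ 3)) {i j e : ℕ}
    (hi : i < a) (hj : j < a) (he : e < q) :
    (shl (τ i j) (blk (14 * a) l ((i * a + j) * q + e))).length = 14 * a := by
  have h1 : (blk (14 * a) l ((i * a + j) * q + e)).length = 14 * a := by
    apply length_blk
    rw [hl]
    have h2 : (i * a + j) * q + e + 1 ≤ q * a ^ 2 := by
      have h3 : i * a + j + 1 ≤ a * a := by nlinarith
      calc (i * a + j) * q + e + 1 ≤ (i * a + j) * q + q := by omega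
        _ = (i * a + j + 1) * q := by ring
        _ ≤ (a * a) * q := Nat.mul_le_mul_right _ h3
        _ = q * a ^ 2 := by ring
    calc ((i * a + j) * q + e + 1) * (14 * a) ≤ (q * a ^ 2) * (14 * a) :=
          Nat.mul_le_mul_right _ h2
      _ = 14 * (q * a ^ 3) := by ring
  rw [length_shl, h1]
  rw [h1]
  exact hτ i hi j hj

theorem length_shiftF {a q : ℕ} {τ : ℕ → ℕ → ℕ} {l : List Bool}
    (hτ : ∀ i < a, ∀ j < a, τ i j ≤ 14 * a) (hl : l.length = 14 * (q * a ^ 3)) :
    (shiftF a q τ l).length = 14 * (q * a ^ 3) := by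
  unfold shiftF
  rw [length_cat (w := a * (q * (14 * a)))]
  · ring
  · intro i hi
    refine length_cat fun j hj => ?_
    exact length_cat fun e he => mconv_slot_length hτ hl hi hj he

theorem blk_shiftF {a q : ℕ} {τ : ℕ → ℕ → ℕ} {l : List Bool}
    (hτ : ∀ i < a, ∀ j < a, τ i j ≤ 14 * a) (hl : l.length = 14 * (q * a ^ 3)) {i j e : ℕ}
    (hi : i < a) (hj : j < a) (he : e < q) :
    blk (14 * a) (shiftF a q τ l) ((i * a + j) * q + e) =
      shl (τ i j) (blk (14 * a) l ((i * a + j) * q + e)) := by
  rw [← blk_blk (shiftF a q τ l) he, ← blk_blk (shiftF a q τ l) hj]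
  have h1 : blk (a * (q * (14 * a))) (shiftF a q τ l) i =
      cat a fun j => cat q fun e => shl (τ i j) (blk (14 * a) l ((i * a + j) * q + e)) := by
    unfold shiftF
    refine blk_cat (g := fun i => cat a fun j => cat q fun e =>
      shl (τ i j) (blk (14 * a) l ((i * a + j) * q + e))) (fun i hi => ?_) hi
    refine length_cat fun j hj => ?_
    exact length_cat fun e he => mconv_slot_length hτ hl hi hj he
  rw [h1]
  have h2 : blk (q * (14 * a)) (cat a fun j => cat q fun e =>
      shl (τ i j) (blk (14 * a) l ((i * a + j) * q + e))) j =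
      cat q fun e => shl (τ i j) (blk (14 * a) l ((i * a + j) * q + e)) := by
    refine blk_cat (g := fun j => cat q fun e =>
      shl (τ i j) (blk (14 * a) l ((i * a + j) * q + e))) (fun j hj => ?_) hj
    exact length_cat fun e he => mconv_slot_length hτ hl hi hj he
  rw [h2]
  exact blk_cat (g := fun e => shl (τ i j) (blk (14 * a) l ((i * a + j) * q + e)))
    (fun e he => mconv_slot_length hτ hl hi hj he) he

theorem mconv_row_val (n : ℕ) : val (List.replicate n false ++ [true]) = 1 := by
  rw [val_append, val_replicate_false]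
  have h : val [true] = 1 := by
    rw [val_cons, val_nil]
    simp
  rw [h]
  simp

theorem mconv_length_patF {a q : ℕ} (ha : 2 ≤ a) (hq : 1 ≤ q) :
    (patF a q).length = 14 * (q * a ^ 3) := by
  unfold patF
  rw [length_cat (w := a * q * (14 * a))]
  · ring
  · intro i _
    rw [List.length_append, List.length_replicate, List.length_singleton]
    have h1 : 0 < a * q * (14 * a) := by positivity
    omega

theorem mconv_tauG_le {a : ℕ} (ha : 2 ≤ a) : ∀ i < a, ∀ j < a, tauG a i j ≤ 14 * a := by
  intro i _ j _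
  have := tauG_le ha i j
  omega

theorem length_GF {a q : ℕ} (ha : 2 ≤ a) (hq : 1 ≤ q) : (GF a q).length = 14 * (q * a ^ 3) := by
  unfold GF
  exact length_shiftF (mconv_tauG_le ha) (mconv_length_patF ha hq)

theorem mconv_sum_last {n : ℕ} (hn : 1 ≤ n) (w : ℕ) {f : ℕ → ℕ} (hf : ∀ i < n - 1, f i = 0) :
    ∑ i ∈ Finset.range n, f i * 2 ^ (w * (n - 1 - i)) = f (n - 1) := by
  rw [Finset.sum_eq_single (n - 1)]
  · simp
  · intro i hi hne
    rw [Finset.mem_range] at hi
    rw [hf i (by omega), zero_mul]
  · intro h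
    exact absurd (Finset.mem_range.mpr (by omega)) h

/-- slots of the pattern -/
theorem mconv_blk_patF {a q : ℕ} (ha : 2 ≤ a) (hq : 1 ≤ q) {i c : ℕ} (hi : i < a)
    (hc : c < a * q) :
    blk (14 * a) (patF a q) (i * (a * q) + c) =
      bin (14 * a) (if c = a * q - 1 then 1 else 0) := by
  rw [← blk_blk (patF a q) hc]
  have hpos : 0 < a * q := by positivity
  have hlen : (List.replicate (a * q * (14 * a) - 1) false ++ [true]).length =
      a * q * (14 * a) := by
    rw [List.length_append, List.length_replicate, List.length_singleton]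
    have h1 : 0 < a * q * (14 * a) := by positivity
    omega
  have h1 : blk (a * q * (14 * a)) (patF a q) i =
      List.replicate (a * q * (14 * a) - 1) false ++ [true] := by
    unfold patF
    exact blk_cat (g := fun _ => List.replicate (a * q * (14 * a) - 1) false ++ [true])
      (fun i _ => hlen) hi
  rw [h1]
  have h2 : List.replicate (a * q * (14 * a) - 1) false ++ [true] =
      bin (a * q * (14 * a)) (∑ i ∈ Finset.range (a * q),
        (if i = a * q - 1 then 1 else 0) * 2 ^ (14 * a * (a * q - 1 - i))) := by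
    rw [mconv_sum_last (n := a * q) (by omega) (14 * a) (f := fun i => if i = a * q - 1 then 1 else 0)]
    · rw [if_pos rfl]
      conv_lhs => rw [← bin_val (List.replicate (a * q * (14 * a) - 1) false ++ [true])]
      rw [hlen, mconv_row_val]
    · intro i hi
      exact if_neg (by omega)
  rw [h2]
  refine blk_bin (d := fun i => if i = a * q - 1 then 1 else 0) (fun i _ => ?_) hc
  have h3 : 1 < 2 ^ (14 * a) := Nat.one_lt_two_pow (by omega)
  split_ifs
  · exact h3
  · omega

theorem mconv_val_GF {a q : ℕ} (ha : 2 ≤ a) (hq : 1 ≤ q) :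
    val (GF a q) = ∑ r ∈ Finset.range a, 2 ^ tauG a r 0 * 2 ^ (14 * a * ((a - 1 - r) * (a * q))) := by
  have hpos : 0 < a * q := by positivity
  have hslot : ∀ i < a, ∀ j < a, ∀ e < q,
      val (shl (tauG a i j) (blk (14 * a) (patF a q) ((i * a + j) * q + e))) =
        (if j * q + e = a * q - 1 then 2 ^ tauG a i 0 else 0) := by
    intro i hi j hj e he
    have hc : j * q + e < a * q := by
      calc j * q + e < j * q + q := by omega
        _ = (j + 1) * q := by ring
        _ ≤ a * q := Nat.mul_le_mul_right _ hj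
    have h1 : (i * a + j) * q + e = i * (a * q) + (j * q + e) := by ring
    rw [h1, mconv_blk_patF ha hq hi hc]
    have h2 : 1 < 2 ^ (14 * a) := Nat.one_lt_two_pow (by omega)
    have h3 : (if j * q + e = a * q - 1 then 1 else 0) < 2 ^ (14 * a) := by
      split_ifs
      · exact h2
      · omega
    have hle := tauG_le ha i j
    rw [val_shl, val_bin h3, tauG_cell ha i j]
    · split_ifs
      · rw [one_mul]
      · rw [zero_mul]
    · rw [length_bin]
      omega
    · rw [length_bin, val_bin h3]
      split_ifs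
      · rw [one_mul]
        exact Nat.pow_lt_pow_right (by norm_num) (by omega)
      · rw [zero_mul]
        positivity
  have hl := mconv_length_patF ha hq
  have hτ := mconv_tauG_le ha
  unfold GF shiftF
  rw [val_cat (w := a * (q * (14 * a)))]
  · refine Finset.sum_congr rfl fun i hi => ?_
    rw [Finset.mem_range] at hi
    have hexp : a * (q * (14 * a)) * (a - 1 - i) = 14 * a * ((a - 1 - i) * (a * q)) := by ring
    rw [hexp]
    congr 1
    rw [val_cat (w := q * (14 * a))]
    · rw [mconv_sum_last (by omega) (q * (14 * a))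
        (f := fun j => val (cat q fun e =>
          shl (tauG a i j) (blk (14 * a) (patF a q) ((i * a + j) * q + e))))]
      · beta_reduce
        rw [val_cat (w := 14 * a)]
        · rw [mconv_sum_last (by omega) (14 * a)
            (f := fun e => val (shl (tauG a i (a - 1))
              (blk (14 * a) (patF a q) ((i * a + (a - 1)) * q + e))))]
          · beta_reduce
            rw [hslot i hi (a - 1) (by omega) (q - 1) (by omega), if_pos]
            have : a * q = (a - 1) * q + q := by
              obtain ⟨a', rfl⟩ : ∃ a', a = a' + 1 := ⟨a - 1, by omega⟩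
              simp only [Nat.add_sub_cancel]
              ring
            omega
          · intro e he
            beta_reduce
            rw [hslot i hi (a - 1) (by omega) e (by omega), if_neg]
            have : a * q = (a - 1) * q + q := by
              obtain ⟨a', rfl⟩ : ∃ a', a = a' + 1 := ⟨a - 1, by omega⟩
              simp only [Nat.add_sub_cancel]
              ring
            omega
        · intro e he
          exact mconv_slot_length hτ hl hi (by omega) he
      · intro j hj
        beta_reduce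
        rw [val_cat (w := 14 * a)]
        · refine Finset.sum_eq_zero fun e he => ?_
          rw [Finset.mem_range] at he
          rw [hslot i hi j (by omega) e he, if_neg, zero_mul]
          have h4 : (j + 2) * q ≤ a * q := Nat.mul_le_mul_right _ (by omega)
          have h5 : (j + 2) * q = j * q + q + q := by ring
          omega
        · intro e he
          exact mconv_slot_length hτ hl hi (by omega) he
    · intro j hj
      exact length_cat fun e he => mconv_slot_length hτ hl hi hj he
  · intro i hi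
    refine length_cat fun j hj => ?_
    exact length_cat fun e he => mconv_slot_length hτ hl hi hj he

/-- rotation of a string of digits -/
theorem mconv_rot (w T m : ℕ) (hm : m ≤ T) (v : ℕ → ℕ) :
    ∃ H L : ℕ, (∑ n ∈ Finset.range T, v n * 2 ^ (w * (T - 1 - n))) * 2 ^ (w * m) =
      2 ^ (T * w) * H + L ∧
      H + L = ∑ n ∈ Finset.range T, v ((n + m) % T) * 2 ^ (w * (T - 1 - n)) := by
  obtain ⟨s, rfl⟩ := Nat.exists_eq_add_of_le hm
  refine ⟨∑ n ∈ Finset.range m, v n * 2 ^ (w * (m - 1 - n)),
    ∑ n ∈ Finset.range s, v (m + n) * 2 ^ (w * (m + s - 1 - n)), ?_, ?_⟩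
  · rw [Finset.sum_range_add, add_mul, Finset.mul_sum, Finset.sum_mul, Finset.sum_mul]
    congr 1
    · refine Finset.sum_congr rfl fun n hn => ?_
      rw [Finset.mem_range] at hn
      rw [mul_assoc, ← pow_add]
      have h1 : w * (m + s - 1 - n) + w * m = (m + s) * w + w * (m - 1 - n) := by
        obtain ⟨d, rfl⟩ : ∃ d, m = n + 1 + d := ⟨m - n - 1, by omega⟩
        have e1 : n + 1 + d + s - 1 - n = d + s := by omega
        have e2 : n + 1 + d - 1 - n = d := by omega
        rw [e1, e2]
        ring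
      rw [h1, pow_add]
      ring
    · refine Finset.sum_congr rfl fun n hn => ?_
      rw [Finset.mem_range] at hn
      rw [mul_assoc, ← pow_add]
      congr 2
      obtain ⟨d, rfl⟩ : ∃ d, s = n + 1 + d := ⟨s - n - 1, by omega⟩
      have e1 : m + (n + 1 + d) - 1 - (m + n) = d := by omega
      have e2 : m + (n + 1 + d) - 1 - n = d + m := by omega
      rw [e1, e2]
      ring
  · rw [add_comm m s, Finset.sum_range_add, add_comm (∑ n ∈ Finset.range m, _)]
    congr 1
    · refine Finset.sum_congr rfl fun n hn => ?_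
      rw [Finset.mem_range] at hn
      rw [Nat.mod_eq_of_lt (by omega), add_comm n m]
    · refine Finset.sum_congr rfl fun n hn => ?_
      rw [Finset.mem_range] at hn
      have h1 : (s + n + m) % (s + m) = n := by
        have : s + n + m = n + (s + m) := by ring
        rw [this, Nat.add_mod_right, Nat.mod_eq_of_lt (by omega)]
      rw [h1]
      congr 3
      omega

theorem mconv_div_add_mod {M P A B : ℕ} (h : P = M * A + B) (hlt : A + B < M) :
    P / M + P % M = A + B := by
  have hB : B < M := by omega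
  have hM : 0 < M := by omega
  rw [h, Nat.mul_add_div hM, Nat.mul_add_mod, Nat.div_eq_of_lt hB, Nat.mod_eq_of_lt hB]
  simp

theorem mconv_digit_lt {a b : ℕ} (ha : 2 ≤ a) {g x : ℕ → ℕ} (hg : ∀ r, g r ≤ 2 * a)
    (hx : ∀ r < a, x r < 2 ^ b) :
    ∑ r ∈ Finset.range a, 2 ^ g r * x r < 2 ^ (b + 3 * a) := by
  have h1 : ∑ r ∈ Finset.range a, 2 ^ g r * x r ≤
      ∑ r ∈ Finset.range a, 2 ^ (2 * a) * (2 ^ b - 1) := by
    refine Finset.sum_le_sum fun r hr => ?_
    rw [Finset.mem_range] at hr
    refine Nat.mul_le_mul (Nat.pow_le_pow_right (by norm_num) (hg r)) ?_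
    have := hx r hr
    omega
  rw [Finset.sum_const, Finset.card_range, smul_eq_mul] at h1
  have h2 : a ≤ 2 ^ a := (Nat.lt_two_pow_self).le
  have h3 : a * (2 ^ (2 * a) * (2 ^ b - 1)) ≤ 2 ^ a * (2 ^ (2 * a) * (2 ^ b - 1)) :=
    Nat.mul_le_mul_right _ h2
  have h4 : 2 ^ a * (2 ^ (2 * a) * (2 ^ b - 1)) < 2 ^ (b + 3 * a) := by
    have h5 : 2 ^ (b + 3 * a) = 2 ^ a * (2 ^ (2 * a) * 2 ^ b) := by
      rw [← pow_add, ← pow_add]
      congr 1
      ring
    rw [h5]
    have h6 : 0 < 2 ^ b := by positivity
    have h7 : 2 ^ b - 1 < 2 ^ b := by omega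
    exact Nat.mul_lt_mul_of_pos_left (Nat.mul_lt_mul_of_pos_left h7 (by positivity)) (by positivity)
  omega

theorem mconv_mod {a S x c : ℕ} (ha : 0 < a) (hc : c < S) :
    (x * S + c) % (a * S) = x % a * S + c := by
  have h1 : x * S + c = (x % a * S + c) + a * S * (x / a) := by
    conv_lhs => rw [← Nat.mod_add_div x a]
    ring
  rw [h1, Nat.add_mul_mod_self_left, Nat.mod_eq_of_lt]
  have h2 : x % a + 1 ≤ a := Nat.mod_lt x ha
  calc x % a * S + c < x % a * S + S := by omega
    _ = (x % a + 1) * S := by ring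
    _ ≤ a * S := Nat.mul_le_mul_right _ h2

/-- all digits of the folded product -/
theorem mconv_main {a q b : ℕ} (ha : 2 ≤ a) (hq : 1 ≤ q) (hb : b + 3 * a ≤ 14 * a)
    {l : List Bool} (hl : l.length = 14 * (q * a ^ 3))
    (hv : ∀ n < q * a ^ 2, val (blk (14 * a) l n) < 2 ^ b) {n : ℕ} (hn : n < q * a ^ 2) :
    val (blk (14 * a) (mulFold (14 * (q * a ^ 3)) l (GF a q)) n) =
      ∑ r ∈ Finset.range a, 2 ^ tauG a r 0 *
        val (blk (14 * a) l ((n + (a - 1 - r) * (a * q)) % (q * a ^ 2))) := by
  have hT : 0 < q * a ^ 2 := by positivity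
  have hD : ∀ n, ∑ r ∈ Finset.range a, 2 ^ tauG a r 0 *
        val (blk (14 * a) l ((n + (a - 1 - r) * (a * q)) % (q * a ^ 2))) < 2 ^ (b + 3 * a) := by
    intro n
    refine mconv_digit_lt ha (fun r => tauG_le ha r 0) fun r _ => ?_
    exact hv _ (Nat.mod_lt _ hT)
  have hpow : 2 ^ (b + 3 * a) ≤ 2 ^ (14 * a) := Nat.pow_le_pow_right (by norm_num) hb
  have hm : ∀ r < a, (a - 1 - r) * (a * q) ≤ q * a ^ 2 := by
    intro r _
    calc (a - 1 - r) * (a * q) ≤ a * (a * q) := Nat.mul_le_mul_right _ (by omega)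
      _ = q * a ^ 2 := by ring
  have hN : 14 * (q * a ^ 3) = q * a ^ 2 * (14 * a) := by ring
  have hval : val l = ∑ n ∈ Finset.range (q * a ^ 2),
      val (blk (14 * a) l n) * 2 ^ (14 * a * (q * a ^ 2 - 1 - n)) := by
    conv_lhs => rw [← cat_blk (n := q * a ^ 2) (w := 14 * a) (l := l) (by rw [hl, hN])]
    refine val_cat fun i hi => ?_
    refine length_blk ?_
    rw [hl, hN]
    exact Nat.mul_le_mul_right _ hi
  have hrot := fun r => mconv_rot (14 * a) (q * a ^ 2) (min ((a - 1 - r) * (a * q)) (q * a ^ 2))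
    (min_le_right _ _) (fun n => val (blk (14 * a) l n))
  choose H L hHL using hrot
  have hprod : val l * val (GF a q) = 2 ^ (q * a ^ 2 * (14 * a)) *
      (∑ r ∈ Finset.range a, 2 ^ tauG a r 0 * H r) + ∑ r ∈ Finset.range a, 2 ^ tauG a r 0 * L r := by
    rw [mconv_val_GF ha hq, Finset.mul_sum, Finset.mul_sum, ← Finset.sum_add_distrib]
    refine Finset.sum_congr rfl fun r hr => ?_
    rw [Finset.mem_range] at hr
    have h1 := (hHL r).1
    rw [min_eq_left (hm r hr), ← hval] at h1
    calc val l * (2 ^ tauG a r 0 * 2 ^ (14 * a * ((a - 1 - r) * (a * q))))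
        = 2 ^ tauG a r 0 * (val l * 2 ^ (14 * a * ((a - 1 - r) * (a * q)))) := by ring
      _ = 2 ^ tauG a r 0 * (2 ^ (q * a ^ 2 * (14 * a)) * H r + L r) := by rw [h1]
      _ = _ := by ring
  have hsum : (∑ r ∈ Finset.range a, 2 ^ tauG a r 0 * H r) +
      ∑ r ∈ Finset.range a, 2 ^ tauG a r 0 * L r =
      ∑ n ∈ Finset.range (q * a ^ 2), (∑ r ∈ Finset.range a, 2 ^ tauG a r 0 *
        val (blk (14 * a) l ((n + (a - 1 - r) * (a * q)) % (q * a ^ 2)))) *
          2 ^ (14 * a * (q * a ^ 2 - 1 - n)) := by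
    rw [← Finset.sum_add_distrib]
    simp_rw [Finset.sum_mul]
    rw [Finset.sum_comm]
    refine Finset.sum_congr rfl fun r hr => ?_
    rw [Finset.mem_range] at hr
    have h2 := (hHL r).2
    rw [min_eq_left (hm r hr)] at h2
    rw [← mul_add, h2, Finset.mul_sum]
    refine Finset.sum_congr rfl fun n _ => ?_
    ring
  rw [mulFold_eq hl (length_GF ha hq), hN, mconv_div_add_mod hprod, hsum,
    blk_bin (d := fun n => ∑ r ∈ Finset.range a, 2 ^ tauG a r 0 *
        val (blk (14 * a) l ((n + (a - 1 - r) * (a * q)) % (q * a ^ 2)))) _ hn]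
  · exact val_bin ((hD n).trans_le hpow)
  · intro i _
    exact (hD i).trans_le hpow
  · rw [hsum]
    exact sum_digits_lt fun i _ => (hD i).trans_le hpow

theorem mulFold_slots {a q b : ℕ} (ha : 2 ≤ a) (hq : 1 ≤ q) (hb : b + 3 * a ≤ 14 * a)
    {l : List Bool} (hl : l.length = 14 * (q * a ^ 3))
    (hv : ∀ n < q * a ^ 2, val (blk (14 * a) l n) < 2 ^ b) {k j e : ℕ} (hk : k < a) (hj : j < a)
    (he : e < q) :
    val (blk (14 * a) (mulFold (14 * (q * a ^ 3)) l (GF a q)) ((k * a + j) * q + e)) =
      ∑ r ∈ Finset.range a, 2 ^ tauG a r 0 *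
        val (blk (14 * a) l (((k + a - 1 - r) % a * a + j) * q + e)) := by
  have hc : j * q + e < a * q := by
    calc j * q + e < j * q + q := by omega
      _ = (j + 1) * q := by ring
      _ ≤ a * q := Nat.mul_le_mul_right _ hj
  have hn : (k * a + j) * q + e < q * a ^ 2 := by
    calc (k * a + j) * q + e = k * (a * q) + (j * q + e) := by ring
      _ < k * (a * q) + a * q := by omega
      _ = (k + 1) * (a * q) := by ring
      _ ≤ a * (a * q) := Nat.mul_le_mul_right _ hk
      _ = q * a ^ 2 := by ring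
  rw [mconv_main ha hq hb hl hv hn]
  refine Finset.sum_congr rfl fun r hr => ?_
  rw [Finset.mem_range] at hr
  congr 3
  have h1 : (k * a + j) * q + e + (a - 1 - r) * (a * q) =
      (k + a - 1 - r) * (a * q) + (j * q + e) := by
    have h2 : k + a - 1 - r = k + (a - 1 - r) := by omega
    rw [h2]
    ring
  have h3 : q * a ^ 2 = a * (a * q) := by ring
  rw [h1, h3, mconv_mod (by omega) hc]
  ring

/-- in particular the slots have at most `b + 3 a` bits -/
theorem mulFold_lt {a q b : ℕ} (ha : 2 ≤ a) (hq : 1 ≤ q) (hb : b + 3 * a ≤ 14 * a)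
    {l : List Bool} (hl : l.length = 14 * (q * a ^ 3))
    (hv : ∀ n < q * a ^ 2, val (blk (14 * a) l n) < 2 ^ b) :
    ∀ n < q * a ^ 2, val (blk (14 * a) (mulFold (14 * (q * a ^ 3)) l (GF a q)) n) <
      2 ^ (b + 3 * a) := by
  intro n hn
  have hT : 0 < q * a ^ 2 := by positivity
  rw [mconv_main ha hq hb hl hv hn]
  refine mconv_digit_lt ha (fun r => tauG_le ha r 0) fun r _ => ?_
  exact hv _ (Nat.mod_lt _ hT)

end Vale.Agent.P338
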