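import Vale.Agent.Lib.P338.RecCost

/-!
# P338, module MCost: the total cost

`sumS A L` is the sum over the levels `h = L / 2, L / 4, ...` (`h ≥ 1`).

`recCost_le`: strong induction on `L`. For `L < 2` the sum is empty (`Nat.log 2 L = 0`) and
`W + 1 ≤ 14 * W`. For `L ≥ 2`: `Nat.log 2 L = Nat.log 2 (L / 2) + 1`, `L / 2 ^ (i + 1) = L / 2 / 2 ^ i`,
so `sumS A L = (term for h = L / 2) + sumS A (L / 2)`; and (real division)
`W / c * tA A h c ≤ W * (tA A h c / c)`, `tA A h c / c ≤ min (14 * h) (T (14 c) / c) ≤ 14 * min h (T (14 c) / c)`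
for `c = (2 ^ h) ^ 3 = 8 ^ h` and `c = (2 ^ h) ^ 4 = 16 ^ h`.
-/

namespace Vale.Agent.P338

/-- the term of a level -/
noncomputable def termS (A : TM) (h : ℕ) : ℝ :=
  1 + min (h : ℝ) ((A.mulTime (14 * 8 ^ h) : ℝ) / 8 ^ h) +
    min (h : ℝ) ((A.mulTime (14 * 16 ^ h) : ℝ) / 16 ^ h)

/-- the sum over the levels -/
noncomputable def sumS (A : TM) (L : ℕ) : ℝ :=
  ∑ i ∈ Finset.Icc 1 (Nat.log 2 L), termS A (L / 2 ^ i)

theorem termS_nonneg (A : TM) (h : ℕ) : 0 ≤ termS A h := by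
  unfold termS
  have h1 : (0 : ℝ) ≤ min (h : ℝ) ((A.mulTime (14 * 8 ^ h) : ℝ) / 8 ^ h) :=
    le_min (by positivity) (by positivity)
  have h2 : (0 : ℝ) ≤ min (h : ℝ) ((A.mulTime (14 * 16 ^ h) : ℝ) / 16 ^ h) :=
    le_min (by positivity) (by positivity)
  linarith

theorem sumS_nonneg (A : TM) (L : ℕ) : 0 ≤ sumS A L :=
  Finset.sum_nonneg fun _ _ => termS_nonneg A _

theorem sumS_succ (A : TM) {L : ℕ} (hL : 2 ≤ L) :
    sumS A L = termS A (L / 2) + sumS A (L / 2) := by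
  have h1 : Nat.log 2 L = Nat.log 2 (L / 2) + 1 := by
    rw [Nat.log_div_base]
    have : 0 < Nat.log 2 L := Nat.log_pos (by norm_num) hL
    omega
  unfold sumS
  rw [h1, ← Finset.add_sum_Ioc_eq_sum_Icc (by omega)]
  have h2 : Finset.Ioc 1 (Nat.log 2 (L / 2) + 1) =
      (Finset.Icc 1 (Nat.log 2 (L / 2))).map (addRightEmbedding 1) := by
    rw [Finset.map_add_right_Icc]
    ext i
    simp only [Finset.mem_Ioc, Finset.mem_Icc]
    omega
  rw [h2, Finset.sum_map, pow_one]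
  congr 1
  apply Finset.sum_congr rfl
  intro i _
  simp only [addRightEmbedding_apply]
  rw [Nat.div_div_eq_div_mul, pow_succ']

/-- the cost of the calls for one chunk size -/
theorem mcost_call_le (A : TM) (W h c : ℕ) (hc : 1 ≤ c) :
    ((W / c * tA A h c : ℕ) : ℝ) ≤
      14 * W * min (h : ℝ) ((A.mulTime (14 * c) : ℝ) / c) := by
  have hc' : (0 : ℝ) < c := by exact_mod_cast hc
  have h1 : ((W / c : ℕ) : ℝ) ≤ (W : ℝ) / c := Nat.cast_div_le
  have h2 : ((tA A h c : ℕ) : ℝ) / c ≤ 14 * min (h : ℝ) ((A.mulTime (14 * c) : ℝ) / c) := by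
    unfold tA
    rw [mul_min_of_nonneg _ _ (by norm_num : (0 : ℝ) ≤ 14)]
    apply le_min
    · rw [div_le_iff₀ hc']
      have : ((min (A.mulTime (14 * c)) (h * (14 * c)) : ℕ) : ℝ) ≤ ((h * (14 * c) : ℕ) : ℝ) :=
        Nat.cast_le.mpr (min_le_right _ _)
      refine this.trans (le_of_eq ?_)
      push_cast
      ring
    · have h3 : ((min (A.mulTime (14 * c)) (h * (14 * c)) : ℕ) : ℝ) ≤
          ((A.mulTime (14 * c) : ℕ) : ℝ) := Nat.cast_le.mpr (min_le_left _ _)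
      have h4 : (0 : ℝ) ≤ (A.mulTime (14 * c) : ℝ) / c := by positivity
      calc ((min (A.mulTime (14 * c)) (h * (14 * c)) : ℕ) : ℝ) / c
          ≤ ((A.mulTime (14 * c) : ℕ) : ℝ) / c := div_le_div_of_nonneg_right h3 hc'.le
        _ ≤ 14 * ((A.mulTime (14 * c) : ℝ) / c) := by linarith
  have h0 : (0 : ℝ) ≤ ((tA A h c : ℕ) : ℝ) := Nat.cast_nonneg _
  calc ((W / c * tA A h c : ℕ) : ℝ) = ((W / c : ℕ) : ℝ) * ((tA A h c : ℕ) : ℝ) := by
        push_cast
        ring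
    _ ≤ (W : ℝ) / c * ((tA A h c : ℕ) : ℝ) := mul_le_mul_of_nonneg_right h1 h0
    _ = W * (((tA A h c : ℕ) : ℝ) / c) := by ring
    _ ≤ W * (14 * min (h : ℝ) ((A.mulTime (14 * c) : ℝ) / c)) :=
        mul_le_mul_of_nonneg_left h2 (Nat.cast_nonneg _)
    _ = 14 * W * min (h : ℝ) ((A.mulTime (14 * c) : ℝ) / c) := by ring

theorem mcost_lvl_le (A : TM) (W h : ℕ) : ((lvl A W h : ℕ) : ℝ) ≤ 14 * W * termS A h := by
  have e3 : (2 ^ h) ^ 3 = 8 ^ h := by
    rw [← pow_mul, mul_comm, pow_mul]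
    norm_num
  have e4 : (2 ^ h) ^ 4 = 16 ^ h := by
    rw [← pow_mul, mul_comm, pow_mul]
    norm_num
  have h3 := mcost_call_le A W h (8 ^ h) (Nat.one_le_pow _ _ (by norm_num))
  have h4 := mcost_call_le A W h (16 ^ h) (Nat.one_le_pow _ _ (by norm_num))
  have hW : (0 : ℝ) ≤ W := Nat.cast_nonneg _
  unfold lvl termS
  rw [e3, e4]
  push_cast at h3 h4 ⊢
  nlinarith [h3, h4, hW]

theorem recCost_le (A : TM) {W L : ℕ} (hW : 1 ≤ W) :
    (recCost A W L : ℝ) ≤ 14 * W * (1 + sumS A L) := by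
  have hW' : (1 : ℝ) ≤ W := by exact_mod_cast hW
  induction L using Nat.strong_induction_on with
  | _ L ih =>
    rw [recCost]
    split_ifs with h
    · have h0 := sumS_nonneg A L
      push_cast
      nlinarith
    · have hL : 2 ≤ L := by omega
      have h1 := ih (L / 2) (by omega)
      have h2 := mcost_lvl_le A W (L / 2)
      rw [sumS_succ A hL]
      push_cast
      nlinarith [h1, h2]

end Vale.Agent.P338
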