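import Vale.Agent.Lib.P338.MVal
import Vale.Agent.Lib.P338.MBlk

/-!
# P338, module MDig: digits of width `w`, shifts, the folded product

`val_cat` by induction on `n` with `cat_succ'` (or `cat_succ`). `blk_bin`: apply `val_cat` to
`cat n (fun i => bin w (d i))`, whose value is the sum, so the string is `bin (n * w)` of it
(`bin_val`), and use `blk_cat`.
-/

namespace Vale.Agent.P338

/-- the value of a concatenation of blocks of width `w` -/
theorem val_cat {n w : ℕ} {g : ℕ → List Bool} (h : ∀ i < n, (g i).length = w) :
    val (cat n g) = ∑ i ∈ Finset.range n, val (g i) * 2 ^ (w * (n - 1 - i)) := by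
  induction n with
  | zero => simp [cat_zero, val_nil]
  | succ n ih =>
    rw [cat_succ, val_append, ih (fun i hi => h i (by omega)), Finset.sum_range_succ,
      h n (by omega), Finset.sum_mul]
    congr 1
    · apply Finset.sum_congr rfl
      intro i hi
      have hi' : i < n := Finset.mem_range.mp hi
      have e : n + 1 - 1 - i = (n - 1 - i) + 1 := by omega
      rw [e, Nat.mul_add, pow_add, mul_one, mul_assoc]
    · have e : n + 1 - 1 - n = 0 := by omega
      rw [e, Nat.mul_zero, pow_zero, mul_one]

private theorem mdig_val_cat_bin {n w : ℕ} {d : ℕ → ℕ} (h : ∀ i < n, d i < 2 ^ w) :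
    val (cat n (fun i => bin w (d i))) =
      ∑ i ∈ Finset.range n, d i * 2 ^ (w * (n - 1 - i)) := by
  rw [val_cat (w := w) (fun i _ => length_bin w (d i))]
  apply Finset.sum_congr rfl
  intro i hi
  rw [val_bin (h i (Finset.mem_range.mp hi))]

/-- if the digits `d i < 2 ^ w` then the blocks of the string of
`∑ d i * 2 ^ (w * (n - 1 - i))` are the strings of `d i` -/
theorem blk_bin {n w k : ℕ} {d : ℕ → ℕ} (h : ∀ i < n, d i < 2 ^ w) (hk : k < n) :
    blk w (bin (n * w) (∑ i ∈ Finset.range n, d i * 2 ^ (w * (n - 1 - i)))) k = bin w (d k) := by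
  rw [← mdig_val_cat_bin h]
  have hl : (cat n (fun i => bin w (d i))).length = n * w :=
    length_cat (fun i _ => length_bin w (d i))
  rw [← hl, bin_val]
  exact blk_cat (fun i _ => length_bin w (d i)) hk

theorem sum_digits_lt {n w : ℕ} {d : ℕ → ℕ} (h : ∀ i < n, d i < 2 ^ w) :
    ∑ i ∈ Finset.range n, d i * 2 ^ (w * (n - 1 - i)) < 2 ^ (n * w) := by
  rw [← mdig_val_cat_bin h]
  have hl : (cat n (fun i => bin w (d i))).length = n * w :=
    length_cat (fun i _ => length_bin w (d i))
  rw [← hl]
  exact val_lt _

/-- a shift without overflow -/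
theorem val_shl {t : ℕ} {x : List Bool} (h : t ≤ x.length) (h' : val x * 2 ^ t < 2 ^ x.length) :
    val (shl t x) = val x * 2 ^ t := by
  unfold shl
  rw [val_append, val_replicate_false, add_zero, List.length_replicate]
  congr 1
  have e1 : val x = val (x.take t) * 2 ^ (x.drop t).length + val (x.drop t) := by
    rw [← val_append, List.take_append_drop]
  have e2 : (x.drop t).length = x.length - t := List.length_drop
  rw [e2] at e1
  have e3 : 2 ^ x.length = 2 ^ (x.length - t) * 2 ^ t := by
    rw [← pow_add]
    congr 1
    omega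
  rw [e3] at h'
  have h2 : val x < 2 ^ (x.length - t) := Nat.lt_of_mul_lt_mul_right h'
  have h3 : val (x.take t) = 0 := by
    by_contra hne
    have h4 : 1 ≤ val (x.take t) := Nat.one_le_iff_ne_zero.mpr hne
    have h5 : 2 ^ (x.length - t) ≤ val (x.take t) * 2 ^ (x.length - t) :=
      Nat.le_mul_of_pos_left _ h4
    omega
  rw [h3] at e1
  omega

theorem length_mulFold (N : ℕ) (x y : List Bool) : (mulFold N x y).length = N := by
  unfold mulFold foldF
  exact length_bin _ _

/-- the folded product is the sum of the quotient and the remainder modulo `2 ^ N` -/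
theorem mulFold_eq {N : ℕ} {x y : List Bool} (hx : x.length = N) (hy : y.length = N) :
    mulFold N x y = bin N (val x * val y / 2 ^ N + val x * val y % 2 ^ N) := by
  unfold mulFold foldF
  rw [take_bin, drop_bin]
  have h1 : val x < 2 ^ N := by
    have := val_lt x
    rwa [hx] at this
  have h2 : val y < 2 ^ N := by
    have := val_lt y
    rwa [hy] at this
  have h3 : val x * val y / 2 ^ N < 2 ^ N := by
    rw [Nat.div_lt_iff_lt_mul (by positivity)]
    exact Nat.mul_lt_mul'' h1 h2
  rw [val_bin h3, val_bin (Nat.mod_lt _ (by positivity))]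

theorem length_eacF (w : ℕ) (x y : List Bool) : (eacF w x y).length = w := by
  unfold eacF
  split_ifs <;> exact length_bin _ _

end Vale.Agent.P338
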