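import Vale.Agent.Lib.P338.MDig

/-!
# P338, module MEac: decoding of a slot

`eacF w x y` (for `x`, `y` of length `w`) has a value `≤ 2 ^ w - 1` which is congruent to
`val x + val y` modulo `2 ^ w - 1`: if `val x + val y < 2 ^ w` it is the sum itself, otherwise the
sum is `≤ 2 ^ (w + 1) - 2` and it is the sum minus `2 ^ w - 1`.

`decode1_eq`: `x` (of length `14 * a`) is the concatenation of seven digits of `2 * a` bits, so
`val x = ∑ k < 7, val (blk (2 * a) x k) * (2 ^ (2 * a)) ^ (6 - k)` is congruent to the sum of the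
digits modulo `2 ^ (2 * a) - 1`. Hence the value `r ≤ 2 ^ (2 * a) - 1` of the string obtained by the
fold is congruent to `(e + 1) * (2 ^ a - 1)` modulo `2 ^ (2 * a) - 1`. Since
`0 < (e + 1) * (2 ^ a - 1) ≤ 2 ^ (2 * a) - 2 ^ a < 2 ^ (2 * a) - 1`, it is equal to this number (the
values `0` and `2 ^ (2 * a) - 1` are congruent to `0`). As
`(e + 1) * (2 ^ a - 1) = e * 2 ^ a + (2 ^ a - 1 - e)`, the first `a` bits are the string of `e`.
-/

namespace Vale.Agent.P338

theorem val_eacF_mod {w : ℕ} (hw : 1 ≤ w) {x y : List Bool} (hx : x.length = w)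
    (hy : y.length = w) : val (eacF w x y) ≡ val x + val y [MOD 2 ^ w - 1] := by
  have h1 : val x < 2 ^ w := by
    have := val_lt x
    rwa [hx] at this
  have h2 : val y < 2 ^ w := by
    have := val_lt y
    rwa [hy] at this
  unfold eacF
  split_ifs with h
  · rw [val_bin h]
  · have h3 : val x + val y - 2 ^ w + 1 < 2 ^ w := by omega
    rw [val_bin h3]
    have h4 : val x + val y = (val x + val y - 2 ^ w + 1) + (2 ^ w - 1) := by omega
    have h5 : (val x + val y - 2 ^ w + 1) + 0 ≡
        (val x + val y - 2 ^ w + 1) + (2 ^ w - 1) [MOD 2 ^ w - 1] := by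
      refine Nat.ModEq.add_left _ ?_
      exact (Nat.modEq_zero_iff_dvd.2 dvd_rfl).symm
    rw [add_zero, ← h4] at h5
    exact h5

private theorem meac_fold {w : ℕ} (hw : 1 ≤ w) {x : List Bool} (n : ℕ)
    (hx : n * w ≤ x.length) :
    ((List.range n).foldl (fun acc k => eacF w acc (blk w x k))
      (List.replicate w false)).length = w ∧
    val ((List.range n).foldl (fun acc k => eacF w acc (blk w x k))
      (List.replicate w false)) ≡ ∑ k ∈ Finset.range n, val (blk w x k) [MOD 2 ^ w - 1] := by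
  induction n with
  | zero =>
    refine ⟨by simp, ?_⟩
    rw [List.range_zero, List.foldl_nil, val_replicate_false, Finset.sum_range_zero]
  | succ n ih =>
    have h1 : n * w ≤ x.length := le_trans (Nat.mul_le_mul_right w (Nat.le_succ n)) hx
    obtain ⟨h2, h3⟩ := ih h1
    rw [List.range_succ, List.foldl_append, List.foldl_cons, List.foldl_nil]
    refine ⟨length_eacF _ _ _, ?_⟩
    refine (val_eacF_mod hw h2 (length_blk hx)).trans ?_
    rw [Finset.sum_range_succ]
    exact Nat.ModEq.add_right _ h3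

private theorem meac_two_pow (w j : ℕ) : 2 ^ (w * j) ≡ 1 [MOD 2 ^ w - 1] := by
  have h1 : 2 ^ w ≡ 1 [MOD 2 ^ w - 1] := by
    have h2 : 1 ≤ 2 ^ w := Nat.one_le_two_pow
    have h3 : 1 + (2 ^ w - 1) = 2 ^ w := by omega
    have h4 : 1 + 0 ≡ 1 + (2 ^ w - 1) [MOD 2 ^ w - 1] :=
      Nat.ModEq.add_left _ (Nat.modEq_zero_iff_dvd.2 dvd_rfl).symm
    rw [add_zero, h3] at h4
    exact h4.symm
  rw [pow_mul]
  have h5 := h1.pow j
  rwa [one_pow] at h5

private theorem meac_sum {ι : Type} (s : Finset ι) (f g : ι → ℕ) (M : ℕ)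
    (h : ∀ i ∈ s, f i ≡ g i [MOD M]) : ∑ i ∈ s, f i ≡ ∑ i ∈ s, g i [MOD M] := by
  classical
  induction s using Finset.induction_on with
  | empty => rfl
  | insert a s ha ih =>
    rw [Finset.sum_insert ha, Finset.sum_insert ha]
    exact (h a (Finset.mem_insert_self _ _)).add
      (ih fun i hi => h i (Finset.mem_insert_of_mem hi))

private theorem meac_val {w : ℕ} {x : List Bool} (hx : x.length = 7 * w) :
    val x ≡ ∑ k ∈ Finset.range 7, val (blk w x k) [MOD 2 ^ w - 1] := by
  have h1 : ∀ i < 7, (blk w x i).length = w := fun i hi =>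
    length_blk (by rw [hx]; exact Nat.mul_le_mul_right w hi)
  have h2 := val_cat h1
  rw [cat_blk hx] at h2
  rw [h2]
  refine meac_sum _ _ _ _ fun i _ => ?_
  have h3 := (meac_two_pow w (7 - 1 - i)).mul_left (val (blk w x i))
  rwa [mul_one] at h3

theorem decode1_eq {a e : ℕ} (ha : 1 ≤ a) (he : e < 2 ^ a) {x : List Bool}
    (hx : x.length = 14 * a) (hv : val x ≡ (e + 1) * (2 ^ a - 1) [MOD 2 ^ (2 * a) - 1]) :
    decode1 a x = bin a e := by
  have hx7 : x.length = 7 * (2 * a) := by omega
  obtain ⟨h1, h2⟩ := meac_fold (w := 2 * a) (by omega) (x := x) 7 (by omega)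
  set F := (List.range 7).foldl (fun acc k => eacF (2 * a) acc (blk (2 * a) x k))
      (List.replicate (2 * a) false) with hF
  have h3 : val F ≡ (e + 1) * (2 ^ a - 1) [MOD 2 ^ (2 * a) - 1] :=
    (h2.trans (meac_val hx7).symm).trans hv
  have hA : 2 ≤ 2 ^ a := by
    calc 2 = 2 ^ 1 := (pow_one 2).symm
      _ ≤ 2 ^ a := Nat.pow_le_pow_right (by norm_num) ha
  have hsq : 2 ^ (2 * a) = 2 ^ a * 2 ^ a := by rw [two_mul, pow_add]
  obtain ⟨q, hq⟩ : ∃ q, 2 ^ a = q + 1 := ⟨2 ^ a - 1, by omega⟩
  rw [hq] at he hA hsq h3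
  have hlt : val F < (q + 1) * (q + 1) := by
    have := val_lt F
    rwa [h1, hsq] at this
  rw [hsq] at h3
  have hq1 : q + 1 - 1 = q := by omega
  rw [hq1] at h3
  have hT : (e + 1) * q < (q + 1) * (q + 1) - 1 := by
    have h4 : (e + 1) * q ≤ (q + 1) * q := Nat.mul_le_mul_right q (by omega)
    have h5 : (q + 1) * (q + 1) = (q + 1) * q + (q + 1) := by ring
    omega
  have hT0 : 0 < (e + 1) * q := Nat.mul_pos (by omega) (by omega)
  have hval : val F = (e + 1) * q := by
    by_cases hr : val F < (q + 1) * (q + 1) - 1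
    · exact Nat.ModEq.eq_of_lt_of_lt h3 hr hT
    · exfalso
      have h4 : val F = (q + 1) * (q + 1) - 1 := by omega
      rw [h4] at h3
      have h5 : (q + 1) * (q + 1) - 1 ≡ 0 [MOD (q + 1) * (q + 1) - 1] :=
        Nat.modEq_zero_iff_dvd.2 dvd_rfl
      have h6 := h3.symm.trans h5
      have h7 := Nat.ModEq.eq_of_lt_of_lt h6 hT (by omega)
      omega
  have hFb : F = bin (2 * a) ((e + 1) * q) := by
    rw [← hval]
    have := bin_val F
    rw [h1] at this
    exact this.symm
  have hdiv : (e + 1) * q / 2 ^ a = e := by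
    rw [hq]
    have h4 : (e + 1) * q = e * (q + 1) + (q - e) := by
      have h5 : e ≤ q := by omega
      obtain ⟨d, rfl⟩ := Nat.exists_eq_add_of_le h5
      have h6 : e + d - e = d := by omega
      rw [h6]
      ring
    rw [h4, Nat.add_comm, Nat.add_mul_div_right _ _ (by omega), Nat.div_eq_of_lt (by omega),
      zero_add]
  unfold decode1
  rw [← hF, hFb, take_bin, hdiv]

theorem length_decode1 {a : ℕ} {x : List Bool} (hx : x.length = 14 * a) :
    (decode1 a x).length = a := by
  unfold decode1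
  rw [List.length_take]
  have h : ((List.range 7).foldl (fun acc k => eacF (2 * a) acc (blk (2 * a) x k))
      (List.replicate (2 * a) false)).length = 2 * a := by
    rw [show (7 : ℕ) = 6 + 1 from rfl, List.range_succ, List.foldl_append, List.foldl_cons,
      List.foldl_nil]
    exact length_eacF _ _ _
  rw [h]
  omega

end Vale.Agent.P338
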