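import Vale.Agent.Lib.P338.MCost

/-!
# P338, modules MAsym, MGap: asymptotics of the sum over the levels

`sumS_isLittleO`: let `ε > 0` and `T N ≤ ε N log N` for `N ≥ N0`. For `h ≥ h0` both
`14 * 8 ^ h` and `14 * 16 ^ h` are `≥ N0` and `T (14 c) / c ≤ 14 ε log (14 c) ≤ C0 ε h` for
`c = 8 ^ h, 16 ^ h` (`h ≥ 1`, `C0 = 14 (log 14 + 4 log 2)`). In all cases `termS A h ≤ 1 + 2 h`. So
`termS A h ≤ 1 + 2 h0 + 2 C0 ε h` for all `h`, and
`sumS A L ≤ (1 + 2 h0) * Nat.log 2 L + 2 C0 ε L`, because `∑ i ≥ 1, L / 2 ^ i ≤ L` (by `sumS_succ`-like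
induction: `∑ i ∈ Icc 1 (log 2 L), L / 2 ^ i ≤ L`). `Nat.log 2 L = o(L)`.

`sumS_gap`: suppose `c L ≤ sumS A L` for large `L`. Choose `i0 ≥ 1` with `2 / 2 ^ i0 ≤ c / 4`. The
levels `i > i0` contribute at most `∑ (1 + 2 L / 2 ^ i) ≤ Nat.log 2 L + 2 L / 2 ^ i0`, and
`Nat.log 2 L ≤ c L / 4` for large `L` (also take the `1`'s of all levels into account). So for large
`L` there is `1 ≤ i ≤ i0` with `min h (T (14 * 8 ^ h) / 8 ^ h) + min h (T (14 * 16 ^ h) / 16 ^ h)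
≥ c L / (4 i0)`, `h = L / 2 ^ i` (we may assume `i ≤ Nat.log 2 L`). Hence for `N = 14 * 8 ^ h` or
`N = 14 * 16 ^ h` we have `T N ≥ (N / 14) * c L / (8 i0)` and `log N ≤ log 14 + 4 h log 2 ≤ C1 L`.
Given `x` large, take `L = Nat.log 2 x / 2 - 4`, so that `14 * 16 ^ (L / 2) ≤ 2 ^ (4 + 2 L) ≤ x`,
and `N ≥ 14 * 8 ^ (L / 2 ^ i0) ≥ 14 * 8 ^ (L / 2 ^ i0 - 1)` (real exponents) `≥ x ^ δ` with
`δ = 1 / 2 ^ i0` (real power, for large `x`): `8 ^ (L / 2 ^ i0 - 1) = 2 ^ (3 L / 2 ^ i0 - 3)` and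
`3 L ≥ 3 / 2 * log2 x - 15`, so `δ = 1 / 2 ^ i0` is fine for large `x`.
-/

namespace Vale.Agent.P338

open Filter

private theorem mgap_geom (a m : ℕ) (ham : a ≤ m) :
    ∑ i ∈ Finset.Icc (a + 1) m, ((1:ℝ) / 2 ^ i) + 1 / 2 ^ m ≤ 1 / 2 ^ a := by
  induction m, ham using Nat.le_induction with
  | base => simp
  | succ m ham ih =>
    rw [Finset.sum_Icc_succ_top (by omega)]
    have h : (1:ℝ) / 2 ^ (m + 1) + 1 / 2 ^ (m + 1) = 1 / 2 ^ m := by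
      rw [pow_succ]
      field_simp
      norm_num
    linarith

/-- the part of a term above `1` -/
private noncomputable def mgapF (A : TM) (h : ℕ) : ℝ :=
  min (h : ℝ) ((A.mulTime (14 * 8 ^ h) : ℝ) / 8 ^ h) +
    min (h : ℝ) ((A.mulTime (14 * 16 ^ h) : ℝ) / 16 ^ h)

private theorem mgapF_nonneg (A : TM) (h : ℕ) : 0 ≤ mgapF A h := by
  unfold mgapF
  have h1 : (0:ℝ) ≤ min (h : ℝ) ((A.mulTime (14 * 8 ^ h) : ℝ) / 8 ^ h) :=
    le_min (by positivity) (by positivity)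
  have h2 : (0:ℝ) ≤ min (h : ℝ) ((A.mulTime (14 * 16 ^ h) : ℝ) / 16 ^ h) :=
    le_min (by positivity) (by positivity)
  linarith

private theorem mgapF_le (A : TM) (h : ℕ) : mgapF A h ≤ 2 * h := by
  unfold mgapF
  have h1 := min_le_left (h : ℝ) ((A.mulTime (14 * 8 ^ h) : ℝ) / 8 ^ h)
  have h2 := min_le_left (h : ℝ) ((A.mulTime (14 * 16 ^ h) : ℝ) / 16 ^ h)
  linarith

private theorem mgap_sum_le (A : TM) (i0 L : ℕ) (hL : i0 ≤ Nat.log 2 L) :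
    sumS A L ≤ Nat.log 2 L + 2 * L / 2 ^ i0 + ∑ i ∈ Finset.Icc 1 i0, mgapF A (L / 2 ^ i) := by
  have h1 : sumS A L = ∑ i ∈ Finset.Icc 1 (Nat.log 2 L), (1 + mgapF A (L / 2 ^ i)) := by
    unfold sumS
    refine Finset.sum_congr rfl fun i _ => ?_
    unfold termS mgapF
    ring
  rw [h1, Finset.sum_add_distrib, Finset.sum_const, Nat.card_Icc, nsmul_eq_mul, mul_one]
  have h2 : Finset.Icc 1 (Nat.log 2 L) = Finset.Icc 1 i0 ∪ Finset.Icc (i0 + 1) (Nat.log 2 L) := by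
    ext i
    simp only [Finset.mem_union, Finset.mem_Icc]
    omega
  have h3 : Disjoint (Finset.Icc 1 i0) (Finset.Icc (i0 + 1) (Nat.log 2 L)) := by
    rw [Finset.disjoint_left]
    intro i hi hi2
    rw [Finset.mem_Icc] at hi hi2
    omega
  rw [h2, Finset.sum_union h3]
  have h4 : ∑ i ∈ Finset.Icc (i0 + 1) (Nat.log 2 L), mgapF A (L / 2 ^ i) ≤ 2 * L / 2 ^ i0 := by
    have h5 : ∀ i ∈ Finset.Icc (i0 + 1) (Nat.log 2 L), mgapF A (L / 2 ^ i) ≤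
        (2 * L) * ((1:ℝ) / 2 ^ i) := by
      intro i _
      refine (mgapF_le A _).trans ?_
      have h6 : ((L / 2 ^ i : ℕ) : ℝ) ≤ (L : ℝ) / ((2 ^ i : ℕ) : ℝ) := Nat.cast_div_le
      push_cast at h6
      have h7 : (2 * (L:ℝ)) * (1 / 2 ^ i) = 2 * (L / 2 ^ i) := by ring
      rw [h7]
      linarith
    refine (Finset.sum_le_sum h5).trans ?_
    rw [← Finset.mul_sum]
    have h8 := mgap_geom i0 (Nat.log 2 L) hL
    have h9 : (0:ℝ) ≤ 1 / 2 ^ (Nat.log 2 L) := by positivity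
    have h10 : (2 * (L:ℝ)) * ∑ i ∈ Finset.Icc (i0 + 1) (Nat.log 2 L), ((1:ℝ) / 2 ^ i) ≤
        (2 * (L:ℝ)) * (1 / 2 ^ i0) :=
      mul_le_mul_of_nonneg_left (by linarith) (by positivity)
    refine h10.trans (le_of_eq ?_)
    ring
  have h11 : ((Nat.log 2 L + 1 - 1 : ℕ) : ℝ) = Nat.log 2 L := by simp
  rw [h11]
  linarith

/-- the conclusion for `N = 14 b ^ h` -/
private theorem mgap_final (A : TM) (c : ℝ) (hc : 0 < c) (i0 : ℕ) (hi0 : 1 ≤ i0) (x L : ℕ)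
    (hL10 : 10 ≤ L) (hx0 : x ≠ 0) (hx1 : 4 + 2 * L ≤ Nat.log 2 x)
    (hx2 : Nat.log 2 x + 1 ≤ 2 * L + 10) (i : ℕ) (hi1 : 1 ≤ i) (hi : i ≤ i0) (b : ℕ)
    (hb8 : 8 ≤ b) (hb16 : b ≤ 16)
    (hT : c * L / (4 * i0) ≤ (A.mulTime (14 * b ^ (L / 2 ^ i)) : ℝ) / b ^ (L / 2 ^ i)) :
    ∃ n : ℕ, (x : ℝ) ^ ((1:ℝ) / 2 ^ i0) ≤ n ∧ n ≤ x ∧
      c / (280 * i0) * n * Real.log n ≤ A.mulTime n := by
  obtain ⟨h, hh⟩ : ∃ h : ℕ, h = L / 2 ^ i := ⟨_, rfl⟩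
  rw [← hh] at hT
  have hb0 : (0:ℝ) < (b:ℝ) := by
    have : 0 < b := by omega
    exact_mod_cast this
  have hi0' : (0:ℝ) < (i0:ℝ) := by exact_mod_cast hi0
  have hhL : 2 * h ≤ L := by
    have h1 : h ≤ L / 2 := by
      rw [hh]
      apply Nat.div_le_div_left _ (by norm_num)
      calc 2 = 2 ^ 1 := by norm_num
        _ ≤ 2 ^ i := Nat.pow_le_pow_right (by norm_num) hi1
    omega
  have hhL2 : (L : ℝ) / 2 ^ i0 ≤ h + 1 := by
    have h1 : L < 2 ^ i * (L / 2 ^ i + 1) := Nat.lt_mul_div_succ L (by positivity)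
    rw [← hh] at h1
    have h2 : 2 ^ i * (h + 1) ≤ 2 ^ i0 * (h + 1) :=
      Nat.mul_le_mul_right _ (Nat.pow_le_pow_right (by norm_num) hi)
    have h3 : (L : ℝ) ≤ 2 ^ i0 * ((h:ℝ) + 1) := by exact_mod_cast (h1.le.trans h2)
    rw [div_le_iff₀ (by positivity)]
    linarith
  refine ⟨14 * b ^ h, ?_, ?_, ?_⟩
  · -- lower bound for `N`
    have h1 : (x : ℝ) ≤ (2:ℝ) ^ ((3 * L : ℕ) : ℝ) := by
      rw [Real.rpow_natCast]
      have h2 : x < 2 ^ (Nat.log 2 x + 1) := Nat.lt_pow_succ_log_self (by norm_num) x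
      have h3 : 2 ^ (Nat.log 2 x + 1) ≤ 2 ^ (3 * L) :=
        Nat.pow_le_pow_right (by norm_num) (by omega)
      exact_mod_cast (h2.le.trans h3)
    have h4 : (x : ℝ) ^ ((1:ℝ) / 2 ^ i0) ≤ ((2:ℝ) ^ ((3 * L : ℕ) : ℝ)) ^ ((1:ℝ) / 2 ^ i0) :=
      Real.rpow_le_rpow (by positivity) h1 (by positivity)
    refine h4.trans ?_
    rw [← Real.rpow_mul (by norm_num)]
    have h5 : ((3 * L : ℕ) : ℝ) * ((1:ℝ) / 2 ^ i0) ≤ ((3 * (h + 1) : ℕ) : ℝ) := by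
      push_cast
      have h6 : 3 * (L:ℝ) * (1 / 2 ^ i0) = 3 * (L / 2 ^ i0) := by ring
      rw [h6]
      linarith
    refine (Real.rpow_le_rpow_of_exponent_le (by norm_num) h5).trans ?_
    rw [Real.rpow_natCast]
    have h7 : 2 ^ (3 * (h + 1)) ≤ 14 * b ^ h := by
      calc 2 ^ (3 * (h + 1)) = 8 * 8 ^ h := by rw [pow_mul, pow_succ]; norm_num; ring
        _ ≤ 14 * b ^ h := Nat.mul_le_mul (by norm_num) (Nat.pow_le_pow_left hb8 h)
    exact_mod_cast h7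
  · -- upper bound for `N`
    calc 14 * b ^ h ≤ 16 * 16 ^ h := Nat.mul_le_mul (by norm_num) (Nat.pow_le_pow_left hb16 h)
      _ = 2 ^ (4 + 4 * h) := by rw [pow_add, pow_mul]; norm_num
      _ ≤ 2 ^ (Nat.log 2 x) := Nat.pow_le_pow_right (by norm_num) (by omega)
      _ ≤ x := Nat.pow_log_le_self 2 hx0
  · -- the time
    have hbh : (0:ℝ) < (b:ℝ) ^ h := by positivity
    have hLr : (10:ℝ) ≤ (L:ℝ) := by exact_mod_cast hL10
    rw [le_div_iff₀ hbh] at hT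
    have hlog : Real.log ((14 * b ^ h : ℕ) : ℝ) ≤ 5 * L := by
      push_cast
      have e1 : (14:ℝ) * (b:ℝ) ^ h ≤ 16 * 16 ^ h := by
        have hb16' : (b:ℝ) ≤ 16 := by exact_mod_cast hb16
        have := pow_le_pow_left₀ hb0.le hb16' h
        nlinarith
      have e2 : Real.log (14 * (b:ℝ) ^ h) ≤ Real.log (16 * 16 ^ h) :=
        Real.log_le_log (by positivity) e1
      have e3 : (16:ℝ) * 16 ^ h = 2 ^ (4 * (h + 1)) := by
        rw [pow_mul, pow_succ]; norm_num; ring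
      rw [e3, Real.log_pow] at e2
      have e4 := Real.log_two_lt_d9
      have e5 : (0:ℝ) < Real.log 2 := Real.log_pos (by norm_num)
      refine e2.trans ?_
      have e6 : ((4 * (h + 1) : ℕ) : ℝ) ≤ 2 * L + 4 := by
        have : 4 * (h + 1) ≤ 2 * L + 4 := by omega
        exact_mod_cast this
      nlinarith
    have hN0 : (0:ℝ) < ((14 * b ^ h : ℕ) : ℝ) := by push_cast; positivity
    have h1 : c / (280 * i0) * ((14 * b ^ h : ℕ) : ℝ) * Real.log ((14 * b ^ h : ℕ) : ℝ) ≤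
        c / (280 * i0) * ((14 * b ^ h : ℕ) : ℝ) * (5 * L) :=
      mul_le_mul_of_nonneg_left hlog (by positivity)
    refine h1.trans (le_trans (le_of_eq ?_) hT)
    push_cast
    field_simp
    ring

theorem sumS_gap (A : TM) {c : ℝ} (hc : 0 < c) (h : ∀ᶠ L : ℕ in atTop, c * L ≤ sumS A L) :
    ∃ δ : ℝ, 0 < δ ∧ ∃ c' : ℝ, 0 < c' ∧ ∀ᶠ x : ℕ in atTop, ∃ n : ℕ, (x : ℝ) ^ δ ≤ n ∧ n ≤ x ∧
      c' * n * Real.log n ≤ A.mulTime n := by
  -- choice of `i0`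
  obtain ⟨i0, hi01, hi0⟩ : ∃ i0 : ℕ, 1 ≤ i0 ∧ (2:ℝ) / 2 ^ i0 ≤ c / 4 := by
    obtain ⟨n, hn⟩ := exists_nat_gt (8 / c)
    refine ⟨n + 1, by omega, ?_⟩
    have h1 : (n:ℝ) ≤ 2 ^ n := by
      have := (Nat.lt_two_pow_self (n := n)).le
      exact_mod_cast this
    have h2 : 8 / c < 2 ^ n := lt_of_lt_of_le hn h1
    rw [div_lt_iff₀ hc] at h2
    rw [div_le_iff₀ (by positivity), pow_succ]
    nlinarith
  -- the logarithm
  have hlog : ∀ᶠ L : ℕ in atTop, (Nat.log 2 L : ℝ) ≤ c / 4 * L := by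
    have h1 : (fun n : ℕ => Real.log (n:ℝ)) =o[atTop] (fun n : ℕ => (n:ℝ)) :=
      Real.isLittleO_log_id_atTop.comp_tendsto tendsto_natCast_atTop_atTop
    have h2 := h1.bound (show (0:ℝ) < c / 4 * Real.log 2 by
      have := Real.log_pos (show (1:ℝ) < 2 by norm_num)
      positivity)
    filter_upwards [h2] with L hL
    have h3 : (Nat.log 2 L : ℝ) ≤ Real.logb 2 L := Real.natLog_le_logb L 2
    refine h3.trans ?_
    have h4 : (0:ℝ) < Real.log 2 := Real.log_pos (by norm_num)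
    unfold Real.logb
    rw [div_le_iff₀ h4]
    rw [Real.norm_eq_abs, Real.norm_eq_abs, Nat.abs_cast] at hL
    have h5 := le_abs_self (Real.log (L:ℝ))
    linarith
  obtain ⟨M, hM⟩ := Filter.eventually_atTop.mp (h.and hlog)
  refine ⟨1 / 2 ^ i0, by positivity, c / (280 * i0), by positivity, ?_⟩
  have hi0' : (0:ℝ) < (i0:ℝ) := by exact_mod_cast hi01
  filter_upwards [Filter.eventually_ge_atTop (2 ^ (2 * (M + 10 + 2 ^ i0 + 4)))] with x hx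
  have hx0 : x ≠ 0 := by
    have : 0 < 2 ^ (2 * (M + 10 + 2 ^ i0 + 4)) := by positivity
    omega
  have hlx : 2 * (M + 10 + 2 ^ i0 + 4) ≤ Nat.log 2 x :=
    (Nat.le_log_iff_pow_le (by norm_num) hx0).mpr hx
  obtain ⟨L, hL⟩ : ∃ L : ℕ, L = Nat.log 2 x / 2 - 4 := ⟨_, rfl⟩
  have hpi : 0 < 2 ^ i0 := by positivity
  have hLM : M ≤ L := by omega
  have hL10 : 10 ≤ L := by omega
  have hLi0 : 2 ^ i0 ≤ L := by omega
  have hL0 : L ≠ 0 := by omega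
  obtain ⟨hs, hl⟩ := hM L hLM
  have hsum := mgap_sum_le A i0 L ((Nat.le_log_iff_pow_le (by norm_num) hL0).mpr hLi0)
  have hLr : (10:ℝ) ≤ (L:ℝ) := by exact_mod_cast hL10
  have h1 : 2 * (L:ℝ) / 2 ^ i0 ≤ c / 4 * L := by
    have h2 : 2 * (L:ℝ) / 2 ^ i0 = 2 / 2 ^ i0 * L := by ring
    rw [h2]
    exact mul_le_mul_of_nonneg_right hi0 (by linarith)
  have h2 : ∑ i ∈ Finset.Icc 1 i0, (c * L / (2 * i0)) ≤
      ∑ i ∈ Finset.Icc 1 i0, mgapF A (L / 2 ^ i) := by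
    rw [Finset.sum_const, Nat.card_Icc, nsmul_eq_mul]
    have h3 : ((i0 + 1 - 1 : ℕ) : ℝ) = i0 := by simp
    rw [h3]
    have h4 : (i0:ℝ) * (c * L / (2 * i0)) = c * L / 2 := by
      field_simp
    rw [h4]
    linarith
  obtain ⟨i, hi, hif⟩ := Finset.exists_le_of_sum_le ⟨1, by rw [Finset.mem_Icc]; omega⟩ h2
  rw [Finset.mem_Icc] at hi
  unfold mgapF at hif
  have h5 : c * L / (2 * i0) = c * L / (4 * i0) + c * L / (4 * i0) := by
    field_simp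
    ring
  rw [h5] at hif
  rcases le_or_gt (c * L / (4 * i0)) (min ((L / 2 ^ i : ℕ) : ℝ)
      ((A.mulTime (14 * 8 ^ (L / 2 ^ i)) : ℝ) / 8 ^ (L / 2 ^ i))) with h6 | h6
  · have h7 := h6.trans (min_le_right _ _)
    exact mgap_final A c hc i0 hi01 x L hL10 hx0 (by omega) (by omega) i hi.1 hi.2 8 le_rfl
      (by norm_num) (by exact_mod_cast h7)
  · have h7 : c * L / (4 * i0) ≤ min ((L / 2 ^ i : ℕ) : ℝ)
        ((A.mulTime (14 * 16 ^ (L / 2 ^ i)) : ℝ) / 16 ^ (L / 2 ^ i)) := by linarith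
    have h8 := h7.trans (min_le_right _ _)
    exact mgap_final A c hc i0 hi01 x L hL10 hx0 (by omega) (by omega) i hi.1 hi.2 16 (by norm_num)
      le_rfl (by exact_mod_cast h8)

end Vale.Agent.P338
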