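import Vale.Agent.Lib.P338.MNaive

/-!
# P338, module MLevel: one level of the recursion

Work with the bits: `x.getD k false`, where the position `k` is written in mixed radix.

Let `h = L / 2`, `a = 2 ^ h`.

Even case `L = 2 h`: the position is `((r1 a + r2) a + c1) a + c2` (all digits `< a`), `x` has the
bit `f r1 r2 c1 c2`.
1. chunks `a ^ 3`, cells of `a` bits: the bit at `(r1, c1, r2, c2)` is `f r1 r2 c1 c2`
   (swap the second and the third digit).
2. chunk `a ^ 4`, cells of `a ^ 2` bits: at `(c1, r1, r2, c2)`.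
3. transposition of all `a × a` matrices: at `(c1, r1, c2, r2)`.
4. chunks `a ^ 3`: at `(c1, c2, r1, r2)`. This is the transposed matrix.

Odd case `L = 2 h + 1`: position digits `(r0, r1, r2, c0, c1, c2)` with `r0, c0 < 2`.
`unrifF` (`4 a ^ 2` pieces of `a ^ 2` bits, numbers `(r0, r1, r2, c0)`): `(c0, r0, r1, r2, c1, c2)`;
then as before: `(c0, r0, c1, c2, r1, r2)`; `rifF` on chunks of `2 a ^ 4` bits (fixed `c0`; two
halves for `r0 = 0, 1` of `a ^ 2` pieces `(c1, c2)` of `a ^ 2` bits): `(c0, c1, c2, r0, r1, r2)`.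

`transpose (2 ^ L) x` has at the position `k` the bit of `x` at `k % n * n + k / n`, `n = 2 ^ L`.
-/

namespace Vale.Agent.P338

theorem length_transpose (n : ℕ) (x : List Bool) : (transpose n x).length = n * n := by
  simp [transpose]

theorem mlv_ext {l l' : List Bool} (h : l.length = l'.length)
    (hk : ∀ k < l.length, l.getD k false = l'.getD k false) : l = l' :=
  List.ext_getElem h fun k h1 h2 => by
    have := hk k h1
    rwa [List.getD_eq_getElem _ _ h1, List.getD_eq_getElem _ _ h2] at this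

theorem mlv_transpose {n i j : ℕ} (x : List Bool) (hi : i < n) (hj : j < n) :
    (transpose n x).getD (i * n + j) false = x.getD (j * n + i) false := by
  have hlt : i * n + j < n * n := by
    calc i * n + j < i * n + n := by omega
      _ = (i + 1) * n := by ring
      _ ≤ n * n := Nat.mul_le_mul_right n hi
  have hn : 0 < n := by omega
  have e1 : (i * n + j) % n = j := by
    rw [mul_comm, Nat.mul_add_mod, Nat.mod_eq_of_lt hj]
  have e2 : (i * n + j) / n = i := by
    rw [add_comm, Nat.add_mul_div_right _ _ hn, Nat.div_eq_of_lt hj, zero_add]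
  rw [List.getD_eq_getElem _ _ (by rw [length_transpose]; exact hlt)]
  simp only [transpose, List.getElem_map, List.getElem_range]
  rw [e1, e2]

theorem mlv_swapF {a E i j e : ℕ} {l : List Bool} (h : l.length = a * a * E) (hi : i < a)
    (hj : j < a) (he : e < E) :
    (swapF a E l).getD ((j * a + i) * E + e) false = l.getD ((i * a + j) * E + e) false := by
  rw [← getD_blk _ he, blk_swapF h hi hj, getD_blk _ he]

theorem mlv_chunkF {c K j : ℕ} {f : List Bool → List Bool} {l : List Bool} (hc : 0 < c)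
    (hf : ∀ x : List Bool, x.length = c → (f x).length = c) (hl : c ∣ l.length)
    (hK : K < l.length / c) (hj : j < c) :
    (chunkF c f l).getD (K * c + j) false = (f (blk c l K)).getD j false := by
  rw [← getD_blk _ hj, blk_chunkF hc hf hl hK]

theorem mlv_digit {a p q : ℕ} {N : ℕ} (hp : p < N) (hq : q < a) : p * a + q < N * a := by
  calc p * a + q < p * a + a := by omega
    _ = (p + 1) * a := by ring
    _ ≤ N * a := Nat.mul_le_mul_right a hp

/-- mixed radix position -/
def mlvI (a g p1 p2 p3 p4 : ℕ) : ℕ := (((g * a + p1) * a + p2) * a + p3) * a + p4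

theorem mlv_len_swap3 {a : ℕ} (x : List Bool) (hx : x.length = a ^ 3) :
    (swapF a a x).length = a ^ 3 := by
  rw [length_swapF (by rw [hx]; ring), hx]

theorem mlv_len_swap4 {a : ℕ} (x : List Bool) (hx : x.length = a ^ 4) :
    (swapF a (a ^ 2) x).length = a ^ 4 := by
  rw [length_swapF (by rw [hx]; ring), hx]

theorem mlv_len_tr {a : ℕ} (x : List Bool) (_ : x.length = a ^ 2) :
    (transpose a x).length = a ^ 2 := by
  rw [length_transpose]
  ring

theorem mlv_len1 {a M : ℕ} (ha : 0 < a) {l : List Bool} (hl : l.length = M * a ^ 4) :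
    (chunkF (a ^ 3) (swapF a a) l).length = M * a ^ 4 := by
  have hd : a ^ 3 ∣ l.length := by
    rw [hl]
    exact Dvd.intro_left (M * a) (by ring)
  rw [length_chunkF (by positivity) mlv_len_swap3 hd, hl]

theorem mlv_len2 {a M : ℕ} (ha : 0 < a) {l : List Bool} (hl : l.length = M * a ^ 4) :
    (chunkF (a ^ 4) (swapF a (a ^ 2)) l).length = M * a ^ 4 := by
  rw [length_chunkF (by positivity) mlv_len_swap4 (by rw [hl]; exact Dvd.intro_left M rfl), hl]

theorem mlv_len3 {a M : ℕ} (ha : 0 < a) {l : List Bool} (hl : l.length = M * a ^ 4) :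
    (chunkF (a ^ 2) (transpose a) l).length = M * a ^ 4 := by
  have hd : a ^ 2 ∣ l.length := by
    rw [hl]
    exact Dvd.intro_left (M * a ^ 2) (by ring)
  rw [length_chunkF (by positivity) mlv_len_tr hd, hl]

theorem mlv_step1 {a M g p1 p2 p3 p4 : ℕ} (ha : 0 < a) {l : List Bool}
    (hl : l.length = M * a ^ 4) (hg : g < M) (h1 : p1 < a) (h2 : p2 < a) (h3 : p3 < a)
    (h4 : p4 < a) :
    (chunkF (a ^ 3) (swapF a a) l).getD (mlvI a g p1 p2 p3 p4) false
      = l.getD (mlvI a g p1 p3 p2 p4) false := by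
  have hd : a ^ 3 ∣ l.length := by
    rw [hl]
    exact Dvd.intro_left (M * a) (by ring)
  have hK : g * a + p1 < l.length / a ^ 3 := by
    have e : l.length / a ^ 3 = M * a := by
      rw [hl, show M * a ^ 4 = M * a * a ^ 3 by ring, Nat.mul_div_cancel _ (by positivity)]
    rw [e]
    exact mlv_digit hg h1
  have hlen : (blk (a ^ 3) l (g * a + p1)).length = a * a * a := by
    rw [length_blk]
    · ring
    · exact (Nat.mul_le_mul_right _ hK).trans (Nat.div_mul_le_self _ _)
  have hj : (p2 * a + p3) * a + p4 < a ^ 3 := by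
    have := mlv_digit (mlv_digit h2 h3) h4
    calc (p2 * a + p3) * a + p4 < a * a * a := this
      _ = a ^ 3 := by ring
  have hj' : (p3 * a + p2) * a + p4 < a ^ 3 := by
    have := mlv_digit (mlv_digit h3 h2) h4
    calc (p3 * a + p2) * a + p4 < a * a * a := this
      _ = a ^ 3 := by ring
  have e1 : mlvI a g p1 p2 p3 p4 = (g * a + p1) * a ^ 3 + ((p2 * a + p3) * a + p4) := by
    unfold mlvI
    ring
  have e2 : mlvI a g p1 p3 p2 p4 = (g * a + p1) * a ^ 3 + ((p3 * a + p2) * a + p4) := by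
    unfold mlvI
    ring
  rw [e1, e2, mlv_chunkF (by positivity) mlv_len_swap3 hd hK hj, mlv_swapF hlen h3 h2 h4,
    getD_blk _ hj']

theorem mlv_step2 {a M g p1 p2 p3 p4 : ℕ} (ha : 0 < a) {l : List Bool}
    (hl : l.length = M * a ^ 4) (hg : g < M) (h1 : p1 < a) (h2 : p2 < a) (h3 : p3 < a)
    (h4 : p4 < a) :
    (chunkF (a ^ 4) (swapF a (a ^ 2)) l).getD (mlvI a g p1 p2 p3 p4) false
      = l.getD (mlvI a g p2 p1 p3 p4) false := by
  have hd : a ^ 4 ∣ l.length := by
    rw [hl]
    exact Dvd.intro_left M rfl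
  have hK : g < l.length / a ^ 4 := by
    rw [hl, Nat.mul_div_cancel _ (by positivity)]
    exact hg
  have hlen : (blk (a ^ 4) l g).length = a * a * a ^ 2 := by
    rw [length_blk]
    · ring
    · exact (Nat.mul_le_mul_right _ hK).trans (Nat.div_mul_le_self _ _)
  have he : p3 * a + p4 < a ^ 2 := by
    calc p3 * a + p4 < a * a := mlv_digit h3 h4
      _ = a ^ 2 := by ring
  have hj : (p1 * a + p2) * a ^ 2 + (p3 * a + p4) < a ^ 4 := by
    calc (p1 * a + p2) * a ^ 2 + (p3 * a + p4) < a * a * a ^ 2 := mlv_digit (mlv_digit h1 h2) he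
      _ = a ^ 4 := by ring
  have hj' : (p2 * a + p1) * a ^ 2 + (p3 * a + p4) < a ^ 4 := by
    calc (p2 * a + p1) * a ^ 2 + (p3 * a + p4) < a * a * a ^ 2 := mlv_digit (mlv_digit h2 h1) he
      _ = a ^ 4 := by ring
  have e1 : mlvI a g p1 p2 p3 p4 = g * a ^ 4 + ((p1 * a + p2) * a ^ 2 + (p3 * a + p4)) := by
    unfold mlvI
    ring
  have e2 : mlvI a g p2 p1 p3 p4 = g * a ^ 4 + ((p2 * a + p1) * a ^ 2 + (p3 * a + p4)) := by
    unfold mlvI
    ring
  rw [e1, e2, mlv_chunkF (by positivity) mlv_len_swap4 hd hK hj, mlv_swapF hlen h2 h1 he,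
    getD_blk _ hj']

theorem mlv_step3 {a M g p1 p2 p3 p4 : ℕ} (ha : 0 < a) {l : List Bool}
    (hl : l.length = M * a ^ 4) (hg : g < M) (h1 : p1 < a) (h2 : p2 < a) (h3 : p3 < a)
    (h4 : p4 < a) :
    (chunkF (a ^ 2) (transpose a) l).getD (mlvI a g p1 p2 p3 p4) false
      = l.getD (mlvI a g p1 p2 p4 p3) false := by
  have hd : a ^ 2 ∣ l.length := by
    rw [hl]
    exact Dvd.intro_left (M * a ^ 2) (by ring)
  have hK : (g * a + p1) * a + p2 < l.length / a ^ 2 := by
    have e : l.length / a ^ 2 = M * a * a := by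
      rw [hl, show M * a ^ 4 = M * a * a * a ^ 2 by ring, Nat.mul_div_cancel _ (by positivity)]
    rw [e]
    exact mlv_digit (mlv_digit hg h1) h2
  have hj : p3 * a + p4 < a ^ 2 := by
    calc p3 * a + p4 < a * a := mlv_digit h3 h4
      _ = a ^ 2 := by ring
  have hj' : p4 * a + p3 < a ^ 2 := by
    calc p4 * a + p3 < a * a := mlv_digit h4 h3
      _ = a ^ 2 := by ring
  have e1 : mlvI a g p1 p2 p3 p4 = ((g * a + p1) * a + p2) * a ^ 2 + (p3 * a + p4) := by
    unfold mlvI
    ring
  have e2 : mlvI a g p1 p2 p4 p3 = ((g * a + p1) * a + p2) * a ^ 2 + (p4 * a + p3) := by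
    unfold mlvI
    ring
  rw [e1, e2, mlv_chunkF (by positivity) mlv_len_tr hd hK hj, mlv_transpose _ h3 h4,
    getD_blk _ hj']

/-- the four operations together -/
theorem mlv_steps {a M g p1 p2 p3 p4 : ℕ} (ha : 0 < a) {l : List Bool}
    (hl : l.length = M * a ^ 4) (hg : g < M) (h1 : p1 < a) (h2 : p2 < a) (h3 : p3 < a)
    (h4 : p4 < a) :
    (chunkF (a ^ 3) (swapF a a) (chunkF (a ^ 2) (transpose a) (chunkF (a ^ 4) (swapF a (a ^ 2))
      (chunkF (a ^ 3) (swapF a a) l)))).getD (mlvI a g p1 p2 p3 p4) false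
      = l.getD (mlvI a g p3 p4 p1 p2) false := by
  have l1 := mlv_len1 ha hl
  have l2 := mlv_len2 ha l1
  have l3 := mlv_len3 ha l2
  rw [mlv_step1 ha l3 hg h1 h2 h3 h4, mlv_step3 ha l2 hg h1 h3 h2 h4,
    mlv_step2 ha l1 hg h1 h3 h4 h2, mlv_step1 ha hl hg h3 h1 h4 h2]

theorem mlv_unrifF {m E b i e : ℕ} {l : List Bool} (h : l.length = 2 * m * E) (hb : b < 2)
    (hi : i < m) (he : e < E) :
    (unrifF m E l).getD ((b * m + i) * E + e) false = l.getD ((2 * i + b) * E + e) false := by
  have hw : ∀ b < 2, ∀ i < m, (blk E l (2 * i + b)).length = E := by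
    intro b hb i hi
    apply length_blk
    rw [h]
    exact Nat.mul_le_mul_right E (by omega)
  have hw0 : ∀ i < m, (blk E l (2 * i)).length = E := hw 0 (by omega)
  have hw1 : ∀ i < m, (blk E l (2 * i + 1)).length = E := hw 1 (by omega)
  unfold unrifF
  have hl0 : (cat m fun i => blk E l (2 * i)).length = m * E := length_cat hw0
  rcases (show b = 0 ∨ b = 1 by omega) with rfl | rfl
  · have hlt : (0 * m + i) * E + e < m * E := by
      rw [zero_mul, zero_add]
      exact mlv_digit hi he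
    rw [List.getD_append _ _ _ _ (by rw [hl0]; exact hlt)]
    rw [zero_mul, zero_add, getD_cat hw0 hi he, getD_blk _ he, add_zero]
  · have e1 : (1 * m + i) * E + e = m * E + (i * E + e) := by ring
    rw [e1, List.getD_append_right _ _ _ _ (by rw [hl0]; omega), hl0, Nat.add_sub_cancel_left,
      getD_cat hw1 hi he, getD_blk _ he]

theorem mlv_len_unrifF {m E : ℕ} {l : List Bool} (h : l.length = 2 * m * E) :
    (unrifF m E l).length = 2 * m * E := by
  have hw : ∀ b < 2, ∀ i < m, (blk E l (2 * i + b)).length = E := by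
    intro b hb i hi
    apply length_blk
    rw [h]
    exact Nat.mul_le_mul_right E (by omega)
  have hw0 : ∀ i < m, (blk E l (2 * i)).length = E := hw 0 (by omega)
  have hw1 : ∀ i < m, (blk E l (2 * i + 1)).length = E := hw 1 (by omega)
  unfold unrifF
  rw [List.length_append, length_cat hw0, length_cat hw1]
  ring

theorem mlv_rifF {m E b i e : ℕ} {l : List Bool} (h : l.length = 2 * m * E) (hb : b < 2)
    (hi : i < m) (he : e < E) :
    (rifF m E l).getD ((2 * i + b) * E + e) false = l.getD ((b * m + i) * E + e) false := by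
  have hw1 : ∀ i < m, (blk E l i).length = E := by
    intro i hi
    apply length_blk
    rw [h]
    exact Nat.mul_le_mul_right E (by omega)
  have hw2 : ∀ i < m, (blk E l (m + i)).length = E := by
    intro i hi
    apply length_blk
    rw [h]
    exact Nat.mul_le_mul_right E (by omega)
  have hw : ∀ i < m, (blk E l i ++ blk E l (m + i)).length = 2 * E := by
    intro i hi
    rw [List.length_append, hw1 i hi, hw2 i hi]
    ring
  have e1 : (2 * i + b) * E + e = i * (2 * E) + (b * E + e) := by ring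
  unfold rifF
  rw [e1, getD_cat hw hi (mlv_digit hb he)]
  rcases (show b = 0 ∨ b = 1 by omega) with rfl | rfl
  · rw [zero_mul, zero_add, zero_mul, zero_add, List.getD_append _ _ _ _
      (by rw [hw1 i hi]; exact he), getD_blk _ he]
  · rw [one_mul, List.getD_append_right _ _ _ _ (by rw [hw1 i hi]; omega), hw1 i hi,
      Nat.add_sub_cancel_left, getD_blk _ he, one_mul]

theorem mlv_len_rifF {m E : ℕ} {l : List Bool} (h : l.length = 2 * m * E) :
    (rifF m E l).length = 2 * m * E := by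
  have hw1 : ∀ i < m, (blk E l i).length = E := by
    intro i hi
    apply length_blk
    rw [h]
    exact Nat.mul_le_mul_right E (by omega)
  have hw2 : ∀ i < m, (blk E l (m + i)).length = E := by
    intro i hi
    apply length_blk
    rw [h]
    exact Nat.mul_le_mul_right E (by omega)
  have hw : ∀ i < m, (blk E l i ++ blk E l (m + i)).length = 2 * E := by
    intro i hi
    rw [List.length_append, hw1 i hi, hw2 i hi]
    ring
  unfold rifF
  rw [length_cat hw]
  ring

theorem mlv_dm (P a : ℕ) : P = P / a * a + P % a := by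
  have := Nat.div_add_mod P a
  rw [mul_comm] at this
  exact this.symm

theorem mlv_even {a : ℕ} (ha : 0 < a) {x : List Bool} (hx : x.length = a ^ 4) :
    chunkF (a ^ 3) (swapF a a) (chunkF (a ^ 2) (transpose a) (chunkF (a ^ 4) (swapF a (a ^ 2))
      (chunkF (a ^ 3) (swapF a a) x))) = transpose (a ^ 2) x := by
  have hx1 : x.length = 1 * a ^ 4 := by rw [hx, one_mul]
  have l4 := mlv_len1 ha (mlv_len3 ha (mlv_len2 ha (mlv_len1 ha hx1)))
  apply mlv_ext
  · rw [l4, length_transpose]
    ring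
  · intro P hP
    rw [l4, one_mul] at hP
    have e : P = mlvI a 0 (P / a / a / a) (P / a / a % a) (P / a % a) (P % a) := by
      unfold mlvI
      rw [zero_mul, zero_add, ← mlv_dm, ← mlv_dm, ← mlv_dm]
    have h1 : P / a / a / a < a := by
      apply Nat.div_lt_of_lt_mul
      apply Nat.div_lt_of_lt_mul
      apply Nat.div_lt_of_lt_mul
      calc P < a ^ 4 := hP
        _ = a * (a * (a * a)) := by ring
    have h2 : P / a / a % a < a := Nat.mod_lt _ ha
    have h3 : P / a % a < a := Nat.mod_lt _ ha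
    have h4 : P % a < a := Nat.mod_lt _ ha
    rw [e, mlv_steps ha hx1 Nat.one_pos h1 h2 h3 h4]
    generalize P / a / a / a = p1 at *
    generalize P / a / a % a = p2 at *
    generalize P / a % a = p3 at *
    generalize P % a = p4 at *
    have e1 : mlvI a 0 p1 p2 p3 p4 = (p1 * a + p2) * a ^ 2 + (p3 * a + p4) := by
      unfold mlvI
      ring
    have e2 : mlvI a 0 p3 p4 p1 p2 = (p3 * a + p4) * a ^ 2 + (p1 * a + p2) := by
      unfold mlvI
      ring
    have f1 : p1 * a + p2 < a ^ 2 := by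
      rw [sq]
      exact mlv_digit h1 h2
    have f2 : p3 * a + p4 < a ^ 2 := by
      rw [sq]
      exact mlv_digit h3 h4
    rw [e1, e2, mlv_transpose _ f1 f2]

theorem mlv_odd {a : ℕ} (ha : 0 < a) {x : List Bool} (hx : x.length = 4 * a ^ 4) :
    chunkF (2 * a ^ 4) (rifF (a ^ 2) (a ^ 2)) (chunkF (a ^ 3) (swapF a a)
      (chunkF (a ^ 2) (transpose a) (chunkF (a ^ 4) (swapF a (a ^ 2))
        (chunkF (a ^ 3) (swapF a a) (chunkF (4 * a ^ 4) (unrifF (2 * a ^ 2) (a ^ 2)) x)))))
      = transpose (2 * a ^ 2) x := by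
  have hu : ∀ y : List Bool, y.length = 4 * a ^ 4 →
      (unrifF (2 * a ^ 2) (a ^ 2) y).length = 4 * a ^ 4 := by
    intro y hy
    rw [mlv_len_unrifF (by rw [hy]; ring)]
    ring
  have hr : ∀ y : List Bool, y.length = 2 * a ^ 4 →
      (rifF (a ^ 2) (a ^ 2) y).length = 2 * a ^ 4 := by
    intro y hy
    rw [mlv_len_rifF (by rw [hy]; ring)]
    ring
  have l0 : (chunkF (4 * a ^ 4) (unrifF (2 * a ^ 2) (a ^ 2)) x).length = 4 * a ^ 4 := by
    rw [length_chunkF (by positivity) hu (by rw [hx]), hx]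
  have l4 := mlv_len1 ha (mlv_len3 ha (mlv_len2 ha (mlv_len1 ha l0)))
  have l5 : (2 * a ^ 4) ∣ (chunkF (a ^ 3) (swapF a a)
      (chunkF (a ^ 2) (transpose a) (chunkF (a ^ 4) (swapF a (a ^ 2))
        (chunkF (a ^ 3) (swapF a a)
          (chunkF (4 * a ^ 4) (unrifF (2 * a ^ 2) (a ^ 2)) x))))).length := by
    rw [l4]
    exact Dvd.intro_left 2 (by ring)
  apply mlv_ext
  · rw [length_chunkF (by positivity) hr l5, l4, length_transpose]
    ring
  · intro P hP
    rw [length_chunkF (by positivity) hr l5, l4] at hP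
    have e : P = ((((P / a / a / 2 / a / a * a + P / a / a / 2 / a % a) * a + P / a / a / 2 % a)
        * 2 + P / a / a % 2) * a + P / a % a) * a + P % a := by
      rw [← mlv_dm, ← mlv_dm, ← mlv_dm, ← mlv_dm, ← mlv_dm]
    have h0 : P / a / a / 2 / a / a < 2 := by
      apply Nat.div_lt_of_lt_mul
      apply Nat.div_lt_of_lt_mul
      apply Nat.div_lt_of_lt_mul
      apply Nat.div_lt_of_lt_mul
      apply Nat.div_lt_of_lt_mul
      calc P < 4 * a ^ 4 := hP
        _ = a * (a * (2 * (a * (a * 2)))) := by ring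
    have h1 : P / a / a / 2 / a % a < a := Nat.mod_lt _ ha
    have h2 : P / a / a / 2 % a < a := Nat.mod_lt _ ha
    have hb : P / a / a % 2 < 2 := Nat.mod_lt _ (by omega)
    have h3 : P / a % a < a := Nat.mod_lt _ ha
    have h4 : P % a < a := Nat.mod_lt _ ha
    rw [e]
    generalize P / a / a / 2 / a / a = u at *
    generalize P / a / a / 2 / a % a = p1 at *
    generalize P / a / a / 2 % a = p2 at *
    generalize P / a / a % 2 = b at *
    generalize P / a % a = p3 at *
    generalize P % a = p4 at *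
    have f12 : p1 * a + p2 < a ^ 2 := by
      rw [sq]
      exact mlv_digit h1 h2
    have f34 : p3 * a + p4 < a ^ 2 := by
      rw [sq]
      exact mlv_digit h3 h4
    -- the last operation
    have e1 : ((((u * a + p1) * a + p2) * 2 + b) * a + p3) * a + p4
        = u * (2 * a ^ 4) + ((2 * (p1 * a + p2) + b) * a ^ 2 + (p3 * a + p4)) := by ring
    have hj : (2 * (p1 * a + p2) + b) * a ^ 2 + (p3 * a + p4) < 2 * a ^ 4 := by
      have h : 2 * (p1 * a + p2) + b < 2 * a ^ 2 := by omega
      calc (2 * (p1 * a + p2) + b) * a ^ 2 + (p3 * a + p4) < 2 * a ^ 2 * a ^ 2 := mlv_digit h f34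
        _ = 2 * a ^ 4 := by ring
    have hK : u < (chunkF (a ^ 3) (swapF a a)
        (chunkF (a ^ 2) (transpose a) (chunkF (a ^ 4) (swapF a (a ^ 2))
          (chunkF (a ^ 3) (swapF a a)
            (chunkF (4 * a ^ 4) (unrifF (2 * a ^ 2) (a ^ 2)) x))))).length / (2 * a ^ 4) := by
      rw [l4, show 4 * a ^ 4 = 2 * (2 * a ^ 4) by ring, Nat.mul_div_cancel _ (by positivity)]
      exact h0
    have hlen := length_blk (w := 2 * a ^ 4) (k := u) (l := chunkF (a ^ 3) (swapF a a)
        (chunkF (a ^ 2) (transpose a) (chunkF (a ^ 4) (swapF a (a ^ 2))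
          (chunkF (a ^ 3) (swapF a a)
            (chunkF (4 * a ^ 4) (unrifF (2 * a ^ 2) (a ^ 2)) x)))))
      ((Nat.mul_le_mul_right _ hK).trans (Nat.div_mul_le_self _ _))
    have hj' : (b * a ^ 2 + (p1 * a + p2)) * a ^ 2 + (p3 * a + p4) < 2 * a ^ 4 := by
      calc (b * a ^ 2 + (p1 * a + p2)) * a ^ 2 + (p3 * a + p4) < 2 * a ^ 2 * a ^ 2 :=
            mlv_digit (mlv_digit hb f12) f34
        _ = 2 * a ^ 4 := by ring
    have e2 : u * (2 * a ^ 4) + ((b * a ^ 2 + (p1 * a + p2)) * a ^ 2 + (p3 * a + p4))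
        = mlvI a (2 * u + b) p1 p2 p3 p4 := by
      unfold mlvI
      ring
    rw [e1, mlv_chunkF (by positivity) hr l5 hK hj,
      mlv_rifF (by rw [hlen]; ring) hb f12 f34, getD_blk _ hj', e2,
      mlv_steps ha l0 (by omega) h1 h2 h3 h4]
    -- the first operation
    have e3 : mlvI a (2 * u + b) p3 p4 p1 p2
        = 0 * (4 * a ^ 4) + ((u * (2 * a ^ 2) + ((b * a + p3) * a + p4)) * a ^ 2
          + (p1 * a + p2)) := by
      unfold mlvI
      ring
    have g1 : (b * a + p3) * a + p4 < 2 * a ^ 2 := by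
      calc (b * a + p3) * a + p4 < 2 * a * a := mlv_digit (mlv_digit hb h3) h4
        _ = 2 * a ^ 2 := by ring
    have g2 : (u * a + p1) * a + p2 < 2 * a ^ 2 := by
      calc (u * a + p1) * a + p2 < 2 * a * a := mlv_digit (mlv_digit h0 h1) h2
        _ = 2 * a ^ 2 := by ring
    have hj2 : (u * (2 * a ^ 2) + ((b * a + p3) * a + p4)) * a ^ 2 + (p1 * a + p2)
        < 4 * a ^ 4 := by
      calc (u * (2 * a ^ 2) + ((b * a + p3) * a + p4)) * a ^ 2 + (p1 * a + p2)
            < 2 * (2 * a ^ 2) * a ^ 2 := mlv_digit (mlv_digit h0 g1) f12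
        _ = 4 * a ^ 4 := by ring
    have hK0 : 0 < x.length / (4 * a ^ 4) := by
      rw [hx, Nat.div_self (by positivity)]
      exact Nat.one_pos
    have hlx : (blk (4 * a ^ 4) x 0).length = 4 * a ^ 4 := by
      apply length_blk
      rw [hx]
      omega
    have hj3 : (2 * ((b * a + p3) * a + p4) + u) * a ^ 2 + (p1 * a + p2) < 4 * a ^ 4 := by
      have h : 2 * ((b * a + p3) * a + p4) + u < 4 * a ^ 2 := by omega
      calc (2 * ((b * a + p3) * a + p4) + u) * a ^ 2 + (p1 * a + p2) < 4 * a ^ 2 * a ^ 2 :=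
            mlv_digit h f12
        _ = 4 * a ^ 4 := by ring
    rw [e3, mlv_chunkF (by positivity) hu (by rw [hx]) hK0 hj2,
      mlv_unrifF (by rw [hlx]; ring) h0 g1 f12, getD_blk _ hj3]
    -- the transpose
    have e4 : u * (2 * a ^ 4) + ((2 * (p1 * a + p2) + b) * a ^ 2 + (p3 * a + p4))
        = ((u * a + p1) * a + p2) * (2 * a ^ 2) + ((b * a + p3) * a + p4) := by ring
    have e5 : 0 * (4 * a ^ 4) + ((2 * ((b * a + p3) * a + p4) + u) * a ^ 2 + (p1 * a + p2))
        = ((b * a + p3) * a + p4) * (2 * a ^ 2) + ((u * a + p1) * a + p2) := by ring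
    rw [e4, e5, mlv_transpose _ g2 g1]

/-- one level -/
theorem level_eq {L : ℕ} (hL : 2 ≤ L) {x : List Bool} (hx : x.length = 4 ^ L) :
    upF L (chunkF (4 ^ (L / 2)) (transpose (2 ^ (L / 2))) (downF L x)) = transpose (2 ^ L) x := by
  have ha : 0 < 2 ^ (L / 2) := by positivity
  have h4 : 4 ^ (L / 2) = (2 ^ (L / 2)) ^ 2 := by
    rw [← pow_mul, mul_comm, pow_mul]
    norm_num
  unfold upF downF
  by_cases h : L % 2 = 1
  · rw [if_pos h, if_pos h, h4]
    have hLe : L = 2 * (L / 2) + 1 := by omega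
    have e1 : x.length = 4 * (2 ^ (L / 2)) ^ 4 := by
      rw [hx]
      conv_lhs => rw [hLe]
      rw [pow_succ, pow_mul, show (4 : ℕ) ^ 2 = 2 ^ 4 by norm_num, ← pow_mul, ← pow_mul,
        mul_comm 4 (L / 2)]
      ring
    have e2 : 2 ^ L = 2 * (2 ^ (L / 2)) ^ 2 := by
      conv_lhs => rw [hLe]
      rw [pow_succ, mul_comm 2 (L / 2), pow_mul]
      ring
    rw [e2]
    exact mlv_odd ha e1
  · rw [if_neg h, if_neg h, h4]
    have hLe : L = 2 * (L / 2) := by omega
    have e1 : x.length = (2 ^ (L / 2)) ^ 4 := by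
      rw [hx]
      conv_lhs => rw [hLe]
      rw [pow_mul, show (4 : ℕ) ^ 2 = 2 ^ 4 by norm_num, ← pow_mul, ← pow_mul,
        mul_comm 4 (L / 2)]
    have e2 : 2 ^ L = (2 ^ (L / 2)) ^ 2 := by
      conv_lhs => rw [hLe]
      rw [mul_comm 2 (L / 2), pow_mul]
    rw [e2]
    exact mlv_even ha e1

end Vale.Agent.P338
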