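import Vale.Agent.Lib.P338.MLists

/-!
# P338, module MNaive: transposition with `h` unshuffles

With `2 m` pieces, piece number `k` of `unrifF m E l` is the piece `2 k` of `l` for `k < m` and
the piece `2 (k - m) + 1` for `m ≤ k < 2 m`. For `2 m = 4 ^ h = 2 ^ (2 h)` the new piece with the
number `k` (binary digits `k_{2h-1} ... k_0`) is the old piece with the number
`k_{2h-2} ... k_0 k_{2h-1}`. After `t` steps the piece `k` is the old piece
`(k * 2 ^ t) % (4 ^ h) + (k * 2 ^ t) / 4 ^ h = (k * 2 ^ t) % (4 ^ h - 1)` (the last expression for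
`k < 4 ^ h - 1`). For `t = h` and `k = j * a + i`, `a = 2 ^ h`: `k * a = j * a ^ 2 + i * a`, so it is
the old piece `i * a + j`.
-/

namespace Vale.Agent.P338

/-- the permutation of the pieces -/
def mnSig (m k : ℕ) : ℕ := if k < m then 2 * k else 2 * (k - m) + 1

theorem mnSig_lt {m k : ℕ} (hk : k < 2 * m) : mnSig m k < 2 * m := by
  unfold mnSig
  split_ifs <;> omega

theorem mn_unrif_eq (m E : ℕ) (l : List Bool) :
    unrifF m E l = cat (m + m) (fun k => blk E l (mnSig m k)) := by
  rw [cat_add]
  unfold unrifF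
  congr 1
  · refine cat_congr fun i hi => ?_
    simp only [mnSig, if_pos hi]
  · refine cat_congr fun i _ => ?_
    have h1 : ¬ m + i < m := by omega
    simp only [mnSig, if_neg h1, Nat.add_sub_cancel_left]

theorem mn_length_blk {m E k : ℕ} {l : List Bool} (hl : l.length = 2 * m * E) (hk : k < 2 * m) :
    (blk E l k).length = E := by
  refine length_blk ?_
  rw [hl]
  exact Nat.mul_le_mul_right _ hk

theorem length_unrifF {m E : ℕ} {l : List Bool} (hl : l.length = 2 * m * E) :
    (unrifF m E l).length = l.length := by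
  rw [mn_unrif_eq, length_cat (w := E) fun i hi => mn_length_blk hl (mnSig_lt (by omega)), hl,
    two_mul]

theorem blk_unrifF {m E k : ℕ} {l : List Bool} (hl : l.length = 2 * m * E) (hk : k < 2 * m) :
    blk E (unrifF m E l) k = blk E l (if k < m then 2 * k else 2 * (k - m) + 1) := by
  rw [mn_unrif_eq, blk_cat (fun i hi => mn_length_blk hl (mnSig_lt (by omega))) (by omega)]
  rfl

theorem mn_rif_eq (m E : ℕ) (l : List Bool) :
    rifF m E l = cat (m * 2) (fun k => blk E l (if k % 2 = 0 then k / 2 else m + k / 2)) := by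
  have h := cat_cat m 2 (fun i c => blk E l (if c = 0 then i else m + i))
  rw [← h]
  unfold rifF
  refine cat_congr fun i _ => ?_
  rw [cat_succ, cat_one]
  simp

theorem mn_rif_lt {m k : ℕ} (hk : k < 2 * m) : (if k % 2 = 0 then k / 2 else m + k / 2) < 2 * m := by
  split_ifs <;> omega

theorem length_rifF {m E : ℕ} {l : List Bool} (hl : l.length = 2 * m * E) :
    (rifF m E l).length = l.length := by
  rw [mn_rif_eq, length_cat (w := E) fun i hi => mn_length_blk hl (mn_rif_lt (by omega)), hl,
    mul_comm m 2]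

theorem blk_rifF {m E k : ℕ} {l : List Bool} (hl : l.length = 2 * m * E) (hk : k < 2 * m) :
    blk E (rifF m E l) k = blk E l (if k % 2 = 0 then k / 2 else m + k / 2) := by
  rw [mn_rif_eq, blk_cat (fun i hi => mn_length_blk hl (mn_rif_lt (by omega))) (by omega)]

/-- iterated unshuffles -/
theorem mn_iter {m E : ℕ} {l : List Bool} (hl : l.length = 2 * m * E) (t : ℕ) :
    ((unrifF m E)^[t] l).length = l.length ∧
      ∀ k < 2 * m, blk E ((unrifF m E)^[t] l) k = blk E l ((mnSig m)^[t] k) := by
  induction t with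
  | zero => exact ⟨rfl, fun k _ => rfl⟩
  | succ t ih =>
    obtain ⟨h1, h2⟩ := ih
    rw [Function.iterate_succ_apply']
    have h3 : ((unrifF m E)^[t] l).length = 2 * m * E := by rw [h1, hl]
    refine ⟨by rw [length_unrifF h3, h1], fun k hk => ?_⟩
    rw [blk_unrifF h3 hk, Function.iterate_succ_apply]
    exact h2 _ (mnSig_lt hk)

/-- `t` steps rotate the binary digits by `t` places -/
theorem mn_rot {n m : ℕ} (hm : 2 * m = 2 ^ n) (t : ℕ) : t ≤ n → ∀ hi lo : ℕ, hi < 2 ^ t →
    lo < 2 ^ (n - t) → (mnSig m)^[t] (hi * 2 ^ (n - t) + lo) = lo * 2 ^ t + hi := by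
  induction t with
  | zero =>
    intro _ hi lo hhi _
    have h1 : hi = 0 := by
      rw [pow_zero] at hhi
      omega
    subst h1
    simp
  | succ t ih =>
    intro ht hi lo hhi hlo
    obtain ⟨P, hP⟩ : ∃ P, P = 2 ^ (n - (t + 1)) := ⟨_, rfl⟩
    obtain ⟨T, hT⟩ : ∃ T, T = 2 ^ t := ⟨_, rfl⟩
    have hP2 : 2 ^ (n - t) = 2 * P := by
      rw [hP, ← pow_succ']
      congr 1
      omega
    have hT2 : 2 ^ (t + 1) = 2 * T := by rw [hT, pow_succ']
    have hmPT : m = P * T := by
      have h1 : 2 ^ n = 2 * (P * T) := by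
        have h2 : n = (n - t) + t := by omega
        calc 2 ^ n = 2 ^ ((n - t) + t) := by rw [← h2]
          _ = 2 ^ (n - t) * 2 ^ t := pow_add _ _ _
          _ = 2 * (P * T) := by rw [hP2, ← hT, mul_assoc]
      omega
    rw [← hP] at hlo ⊢
    rw [hT2] at hhi ⊢
    have h1 := ih (by omega) (hi / 2) ((hi % 2) * P + lo) (by rw [← hT]; omega) (by
      rw [hP2]
      rcases Nat.mod_two_eq_zero_or_one hi with h | h <;> rw [h] <;> omega)
    rw [hP2, ← hT] at h1
    have h2 : hi * P + lo = hi / 2 * (2 * P) + ((hi % 2) * P + lo) := by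
      have h3 : hi = 2 * (hi / 2) + hi % 2 := (Nat.div_add_mod hi 2).symm
      calc hi * P + lo = (2 * (hi / 2) + hi % 2) * P + lo := by rw [← h3]
        _ = _ := by ring
    rw [h2, Function.iterate_succ_apply', h1]
    have h4 : lo * T + hi / 2 < P * T := by
      calc lo * T + hi / 2 < lo * T + T := by omega
        _ = (lo + 1) * T := by ring
        _ ≤ P * T := Nat.mul_le_mul_right _ hlo
    rw [← hmPT] at h4
    rcases Nat.mod_two_eq_zero_or_one hi with h | h
    · rw [h, zero_mul, zero_add, mnSig, if_pos h4]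
      have h5 : hi = 2 * (hi / 2) := by omega
      calc 2 * (lo * T + hi / 2) = lo * (2 * T) + 2 * (hi / 2) := by ring
        _ = lo * (2 * T) + hi := by rw [← h5]
    · have h6 : (1 * P + lo) * T + hi / 2 = m + (lo * T + hi / 2) := by
        rw [hmPT]
        ring
      have h7 : ¬ m + (lo * T + hi / 2) < m := by omega
      rw [h, h6, mnSig, if_neg h7, Nat.add_sub_cancel_left]
      have h5 : hi = 2 * (hi / 2) + 1 := by omega
      calc 2 * (lo * T + hi / 2) + 1 = lo * (2 * T) + (2 * (hi / 2) + 1) := by ring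
        _ = lo * (2 * T) + hi := by rw [← h5]

theorem naive_eq {a h E : ℕ} (ha : a = 2 ^ h) {l : List Bool} (hl : l.length = a * a * E) :
    (unrifF (a * a / 2) E)^[h] l = swapF a E l := by
  rcases Nat.eq_zero_or_pos h with rfl | hpos
  · have ha1 : a = 1 := by rw [ha, pow_zero]
    subst ha1
    refine ext_blk (n := 1) (w := E) (by simpa using hl) ?_ ?_
    · rw [length_swapF hl]
      simpa using hl
    · intro k hk
      have hk0 : k = 0 := by omega
      subst hk0
      have h1 := blk_swapF (i := 0) (j := 0) hl (by norm_num) (by norm_num)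
      simpa using h1.symm
  · obtain ⟨m, hm⟩ : ∃ m, m = a * a / 2 := ⟨_, rfl⟩
    have haa : a * a = 2 ^ (2 * h) := by
      rw [ha, ← pow_add, two_mul]
    have hm2 : 2 * m = 2 ^ (2 * h) := by
      have h1 : 2 ^ (2 * h) = 2 * 2 ^ (2 * h - 1) := by
        rw [← pow_succ']
        congr 1
        omega
      rw [hm, haa, h1, Nat.mul_div_cancel_left _ (by norm_num)]
    have hl2 : l.length = 2 * m * E := by rw [hl, hm2, haa]
    obtain ⟨h1, h2⟩ := mn_iter hl2 h
    rw [← hm]
    have ha0 : 0 < a := by
      rw [ha]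
      exact pow_pos (by norm_num) _
    refine ext_blk (n := a * a) (w := E) (by rw [h1, hl]) (by rw [length_swapF hl, hl]) ?_
    intro k hk
    have hi : k % a < a := Nat.mod_lt _ ha0
    have hj : k / a < a := Nat.div_lt_of_lt_mul hk
    have hkeq : k / a * a + k % a = k := by
      rw [mul_comm]
      exact Nat.div_add_mod k a
    have h3 := blk_swapF hl hi hj
    rw [hkeq] at h3
    rw [h3, h2 k (by rw [hm2, ← haa]; exact hk)]
    have h4 : 2 * h - h = h := by omega
    have h5 := mn_rot hm2 h (by omega) (k / a) (k % a) (by rw [← ha]; exact hj)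
      (by rw [h4, ← ha]; exact hi)
    rw [h4, ← ha, hkeq] at h5
    rw [h5]

end Vale.Agent.P338
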