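import Mathlib

/-!
# P338, module MRing: the identity behind the transposition (Bluestein's trick)

`P = 2 ^ (2 a) - 1`, `a = 2 ^ h`, `h ≥ 1`. In `ZMod P` the element `2` satisfies
`2 ^ (2 a) = 1`, so `2 ^ e` depends only on `e` modulo `2 a`; write `w e` for `2 ^ e`, `e : ℤ`
(e.g. as a unit, or `2 ^ (e % (2 a)).toNat`).

Cyclic convolution: `y k = ∑ r < a, 2 ^ g r * x ((k + a - 1 - r) % a)` with `g r ≡ (r + 1) ^ 2`
modulo `2 a`. Since `a` is even, `(t + a) ^ 2 ≡ t ^ 2` modulo `2 a`, therefore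
`y k = ∑ s < a, w ((k - s) ^ 2) * x s` (put `s = (k + a - 1 - r) % a`, a bijection of `range a`;
`r + 1 ≡ k - s` modulo `a`).

1. `x s = w (- s ^ 2) * X s`: `y k = ∑ s, w (k ^ 2 - 2 k s) * X s`.
2. times `w (- 2 k ^ 2 + 2 k j)`: `∑ s, w (- k ^ 2 + 2 k j - 2 k s) * X s`.
3. convolution again: `z m = ∑ k, w ((m - k) ^ 2 - k ^ 2 + 2 k j) * ∑ s, w (- 2 k s) * X s
   = w (m ^ 2) * ∑ s, X s * ∑ k < a, w (2 k (j - m - s))`.
4. `∑ k < a, 4 ^ (k d) * X s = 0` in `ZMod P` if `a` does not divide `d`, because `2 ^ a - 1`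
   divides `X s` and `2 ^ a + 1` divides `∑ k < a, 4 ^ (k d)` for `d > 0` not divisible by `a`:
   with `d = 2 ^ i * odd`, `i < h`, and `∑ k < 2 ^ h, y ^ k = ∏ i < h, (1 + y ^ (2 ^ i))`
   the factor `1 + 4 ^ (d * 2 ^ (h - 1 - i)) = 1 + (2 ^ a) ^ odd` is divisible by `2 ^ a + 1`.
   If `a` divides `d` the sum is `a = 2 ^ h`.
5. Hence `w (- m ^ 2 - h) * z m = X ((j + a - m) % a)`.
-/

namespace Vale.Agent.P338

private theorem MRing_geom_prod (y h : ℕ) :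
    ∑ k ∈ Finset.range (2 ^ h), y ^ k = ∏ i ∈ Finset.range h, (1 + y ^ (2 ^ i)) := by
  induction h with
  | zero => simp
  | succ h ih =>
    rw [Finset.prod_range_succ, ← ih, pow_succ, mul_two, Finset.sum_range_add]
    simp_rw [pow_add]
    rw [← Finset.mul_sum]
    ring

/-- the geometric sum times a multiple of `2 ^ a - 1` -/
theorem geom_mod {h : ℕ} (d : ℕ) (hd : ¬ 2 ^ h ∣ d) (X : ℕ) (hX : 2 ^ (2 ^ h) - 1 ∣ X) :
    (∑ k ∈ Finset.range (2 ^ h), 4 ^ (k * d)) * X ≡ 0 [MOD 2 ^ (2 * 2 ^ h) - 1] := by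
  have hd0 : d ≠ 0 := by
    rintro rfl
    exact hd (dvd_zero _)
  obtain ⟨i, e, he, hde⟩ := Nat.exists_eq_two_pow_mul_odd hd0
  have hi : i < h := by
    by_contra hc
    push Not at hc
    apply hd
    rw [hde]
    exact (pow_dvd_pow 2 hc).mul_right e
  have h1 : ∑ k ∈ Finset.range (2 ^ h), 4 ^ (k * d) =
      ∏ i ∈ Finset.range h, (1 + (4 ^ d) ^ (2 ^ i)) := by
    rw [← MRing_geom_prod]
    refine Finset.sum_congr rfl (fun k _ => ?_)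
    rw [← pow_mul, mul_comm]
  have h2 : 2 ^ (2 ^ h) + 1 ∣ ∏ i ∈ Finset.range h, (1 + (4 ^ d) ^ (2 ^ i)) := by
    refine dvd_trans ?_ (Finset.dvd_prod_of_mem _
      (Finset.mem_range.2 (show h - 1 - i < h by omega)))
    have h3 : ((4 : ℕ) ^ d) ^ (2 ^ (h - 1 - i)) = (2 ^ (2 ^ h)) ^ e := by
      rw [show (4:ℕ) = 2 ^ 2 by norm_num, ← pow_mul, ← pow_mul, ← pow_mul]
      congr 1
      rw [hde]
      have h5 : 2 ^ h = 2 * 2 ^ i * 2 ^ (h - 1 - i) := by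
        rw [← pow_succ', ← pow_add]
        congr 1
        omega
      rw [h5]
      ring
    rw [h3]
    have := he.nat_add_dvd_pow_add_pow (2 ^ (2 ^ h)) 1
    rw [one_pow] at this
    rw [add_comm 1]
    exact this
  have h4 : 2 ^ (2 * 2 ^ h) - 1 = (2 ^ (2 ^ h) + 1) * (2 ^ (2 ^ h) - 1) := by
    have h5 := Nat.sq_sub_sq (2 ^ (2 ^ h)) 1
    rw [one_pow, ← pow_mul] at h5
    rw [mul_comm 2, h5]
  rw [h4, Nat.modEq_zero_iff_dvd, h1]
  exact Nat.mul_dvd_mul h2 hX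

section blu

variable {R : Type*} [CommRing R]

private theorem MRing_w_congr {a : ℕ} {u : Rˣ} (hu : u ^ (2 * a) = 1) {e e' : ℤ}
    (h : e ≡ e' [ZMOD (2 * a : ℕ)]) : u ^ e = u ^ e' := by
  obtain ⟨c, hc⟩ := h.symm.dvd
  have h1 : e = e' + (2 * a : ℕ) * c := by linarith
  rw [h1, zpow_add, zpow_mul, zpow_natCast, hu, one_zpow, mul_one]

private theorem MRing_sq {a : ℕ} (ha : 2 ∣ a) {x y c : ℤ} (h : x = y + a * c) :
    x ^ 2 ≡ y ^ 2 [ZMOD (2 * a : ℕ)] := by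
  obtain ⟨b, hb⟩ := ha
  rw [Int.modEq_iff_dvd]
  refine ⟨-(c * y + b * c ^ 2), ?_⟩
  have hb' : (a : ℤ) = 2 * b := by exact_mod_cast hb
  rw [h]
  push_cast
  rw [hb']
  ring

private theorem MRing_mod_sub {a k r : ℕ} (hk : k < a) (hr : r < a) :
    ∃ c : ℤ, (k : ℤ) - ((k + a - 1 - r) % a : ℕ) = (r + 1) + a * c := by
  rcases Nat.lt_or_ge r k with h | h
  · have h1 : (k + a - 1 - r) % a = k - 1 - r := by
      have : k + a - 1 - r = (k - 1 - r) + a := by omega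
      rw [this, Nat.add_mod_right, Nat.mod_eq_of_lt (by omega)]
    refine ⟨0, ?_⟩
    rw [h1]
    omega
  · have h1 : (k + a - 1 - r) % a = k + a - 1 - r := Nat.mod_eq_of_lt (by omega)
    refine ⟨-1, ?_⟩
    rw [h1]
    omega

private theorem MRing_mod_invol {a k r : ℕ} (hk : k < a) (hr : r < a) :
    (k + a - 1 - (k + a - 1 - r) % a) % a = r := by
  rcases Nat.lt_or_ge r k with h | h
  · have h1 : (k + a - 1 - r) % a = k - 1 - r := by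
      have : k + a - 1 - r = (k - 1 - r) + a := by omega
      rw [this, Nat.add_mod_right, Nat.mod_eq_of_lt (by omega)]
    rw [h1]
    have : k + a - 1 - (k - 1 - r) = r + a := by omega
    rw [this, Nat.add_mod_right, Nat.mod_eq_of_lt hr]
  · have h1 : (k + a - 1 - r) % a = k + a - 1 - r := Nat.mod_eq_of_lt (by omega)
    rw [h1]
    have : k + a - 1 - (k + a - 1 - r) = r := by omega
    rw [this, Nat.mod_eq_of_lt hr]

private theorem MRing_conv {a : ℕ} (ha : 2 ∣ a) {u : Rˣ} (hu : u ^ (2 * a) = 1) (g : ℕ → ℕ)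
    (hg : ∀ r < a, (g r : ℤ) ≡ ((r : ℤ) + 1) ^ 2 [ZMOD (2 * a : ℕ)]) (F : ℕ → R) {k : ℕ}
    (hk : k < a) :
    ∑ r ∈ Finset.range a, ((u ^ (g r : ℤ) : Rˣ) : R) * F ((k + a - 1 - r) % a) =
      ∑ s ∈ Finset.range a, ((u ^ (((k : ℤ) - s) ^ 2) : Rˣ) : R) * F s := by
  refine Finset.sum_nbij' (fun r => (k + a - 1 - r) % a) (fun s => (k + a - 1 - s) % a) ?_ ?_ ?_
    ?_ ?_
  · intro r _
    exact Finset.mem_range.2 (Nat.mod_lt _ (by omega))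
  · intro r _
    exact Finset.mem_range.2 (Nat.mod_lt _ (by omega))
  · intro r hr
    exact MRing_mod_invol hk (Finset.mem_range.1 hr)
  · intro r hr
    exact MRing_mod_invol hk (Finset.mem_range.1 hr)
  · intro r hr
    have hr' := Finset.mem_range.1 hr
    obtain ⟨c, hc⟩ := MRing_mod_sub hk hr'
    have h1 : u ^ (g r : ℤ) = u ^ (((k : ℤ) - ((k + a - 1 - r) % a : ℕ)) ^ 2) :=
      MRing_w_congr hu ((hg r hr').trans (MRing_sq ha hc).symm)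
    rw [h1]

end blu

theorem bluestein {a h j m : ℕ} (hh : 1 ≤ h) (ha : a = 2 ^ h) (hj : j < a) (hm : m < a)
    (X t0 t1 t2 g : ℕ → ℕ) (hX : ∀ s < a, 2 ^ a - 1 ∣ X s)
    (h0 : ∀ s < a, (t0 s : ℤ) ≡ -(s : ℤ) ^ 2 [ZMOD (2 * a : ℕ)])
    (h1 : ∀ k < a, (t1 k : ℤ) ≡ -2 * (k : ℤ) ^ 2 + 2 * k * j [ZMOD (2 * a : ℕ)])
    (h2 : ∀ m < a, (t2 m : ℤ) ≡ -(m : ℤ) ^ 2 - h [ZMOD (2 * a : ℕ)])
    (hg : ∀ r < a, (g r : ℤ) ≡ ((r : ℤ) + 1) ^ 2 [ZMOD (2 * a : ℕ)]) :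
    2 ^ t2 m * ∑ r ∈ Finset.range a, 2 ^ g r *
      (2 ^ t1 ((m + a - 1 - r) % a) * ∑ r' ∈ Finset.range a, 2 ^ g r' *
        (2 ^ t0 (((m + a - 1 - r) % a + a - 1 - r') % a) *
          X (((m + a - 1 - r) % a + a - 1 - r') % a))) ≡
      X ((j + a - m) % a) [MOD 2 ^ (2 * a) - 1] := by
  have ha2 : 2 ∣ a := by
    rw [ha]
    exact dvd_pow_self 2 (by omega)
  have ha0 : 0 < a := by omega
  have hpow : (2 : ZMod (2 ^ (2 * a) - 1)) ^ (2 * a) = 1 := by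
    have h3 : ((2 ^ (2 * a) - 1 : ℕ) : ZMod (2 ^ (2 * a) - 1)) = 0 := ZMod.natCast_self _
    rw [Nat.cast_sub Nat.one_le_two_pow] at h3
    push_cast at h3
    exact sub_eq_zero.1 h3
  obtain ⟨u, hu2⟩ : ∃ u : (ZMod (2 ^ (2 * a) - 1))ˣ, (u : ZMod (2 ^ (2 * a) - 1)) = 2 :=
    ⟨Units.ofPowEqOne 2 (2 * a) hpow (by omega), rfl⟩
  have hu : u ^ (2 * a) = 1 := by
    ext
    rw [Units.val_pow_eq_pow_val, hu2, hpow, Units.val_one]
  have hw : ∀ t : ℕ, (2 : ZMod (2 ^ (2 * a) - 1)) ^ t = ((u ^ (t : ℤ) :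
      (ZMod (2 ^ (2 * a) - 1))ˣ) : ZMod (2 ^ (2 * a) - 1)) := by
    intro t
    rw [zpow_natCast, Units.val_pow_eq_pow_val, hu2]
  rw [← ZMod.natCast_eq_natCast_iff]
  push_cast
  simp_rw [hw]
  -- inner convolution
  have e1 : ∀ k < a, ∑ r' ∈ Finset.range a, ((u ^ (g r' : ℤ) :
      (ZMod (2 ^ (2 * a) - 1))ˣ) : ZMod (2 ^ (2 * a) - 1)) *
        (((u ^ (t0 ((k + a - 1 - r') % a) : ℤ) : (ZMod (2 ^ (2 * a) - 1))ˣ) :
          ZMod (2 ^ (2 * a) - 1)) * (X ((k + a - 1 - r') % a) : ZMod (2 ^ (2 * a) - 1))) =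
      ∑ s ∈ Finset.range a, ((u ^ (((k : ℤ) - s) ^ 2) : (ZMod (2 ^ (2 * a) - 1))ˣ) :
        ZMod (2 ^ (2 * a) - 1)) * (((u ^ (t0 s : ℤ) : (ZMod (2 ^ (2 * a) - 1))ˣ) :
          ZMod (2 ^ (2 * a) - 1)) * (X s : ZMod (2 ^ (2 * a) - 1))) := by
    intro k hk
    exact MRing_conv ha2 hu g hg (fun s => ((u ^ (t0 s : ℤ) : (ZMod (2 ^ (2 * a) - 1))ˣ) :
          ZMod (2 ^ (2 * a) - 1)) * (X s : ZMod (2 ^ (2 * a) - 1))) hk
  have e2 := MRing_conv ha2 hu g hg (fun k => ((u ^ (t1 k : ℤ) : (ZMod (2 ^ (2 * a) - 1))ˣ) :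
      ZMod (2 ^ (2 * a) - 1)) * ∑ r' ∈ Finset.range a, ((u ^ (g r' : ℤ) :
      (ZMod (2 ^ (2 * a) - 1))ˣ) : ZMod (2 ^ (2 * a) - 1)) *
        (((u ^ (t0 ((k + a - 1 - r') % a) : ℤ) : (ZMod (2 ^ (2 * a) - 1))ˣ) :
          ZMod (2 ^ (2 * a) - 1)) * (X ((k + a - 1 - r') % a) : ZMod (2 ^ (2 * a) - 1)))) hm
  rw [e2]
  have e3 : ∀ k ∈ Finset.range a, ∀ s ∈ Finset.range a,
      u ^ (t2 m : ℤ) * (u ^ (((m : ℤ) - k) ^ 2) * (u ^ (t1 k : ℤ) *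
        (u ^ (((k : ℤ) - s) ^ 2) * u ^ (t0 s : ℤ)))) =
      u ^ (-(h : ℤ)) * u ^ (2 * (k : ℤ) * ((j : ℤ) + 2 * a - m - s)) := by
    intro k hk s hs
    rw [MRing_w_congr hu (h2 m hm), MRing_w_congr hu (h1 k (Finset.mem_range.1 hk)),
      MRing_w_congr hu (h0 s (Finset.mem_range.1 hs)), ← zpow_add, ← zpow_add, ← zpow_add,
      ← zpow_add, ← zpow_add]
    apply MRing_w_congr hu
    rw [Int.modEq_iff_dvd]
    refine ⟨2 * k, ?_⟩
    push_cast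
    ring
  have e4 : ((u ^ (t2 m : ℤ) : (ZMod (2 ^ (2 * a) - 1))ˣ) : ZMod (2 ^ (2 * a) - 1)) *
      ∑ k ∈ Finset.range a, ((u ^ (((m : ℤ) - k) ^ 2) : (ZMod (2 ^ (2 * a) - 1))ˣ) :
        ZMod (2 ^ (2 * a) - 1)) * (((u ^ (t1 k : ℤ) : (ZMod (2 ^ (2 * a) - 1))ˣ) :
      ZMod (2 ^ (2 * a) - 1)) * ∑ r' ∈ Finset.range a, ((u ^ (g r' : ℤ) :
      (ZMod (2 ^ (2 * a) - 1))ˣ) : ZMod (2 ^ (2 * a) - 1)) *
        (((u ^ (t0 ((k + a - 1 - r') % a) : ℤ) : (ZMod (2 ^ (2 * a) - 1))ˣ) :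
          ZMod (2 ^ (2 * a) - 1)) * (X ((k + a - 1 - r') % a) : ZMod (2 ^ (2 * a) - 1)))) =
      ∑ s ∈ Finset.range a, ((u ^ (-(h : ℤ)) : (ZMod (2 ^ (2 * a) - 1))ˣ) :
        ZMod (2 ^ (2 * a) - 1)) * ((∑ k ∈ Finset.range a,
          ((u ^ (2 * (k : ℤ) * ((j : ℤ) + 2 * a - m - s)) : (ZMod (2 ^ (2 * a) - 1))ˣ) :
            ZMod (2 ^ (2 * a) - 1))) * (X s : ZMod (2 ^ (2 * a) - 1))) := by
    rw [Finset.mul_sum]
    simp_rw [Finset.sum_mul, Finset.mul_sum (Finset.range a) _ (((u ^ (-(h : ℤ)) : (ZMod (2 ^ (2 * a) - 1))ˣ) :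
        ZMod (2 ^ (2 * a) - 1)))]
    rw [Finset.sum_comm]
    refine Finset.sum_congr rfl (fun k hk => ?_)
    rw [e1 k (Finset.mem_range.1 hk), Finset.mul_sum, Finset.mul_sum, Finset.mul_sum]
    refine Finset.sum_congr rfl (fun s hs => ?_)
    have h3 := congrArg (fun x : (ZMod (2 ^ (2 * a) - 1))ˣ => (x : ZMod (2 ^ (2 * a) - 1)))
      (e3 k hk s hs)
    simp only [Units.val_mul] at h3
    rw [← mul_assoc, ← mul_assoc, ← mul_assoc, ← mul_assoc, ← mul_assoc]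
    rw [← mul_assoc, ← mul_assoc, ← mul_assoc] at h3
    rw [h3]
  rw [e4]
  have e5 : ∀ s ∈ Finset.range a, s ≠ (j + a - m) % a →
      ((u ^ (-(h : ℤ)) : (ZMod (2 ^ (2 * a) - 1))ˣ) :
        ZMod (2 ^ (2 * a) - 1)) * ((∑ k ∈ Finset.range a,
          ((u ^ (2 * (k : ℤ) * ((j : ℤ) + 2 * a - m - s)) : (ZMod (2 ^ (2 * a) - 1))ˣ) :
            ZMod (2 ^ (2 * a) - 1))) * (X s : ZMod (2 ^ (2 * a) - 1))) = 0 := by
    intro s hs hne
    have hs' := Finset.mem_range.1 hs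
    have h3 : ¬ 2 ^ h ∣ (j + 2 * a - m - s) := by
      rw [← ha]
      intro hdvd
      apply hne
      obtain ⟨c, hc⟩ := hdvd
      have h4 : j + a - m + a = s + a * c := by omega
      have h5 : (j + a - m + a) % a = (s + a * c) % a := by rw [h4]
      rw [Nat.add_mod_right, Nat.add_mul_mod_self_left, Nat.mod_eq_of_lt hs'] at h5
      exact h5.symm
    have h4 := geom_mod (h := h) (j + 2 * a - m - s) h3 (X s) (by rw [← ha]; exact hX s hs')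
    rw [← ha, ← ZMod.natCast_eq_natCast_iff] at h4
    push_cast at h4
    have h5 : ∀ k ∈ Finset.range a,
        ((u ^ (2 * (k : ℤ) * ((j : ℤ) + 2 * a - m - s)) : (ZMod (2 ^ (2 * a) - 1))ˣ) :
            ZMod (2 ^ (2 * a) - 1)) = 4 ^ (k * (j + 2 * a - m - s)) := by
      intro k _
      have h6 : (2 * (k : ℤ) * ((j : ℤ) + 2 * a - m - s)) =
          ((2 * (k * (j + 2 * a - m - s)) : ℕ) : ℤ) := by
        have h7 : ((j + 2 * a - m - s : ℕ) : ℤ) = (j : ℤ) + 2 * a - m - s := by omega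
        push_cast [h7]
        ring
      have h8 : (4 : ZMod (2 ^ (2 * a) - 1)) = 2 ^ 2 := by norm_num
      rw [h6, ← hw, h8, ← pow_mul]
    rw [Finset.sum_congr rfl h5, h4, mul_zero]
  rw [Finset.sum_eq_single ((j + a - m) % a) e5
    (fun hn => absurd (Finset.mem_range.2 (Nat.mod_lt _ ha0)) hn)]
  have e6 : ∀ k ∈ Finset.range a,
      ((u ^ (2 * (k : ℤ) * ((j : ℤ) + 2 * a - m - ((j + a - m) % a : ℕ))) :
        (ZMod (2 ^ (2 * a) - 1))ˣ) : ZMod (2 ^ (2 * a) - 1)) = 1 := by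
    intro k _
    have h3 : u ^ (2 * (k : ℤ) * ((j : ℤ) + 2 * a - m - ((j + a - m) % a : ℕ))) = u ^ (0 : ℤ) := by
      apply MRing_w_congr hu
      rw [Int.modEq_iff_dvd]
      have h4 := Nat.div_add_mod (j + a - m) a
      have h5 : ((j + a - m : ℕ) : ℤ) = (j : ℤ) + a - m := by omega
      have h6 : (j : ℤ) + 2 * a - m - ((j + a - m) % a : ℕ) =
          a * (((j + a - m) / a : ℕ) : ℤ) + a := by
        have h7 : ((a * ((j + a - m) / a) + (j + a - m) % a : ℕ) : ℤ) = (j : ℤ) + a - m := by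
          rw [h4, h5]
        push_cast at h7
        push_cast
        linarith
      rw [h6]
      refine ⟨-(k * ((((j + a - m) / a : ℕ) : ℤ) + 1)), ?_⟩
      push_cast
      ring
    rw [h3]
    simp
  rw [Finset.sum_congr rfl e6, Finset.sum_const, Finset.card_range, nsmul_eq_mul, mul_one,
    ← mul_assoc]
  have e7 : (a : ZMod (2 ^ (2 * a) - 1)) = ((u ^ (h : ℤ) : (ZMod (2 ^ (2 * a) - 1))ˣ) :
      ZMod (2 ^ (2 * a) - 1)) := by
    rw [← hw]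
    have h3 : ((a : ℕ) : ZMod (2 ^ (2 * a) - 1)) = ((2 ^ h : ℕ) : ZMod (2 ^ (2 * a) - 1)) :=
      congrArg _ ha
    rw [h3]
    push_cast
    rfl
  rw [e7, ← Units.val_mul, ← zpow_add, neg_add_cancel, zpow_zero, Units.val_one, one_mul]

end Vale.Agent.P338
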