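import Vale.Agent.Lib.P338.MConv
import Vale.Agent.Lib.P338.MEac
import Vale.Agent.Lib.P338.MRing

/-!
# P338, module MOp: `opF` transposes

Put `n = q * a ^ 2` (number of slots), the slot number of row `i`, cell `j`, entry `e` is
`(i * a + j) * q + e`. Let `D = shearP a (q * a) l`, `x i j e` the `a`-bit entry
`blk a D ((i * a + j) * q + e)`, and `X i j e = (val (x i j e) + 1) * (2 ^ a - 1)` the value of the
encoded slot (`blk_encodeF`, `val_slot`), `X < 2 ^ (2 a)`.

Bounds for the slot values: `2 a` (encode), `4 a` (shift by `tau0 ≤ 2 a`), `7 a` (`mulFold_lt`),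
`9 a`, `12 a`, `14 a` bits. So all shifts are without overflow (`val_shl`) and `mulFold_slots`
applies twice. The value of the final slot `(m, j, e)` is
`2 ^ tau2 m * ∑ r, 2 ^ g r * (2 ^ tau1 k j * ∑ r', 2 ^ g r' * (2 ^ tau0 s * X s j e))` with
`k = (m + a - 1 - r) % a`, `s = (k + a - 1 - r') % a`, which is congruent to
`X ((j + a - m) % a) j e` modulo `2 ^ (2 a) - 1` by `bluestein`. By `decode1_eq` the entry `(m, j, e)` of
the decoded string is `x ((j + a - m) % a) j e` (`bin_val`). In terms of cells of `E = q * a` bits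
(`blk_blk`; a cell consists of `q` entries, `ext_blk`): cell `(m, j)` of the decoded string is cell
`((j + a - m) % a, j)` of `D`, which is the cell
`((j + a - m) % a, (j + a - (j + a - m) % a) % a) = ((j + a - m) % a, m)` of `l` (`blk_shearP`).
Finally the cell `(m, c)` of the result is the cell `(m, (c + m) % a)` of the decoded string
(`blk_shearM`), i.e. the cell `(c, m)` of `l`; this is the cell `(m, c)` of `swapF`
(`blk_swapF`).
-/

namespace Vale.Agent.P338

/-- slots are numbered by row, cell and entry -/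
theorem MOp_slots {a q : ℕ} {P : ℕ → Prop} (ha : 1 ≤ a) (hq : 1 ≤ q)
    (h : ∀ i < a, ∀ j < a, ∀ e < q, P ((i * a + j) * q + e)) : ∀ n < q * a ^ 2, P n := by
  intro n hn
  have h1 : n / q < a * a := by
    rw [Nat.div_lt_iff_lt_mul hq]
    calc n < q * a ^ 2 := hn
      _ = a * a * q := by ring
  have h2 := h (n / q / a) (Nat.div_lt_of_lt_mul h1) (n / q % a) (Nat.mod_lt _ ha) (n % q)
    (Nat.mod_lt _ hq)
  rw [Nat.div_add_mod' (n / q) a, Nat.div_add_mod' n q] at h2
  exact h2

theorem MOp_slot_lt {a q i j e : ℕ} (hi : i < a) (hj : j < a) (he : e < q) :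
    (i * a + j) * q + e < q * a ^ 2 := by
  have h1 : i * a + j + 1 ≤ a * a := by
    calc i * a + j + 1 ≤ i * a + a := by omega
      _ = (i + 1) * a := by ring
      _ ≤ a * a := Nat.mul_le_mul_right a hi
  calc (i * a + j) * q + e < (i * a + j) * q + q := by omega
    _ = (i * a + j + 1) * q := by ring
    _ ≤ (a * a) * q := Nat.mul_le_mul_right q h1
    _ = q * a ^ 2 := by ring

/-- the length of a slot -/
theorem MOp_len {a q n : ℕ} {l : List Bool} (hl : l.length = 14 * (q * a ^ 3))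
    (hn : n < q * a ^ 2) : (blk (14 * a) l n).length = 14 * a := by
  apply length_blk
  rw [hl]
  calc (n + 1) * (14 * a) ≤ (q * a ^ 2) * (14 * a) := Nat.mul_le_mul_right _ hn
    _ = 14 * (q * a ^ 3) := by ring

/-- a shift of all the slots -/
theorem MOp_shift {a q b : ℕ} {τ : ℕ → ℕ → ℕ} {l : List Bool}
    (hτ : ∀ i < a, ∀ j < a, τ i j ≤ 2 * a) (hb : b + 2 * a ≤ 14 * a)
    (hl : l.length = 14 * (q * a ^ 3))
    (hv : ∀ n < q * a ^ 2, val (blk (14 * a) l n) < 2 ^ b) {i j e : ℕ}
    (hi : i < a) (hj : j < a) (he : e < q) :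
    val (blk (14 * a) (shiftF a q τ l) ((i * a + j) * q + e)) =
      2 ^ τ i j * val (blk (14 * a) l ((i * a + j) * q + e)) ∧
    val (blk (14 * a) (shiftF a q τ l) ((i * a + j) * q + e)) < 2 ^ (b + 2 * a) := by
  have hn := MOp_slot_lt hi hj he
  have hlen := MOp_len hl hn
  have hτ' : ∀ i < a, ∀ j < a, τ i j ≤ 14 * a := fun i hi j hj => (hτ i hi j hj).trans (by omega)
  have h1 : val (blk (14 * a) l ((i * a + j) * q + e)) * 2 ^ τ i j < 2 ^ (b + 2 * a) := by
    calc val (blk (14 * a) l ((i * a + j) * q + e)) * 2 ^ τ i j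
        ≤ val (blk (14 * a) l ((i * a + j) * q + e)) * 2 ^ (2 * a) :=
          Nat.mul_le_mul_left _ (Nat.pow_le_pow_right (by norm_num) (hτ i hi j hj))
      _ < 2 ^ b * 2 ^ (2 * a) := Nat.mul_lt_mul_of_pos_right (hv _ hn) (by positivity)
      _ = 2 ^ (b + 2 * a) := by rw [pow_add]
  rw [blk_shiftF hτ' hl hi hj he, val_shl (by rw [hlen]; exact hτ' i hi j hj)
    (by rw [hlen]; exact h1.trans_le (Nat.pow_le_pow_right (by norm_num) hb))]
  exact ⟨mul_comm _ _, h1⟩

/-- the entries after decoding -/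
theorem MOp_entry {a q h : ℕ} (hh : 1 ≤ h) (ha : a = 2 ^ h) (hq : 1 ≤ q) {D : List Bool}
    (hD : D.length = q * a ^ 3) {m j e : ℕ} (hm : m < a) (hj : j < a) (he : e < q) :
    blk a (decodeF a (q * a ^ 2) (shiftF a q (tau2 a h)
    (mulFold (14 * (q * a ^ 3)) (shiftF a q (tau1 a)
      (mulFold (14 * (q * a ^ 3)) (shiftF a q (tau0 a) (encodeF a (q * a ^ 2)
        D)) (GF a q))) (GF a q)))) ((m * a + j) * q + e) =
      blk a D (((j + a - m) % a * a + j) * q + e) := by
  have ha2 : 2 ≤ a := by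
    rw [ha]
    calc 2 = 2 ^ 1 := rfl
      _ ≤ 2 ^ h := Nat.pow_le_pow_right (by norm_num) hh
  have hha : h ≤ 2 * a := by
    have : h < 2 ^ h := Nat.lt_two_pow_self
    omega
  have hD' : D.length = q * a ^ 2 * a := by rw [hD]; ring
  have ht0 : ∀ i < a, ∀ j < a, tau0 a i j ≤ 2 * a := fun i _ j _ => tau0_le ha2 i j
  have ht1 : ∀ i < a, ∀ j < a, tau1 a i j ≤ 2 * a := fun i _ j _ => tau1_le ha2 i j
  have ht2 : ∀ i < a, ∀ j < a, tau2 a h i j ≤ 2 * a := fun i _ j _ => tau2_le ha2 hha i j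
  have w14 : ∀ {τ : ℕ → ℕ → ℕ}, (∀ i < a, ∀ j < a, τ i j ≤ 2 * a) →
      ∀ i < a, ∀ j < a, τ i j ≤ 14 * a := fun hτ i hi j hj => (hτ i hi j hj).trans (by omega)
  set e0 := encodeF a (q * a ^ 2) D with he0
  have le0 : e0.length = 14 * (q * a ^ 3) := by
    rw [he0, length_encodeF hD']; ring
  set s0 := shiftF a q (tau0 a) e0 with hs0
  have ls0 : s0.length = 14 * (q * a ^ 3) := length_shiftF (w14 ht0) le0
  set m1 := mulFold (14 * (q * a ^ 3)) s0 (GF a q) with hm1
  have lm1 : m1.length = 14 * (q * a ^ 3) := length_mulFold _ _ _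
  set s1 := shiftF a q (tau1 a) m1 with hs1
  have ls1 : s1.length = 14 * (q * a ^ 3) := length_shiftF (w14 ht1) lm1
  set m2 := mulFold (14 * (q * a ^ 3)) s1 (GF a q) with hm2
  have lm2 : m2.length = 14 * (q * a ^ 3) := length_mulFold _ _ _
  set s2 := shiftF a q (tau2 a h) m2 with hs2
  have ls2 : s2.length = 14 * (q * a ^ 3) := length_shiftF (w14 ht2) lm2
  -- entries
  have hx : ∀ n < q * a ^ 2, (blk a D n).length = a := by
    intro n hn
    apply length_blk
    rw [hD']
    exact Nat.mul_le_mul_right _ hn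
  have ve0 : ∀ n < q * a ^ 2, val (blk (14 * a) e0 n) = (val (blk a D n) + 1) * (2 ^ a - 1) := by
    intro n hn
    rw [he0, blk_encodeF hD' hn, val_slot, hx n hn]
  have be0 : ∀ n < q * a ^ 2, val (blk (14 * a) e0 n) < 2 ^ (2 * a) := by
    intro n hn
    rw [ve0 n hn]
    have h1 : val (blk a D n) < 2 ^ a := by
      have := val_lt (blk a D n)
      rwa [hx n hn] at this
    have h2 : 0 < 2 ^ a := by positivity
    calc (val (blk a D n) + 1) * (2 ^ a - 1) ≤ 2 ^ a * (2 ^ a - 1) := Nat.mul_le_mul_right _ h1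
      _ < 2 ^ a * 2 ^ a := Nat.mul_lt_mul_of_pos_left (by omega) h2
      _ = 2 ^ (2 * a) := by rw [← pow_add]; congr 1; ring
  have vs0 : ∀ i < a, ∀ j < a, ∀ e < q, val (blk (14 * a) s0 ((i * a + j) * q + e)) =
      2 ^ tau0 a i j * val (blk (14 * a) e0 ((i * a + j) * q + e)) := fun i hi j hj e he =>
    (MOp_shift ht0 (by omega) le0 be0 hi hj he).1
  have bs0 : ∀ n < q * a ^ 2, val (blk (14 * a) s0 n) < 2 ^ (4 * a) := by
    refine MOp_slots (by omega) hq fun i hi j hj e he => ?_
    have := (MOp_shift ht0 (by omega) le0 be0 hi hj he).2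
    rwa [show 2 * a + 2 * a = 4 * a by ring] at this
  have vm1 : ∀ i < a, ∀ j < a, ∀ e < q, val (blk (14 * a) m1 ((i * a + j) * q + e)) =
      ∑ r ∈ Finset.range a, 2 ^ tauG a r 0 *
        val (blk (14 * a) s0 (((i + a - 1 - r) % a * a + j) * q + e)) := fun i hi j hj e he =>
    mulFold_slots ha2 hq (by omega) ls0 bs0 hi hj he
  have bm1 : ∀ n < q * a ^ 2, val (blk (14 * a) m1 n) < 2 ^ (7 * a) := by
    intro n hn
    have := mulFold_lt ha2 hq (by omega) ls0 bs0 n hn
    rwa [show 4 * a + 3 * a = 7 * a by ring] at this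
  have vs1 : ∀ i < a, ∀ j < a, ∀ e < q, val (blk (14 * a) s1 ((i * a + j) * q + e)) =
      2 ^ tau1 a i j * val (blk (14 * a) m1 ((i * a + j) * q + e)) := fun i hi j hj e he =>
    (MOp_shift ht1 (by omega) lm1 bm1 hi hj he).1
  have bs1 : ∀ n < q * a ^ 2, val (blk (14 * a) s1 n) < 2 ^ (9 * a) := by
    refine MOp_slots (by omega) hq fun i hi j hj e he => ?_
    have := (MOp_shift ht1 (by omega) lm1 bm1 hi hj he).2
    rwa [show 7 * a + 2 * a = 9 * a by ring] at this
  have vm2 : ∀ i < a, ∀ j < a, ∀ e < q, val (blk (14 * a) m2 ((i * a + j) * q + e)) =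
      ∑ r ∈ Finset.range a, 2 ^ tauG a r 0 *
        val (blk (14 * a) s1 (((i + a - 1 - r) % a * a + j) * q + e)) := fun i hi j hj e he =>
    mulFold_slots ha2 hq (by omega) ls1 bs1 hi hj he
  have bm2 : ∀ n < q * a ^ 2, val (blk (14 * a) m2 n) < 2 ^ (12 * a) := by
    intro n hn
    have := mulFold_lt ha2 hq (by omega) ls1 bs1 n hn
    rwa [show 9 * a + 3 * a = 12 * a by ring] at this
  have vs2 : ∀ i < a, ∀ j < a, ∀ e < q, val (blk (14 * a) s2 ((i * a + j) * q + e)) =
      2 ^ tau2 a h i j * val (blk (14 * a) m2 ((i * a + j) * q + e)) := fun i hi j hj e he =>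
    (MOp_shift ht2 (by omega) lm2 bm2 hi hj he).1
  -- the value of the final slot
  have hmodlt : ∀ t : ℕ, t % a < a := fun t => Nat.mod_lt _ (by omega)
  have hval : val (blk (14 * a) s2 ((m * a + j) * q + e)) =
      2 ^ tau2 a h m j * ∑ r ∈ Finset.range a, 2 ^ tauG a r 0 *
      (2 ^ tau1 a ((m + a - 1 - r) % a) j * ∑ r' ∈ Finset.range a, 2 ^ tauG a r' 0 *
        (2 ^ tau0 a (((m + a - 1 - r) % a + a - 1 - r') % a) j *
          ((val (blk a D (((((m + a - 1 - r) % a + a - 1 - r') % a) * a + j) * q + e)) + 1) *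
            (2 ^ a - 1)))) := by
    rw [vs2 m hm j hj e he, vm2 m hm j hj e he]
    congr 1
    refine Finset.sum_congr rfl fun r _ => ?_
    congr 1
    rw [vs1 _ (hmodlt _) j hj e he, vm1 _ (hmodlt _) j hj e he]
    congr 1
    refine Finset.sum_congr rfl fun r' _ => ?_
    congr 1
    rw [vs0 _ (hmodlt _) j hj e he, ve0 _ (MOp_slot_lt (hmodlt _) hj he)]
  have hbl := bluestein (h := h) hh ha hj hm
    (fun s => (val (blk a D ((s * a + j) * q + e)) + 1) * (2 ^ a - 1))
    (fun s => tau0 a s j) (fun k => tau1 a k j) (fun m => tau2 a h m j) (fun r => tauG a r 0)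
    (fun s _ => Dvd.intro_left _ rfl) (fun s _ => tau0_mod ha2 s j)
    (fun k _ => tau1_mod ha2 k j) (fun m _ => tau2_mod ha2 hha m j)
    (fun r _ => tauG_mod ha2 r 0)
  have hslot := MOp_slot_lt (q := q) (hmodlt (j + a - m)) hj he
  have hvlt : val (blk a D (((j + a - m) % a * a + j) * q + e)) < 2 ^ a := by
    have := val_lt (blk a D (((j + a - m) % a * a + j) * q + e))
    rwa [hx _ hslot] at this
  have hdec : decode1 a (blk (14 * a) s2 ((m * a + j) * q + e)) =
      bin a (val (blk a D (((j + a - m) % a * a + j) * q + e))) := by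
    refine decode1_eq (by omega) hvlt (MOp_len ls2 (MOp_slot_lt hm hj he)) ?_
    rw [hval]
    exact hbl
  have hbv : bin a (val (blk a D (((j + a - m) % a * a + j) * q + e))) =
      blk a D (((j + a - m) % a * a + j) * q + e) := by
    have := bin_val (blk a D (((j + a - m) % a * a + j) * q + e))
    rwa [hx _ hslot] at this
  unfold decodeF
  rw [blk_cat (fun i hi => length_decode1 (MOp_len ls2 hi)) (MOp_slot_lt hm hj he), hdec, hbv]

theorem opF_eq {a q h : ℕ} (hh : 1 ≤ h) (ha : a = 2 ^ h) (hq : 1 ≤ q) {l : List Bool}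
    (hl : l.length = q * a ^ 3) : opF a q h l = swapF a (q * a) l := by
  have ha2 : 2 ≤ a := by
    rw [ha]
    calc 2 = 2 ^ 1 := rfl
      _ ≤ 2 ^ h := Nat.pow_le_pow_right (by norm_num) hh
  have hha : h ≤ 2 * a := by
    have : h < 2 ^ h := Nat.lt_two_pow_self
    omega
  have hl' : l.length = a * a * (q * a) := by rw [hl]; ring
  have hD : (shearP a (q * a) l).length = q * a ^ 3 := by rw [length_shearP hl', hl]
  have hD' : (shearP a (q * a) l).length = a * a * (q * a) := by rw [hD]; ring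
  unfold opF
  set D := shearP a (q * a) l with hDdef
  have hent : ∀ m < a, ∀ j < a, ∀ e < q, _ := fun m hm j hj e he =>
    MOp_entry hh ha hq hD hm hj he
  set Z := decodeF a (q * a ^ 2) (shiftF a q (tau2 a h)
    (mulFold (14 * (q * a ^ 3)) (shiftF a q (tau1 a)
      (mulFold (14 * (q * a ^ 3)) (shiftF a q (tau0 a) (encodeF a (q * a ^ 2)
        D)) (GF a q))) (GF a q))) with hZ
  have hZlen : Z.length = a * a * (q * a) := by
    have h2 : (shiftF a q (tau2 a h)
      (mulFold (14 * (q * a ^ 3)) (shiftF a q (tau1 a)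
      (mulFold (14 * (q * a ^ 3)) (shiftF a q (tau0 a) (encodeF a (q * a ^ 2)
        D)) (GF a q))) (GF a q))).length = 14 * (q * a ^ 3) :=
      length_shiftF (fun i _ j _ => (tau2_le ha2 hha i j).trans (by omega)) (length_mulFold _ _ _)
    rw [hZ]
    unfold decodeF
    rw [length_cat (w := a) (fun i hi => length_decode1 (MOp_len h2 hi))]
    ring
  -- cells of the decoded string
  have hcell_lt : ∀ i < a, ∀ j < a, i * a + j < a * a := by
    intro i hi j hj
    calc i * a + j < i * a + a := by omega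
      _ = (i + 1) * a := by ring
      _ ≤ a * a := Nat.mul_le_mul_right a hi
  have hlenc : ∀ {x : List Bool}, x.length = a * a * (q * a) → ∀ k < a * a,
      (blk (q * a) x k).length = q * a := by
    intro x hx k hk
    apply length_blk
    rw [hx]
    exact Nat.mul_le_mul_right _ hk
  have hmodlt : ∀ t : ℕ, t % a < a := fun t => Nat.mod_lt _ (by omega)
  have hcell : ∀ m < a, ∀ j < a, blk (q * a) Z (m * a + j) =
      blk (q * a) l ((j + a - m) % a * a + m) := by
    intro m hm j hj
    have h1 : blk (q * a) Z (m * a + j) = blk (q * a) D ((j + a - m) % a * a + j) := by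
      refine ext_blk (n := q) (w := a) (hlenc hZlen _ (hcell_lt m hm j hj))
        (hlenc hD' _ (hcell_lt _ (hmodlt _) j hj)) fun e he => ?_
      rw [blk_blk _ he, blk_blk _ he]
      exact hent m hm j hj e he
    rw [h1, hDdef, blk_shearP hl' (hmodlt _) hj]
    congr 2
    rcases le_or_gt m j with h3 | h3
    · have h4 : (j + a - m) % a = j - m := by
        rw [show j + a - m = j - m + a by omega, Nat.add_mod_right, Nat.mod_eq_of_lt (by omega)]
      rw [h4, show j + a - (j - m) = m + a by omega, Nat.add_mod_right, Nat.mod_eq_of_lt hm]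
    · have h4 : (j + a - m) % a = j + a - m := Nat.mod_eq_of_lt (by omega)
      rw [h4, show j + a - (j + a - m) = m by omega, Nat.mod_eq_of_lt hm]
  refine ext_blk (n := a * a) (w := q * a) (by rw [length_shearM hZlen, hZlen])
    (by rw [length_swapF hl', hl']) fun k hk => ?_
  have hk1 : k / a < a := Nat.div_lt_of_lt_mul hk
  have hk2 : k % a < a := hmodlt k
  rw [← Nat.div_add_mod' k a, blk_shearM hZlen hk1 hk2, blk_swapF hl' hk2 hk1,
    hcell _ hk1 _ (hmodlt _)]
  congr 3
  generalize k / a = m at hk1 ⊢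
  generalize k % a = c at hk2 ⊢
  rcases le_or_gt a (c + m) with h3 | h3
  · have h4 : (c + m) % a = c + m - a := by
      rw [Nat.mod_eq_sub_mod h3, Nat.mod_eq_of_lt (by omega)]
    rw [h4, show c + m - a + a - m = c by omega, Nat.mod_eq_of_lt hk2]
  · have h4 : (c + m) % a = c + m := Nat.mod_eq_of_lt h3
    rw [h4, show c + m + a - m = c + a by omega, Nat.add_mod_right, Nat.mod_eq_of_lt hk2]

end Vale.Agent.P338
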