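import Vale.Agent.Lib.P338.MLists

/-!
# P338, module MPad: matrices of arbitrary size

Compare the bits: the bit of `padF n m x` at `i * m + j` (`i, j < m`) is the bit of `x` at
`i * n + j` if `i, j < n` and `false` otherwise.
-/

namespace Vale.Agent.P338

private theorem mpad_ext {l l' : List Bool} (h : l.length = l'.length)
    (hb : ∀ k < l.length, l.getD k false = l'.getD k false) : l = l' := by
  apply List.ext_getElem h
  intro k h1 h2
  have h3 := hb k h1
  rw [List.getD_eq_getElem _ _ h1, List.getD_eq_getElem _ _ h2] at h3
  exact h3

private theorem mpad_row {n m : ℕ} (h : n ≤ m) {x : List Bool} (hx : x.length = n * n) :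
    ∀ i < n, (blk n x i ++ List.replicate (m - n) false).length = m := by
  intro i hi
  have h1 : (i + 1) * n ≤ x.length := by
    rw [hx]
    exact Nat.mul_le_mul_right _ hi
  rw [List.length_append, length_blk h1, List.length_replicate]
  omega

theorem length_padF {n m : ℕ} (h : n ≤ m) {x : List Bool} (hx : x.length = n * n) :
    (padF n m x).length = m * m := by
  unfold padF
  rw [List.length_append, length_cat (mpad_row h hx), List.length_replicate, ← add_mul]
  congr 1
  omega

private theorem mpad_transpose (n : ℕ) (x : List Bool) {i j : ℕ} (hi : i < n) (hj : j < n) :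
    (transpose n x).getD (i * n + j) false = x.getD (j * n + i) false := by
  have h1 : i * n + j < n * n := by
    calc i * n + j < i * n + n := by omega
      _ = (i + 1) * n := by ring
      _ ≤ n * n := Nat.mul_le_mul_right _ hi
  have h2 : (i * n + j) % n = j := by
    rw [Nat.mul_add_mod_self_right, Nat.mod_eq_of_lt hj]
  have h3 : (i * n + j) / n = i := by
    rw [Nat.add_comm, Nat.add_mul_div_right _ _ (by omega), Nat.div_eq_of_lt hj, Nat.zero_add]
  unfold transpose
  rw [List.getD_eq_getElem _ _ (by simpa using h1)]
  simp only [List.getElem_map, List.getElem_range]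
  rw [h2, h3]

private theorem mpad_length (n : ℕ) (x : List Bool) : (transpose n x).length = n * n := by
  simp [transpose]

private theorem mpad_get {n m : ℕ} (h : n ≤ m) {x : List Bool} (hx : x.length = n * n) {i j : ℕ}
    (hi : i < n) (hj : j < n) : (padF n m x).getD (i * m + j) false = x.getD (i * n + j) false := by
  have hlen := length_cat (mpad_row h hx)
  have h1 : i * m + j < n * m := by
    calc i * m + j < i * m + m := by omega
      _ = (i + 1) * m := by ring
      _ ≤ n * m := Nat.mul_le_mul_right _ hi
  unfold padF
  rw [List.getD_append _ _ _ _ (by rw [hlen]; exact h1),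
    getD_cat (mpad_row h hx) hi (by omega)]
  have h2 : (i + 1) * n ≤ x.length := by
    rw [hx]
    exact Nat.mul_le_mul_right _ hi
  rw [List.getD_append _ _ _ _ (by rw [length_blk h2]; exact hj), getD_blk _ hj]

theorem unpad_transpose_pad {n m : ℕ} (h : n ≤ m) {x : List Bool} (hx : x.length = n * n) :
    unpadF n m (transpose m (padF n m x)) = transpose n x := by
  have hy : (transpose m (padF n m x)).length = m * m := mpad_length m _
  have hrow : ∀ i < n, ((blk m (transpose m (padF n m x)) i).take n).length = n := by
    intro i hi
    have h1 : (i + 1) * m ≤ (transpose m (padF n m x)).length := by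
      rw [hy]
      exact Nat.mul_le_mul_right _ (by omega)
    rw [List.length_take, length_blk h1]
    omega
  have hlen : (unpadF n m (transpose m (padF n m x))).length = n * n := by
    unfold unpadF
    exact length_cat hrow
  apply mpad_ext
  · rw [hlen, mpad_length]
  · intro t ht
    rw [hlen] at ht
    have hn : 0 < n := Nat.pos_of_ne_zero (by
      rintro rfl
      simp at ht)
    have hk : t / n < n := Nat.div_lt_of_lt_mul ht
    have hj : t % n < n := Nat.mod_lt _ hn
    have e : t = t / n * n + t % n := by
      rw [mul_comm]
      exact (Nat.div_add_mod t n).symm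
    generalize t / n = k at hk e
    generalize t % n = j at hj e
    subst e
    rw [mpad_transpose n x hk hj]
    unfold unpadF
    rw [getD_cat hrow hk hj]
    have h1 : ((blk m (transpose m (padF n m x)) k).take n).getD j false =
        (blk m (transpose m (padF n m x)) k).getD j false := by
      simp only [List.getD_eq_getElem?_getD]
      rw [List.getElem?_take_of_lt hj]
    rw [h1, getD_blk _ (by omega), mpad_transpose m _ (by omega) (by omega), mpad_get h hx hj hk]

end Vale.Agent.P338
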