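import Vale.Agent.Lib.P338.MLevel

/-!
# P338, module MRec: the recursion transposes

Prove `recF_eq` by strong induction on `L`. `L = 0`: chunks of one bit. `L = 1`: `base4F`. For
`L ≥ 2` all functions in `downF`, `recF (L / 2)` (by the induction hypothesis, it is
`chunkF (4 ^ (L / 2)) (transpose (2 ^ (L / 2)))`) and `upF` are chunk operations whose chunk size
divides `4 ^ L`; by `chunkF_chunkF`, `chunkF_comp`, `chunkF_congr` their composition is
`chunkF (4 ^ L) (fun x => upF L (chunkF _ _ (downF L x)))`; use `level_eq`.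
-/

namespace Vale.Agent.P338

namespace MRec

/-- chunk operations -/
structure IsCh (C : ℕ) (F : List Bool → List Bool) : Prop where
  len : ∀ l : List Bool, C ∣ l.length → (F l).length = l.length
  eq : ∀ l : List Bool, C ∣ l.length → chunkF C F l = F l

theorem isCh_id {C : ℕ} : IsCh C fun l => l where
  len := fun _ _ => rfl
  eq := by
    intro l hl
    obtain ⟨n, hn⟩ := hl
    unfold chunkF
    rcases Nat.eq_zero_or_pos C with h | h
    · subst h
      rw [Nat.zero_mul] at hn
      rw [Nat.div_zero, cat_zero]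
      exact (List.eq_nil_of_length_eq_zero hn).symm
    · rw [hn, Nat.mul_div_cancel_left _ h]
      exact cat_blk (by rw [hn, Nat.mul_comm])

theorem isCh_chunkF {c C : ℕ} {f : List Bool → List Bool} (hc : 0 < c) (hC : 0 < C) (hd : c ∣ C)
    (hf : ∀ x : List Bool, x.length = c → (f x).length = c) : IsCh C (chunkF c f) where
  len := fun _ hl => length_chunkF hc hf (hd.trans hl)
  eq := by
    intro l hl
    obtain ⟨m, hm⟩ := hd
    rw [Nat.mul_comm] at hm
    subst hm
    exact chunkF_chunkF hc (Nat.pos_of_mul_pos_right hC) hf hl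

theorem isCh_comp {C : ℕ} {F G : List Bool → List Bool} (hC : 0 < C) (hF : IsCh C F)
    (hG : IsCh C G) : IsCh C fun l => F (G l) where
  len := by
    intro l hl
    have h1 := hG.len l hl
    rw [hF.len _ (by rw [h1]; exact hl), h1]
  eq := by
    intro l hl
    have h1 := hG.len l hl
    have hlen : ∀ x : List Bool, x.length = C → (G x).length = C := by
      intro x hx
      rw [hG.len x (by rw [hx]), hx]
    rw [← chunkF_comp hC hlen hl, hG.eq l hl, hF.eq _ (by rw [h1]; exact hl)]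

theorem four_pow_even {L : ℕ} (h : L % 2 = 0) : 4 ^ L = (2 ^ (L / 2)) ^ 4 := by
  rw [← pow_mul, show (4 : ℕ) = 2 ^ 2 by norm_num, ← pow_mul]
  congr 1
  omega

theorem four_pow_odd {L : ℕ} (h : L % 2 = 1) : 4 ^ L = 4 * (2 ^ (L / 2)) ^ 4 := by
  have h1 : (4 : ℕ) * (2 ^ (L / 2)) ^ 4 = 2 ^ (2 + L / 2 * 4) := by
    rw [pow_add, pow_mul]
    norm_num
  rw [h1, show (4 : ℕ) = 2 ^ 2 by norm_num, ← pow_mul]
  congr 1
  omega

theorem dvd4 (L : ℕ) : (2 ^ (L / 2)) ^ 4 ∣ 4 ^ L := by
  rcases Nat.mod_two_eq_zero_or_one L with h | h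
  · rw [four_pow_even h]
  · rw [four_pow_odd h]
    exact Nat.dvd_mul_left _ _

theorem dvd3 (L : ℕ) : (2 ^ (L / 2)) ^ 3 ∣ 4 ^ L :=
  (pow_dvd_pow _ (by norm_num)).trans (dvd4 L)

theorem pos_a (L : ℕ) : 0 < 2 ^ (L / 2) := by positivity

theorem isCh_swap3 (L : ℕ) :
    IsCh (4 ^ L) (chunkF ((2 ^ (L / 2)) ^ 3) (swapF (2 ^ (L / 2)) (2 ^ (L / 2)))) := by
  refine isCh_chunkF (by positivity) (by positivity) (dvd3 L) fun x hx => ?_
  rw [length_swapF (by rw [hx]; ring), hx]

theorem isCh_swap4 (L : ℕ) :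
    IsCh (4 ^ L) (chunkF ((2 ^ (L / 2)) ^ 4) (swapF (2 ^ (L / 2)) ((2 ^ (L / 2)) ^ 2))) := by
  refine isCh_chunkF (by positivity) (by positivity) (dvd4 L) fun x hx => ?_
  rw [length_swapF (by rw [hx]; ring), hx]

theorem isCh_unrif {L : ℕ} (h : L % 2 = 1) :
    IsCh (4 ^ L) (chunkF (4 * (2 ^ (L / 2)) ^ 4)
      (unrifF (2 * (2 ^ (L / 2)) ^ 2) ((2 ^ (L / 2)) ^ 2))) := by
  refine isCh_chunkF (by positivity) (by positivity) (by rw [four_pow_odd h]) fun x hx => ?_
  rw [length_unrifF (by rw [hx]; ring), hx]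

theorem isCh_rif {L : ℕ} (h : L % 2 = 1) :
    IsCh (4 ^ L) (chunkF (2 * (2 ^ (L / 2)) ^ 4)
      (rifF ((2 ^ (L / 2)) ^ 2) ((2 ^ (L / 2)) ^ 2))) := by
  refine isCh_chunkF (by positivity) (by positivity) ?_ fun x hx => ?_
  · rw [four_pow_odd h]
    exact ⟨2, by ring⟩
  · rw [length_rifF (by rw [hx]; ring), hx]

theorem isCh_down (L : ℕ) : IsCh (4 ^ L) (downF L) := by
  have hC : 0 < 4 ^ L := by positivity
  rcases Nat.mod_two_eq_zero_or_one L with h | h
  · have e : downF L = fun l => chunkF ((2 ^ (L / 2)) ^ 4)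
        (swapF (2 ^ (L / 2)) ((2 ^ (L / 2)) ^ 2))
        (chunkF ((2 ^ (L / 2)) ^ 3) (swapF (2 ^ (L / 2)) (2 ^ (L / 2))) l) := by
      funext l
      unfold downF
      rw [if_neg (by omega)]
    rw [e]
    exact isCh_comp hC (isCh_swap4 L) (isCh_swap3 L)
  · have e : downF L = fun l => chunkF ((2 ^ (L / 2)) ^ 4)
        (swapF (2 ^ (L / 2)) ((2 ^ (L / 2)) ^ 2))
        (chunkF ((2 ^ (L / 2)) ^ 3) (swapF (2 ^ (L / 2)) (2 ^ (L / 2)))
        (chunkF (4 * (2 ^ (L / 2)) ^ 4)
          (unrifF (2 * (2 ^ (L / 2)) ^ 2) ((2 ^ (L / 2)) ^ 2)) l)) := by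
      funext l
      unfold downF
      rw [if_pos h]
    rw [e]
    exact isCh_comp hC (isCh_swap4 L) (isCh_comp hC (isCh_swap3 L) (isCh_unrif h))

theorem isCh_up (L : ℕ) : IsCh (4 ^ L) (upF L) := by
  have hC : 0 < 4 ^ L := by positivity
  rcases Nat.mod_two_eq_zero_or_one L with h | h
  · have e : upF L = fun l =>
        chunkF ((2 ^ (L / 2)) ^ 3) (swapF (2 ^ (L / 2)) (2 ^ (L / 2))) l := by
      funext l
      unfold upF
      rw [if_neg (by omega)]
    rw [e]
    exact isCh_swap3 L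
  · have e : upF L = fun l => chunkF (2 * (2 ^ (L / 2)) ^ 4)
        (rifF ((2 ^ (L / 2)) ^ 2) ((2 ^ (L / 2)) ^ 2))
        (chunkF ((2 ^ (L / 2)) ^ 3) (swapF (2 ^ (L / 2)) (2 ^ (L / 2))) l) := by
      funext l
      unfold upF
      rw [if_pos h]
    rw [e]
    exact isCh_comp hC (isCh_rif h) (isCh_swap3 L)

theorem length_tr {h : ℕ} {x : List Bool} (_hx : x.length = 4 ^ h) :
    (transpose (2 ^ h) x).length = 4 ^ h := by
  rw [length_transpose, ← mul_pow]
  norm_num

theorem isCh_tr (L : ℕ) : IsCh (4 ^ L) (chunkF (4 ^ (L / 2)) (transpose (2 ^ (L / 2)))) :=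
  isCh_chunkF (by positivity) (by positivity) (pow_dvd_pow _ (Nat.div_le_self _ _))
    fun _ hx => length_tr hx

theorem list_one {x : List Bool} (hx : x.length = 1) : transpose (2 ^ 0) x = x := by
  match x, hx with
  | [b], _ => rfl

theorem list_four {x : List Bool} (hx : x.length = 4) : base4F x = transpose (2 ^ 1) x := by
  match x, hx with
  | [a, b, c, d], _ => rfl

end MRec

open MRec

/-- the lengths -/
theorem length_downF {L : ℕ} (hL : 2 ≤ L) {l : List Bool} (hl : 4 ^ L ∣ l.length) :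
    (downF L l).length = l.length := (isCh_down L).len l hl

theorem recF_eq (L : ℕ) {l : List Bool} (hl : 4 ^ L ∣ l.length) :
    recF L l = chunkF (4 ^ L) (transpose (2 ^ L)) l := by
  induction L using Nat.strong_induction_on generalizing l with
  | _ L ih =>
    rw [recF]
    by_cases h0 : L = 0
    · subst h0
      rw [if_pos rfl]
      have h1 : chunkF (4 ^ 0) (transpose (2 ^ 0)) l = chunkF (4 ^ 0) (fun x => x) l :=
        chunkF_congr (by norm_num) (fun x hx => list_one (by simpa using hx)) hl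
      rw [h1, isCh_id.eq l hl]
    rw [if_neg h0]
    by_cases h1 : L = 1
    · subst h1
      rw [if_pos rfl]
      have h2 : chunkF 4 base4F l = chunkF 4 (transpose (2 ^ 1)) l :=
        chunkF_congr (by norm_num) (fun x hx => list_four hx) (by simpa using hl)
      rw [h2]
      rfl
    rw [if_neg h1]
    have hL : 2 ≤ L := by omega
    have hC : 0 < 4 ^ L := by positivity
    have hlen := length_downF hL hl
    rw [ih (L / 2) (by omega) (l := downF L l)
      (by rw [hlen]; exact (pow_dvd_pow _ (Nat.div_le_self _ _)).trans hl)]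
    have h2 := (isCh_comp hC (isCh_up L) (isCh_comp hC (isCh_tr L) (isCh_down L))).eq l hl
    rw [← h2]
    exact chunkF_congr hC (fun x hx => level_eq hL hx) hl

/-- one matrix -/
theorem recF_eq_transpose (L : ℕ) {l : List Bool} (hl : l.length = 4 ^ L) :
    recF L l = transpose (2 ^ L) l := by
  rw [recF_eq L (by rw [hl]), chunkF_self (by positivity) hl]

end Vale.Agent.P338
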