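import Vale.Agent.Lib.P338.Fun

/-!
# P338, module MVal: binary numbers

`val` is `foldl`; show `val_append` first (induction on `y`, or generalise the start value of the
fold: `foldl f v x = v * 2 ^ |x| + val x`). `bin k z` lists the bits `z.testBit (k - 1 - i)`.
-/

namespace Vale.Agent.P338

private theorem mval_foldl (x : List Bool) : ∀ v : ℕ,
    x.foldl (fun v b => 2 * v + b.toNat) v = v * 2 ^ x.length + val x := by
  induction x with
  | nil =>
    intro v
    simp [val]
  | cons b x ih =>
    intro v
    unfold val
    rw [List.foldl_cons, List.foldl_cons, ih, ih (2 * 0 + b.toNat), List.length_cons, pow_succ]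
    ring

theorem val_nil : val [] = 0 := rfl

theorem val_append (x y : List Bool) : val (x ++ y) = val x * 2 ^ y.length + val y := by
  have h : val (x ++ y) = (x ++ y).foldl (fun v b => 2 * v + b.toNat) 0 := rfl
  rw [h, List.foldl_append, mval_foldl]
  rfl

theorem val_cons (b : Bool) (x : List Bool) : val (b :: x) = b.toNat * 2 ^ x.length + val x := by
  have h : val (b :: x) = x.foldl (fun v b => 2 * v + b.toNat) (2 * 0 + b.toNat) := rfl
  rw [h, mval_foldl, mul_zero, zero_add]

theorem val_lt (x : List Bool) : val x < 2 ^ x.length := by
  induction x with
  | nil => simp [val]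
  | cons b x ih =>
    rw [val_cons, List.length_cons, pow_succ]
    have h : b.toNat ≤ 1 := Bool.toNat_le b
    have h2 : b.toNat * 2 ^ x.length ≤ 1 * 2 ^ x.length := Nat.mul_le_mul_right _ h
    omega

theorem length_bin (k z : ℕ) : (bin k z).length = k := by
  simp [bin]

private theorem mval_bin_succ (k z : ℕ) : bin (k + 1) z = z.testBit k :: bin k z := by
  unfold bin
  rw [List.range_succ_eq_map, List.map_cons, List.map_map]
  refine congrArg₂ List.cons ?_ ?_
  · rw [Nat.add_sub_cancel, Nat.sub_zero]
  · refine List.map_congr_left fun i _ => ?_
    rw [Function.comp_apply]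
    congr 1
    omega

/-- without the bound, the value is reduced -/
theorem val_bin_mod (k z : ℕ) : val (bin k z) = z % 2 ^ k := by
  induction k with
  | zero =>
    have h : bin 0 z = [] := by simp [bin]
    rw [h, val_nil, pow_zero, Nat.mod_one]
  | succ k ih =>
    rw [mval_bin_succ, val_cons, length_bin, ih, Nat.mod_pow_succ, Nat.toNat_testBit]
    ring

theorem val_bin {k z : ℕ} (h : z < 2 ^ k) : val (bin k z) = z := by
  rw [val_bin_mod, Nat.mod_eq_of_lt h]

theorem val_inj {x y : List Bool} (h : x.length = y.length) (h' : val x = val y) : x = y := by
  induction x generalizing y with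
  | nil =>
    rw [List.length_nil] at h
    exact (List.length_eq_zero_iff.1 h.symm).symm
  | cons b x ih =>
    cases y with
    | nil => simp at h
    | cons c y =>
      rw [List.length_cons, List.length_cons, Nat.add_right_cancel_iff] at h
      rw [val_cons, val_cons, h] at h'
      have h1 := val_lt x
      have h2 := val_lt y
      rw [h] at h1
      cases b <;> cases c
      · simp only [Bool.toNat_false, zero_mul, zero_add] at h'
        rw [ih h h']
      · simp only [Bool.toNat_false, Bool.toNat_true, zero_mul, zero_add, one_mul] at h'
        omega
      · simp only [Bool.toNat_false, Bool.toNat_true, zero_mul, zero_add, one_mul] at h'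
        omega
      · simp only [Bool.toNat_true, one_mul] at h'
        rw [ih h (Nat.add_left_cancel h')]

theorem bin_val (x : List Bool) : bin x.length (val x) = x := by
  refine val_inj (length_bin _ _) ?_
  rw [val_bin (val_lt x)]

theorem val_replicate_false (n : ℕ) : val (List.replicate n false) = 0 := by
  induction n with
  | zero => rfl
  | succ n ih =>
    rw [List.replicate_succ, val_cons, ih]
    simp

private theorem mval_not (x : List Bool) : val (x.map not) + val x + 1 = 2 ^ x.length := by
  induction x with
  | nil => simp [val]
  | cons b x ih =>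
    rw [List.map_cons, val_cons, val_cons, List.length_map, List.length_cons, pow_succ]
    cases b
    · simp only [Bool.not_false, Bool.toNat_true, Bool.toNat_false, one_mul, zero_mul, zero_add]
      omega
    · simp only [Bool.not_true, Bool.toNat_true, Bool.toNat_false, one_mul, zero_mul, zero_add]
      omega

theorem val_map_not (x : List Bool) : val (x.map not) = 2 ^ x.length - 1 - val x := by
  have h := mval_not x
  omega

/-- the slot of an entry -/
theorem val_slot (n : ℕ) (x : List Bool) :
    val (List.replicate n false ++ (x ++ x.map not)) = (val x + 1) * (2 ^ x.length - 1) := by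
  rw [val_append, val_replicate_false, zero_mul, zero_add, val_append, List.length_map]
  have h := mval_not x
  obtain ⟨L, hL⟩ : ∃ L, 2 ^ x.length = L + 1 :=
    ⟨2 ^ x.length - 1, (Nat.sub_add_cancel Nat.one_le_two_pow).symm⟩
  rw [hL] at h ⊢
  rw [Nat.add_sub_cancel]
  have h1 : val (x.map not) + val x = L := Nat.add_right_cancel h
  calc val x * (L + 1) + val (x.map not) = val x * L + (val (x.map not) + val x) := by ring
    _ = val x * L + L := by rw [h1]
    _ = (val x + 1) * L := by ring

private theorem mval_getElem (k z i : ℕ) (h : i < (bin k z).length) :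
    (bin k z)[i] = z.testBit (k - 1 - i) := by
  simp [bin]

theorem take_bin (N z : ℕ) : (bin (2 * N) z).take N = bin N (z / 2 ^ N) := by
  refine List.ext_getElem ?_ ?_
  · rw [List.length_take, length_bin, length_bin]
    omega
  · intro i h1 h2
    rw [length_bin] at h2
    rw [List.getElem_take, mval_getElem, mval_getElem, Nat.testBit_div_two_pow]
    congr 1
    omega

theorem drop_bin (N z : ℕ) : (bin (2 * N) z).drop N = bin N (z % 2 ^ N) := by
  refine List.ext_getElem ?_ ?_
  · rw [List.length_drop, length_bin, length_bin]
    omega
  · intro i h1 h2
    rw [length_bin] at h2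
    rw [List.getElem_drop, mval_getElem, mval_getElem, Nat.testBit_mod_two_pow]
    have h3 : N - 1 - i < N := by omega
    rw [decide_eq_true h3, Bool.true_and]
    congr 1
    omega

end Vale.Agent.P338
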