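import Vale.Agent.Lib.P338.Stack

/-!
# P338: basic stack programs

`un m` is the number `m` in unary. A unary counter `c` is used with an empty companion stack `c'`;
`forC c c' P` executes `P` as many times as the length of `c`, and restores `c` and `c'`.
-/

namespace Vale.Agent.P338

/-- unary numbers -/
abbrev un (m : ℕ) : List Bool := List.replicate m true

section macros

variable {A : TM}

theorem un_succ (m : ℕ) : un (m + 1) = true :: un m := rfl

theorem un_append (m n : ℕ) : un m ++ un n = un (m + n) := by
  simp [un, List.replicate_append_replicate]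

theorem un_reverse (m : ℕ) : (un m).reverse = un m := by
  simp [un]

/-- while `x` is nonempty, general rule: `st k` is the state after `k` iterations -/
theorem sat_while (x : SName) (P : BProg A) (st : ℕ → St) (cost : ℕ → ℕ) (m : ℕ)
    (hne : ∀ k < m, st k x ≠ []) (hend : st m x = [])
    (h : ∀ k < m, Sat P (st k) (cost k) (st (k + 1))) :
    Sat (whileNE x P) (st 0) (∑ k ∈ Finset.range m, (cost k + 1) + 1) (st m) := by
  have key : ∀ j, j ≤ m → Sat (whileNE x P) (st (m - j))
      (∑ k ∈ Finset.Ico (m - j) m, (cost k + 1) + 1) (st m) := by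
    intro j
    induction j with
    | zero =>
      intro _
      rw [Nat.sub_zero]
      refine (sat_whileNE_nil hend).congr ?_ rfl
      omega
    | succ j ih =>
      intro hj
      have h1 := ih (by omega)
      have e : m - (j + 1) + 1 = m - j := by omega
      have h2 := h (m - (j + 1)) (by omega)
      rw [e] at h2
      refine (sat_whileNE_cons (hne _ (by omega)) h2 h1).congr ?_ rfl
      rw [Finset.sum_eq_sum_Ico_succ_bot (show m - (j + 1) < m by omega), e]
      omega
  have h0 := key m le_rfl
  rw [Nat.sub_self] at h0
  rw [Finset.range_eq_Ico]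
  exact h0

/-- while `x` is nonempty, with a uniform bound for the cost -/
theorem sat_while' (x : SName) (P : BProg A) (st : ℕ → St) (c m : ℕ)
    (hne : ∀ k < m, st k x ≠ []) (hend : st m x = [])
    (h : ∀ k < m, Sat P (st k) c (st (k + 1))) :
    Sat (whileNE x P) (st 0) (m * (c + 1) + 1) (st m) := by
  refine (sat_while x P st (fun _ => c) m hne hend h).congr ?_ rfl
  simp

/-- move one symbol from `x` to `y` -/
def mv (x y : SName) : BProg A :=
  ifTrue x (Prog.seq (pop x) (push y true)) (Prog.seq (pop x) (push y false))

theorem sat_mv {x y : SName} (hxy : x ≠ y) {s : St} {b : Bool} {l : List Bool}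
    (hs : s x = b :: l) : Sat (mv x y : BProg A) s 4 (up (up s x l) y (b :: s y)) := by
  have h1 : ∀ c, Sat (Prog.seq (pop x) (push y c) : BProg A) s 3
      (up (up s x l) y (c :: s y)) := by
    intro c
    have h2 := (sat_pop (A := A) x s).seq (sat_push y c _)
    rw [hs, List.tail_cons, up_of_ne _ (Ne.symm hxy)] at h2
    exact h2
  cases b with
  | true => exact sat_ifTrue_true hs (h1 true)
  | false =>
    refine sat_ifTrue_false ?_ (h1 false)
    rw [hs]
    simp

/-- move the contents of `x` to `y` (this reverses the contents) -/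
def mvAll (x y : SName) : BProg A := whileNE x (mv x y)

theorem sat_mvAll {x y : SName} (hxy : x ≠ y) (s : St) :
    Sat (mvAll x y : BProg A) s (5 * (s x).length + 1) (up (up s x []) y ((s x).reverse ++ s y)) := by
  obtain ⟨l, hl⟩ : ∃ l, s x = l := ⟨_, rfl⟩
  rw [hl]
  induction l generalizing s with
  | nil =>
    refine (sat_whileNE_nil hl).congr (by simp) ?_
    rw [List.reverse_nil, List.nil_append, ← hl, up_id, up_id]
  | cons b l ih =>
    have h1 := sat_mv (A := A) hxy hl
    have h2 := ih (up (up s x l) y (b :: s y)) (by rw [up_of_ne _ hxy, up_self])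
    refine (sat_whileNE_cons (by rw [hl]; simp) h1 h2).congr ?_ ?_
    · simp only [List.length_cons]
      omega
    · rw [up_self, up_comm _ (Ne.symm hxy), up_up, up_up]
      simp

/-- empty the stack `x` -/
def clear (x : SName) : BProg A := whileNE x (pop x)

theorem sat_clear (x : SName) (s : St) :
    Sat (clear x : BProg A) s (2 * (s x).length + 1) (up s x []) := by
  obtain ⟨l, hl⟩ : ∃ l, s x = l := ⟨_, rfl⟩
  rw [hl]
  induction l generalizing s with
  | nil =>
    refine (sat_whileNE_nil hl).congr (by simp) ?_
    rw [← hl, up_id]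
  | cons b l ih =>
    have h1 := sat_pop (A := A) x s
    rw [hl, List.tail_cons] at h1
    have h2 := ih (up s x l) (by rw [up_self])
    refine (sat_whileNE_cons (by rw [hl]; simp) h1 h2).congr ?_ ?_
    · simp only [List.length_cons]
      omega
    · rw [up_up]

/-- execute `P` as many times as the length of the unary counter `c`; the stack `c'` is the
companion of `c` -/
def forC (c c' : SName) (P : BProg A) : BProg A :=
  Prog.seq (whileNE c (Prog.seq (pop c) (Prog.seq (push c' true) P))) (mvAll c' c)

/-- `c` has the contents `un i` and `c'` has the contents `un j` -/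
def cnt (c c' : SName) (s : St) (i j : ℕ) : St := up (up s c (un i)) c' (un j)

theorem cnt_comm (c c' : SName) (h : c ≠ c') (s : St) (i j : ℕ) :
    cnt c c' s i j = up (up s c' (un j)) c (un i) := by
  unfold cnt
  rw [up_comm _ h]

/-- the rule for `forC` -/
theorem sat_forC {c c' : SName} (hc : c ≠ c') (P : BProg A) (inv : ℕ → St) (cost : ℕ → ℕ) (m : ℕ)
    (h : ∀ k < m, Sat P (cnt c c' (inv k) (m - (k + 1)) (k + 1)) (cost k)
      (cnt c c' (inv (k + 1)) (m - (k + 1)) (k + 1))) :
    Sat (forC c c' P) (cnt c c' (inv 0) m 0) (∑ k ∈ Finset.range m, (cost k + 4) + 5 * m + 2)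
      (cnt c c' (inv m) m 0) := by
  have h1 := sat_while c (Prog.seq (pop c) (Prog.seq (push c' true) P))
    (fun k => cnt c c' (inv k) (m - k) k) (fun k => cost k + 3) m
    (by
      intro k hk
      show cnt c c' (inv k) (m - k) k c ≠ []
      unfold cnt
      rw [up_of_ne _ hc, up_self]
      obtain ⟨j, hj⟩ : ∃ j, m - k = j + 1 := ⟨m - k - 1, by omega⟩
      rw [hj]
      simp [un_succ])
    (by
      show cnt c c' (inv m) (m - m) m c = []
      unfold cnt
      rw [up_of_ne _ hc, up_self, Nat.sub_self]
      rfl)
    (by
      intro k hk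
      have e : m - k = m - (k + 1) + 1 := by omega
      have h2 := ((sat_pop (A := A) c (cnt c c' (inv k) (m - k) k)).seq
        ((sat_push c' true _).seq (P := push c' true) (R := P) (s'' := cnt c c' (inv (k + 1)) (m - (k + 1)) (k + 1)) (n' := cost k) ?_))
      · refine h2.congr (by omega) rfl
      · have h3 := h k hk
        have e2 : up (up (cnt c c' (inv k) (m - k) k) c (cnt c c' (inv k) (m - k) k c).tail) c'
            (true :: (up (cnt c c' (inv k) (m - k) k) c (cnt c c' (inv k) (m - k) k c).tail) c') =
            cnt c c' (inv k) (m - (k + 1)) (k + 1) := by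
          unfold cnt
          rw [e, up_of_ne _ hc, up_self, un_succ, List.tail_cons, up_of_ne _ (Ne.symm hc), up_self,
            up_comm _ (Ne.symm hc), up_up, up_up, un_succ]
        rw [e2]
        exact h3)
  have h1' : Sat (whileNE c (Prog.seq (pop c) (Prog.seq (push c' true) P)))
      (cnt c c' (inv 0) m 0) (∑ k ∈ Finset.range m, (cost k + 3 + 1) + 1)
      (cnt c c' (inv m) 0 m) := by
    have e0 : m - 0 = m := rfl
    have e1 : m - m = 0 := Nat.sub_self m
    have h2 := h1
    simp only [e0, e1] at h2
    exact h2
  refine (h1'.seq (sat_mvAll (Ne.symm hc) _)).congr ?_ ?_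
  · unfold cnt
    rw [up_self]
    have e : ∑ k ∈ Finset.range m, (cost k + 3 + 1) = ∑ k ∈ Finset.range m, (cost k + 4) := rfl
    rw [e]
    simp only [un, List.length_replicate]
    omega
  · unfold cnt
    rw [up_self, un_reverse, up_up, up_of_ne _ hc, up_self, up_comm _ (Ne.symm hc), up_up]
    congr 1
    simp

/-- the rule for `forC` with a uniform bound for the cost -/
theorem sat_forC' {c c' : SName} (hc : c ≠ c') (P : BProg A) (inv : ℕ → St) (q : ℕ) (m : ℕ)
    (h : ∀ k < m, Sat P (cnt c c' (inv k) (m - (k + 1)) (k + 1)) q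
      (cnt c c' (inv (k + 1)) (m - (k + 1)) (k + 1))) :
    Sat (forC c c' P) (cnt c c' (inv 0) m 0) (m * (q + 9) + 2) (cnt c c' (inv m) m 0) := by
  refine (sat_forC hc P inv (fun _ => q) m h).congr ?_ rfl
  simp only [Finset.sum_const, Finset.card_range, smul_eq_mul]
  ring_nf
  exact le_rfl

theorem cnt_eq {c c' : SName} {s : St} {m : ℕ} (h : s c = un m) (h' : s c' = []) :
    cnt c c' s m 0 = s := by
  unfold cnt
  rw [← h, up_id]
  have e : un 0 = s c' := by rw [h']; rfl
  rw [e, up_id]

/-- the rule for `forC`: `inv k` is the state after `k` iterations, up to the contents of the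
counter `c` and of its companion `c'` -/
theorem sat_for {c c' : SName} (hc : c ≠ c') {P : BProg A} {s : St} {q m : ℕ}
    (hs : s c = un m) (hs' : s c' = []) (inv : ℕ → St) (h0 : inv 0 = s) (hm : inv m c = un m)
    (hm' : inv m c' = [])
    (h : ∀ k < m, Sat P (cnt c c' (inv k) (m - (k + 1)) (k + 1)) q
      (cnt c c' (inv (k + 1)) (m - (k + 1)) (k + 1))) :
    Sat (forC c c' P) s (m * (q + 9) + 2) (inv m) := by
  have h1 := sat_forC' hc P inv q m h
  rw [h0, cnt_eq hs hs', cnt_eq hm hm'] at h1
  exact h1

/-- the rule for `forC` when the body changes the stacks `x` and `y` only -/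
theorem sat_for2 {c c' x y : SName} (hd : [c, c', x, y].Nodup) {P : BProg A} {s : St} {q m : ℕ}
    (hs : s c = un m) (hs' : s c' = []) (f g : ℕ → List Bool) (hf : f 0 = s x) (hg : g 0 = s y)
    (h : ∀ k < m, ∀ t : St, t x = f k → t y = g k → (∀ z, z ≠ c → z ≠ c' → z ≠ x → z ≠ y →
      t z = s z) → Sat P t q (up (up t x (f (k + 1))) y (g (k + 1)))) :
    Sat (forC c c' P) s (m * (q + 9) + 2) (up (up s x (f m)) y (g m)) := by
  have hcc : c ≠ c' := by
    intro h; subst h; simp at hd
  have hcx : c ≠ x := by
    intro h; subst h; simp at hd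
  have hcy : c ≠ y := by
    intro h; subst h; simp at hd
  have hcx' : c' ≠ x := by
    intro h; subst h; simp at hd
  have hcy' : c' ≠ y := by
    intro h; subst h; simp at hd
  have hxy : x ≠ y := by
    intro h; subst h; simp at hd
  refine sat_for hcc hs hs' (fun k => up (up s x (f k)) y (g k)) ?_ ?_ ?_ ?_
  · show up (up s x (f 0)) y (g 0) = s
    rw [hf, hg, up_id, up_id]
  · show up (up s x (f m)) y (g m) c = un m
    rw [up_of_ne _ hcy, up_of_ne _ hcx, hs]
  · show up (up s x (f m)) y (g m) c' = []
    rw [up_of_ne _ hcy', up_of_ne _ hcx', hs']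
  · intro k hk
    refine (h k hk _ ?_ ?_ ?_).congr le_rfl ?_
    · unfold cnt
      rw [up_of_ne _ hcx'.symm, up_of_ne _ hcx.symm, up_of_ne _ hxy, up_self]
    · unfold cnt
      rw [up_of_ne _ hcy'.symm, up_of_ne _ hcy.symm, up_self]
    · intro z h1 h2 h3 h4
      unfold cnt
      rw [up_of_ne _ h2, up_of_ne _ h1, up_of_ne _ h4, up_of_ne _ h3]
    · unfold cnt
      funext z
      simp only [up]
      split_ifs <;> simp_all

/-- the rule for `forC` when the body changes the stack `x` only -/
theorem sat_for1 {c c' x : SName} (hd : [c, c', x].Nodup) {P : BProg A} {s : St} {q m : ℕ}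
    (hs : s c = un m) (hs' : s c' = []) (f : ℕ → List Bool) (hf : f 0 = s x)
    (h : ∀ k < m, ∀ t : St, t x = f k → (∀ z, z ≠ c → z ≠ c' → z ≠ x → t z = s z) →
      Sat P t q (up t x (f (k + 1)))) :
    Sat (forC c c' P) s (m * (q + 9) + 2) (up s x (f m)) := by
  have hcc : c ≠ c' := by
    intro h; subst h; simp at hd
  have hcx : c ≠ x := by
    intro h; subst h; simp at hd
  have hcx' : c' ≠ x := by
    intro h; subst h; simp at hd
  refine sat_for hcc hs hs' (fun k => up s x (f k)) ?_ ?_ ?_ ?_
  · show up s x (f 0) = s
    rw [hf, up_id]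
  · show up s x (f m) c = un m
    rw [up_of_ne _ hcx, hs]
  · show up s x (f m) c' = []
    rw [up_of_ne _ hcx', hs']
  · intro k hk
    refine (h k hk _ ?_ ?_).congr le_rfl ?_
    · unfold cnt
      rw [up_of_ne _ hcx'.symm, up_of_ne _ hcx.symm, up_self]
    · intro z h1 h2 h3
      unfold cnt
      rw [up_of_ne _ h2, up_of_ne _ h1, up_of_ne _ h3]
    · unfold cnt
      funext z
      simp only [up]
      split_ifs <;> simp_all

/-- move as many symbols as the length of the counter `c` from `x` to `y` -/
def mvLen (c c' x y : SName) : BProg A := forC c c' (mv x y)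

theorem sat_mvLen {c c' x y : SName} (hd : [c, c', x, y].Nodup) {s : St} {m : ℕ}
    (hs : s c = un m) (hs' : s c' = []) (hl : m ≤ (s x).length) :
    Sat (mvLen c c' x y : BProg A) s (13 * m + 2)
      (up (up s x ((s x).drop m)) y (((s x).take m).reverse ++ s y)) := by
  have hxy : x ≠ y := by
    intro h; subst h; simp at hd
  refine (sat_for2 (q := 4) hd hs hs' (fun k => (s x).drop k)
    (fun k => ((s x).take k).reverse ++ s y) (by simp) (by simp) ?_).congr (by ring_nf; exact le_rfl)
    rfl
  intro k hk t h1 h2 _
  have hk' : k < (s x).length := by omega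
  have h3 : t x = (s x)[k] :: (s x).drop (k + 1) := by
    rw [h1]
    exact List.drop_eq_getElem_cons hk'
  refine (sat_mv hxy h3).congr le_rfl ?_
  have e : ((s x).take (k + 1)).reverse ++ s y = (s x)[k] :: (((s x).take k).reverse ++ s y) := by
    rw [List.take_succ_eq_append_getElem hk', List.reverse_append]
    rfl
  rw [h2]
  show _ = up (up t x ((s x).drop (k + 1))) y (((s x).take (k + 1)).reverse ++ s y)
  rw [e]

/-- remove as many symbols as the length of the counter `c` from `x` -/
def dropLen (c c' x : SName) : BProg A := forC c c' (pop x)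

theorem sat_dropLen {c c' x : SName} (hd : [c, c', x].Nodup) {s : St} {m : ℕ}
    (hs : s c = un m) (hs' : s c' = []) :
    Sat (dropLen c c' x : BProg A) s (10 * m + 2) (up s x ((s x).drop m)) := by
  refine (sat_for1 (q := 1) hd hs hs' (fun k => (s x).drop k) (by simp) ?_).congr
    (by ring_nf; exact le_rfl) rfl
  intro k hk t h1 _
  refine (sat_pop x t).congr le_rfl ?_
  rw [h1, List.tail_drop]

/-- push as many symbols `b` as the length of the counter `c` on `x` -/
def pushLen (c c' x : SName) (b : Bool) : BProg A := forC c c' (push x b)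

theorem sat_pushLen {c c' x : SName} (hd : [c, c', x].Nodup) (b : Bool) {s : St} {m : ℕ}
    (hs : s c = un m) (hs' : s c' = []) :
    Sat (pushLen c c' x b : BProg A) s (11 * m + 2) (up s x (List.replicate m b ++ s x)) := by
  refine (sat_for1 (q := 2) hd hs hs' (fun k => List.replicate k b ++ s x) (by simp) ?_).congr
    (by ring_nf; exact le_rfl) rfl
  intro k hk t h1 _
  refine (sat_push x b t).congr le_rfl ?_
  rw [h1]
  rfl

/-- push `m` symbols `b` on `x` (`m` is a constant) -/
def pushN (x : SName) (b : Bool) : ℕ → BProg A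
  | 0 => skip
  | m + 1 => Prog.seq (pushN x b m) (push x b)

theorem sat_pushN (x : SName) (b : Bool) (m : ℕ) (s : St) :
    Sat (pushN x b m : BProg A) s (2 * m + 1) (up s x (List.replicate m b ++ s x)) := by
  induction m with
  | zero =>
    refine (sat_skip s).congr (by omega) ?_
    simp [up_id]
  | succ m ih =>
    refine (ih.seq (sat_push x b _)).congr (by omega) ?_
    rw [up_up, up_self]
    rfl

/-- move `m` symbols from `x` to `y` (`m` is a constant) -/
def mvN (x y : SName) : ℕ → BProg A
  | 0 => skip
  | m + 1 => Prog.seq (mvN x y m) (mv x y)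

theorem sat_mvN {x y : SName} (hxy : x ≠ y) (m : ℕ) (s : St) (hl : m ≤ (s x).length) :
    Sat (mvN x y m : BProg A) s (4 * m + 1)
      (up (up s x ((s x).drop m)) y (((s x).take m).reverse ++ s y)) := by
  induction m with
  | zero =>
    refine (sat_skip s).congr (by omega) ?_
    simp [up_id]
  | succ m ih =>
    have hm : m < (s x).length := by omega
    refine ((ih (by omega)).seq (sat_mv hxy (b := (s x)[m]) (l := (s x).drop (m + 1)) ?_)).congr
      (by omega) ?_
    · rw [up_of_ne _ hxy, up_self]
      exact List.drop_eq_getElem_cons hm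
    · have e : ((s x).take (m + 1)).reverse ++ s y =
          (s x)[m] :: (((s x).take m).reverse ++ s y) := by
        rw [List.take_succ_eq_append_getElem hm, List.reverse_append]
        rfl
      rw [up_self, e, up_comm _ hxy.symm, up_up, up_up]

/-- move one symbol from `x` to `y` and copy it to `z` -/
def mv2 (x y z : SName) : BProg A :=
  ifTrue x (Prog.seq (pop x) (Prog.seq (push y true) (push z true)))
    (Prog.seq (pop x) (Prog.seq (push y false) (push z false)))

theorem sat_mv2 {x y z : SName} (hd : [x, y, z].Nodup) {s : St} {b : Bool} {l : List Bool}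
    (hs : s x = b :: l) :
    Sat (mv2 x y z : BProg A) s 6 (up (up (up s x l) y (b :: s y)) z (b :: s z)) := by
  have hxy : x ≠ y := by
    intro h; subst h; simp at hd
  have hxz : x ≠ z := by
    intro h; subst h; simp at hd
  have hyz : y ≠ z := by
    intro h; subst h; simp at hd
  have h1 : ∀ c, Sat (Prog.seq (pop x) (Prog.seq (push y c) (push z c)) : BProg A) s 5
      (up (up (up s x l) y (c :: s y)) z (c :: s z)) := by
    intro c
    have h2 := (sat_pop (A := A) x s).seq ((sat_push y c _).seq (sat_push z c _))
    rw [hs, List.tail_cons, up_of_ne _ hxy.symm, up_of_ne _ hyz.symm, up_of_ne _ hxz.symm] at h2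
    exact h2
  cases b with
  | true => exact sat_ifTrue_true hs (h1 true)
  | false =>
    refine sat_ifTrue_false ?_ (h1 false)
    rw [hs]
    simp

/-- copy the contents of `x` to `y`, with the temporary stack `z` -/
def copyAll (x y z : SName) : BProg A := Prog.seq (mvAll x z) (whileNE z (mv2 z x y))

theorem sat_copyAll {x y z : SName} (hd : [x, y, z].Nodup) (s : St) (hz : s z = []) :
    Sat (copyAll x y z : BProg A) s (12 * (s x).length + 2) (up s y (s x ++ s y)) := by
  have hxy : x ≠ y := by
    intro h; subst h; simp at hd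
  have hxz : x ≠ z := by
    intro h; subst h; simp at hd
  have hyz : y ≠ z := by
    intro h; subst h; simp at hd
  have key : ∀ (l : List Bool) (t : St), t z = l →
      Sat (whileNE z (mv2 z x y) : BProg A) t (7 * l.length + 1)
        (up (up (up t z []) x (l.reverse ++ t x)) y (l.reverse ++ t y)) := by
    intro l
    induction l with
    | nil =>
      intro t ht
      refine (sat_whileNE_nil ht).congr (by simp) ?_
      rw [List.reverse_nil, List.nil_append, List.nil_append, ← ht, up_id, up_id, up_id]
    | cons b l ih =>
      intro t ht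
      have hd' : [z, x, y].Nodup := by
        simp only [List.nodup_cons, List.mem_cons, List.not_mem_nil, or_false, not_or,
          not_false_eq_true, List.nodup_nil, and_true]
        exact ⟨⟨hxz.symm, hyz.symm⟩, hxy⟩
      have h1 := sat_mv2 (A := A) hd' ht
      have h2 := ih (up (up (up t z l) x (b :: t x)) y (b :: t y)) (by
        rw [up_of_ne _ hyz.symm, up_of_ne _ hxz.symm, up_self])
      refine (sat_whileNE_cons (by rw [ht]; simp) h1 h2).congr ?_ ?_
      · simp only [List.length_cons]
        omega
      · funext w
        simp only [up]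
        split_ifs <;> simp_all
  have h1 := (sat_mvAll (A := A) hxz s).seq (key _ _ (by rw [up_self]))
  refine h1.congr ?_ ?_
  · simp [hz]
    omega
  · funext w
    simp only [up]
    split_ifs <;> simp_all

/-- pop `x` and push the negated bit on `y` -/
def mvNot (x y : SName) : BProg A :=
  ifTrue x (Prog.seq (pop x) (push y false)) (Prog.seq (pop x) (push y true))

theorem sat_mvNot {x y : SName} (hxy : x ≠ y) {s : St} {b : Bool} {l : List Bool}
    (hs : s x = b :: l) : Sat (mvNot x y : BProg A) s 4 (up (up s x l) y ((!b) :: s y)) := by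
  have h1 : ∀ c, Sat (Prog.seq (pop x) (push y c) : BProg A) s 3
      (up (up s x l) y (c :: s y)) := by
    intro c
    have h2 := (sat_pop (A := A) x s).seq (sat_push y c _)
    rw [hs, List.tail_cons, up_of_ne _ (Ne.symm hxy)] at h2
    exact h2
  cases b with
  | true => exact sat_ifTrue_true hs (h1 false)
  | false =>
    refine sat_ifTrue_false ?_ (h1 true)
    rw [hs]
    simp

/-- the stacks in `L` are empty -/
def AllNil (L : List SName) (s : St) : Prop := ∀ x ∈ L, s x = []

theorem AllNil.get {L : List SName} {s : St} (h : AllNil L s) {x : SName} (hx : x ∈ L) :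
    s x = [] := h x hx

theorem AllNil.up {L : List SName} {s : St} (h : AllNil L s) {x : SName} (hx : x ∉ L)
    (l : List Bool) : AllNil L (up s x l) := by
  intro y hy
  have hne : y ≠ x := by
    intro e
    subst e
    exact hx hy
  rw [up_of_ne _ hne]
  exact h y hy

theorem AllNil.up_nil {L : List SName} {s : St} (h : AllNil L s) (x : SName) :
    AllNil L (Vale.Agent.P338.up s x []) := by
  intro y hy
  by_cases e : y = x
  · subst e
    simp
  · rw [up_of_ne _ e]
    exact h y hy

theorem AllNil.mono {L L' : List SName} {s : St} (h : AllNil L s) (hL : L' ⊆ L) : AllNil L' s :=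
  fun x hx => h x (hL hx)

/-- the temporary stacks: they are empty before and after each of the main programs -/
def temps : List SName :=
  [.HSk, .O, .OUT, .CK, .RT, .RTc, .RD, .RDc, .RK, .RKc, .RC, .RCc, .RE, .RL, .WA, .WB,
   .X0, .X1, .X2, .X3, .Z0, .Z1, .Z2, .Z3, .Z4, .Z5]

/-- the parameter stacks -/
def params : List SName := [.TA, .TB, .T2, .T12, .TQ, .TE, .TF]

/-- the stacks that are empty between the passes -/
def rest : List SName := [.D, .Y, .GO, .SV] ++ params ++ temps

/-- the parameters of a pass: `a` is the number of rows and of cells, `q * a` is the number of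
bits of a cell -/
structure Par (a q : ℕ) (s : St) : Prop where
  TA : s .TA = un a
  TB : s .TB = un a
  T2 : s .T2 = un (2 * a)
  T12 : s .T12 = un (12 * a)
  TQ : s .TQ = un q
  TE : s .TE = un (q * a)
  TF : s .TF = []

theorem Par.up {a q : ℕ} {s : St} (h : Par a q s) {x : SName} (hx : x ∉ params)
    (l : List Bool) : Par a q (up s x l) := by
  have key : ∀ y ∈ params, Vale.Agent.P338.up s x l y = s y := by
    intro y hy
    have hne : y ≠ x := by
      intro e
      subst e
      exact hx hy
    exact up_of_ne _ hne _
  constructor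
  · rw [key _ (by decide)]; exact h.TA
  · rw [key _ (by decide)]; exact h.TB
  · rw [key _ (by decide)]; exact h.T2
  · rw [key _ (by decide)]; exact h.T12
  · rw [key _ (by decide)]; exact h.TQ
  · rw [key _ (by decide)]; exact h.TE
  · rw [key _ (by decide)]; exact h.TF

end macros

end Vale.Agent.P338
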