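import Vale.Agent.Lib.P338.Macro
import Vale.Agent.Lib.P338.MDig

/-!
# P338, module PAddBits: addition programs

The stacks `x` and `y` contain numbers with `n` bits, least significant bit on top (so the value is
`val (s x).reverse`), the stack `c` contains the carry.

`exists_addBits`: loop `whileNE x (step)`, where `step` pops a bit of `x`, a bit of `y` and the
carry, and pushes the sum bit on `z` and the new carry on `c` (nested `ifTrue`s, 8 cases). The
result appears on `z` with the most significant bit on top.
Invariant: after `k` iterations `z = bin k ((val X' + val Y' + c0) % 2 ^ k) ++ z0` where `X'`, `Y'`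
are the numbers formed by the `k` least significant bits, and the carry is
`decide (2 ^ k ≤ val X' + val Y' + c0)`. (Induction on the lists, generalising the state: for
`x = b :: x'`, `val (b :: x').reverse = 2 * val x'.reverse + b`.)

`exists_eac`: `y` becomes the sum with end-around carry, least significant bit on top:
push false on `c`; add (result on `z`, most significant bit on top); `mvAll z y`; add the carry
(loop `whileNE y` with steps that add the carry bit only, result on `z`); pop `c`; `mvAll z y`.
-/

namespace Vale.Agent.P338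

/-- one step of the addition, for known top bits -/
def pab_Q {A : TM} (x y c z : SName) (p q r : Bool) : BProg A :=
  Prog.seq (pop x) (Prog.seq (pop y) (Prog.seq (pop c)
    (Prog.seq (push z (xor (xor p q) r)) (push c ((p && q) || (r && xor p q))))))

theorem pab_satQ {A : TM} {x y c z : SName} (hd : [x, y, c, z].Nodup) {s : St} {p q r : Bool}
    {lx ly lc : List Bool} (hx : s x = p :: lx) (hy : s y = q :: ly) (hc : s c = r :: lc) :
    Sat (pab_Q x y c z p q r : BProg A) s 7
      (up (up (up (up s x lx) y ly) z (xor (xor p q) r :: s z)) c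
        (((p && q) || (r && xor p q)) :: lc)) := by
  simp only [List.nodup_cons, List.mem_cons, List.not_mem_nil, or_false, not_or,
    not_false_eq_true, List.nodup_nil, and_true] at hd
  obtain ⟨⟨hxy, hxc, hxz⟩, ⟨hyc, hyz⟩, hcz⟩ := hd
  have h := (sat_pop (A := A) x s).seq ((sat_pop y _).seq ((sat_pop c _).seq
    ((sat_push z (xor (xor p q) r) _).seq (sat_push c ((p && q) || (r && xor p q)) _))))
  refine h.congr le_rfl ?_
  funext w
  simp only [up]
  split_ifs <;> simp_all [Ne.symm]

/-- one step of the addition -/
def pab_step {A : TM} (x y c z : SName) : BProg A :=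
  ifTrue x
    (ifTrue y (ifTrue c (pab_Q x y c z true true true) (pab_Q x y c z true true false))
      (ifTrue c (pab_Q x y c z true false true) (pab_Q x y c z true false false)))
    (ifTrue y (ifTrue c (pab_Q x y c z false true true) (pab_Q x y c z false true false))
      (ifTrue c (pab_Q x y c z false false true) (pab_Q x y c z false false false)))

theorem pab_if {A : TM} {x : SName} {s s' : St} {p : Bool} {l : List Bool} (hx : s x = p :: l)
    (F : Bool → BProg A) {m : ℕ} (h : Sat (F p) s m s') :
    Sat (ifTrue x (F true) (F false)) s (m + 1) s' := by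
  cases p with
  | true => exact sat_ifTrue_true hx h
  | false => exact sat_ifTrue_false (by rw [hx]; simp) h

theorem pab_satstep {A : TM} {x y c z : SName} (hd : [x, y, c, z].Nodup) {s : St} {p q r : Bool}
    {lx ly lc : List Bool} (hx : s x = p :: lx) (hy : s y = q :: ly) (hc : s c = r :: lc) :
    Sat (pab_step x y c z : BProg A) s 10
      (up (up (up (up s x lx) y ly) z (xor (xor p q) r :: s z)) c
        (((p && q) || (r && xor p q)) :: lc)) := by
  have h1 := pab_satQ (A := A) hd hx hy hc
  have h2 := pab_if hc (fun r => pab_Q x y c z p q r) h1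
  have h3 := pab_if hy (fun q => ifTrue c (pab_Q x y c z p q true) (pab_Q x y c z p q false)) h2
  exact pab_if hx (fun p => ifTrue y
    (ifTrue c (pab_Q x y c z p true true) (pab_Q x y c z p true false))
    (ifTrue c (pab_Q x y c z p false true) (pab_Q x y c z p false false))) h3

theorem pab_bits (p q r : Bool) : p.toNat + q.toNat + r.toNat
    = 2 * ((p && q) || (r && xor p q)).toNat + (xor (xor p q) r).toNat := by
  cases p <;> cases q <;> cases r <;> rfl

theorem pab_snoc (l : List Bool) (p : Bool) : val (l ++ [p]) = 2 * val l + p.toNat := by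
  rw [val_append, val_cons, val_nil]
  simp
  ring

theorem pab_bin (n V : ℕ) (σ : Bool) :
    bin (n + 1) ((2 * V + σ.toNat) % 2 ^ (n + 1)) = bin n (V % 2 ^ n) ++ [σ] := by
  have hσ : σ.toNat < 2 := by cases σ <;> simp
  apply val_inj
  · rw [length_bin, List.length_append, length_bin]
    rfl
  · rw [val_bin (Nat.mod_lt _ (by positivity)), pab_snoc, val_bin (Nat.mod_lt _ (by positivity)),
      pow_succ', Nat.mod_mul]
    have h1 : (2 * V + σ.toNat) % 2 = σ.toNat := by omega
    have h2 : (2 * V + σ.toNat) / 2 = V := by omega
    rw [h1, h2]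
    ring

theorem pab_carry (n V : ℕ) (σ : Bool) :
    decide (2 ^ (n + 1) ≤ 2 * V + σ.toNat) = decide (2 ^ n ≤ V) := by
  have hσ : σ.toNat < 2 := by cases σ <;> simp
  have h : (2 ^ (n + 1) ≤ 2 * V + σ.toNat) ↔ (2 ^ n ≤ V) := by
    rw [pow_succ]
    omega
  exact decide_eq_decide.2 h

theorem exists_addBits (A : TM) {x y c z : SName} (hd : [x, y, c, z].Nodup) :
    ∃ (P : BProg A) (C : ℕ), ∀ (s : St) (n : ℕ) (b : Bool), (s x).length = n →
      (s y).length = n → s c = [b] →
      Sat P s (C * (n + 1)) (up (up (up (up s x []) y []) z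
        (bin n ((val (s x).reverse + val (s y).reverse + b.toNat) % 2 ^ n) ++ s z)) c
        [decide (2 ^ n ≤ val (s x).reverse + val (s y).reverse + b.toNat)]) := by
  refine ⟨whileNE x (pab_step x y c z), 11, ?_⟩
  have hd' := hd
  simp only [List.nodup_cons, List.mem_cons, List.not_mem_nil, or_false, not_or,
    not_false_eq_true, List.nodup_nil, and_true] at hd'
  obtain ⟨⟨hxy, hxc, hxz⟩, ⟨hyc, hyz⟩, hcz⟩ := hd'
  have key : ∀ (n : ℕ) (s : St) (b : Bool), (s x).length = n → (s y).length = n → s c = [b] →
      Sat (whileNE x (pab_step x y c z) : BProg A) s (11 * n + 1) (up (up (up (up s x []) y []) z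
        (bin n ((val (s x).reverse + val (s y).reverse + b.toNat) % 2 ^ n) ++ s z)) c
        [decide (2 ^ n ≤ val (s x).reverse + val (s y).reverse + b.toNat)]) := by
    intro n
    induction n with
    | zero =>
      intro s b hx hy hc
      have hx0 : s x = [] := List.length_eq_zero_iff.1 hx
      have hy0 : s y = [] := List.length_eq_zero_iff.1 hy
      refine (sat_whileNE_nil hx0).congr (by omega) ?_
      have e1 : decide (2 ^ 0 ≤ val (s x).reverse + val (s y).reverse + b.toNat) = b := by
        rw [hx0, hy0, List.reverse_nil, val_nil]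
        cases b <;> simp
      rw [e1]
      have e2 : bin 0 ((val (s x).reverse + val (s y).reverse + b.toNat) % 2 ^ 0) = [] := rfl
      rw [e2, List.nil_append, ← hc]
      funext w
      simp only [up]
      split_ifs <;> simp_all
    | succ n ih =>
      intro s b hx hy hc
      obtain ⟨p, lx, hlx⟩ : ∃ p lx, s x = p :: lx := List.exists_cons_of_length_eq_add_one hx
      obtain ⟨q, ly, hly⟩ : ∃ q ly, s y = q :: ly := List.exists_cons_of_length_eq_add_one hy
      have hlx' : lx.length = n := by
        rw [hlx, List.length_cons] at hx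
        omega
      have hly' : ly.length = n := by
        rw [hly, List.length_cons] at hy
        omega
      have h1 := pab_satstep (A := A) hd hlx hly hc
      set s1 := up (up (up (up s x lx) y ly) z (xor (xor p q) b :: s z)) c
        (((p && q) || (b && xor p q)) :: []) with hs1
      have e1 : s1 x = lx := by
        rw [hs1, up_of_ne _ hxc, up_of_ne _ hxz, up_of_ne _ hxy, up_self]
      have e2 : s1 y = ly := by
        rw [hs1, up_of_ne _ hyc, up_of_ne _ hyz, up_self]
      have e3 : s1 c = [(p && q) || (b && xor p q)] := by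
        rw [hs1, up_self]
      have e4 : s1 z = xor (xor p q) b :: s z := by
        rw [hs1, up_of_ne _ (Ne.symm hcz), up_self]
      have h2 := ih s1 ((p && q) || (b && xor p q)) (by rw [e1]; exact hlx')
        (by rw [e2]; exact hly') e3
      refine (sat_whileNE_cons (by rw [hlx]; simp) h1 h2).congr (by omega) ?_
      have hV : val (s x).reverse + val (s y).reverse + b.toNat
          = 2 * (val lx.reverse + val ly.reverse + ((p && q) || (b && xor p q)).toNat)
            + (xor (xor p q) b).toNat := by
        rw [hlx, hly, List.reverse_cons, List.reverse_cons, pab_snoc, pab_snoc]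
        have := pab_bits p q b
        omega
      rw [hV, pab_bin, pab_carry, e1, e2, e4, List.append_assoc, List.singleton_append, hs1]
      funext w
      simp only [up]
      split_ifs <;> simp_all
  intro s n b hx hy hc
  exact (key n s b hx hy hc).congr (by omega) rfl

/-- one step of the addition of the carry -/
def pab_Q2 {A : TM} (y c z : SName) (q r : Bool) : BProg A :=
  Prog.seq (pop y) (Prog.seq (pop c) (Prog.seq (push z (xor q r)) (push c (q && r))))

theorem pab_satQ2 {A : TM} {y c z : SName} (hd : [y, c, z].Nodup) {s : St} {q r : Bool}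
    {ly lc : List Bool} (hy : s y = q :: ly) (hc : s c = r :: lc) :
    Sat (pab_Q2 y c z q r : BProg A) s 6
      (up (up (up s y ly) z (xor q r :: s z)) c ((q && r) :: lc)) := by
  simp only [List.nodup_cons, List.mem_cons, List.not_mem_nil, or_false, not_or,
    not_false_eq_true, List.nodup_nil, and_true] at hd
  obtain ⟨⟨hyc, hyz⟩, hcz⟩ := hd
  have h := (sat_pop (A := A) y s).seq ((sat_pop c _).seq
    ((sat_push z (xor q r) _).seq (sat_push c (q && r) _)))
  refine h.congr le_rfl ?_
  funext w
  simp only [up]
  split_ifs <;> simp_all [Ne.symm]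

/-- one step of the addition of the carry -/
def pab_step2 {A : TM} (y c z : SName) : BProg A :=
  ifTrue y (ifTrue c (pab_Q2 y c z true true) (pab_Q2 y c z true false))
    (ifTrue c (pab_Q2 y c z false true) (pab_Q2 y c z false false))

theorem pab_satstep2 {A : TM} {y c z : SName} (hd : [y, c, z].Nodup) {s : St} {q r : Bool}
    {ly lc : List Bool} (hy : s y = q :: ly) (hc : s c = r :: lc) :
    Sat (pab_step2 y c z : BProg A) s 8
      (up (up (up s y ly) z (xor q r :: s z)) c ((q && r) :: lc)) := by
  have h1 := pab_satQ2 (A := A) hd hy hc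
  have h2 := pab_if hc (fun r => pab_Q2 y c z q r) h1
  exact pab_if hy (fun q => ifTrue c (pab_Q2 y c z q true) (pab_Q2 y c z q false)) h2

theorem pab_carryloop {A : TM} {y c z : SName} (hd : [y, c, z].Nodup) (n : ℕ) :
    ∀ (s : St) (b : Bool), (s y).length = n → s c = [b] →
      Sat (whileNE y (pab_step2 y c z) : BProg A) s (9 * n + 1) (up (up (up s y []) z
        (bin n ((val (s y).reverse + b.toNat) % 2 ^ n) ++ s z)) c
        [decide (2 ^ n ≤ val (s y).reverse + b.toNat)]) := by
  have hd' := hd
  simp only [List.nodup_cons, List.mem_cons, List.not_mem_nil, or_false, not_or,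
    not_false_eq_true, List.nodup_nil, and_true] at hd'
  obtain ⟨⟨hyc, hyz⟩, hcz⟩ := hd'
  induction n with
  | zero =>
    intro s b hy hc
    have hy0 : s y = [] := List.length_eq_zero_iff.1 hy
    refine (sat_whileNE_nil hy0).congr (by omega) ?_
    have e1 : decide (2 ^ 0 ≤ val (s y).reverse + b.toNat) = b := by
      rw [hy0, List.reverse_nil, val_nil]
      cases b <;> simp
    rw [e1]
    have e2 : bin 0 ((val (s y).reverse + b.toNat) % 2 ^ 0) = [] := rfl
    rw [e2, List.nil_append, ← hc]
    funext w
    simp only [up]
    split_ifs <;> simp_all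
  | succ n ih =>
    intro s b hy hc
    obtain ⟨q, ly, hly⟩ : ∃ q ly, s y = q :: ly := List.exists_cons_of_length_eq_add_one hy
    have hly' : ly.length = n := by
      rw [hly, List.length_cons] at hy
      omega
    have h1 := pab_satstep2 (A := A) hd hly hc
    set s1 := up (up (up s y ly) z (xor q b :: s z)) c ((q && b) :: []) with hs1
    have e2 : s1 y = ly := by
      rw [hs1, up_of_ne _ hyc, up_of_ne _ hyz, up_self]
    have e3 : s1 c = [q && b] := by
      rw [hs1, up_self]
    have e4 : s1 z = xor q b :: s z := by
      rw [hs1, up_of_ne _ (Ne.symm hcz), up_self]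
    have h2 := ih s1 (q && b) (by rw [e2]; exact hly') e3
    refine (sat_whileNE_cons (by rw [hly]; simp) h1 h2).congr (by omega) ?_
    have hV : val (s y).reverse + b.toNat
        = 2 * (val ly.reverse + (q && b).toNat) + (xor q b).toNat := by
      rw [hly, List.reverse_cons, pab_snoc]
      have : q.toNat + b.toNat = 2 * (q && b).toNat + (xor q b).toNat := by
        cases q <;> cases b <;> rfl
      omega
    rw [hV, pab_bin, pab_carry, e2, e4, List.append_assoc, List.singleton_append, hs1]
    funext w
    simp only [up]
    split_ifs <;> simp_all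

theorem pab_eac (n : ℕ) (X Y : List Bool) (hX : X.length = n) (hY : Y.length = n) :
    eacF n X Y = bin n (((val X + val Y) % 2 ^ n + (decide (2 ^ n ≤ val X + val Y)).toNat)
      % 2 ^ n) := by
  have h1 := val_lt X
  have h2 := val_lt Y
  rw [hX] at h1
  rw [hY] at h2
  unfold eacF
  by_cases h : val X + val Y < 2 ^ n
  · rw [if_pos h, decide_eq_false (not_le.2 h)]
    simp only [Bool.toNat_false, add_zero]
    rw [Nat.mod_eq_of_lt h, Nat.mod_eq_of_lt h]
  · rw [if_neg h, decide_eq_true (not_lt.1 h)]
    have e1 : (val X + val Y) % 2 ^ n = val X + val Y - 2 ^ n := by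
      rw [Nat.mod_eq_sub_mod (not_lt.1 h), Nat.mod_eq_of_lt (by omega)]
    rw [e1, Bool.toNat_true, Nat.mod_eq_of_lt (by omega)]

/-- `x` is added to `y` with end-around carry -/
theorem exists_eac (A : TM) {x y c z : SName} (hd : [x, y, c, z].Nodup) :
    ∃ (P : BProg A) (C : ℕ), ∀ (s : St) (n : ℕ), (s x).length = n → (s y).length = n →
      s c = [] → s z = [] →
      Sat P s (C * (n + 1)) (up (up s x []) y (eacF n (s x).reverse (s y).reverse).reverse) := by
  obtain ⟨P, C, hP⟩ := exists_addBits A hd
  have hd' := hd
  simp only [List.nodup_cons, List.mem_cons, List.not_mem_nil, or_false, not_or,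
    not_false_eq_true, List.nodup_nil, and_true] at hd'
  obtain ⟨⟨hxy, hxc, hxz⟩, ⟨hyc, hyz⟩, hcz⟩ := hd'
  refine ⟨Prog.seq (push c false) (Prog.seq P (Prog.seq (mvAll z y)
    (Prog.seq (whileNE y (pab_step2 y c z)) (Prog.seq (pop c) (mvAll z y))))), C + 30, ?_⟩
  intro s n hx hy hc hz
  have h1 := sat_push (A := A) c false s
  set s1 := up s c (false :: s c) with hs1
  have e1x : s1 x = s x := up_of_ne _ hxc _
  have e1y : s1 y = s y := up_of_ne _ hyc _
  have e1z : s1 z = [] := by rw [hs1, up_of_ne _ (Ne.symm hcz), hz]
  have e1c : s1 c = [false] := by rw [hs1, up_self, hc]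
  have h2 := hP s1 n false (by rw [e1x]; exact hx) (by rw [e1y]; exact hy) e1c
  rw [e1x, e1y, e1z, List.append_nil, Bool.toNat_false, add_zero] at h2
  set S := bin n ((val (s x).reverse + val (s y).reverse) % 2 ^ n) with hS
  set cy := decide (2 ^ n ≤ val (s x).reverse + val (s y).reverse) with hcy
  set s2 := up (up (up (up s1 x []) y []) z S) c [cy] with hs2
  have e2z : s2 z = S := by rw [hs2, up_of_ne _ (Ne.symm hcz), up_self]
  have e2y : s2 y = [] := by rw [hs2, up_of_ne _ hyc, up_of_ne _ hyz, up_self]
  have e2c : s2 c = [cy] := by rw [hs2, up_self]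
  have h3 := sat_mvAll (A := A) (Ne.symm hyz) s2
  rw [e2z, e2y, List.append_nil] at h3
  set s3 := up (up s2 z []) y S.reverse with hs3
  have hSl : S.length = n := length_bin _ _
  have e3y : s3 y = S.reverse := by rw [hs3, up_self]
  have e3z : s3 z = [] := by rw [hs3, up_of_ne _ (Ne.symm hyz), up_self]
  have e3c : s3 c = [cy] := by rw [hs3, up_of_ne _ (Ne.symm hyc), up_of_ne _ hcz, e2c]
  have hdd : [y, c, z].Nodup := by
    simp only [List.nodup_cons, List.mem_cons, List.not_mem_nil, or_false, not_or,
      not_false_eq_true, List.nodup_nil, and_true]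
    exact ⟨⟨hyc, hyz⟩, hcz⟩
  have h4 := pab_carryloop (A := A) hdd n s3 cy (by rw [e3y, List.length_reverse, hSl]) e3c
  have hvS : val S = (val (s x).reverse + val (s y).reverse) % 2 ^ n :=
    val_bin (Nat.mod_lt _ (by positivity))
  have hE : eacF n (s x).reverse (s y).reverse = bin n ((val S + cy.toNat) % 2 ^ n) := by
    rw [pab_eac n _ _ (by rw [List.length_reverse]; exact hx)
      (by rw [List.length_reverse]; exact hy), hvS]
  rw [e3y, List.reverse_reverse, e3z, List.append_nil, ← hE] at h4
  set s4 := up (up (up s3 y []) z (eacF n (s x).reverse (s y).reverse)) c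
    [decide (2 ^ n ≤ val S + cy.toNat)] with hs4
  have h5 := sat_pop (A := A) c s4
  have e4c : (s4 c).tail = [] := by rw [hs4, up_self]; rfl
  rw [e4c] at h5
  set s5 := up s4 c [] with hs5
  have e5z : s5 z = eacF n (s x).reverse (s y).reverse := by
    rw [hs5, up_of_ne _ (Ne.symm hcz), hs4, up_of_ne _ (Ne.symm hcz), up_self]
  have e5y : s5 y = [] := by
    rw [hs5, up_of_ne _ hyc, hs4, up_of_ne _ hyc, up_of_ne _ hyz, up_self]
  have h6 := sat_mvAll (A := A) (Ne.symm hyz) s5
  rw [e5z, e5y, List.append_nil, length_eacF] at h6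
  refine (h1.seq (h2.seq (h3.seq (h4.seq (h5.seq h6))))).congr ?_ ?_
  · rw [hSl]
    have : C * (n + 1) + 30 * (n + 1) = (C + 30) * (n + 1) := by ring
    omega
  · rw [hs5, hs4, hs3, hs2, hs1]
    funext w
    simp only [up]
    split_ifs <;> simp_all

end Vale.Agent.P338
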