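import Vale.Agent.Lib.P338.Macro
import Vale.Agent.Lib.P338.Fun

/-!
# P338, module PAddReg: registers

A register with the value `v ≤ M` is a pair of stacks `r = un v`, `rc = un (M - v)`. To add
`k = un y` (companion `k'`, overflow stack `o`):
```
forC k k' ( ifNE rc (mv rc r) (push o true) )
```
Afterwards, if `v + y ≤ M`: `r = un (v + y)`, `rc = un (M - v - y)`, `o = []`. Otherwise `r = un M`,
`rc = []`, `o = un (v + y - M)`.
```
ifNE o ( mvAll r rc ; whileNE o (pop o; mv rc r) ) skip
```
gives `r = un (v + y - M)`, `rc = un (M - (v + y - M))` in the second case. All moved symbols are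
`true`.
-/

namespace Vale.Agent.P338

private theorem addReg_first {A : TM} {r rc k k' o : SName} (hd : [r, rc, k, k', o].Nodup) (s : St)
    (M v y : ℕ) (hv : v ≤ M) (hr : s r = un v) (hrc : s rc = un (M - v)) (hk : s k = un y)
    (hk' : s k' = []) (ho : s o = []) :
    Sat (forC k k' (ifNE rc (mv rc r) (push o true)) : BProg A) s (y * (5 + 9) + 2)
      (up (up (up s r (un (min M (v + y)))) rc (un (M - (v + y)))) o (un (v + y - M))) := by
  simp only [List.nodup_cons, List.mem_cons, List.not_mem_nil, or_false, not_or, not_false_eq_true,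
    List.nodup_nil, and_true] at hd
  obtain ⟨⟨h1, h2, h3, h4⟩, ⟨h5, h6, h7⟩, ⟨h8, h9⟩, h10⟩ := hd
  refine sat_for h8 hk hk' (fun i => up (up (up s r (un (min M (v + i)))) rc (un (M - (v + i)))) o
    (un (v + i - M))) ?_ ?_ ?_ ?_
  · simp only [Nat.add_zero, min_eq_right hv, Nat.sub_eq_zero_of_le hv]
    rw [← hr, ← hrc, up_id, up_id]
    have e : un 0 = s o := by rw [ho]; rfl
    rw [e, up_id]
  · simp only [up_of_ne _ h9, up_of_ne _ (Ne.symm h5), up_of_ne _ (Ne.symm h2)]
    exact hk
  · simp only [up_of_ne _ h10, up_of_ne _ (Ne.symm h6), up_of_ne _ (Ne.symm h3)]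
    exact hk'
  · intro i hi
    by_cases hM : v + i < M
    · have e1 : M - (v + i) = M - (v + (i + 1)) + 1 := by omega
      have hrc' : cnt k k' (up (up (up s r (un (min M (v + i)))) rc (un (M - (v + i)))) o
          (un (v + i - M))) (y - (i + 1)) (i + 1) rc = true :: un (M - (v + (i + 1))) := by
        unfold cnt
        rw [up_of_ne _ h6, up_of_ne _ h5, up_of_ne _ h7, up_self, e1, un_succ]
      have h11 := sat_mv (A := A) (Ne.symm h1) hrc'
      refine (sat_ifNE_cons ?_ h11).congr (by omega) ?_
      · rw [hrc']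
        simp
      · have e2 : min M (v + i) = v + i := by omega
        have e3 : min M (v + (i + 1)) = v + i + 1 := by omega
        have e4 : v + i - M = 0 := by omega
        have e5 : v + (i + 1) - M = 0 := by omega
        unfold cnt
        rw [e2, e3, e4, e5, un_succ]
        rw [up_of_ne _ h3, up_of_ne _ h2, up_of_ne _ h4, up_of_ne _ h1, up_self]
        clear h11 hrc'
        funext x
        simp only [up]
        split_ifs <;> simp_all [un_succ]
    · have e1 : M - (v + i) = 0 := by omega
      have hrc' : cnt k k' (up (up (up s r (un (min M (v + i)))) rc (un (M - (v + i)))) o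
          (un (v + i - M))) (y - (i + 1)) (i + 1) rc = [] := by
        unfold cnt
        rw [up_of_ne _ h6, up_of_ne _ h5, up_of_ne _ h7, up_self, e1]
        rfl
      have h11 := sat_push (A := A) o true (cnt k k' (up (up (up s r (un (min M (v + i)))) rc
        (un (M - (v + i)))) o (un (v + i - M))) (y - (i + 1)) (i + 1))
      refine (sat_ifNE_nil hrc' h11).congr (by omega) ?_
      have e2 : min M (v + i) = M := by omega
      have e3 : min M (v + (i + 1)) = M := by omega
      have e4 : v + (i + 1) - M = v + i - M + 1 := by omega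
      have e5 : M - (v + (i + 1)) = 0 := by omega
      unfold cnt
      rw [e1, e2, e3, e4, e5, un_succ]
      rw [up_of_ne _ (Ne.symm h10), up_of_ne _ (Ne.symm h9), up_self]
      clear h11 hrc'
      funext x
      simp only [up]
      split_ifs <;> simp_all [un_succ]

private theorem addReg_second {A : TM} {r rc o : SName} (h1 : r ≠ rc) (h4 : r ≠ o) (h7 : rc ≠ o)
    (t : St) (M z : ℕ) (hz : z ≤ M) (hr : t r = un M) (hrc : t rc = []) (ho : t o = un z) :
    Sat (Prog.seq (mvAll r rc) (whileNE o (Prog.seq (pop o) (mv rc r))) : BProg A) t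
      (5 * M + 1 + (z * (5 + 1) + 1))
      (up (up (up t r (un z)) rc (un (M - z))) o []) := by
  have h11 := sat_mvAll (A := A) h1 t
  rw [hr, hrc, un_reverse, List.append_nil] at h11
  have h12 := sat_while' (A := A) o (Prog.seq (pop o) (mv rc r))
    (fun j => up (up (up t r (un j)) rc (un (M - j))) o (un (z - j))) 5 z ?_ ?_ ?_
  · have e1 : (up (up t r []) rc (un M)) =
        (fun j => up (up (up t r (un j)) rc (un (M - j))) o (un (z - j))) 0 := by
      simp only [Nat.sub_zero]
      rw [← ho, show t o = up (up t r (un 0)) rc (un M) o by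
        rw [up_of_ne _ (Ne.symm h7), up_of_ne _ (Ne.symm h4)], up_id]
      rfl
    rw [e1] at h11
    refine (h11.seq h12).congr ?_ ?_
    · simp [un]
    · simp only [Nat.sub_self]
      rfl
  · intro j hj
    simp only [up_self]
    obtain ⟨i, hi⟩ : ∃ i, z - j = i + 1 := ⟨z - j - 1, by omega⟩
    rw [hi, un_succ]
    simp
  · simp only [up_self, Nat.sub_self]
    rfl
  · intro j hj
    have e1 : M - j = M - (j + 1) + 1 := by omega
    have e2 : z - j = z - (j + 1) + 1 := by omega
    have h13 := sat_pop (A := A) o (up (up (up t r (un j)) rc (un (M - j))) o (un (z - j)))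
    have h14 : (up (up (up (up t r (un j)) rc (un (M - j))) o (un (z - j))) o
        (up (up (up t r (un j)) rc (un (M - j))) o (un (z - j)) o).tail) rc =
        true :: un (M - (j + 1)) := by
      rw [up_of_ne _ h7, up_of_ne _ h7, up_self, e1, un_succ]
    refine (h13.seq (sat_mv (Ne.symm h1) h14)).congr le_rfl ?_
    rw [up_self, e2, un_succ, List.tail_cons]
    rw [up_of_ne _ h4, up_of_ne _ h4, up_of_ne _ h1, up_self]
    funext x
    simp only [up]
    split_ifs <;> simp_all [un_succ]

theorem exists_addReg (A : TM) {r rc k k' o : SName} (hd : [r, rc, k, k', o].Nodup) :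
    ∃ (P : BProg A) (C : ℕ), ∀ (s : St) (M v y : ℕ), v ≤ M → y ≤ M → s r = un v →
      s rc = un (M - v) → s k = un y → s k' = [] → s o = [] →
      Sat P s (C * (M + 1)) (up (up s r (un (addV M v y))) rc (un (M - addV M v y))) := by
  refine ⟨Prog.seq (forC k k' (ifNE rc (mv rc r) (push o true)))
    (ifNE o (Prog.seq (mvAll r rc) (whileNE o (Prog.seq (pop o) (mv rc r)))) skip), 30, ?_⟩
  intro s M v y hv hy hr hrc hk hk' ho
  have h0 := addReg_first (A := A) hd s M v y hv hr hrc hk hk' ho
  simp only [List.nodup_cons, List.mem_cons, List.not_mem_nil, or_false, not_or, not_false_eq_true,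
    List.nodup_nil, and_true] at hd
  obtain ⟨⟨h1, h2, h3, h4⟩, ⟨h5, h6, h7⟩, ⟨h8, h9⟩, h10⟩ := hd
  by_cases hM : v + y ≤ M
  · have e1 : addV M v y = v + y := by
      unfold addV
      rw [if_pos hM]
    have e2 : v + y - M = 0 := by omega
    have e3 : min M (v + y) = v + y := by omega
    rw [e2, e3] at h0
    have h11 := h0.seq (sat_ifNE_nil (A := A) (x := o)
      (P := Prog.seq (mvAll r rc) (whileNE o (Prog.seq (pop o) (mv rc r)))) (by rw [up_self]; rfl)
      (sat_skip _))
    refine h11.congr (by nlinarith) ?_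
    rw [e1]
    have e4 : un 0 = up (up s r (un (v + y))) rc (un (M - (v + y))) o := by
      rw [up_of_ne _ (Ne.symm h7), up_of_ne _ (Ne.symm h4), ho]
      rfl
    rw [e4, up_id]
  · have e1 : addV M v y = v + y - M := by
      unfold addV
      rw [if_neg hM]
    have e2 : min M (v + y) = M := by omega
    have e3 : M - (v + y) = 0 := by omega
    rw [e2, e3] at h0
    have h12 := addReg_second (A := A) h1 h4 h7
      (up (up (up s r (un M)) rc (un 0)) o (un (v + y - M))) M (v + y - M) (by omega)
      (by rw [up_of_ne _ h4, up_of_ne _ h1, up_self]) (by rw [up_of_ne _ h7, up_self]; rfl)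
      (by rw [up_self])
    have h11 := h0.seq (sat_ifNE_cons (A := A) (x := o) (R := skip) (by
      rw [up_self]
      obtain ⟨i, hi⟩ : ∃ i, v + y - M = i + 1 := ⟨v + y - M - 1, by omega⟩
      rw [hi, un_succ]
      simp) h12)
    refine h11.congr (by omega) ?_
    rw [e1]
    funext x
    simp only [up]
    split_ifs <;> simp_all

end Vale.Agent.P338
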