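import Vale.Agent.Lib.P338.FrontDefs
import Vale.Agent.Lib.P338.MBlk

/-!
# P338, modules PFront, PBack: size, padding, and the final step

`only x` is the state with `GD = x` and all other stacks empty.

`exists_front`: `x` has `n * n` bits, `L = Nat.clog 2 n`, `m = 2 ^ L`.
```
copyAll GD WA Z0
whileNE WA ( pop WA ; dropLen LN Z0 WA ; dropLen LN Z0 WA ; push LN true )      -- LN = un n
push TA true                                                                 -- TA = un (2 ^ j)
pushLen LN Z0 X0 true ; dropLen TA Z0 X0                                      -- X0 = un (n - 2 ^ j)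
whileNE X0 ( clear X0 ; mvAll TA X1 ; whileNE X1 ( pop X1 ; push TA true ; push TA true ) ;
  push LS true ; pushLen LN Z0 X0 true ; dropLen TA Z0 X0 )                   -- n <= 2 ^ L
mvAll TA LP ; dropLen LN Z0 LP                                                -- LP = un (m - n)
pushLen LN Z0 TB true ; pushLen LP Z0 TE true
forC TB Z0 ( mvLen LN Z1 GD GO ; pushLen LP Z1 GO false )
forC TE Z0 ( pushLen LN Z1 GO false ; pushLen LP Z1 GO false )
clear TE ; clear TB ; mvAll GO GD
```
(The loop for `LN`: before iteration `i` one has `LN = un i`, and `WA` has `n * n - i * i` symbols;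
`2 ^ j < n ↔ j < Nat.clog 2 n`, `Nat.lt_pow_iff_log_lt`/`Nat.clog` lemmas; `m ≤ 2 n`, `L ≤ n`, so
the cost is `≤ C * n ^ 2`.)

`exists_back`: `pushLen LN Z0 TB true ; forC TB Z0 ( mvLen LN Z1 GD GO ; dropLen LP Z1 GD ) ;
clear TB ; clear GD ; mvAll GO GD ; clear LN ; clear LP ; clear LS`.
-/

namespace Vale.Agent.P338

theorem pback_m_le {n : ℕ} (hn : 1 ≤ n) : 2 ^ Nat.clog 2 n ≤ 2 * n := by
  rcases Nat.lt_or_ge 1 n with h | h
  · have h1 := Nat.pow_pred_clog_lt_self (b := 2) (by norm_num) h
    have h2 : 0 < Nat.clog 2 n := Nat.clog_pos (by norm_num) h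
    obtain ⟨k, hk⟩ : ∃ k, Nat.clog 2 n = k + 1 := ⟨Nat.clog 2 n - 1, by omega⟩
    rw [hk] at h1 ⊢
    simp only [Nat.pred_succ, Nat.add_sub_cancel] at h1
    rw [pow_succ]
    omega
  · have h1 : n = 1 := le_antisymm h hn
    subst h1
    simp

theorem pback_clog_le (n : ℕ) : Nat.clog 2 n ≤ n :=
  Nat.clog_le_of_le_pow (Nat.lt_two_pow_self).le

/-- the body of the loop -/
def pbackBody (A : TM) : BProg A := Prog.seq (mvLen .LN .Z1 .GD .GO) (dropLen .LP .Z1 .GD)

theorem pback_body (A : TM) {n m : ℕ} (hnm : n ≤ m) {t : St} (hLN : t .LN = un n)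
    (hLP : t .LP = un (m - n)) (hZ1 : t .Z1 = []) (hl : n ≤ (t .GD).length) :
    Sat (pbackBody A) t (13 * n + 2 + (10 * (m - n) + 2))
      (up (up t .GD ((t .GD).drop m)) .GO (((t .GD).take n).reverse ++ t .GO)) := by
  have h1 := sat_mvLen (A := A) (c := .LN) (c' := .Z1) (x := .GD) (y := .GO) (by decide) hLN hZ1 hl
  set t1 := up (up t .GD ((t .GD).drop n)) .GO (((t .GD).take n).reverse ++ t .GO) with ht1
  have h2 := sat_dropLen (A := A) (c := .LP) (c' := .Z1) (x := .GD) (by decide) (s := t1)
    (m := m - n) (by rw [ht1]; simp [up, hLP]) (by rw [ht1]; simp [up, hZ1])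
  refine (h1.seq h2).congr le_rfl ?_
  have e : t1 .GD = (t .GD).drop n := by rw [ht1]; simp [up]
  rw [e, List.drop_drop, show n + (m - n) = m by omega, ht1, up_comm _ (by decide), up_up]

theorem exists_back (A : TM) : ∃ (P : BProg A) (C : ℕ), ∀ (n : ℕ) (x : List Bool), 1 ≤ n →
    x.length = 2 ^ Nat.clog 2 n * 2 ^ Nat.clog 2 n →
    Sat P (mid n x) (C * n ^ 2) (only (unpadF n (2 ^ Nat.clog 2 n) x)) := by
  refine ⟨Prog.seq (pushLen .LN .Z0 .TB true) (Prog.seq (forC .TB .Z0 (pbackBody A))
    (Prog.seq (clear .TB) (Prog.seq (clear .GD) (Prog.seq (mvAll .GO .GD)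
    (Prog.seq (clear .LN) (Prog.seq (clear .LP) (clear .LS))))))), 100, ?_⟩
  intro n x hn hx
  set m := 2 ^ Nat.clog 2 n with hm
  have hm2 : m ≤ 2 * n := pback_m_le hn
  have hnm : n ≤ m := Nat.le_pow_clog (by norm_num) n
  have hcl : Nat.clog 2 n ≤ n := pback_clog_le n
  -- first step
  have h1 := sat_pushLen (A := A) (c := .LN) (c' := .Z0) (x := .TB) (by decide) true
    (s := mid n x) (m := n) (by simp [mid, up]) (by simp [mid, up])
  have e1 : mid n x .TB = [] := by simp [mid, up]
  rw [e1, List.append_nil] at h1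
  set s1 := up (mid n x) .TB (List.replicate n true) with hs1
  -- the loop
  have h2 := sat_for2 (A := A) (c := .TB) (c' := .Z0) (x := .GD) (y := .GO) (by decide)
    (P := pbackBody A) (s := s1) (q := 13 * n + 2 + (10 * (m - n) + 2)) (m := n)
    (by rw [hs1]; simp [up]) (by rw [hs1]; simp [mid, up])
    (fun k => x.drop (k * m))
    (fun k => (cat k (fun i => (blk m x i).take n)).reverse)
    (by rw [hs1]; simp [mid, up])
    (by rw [hs1]; simp [mid, up, cat])
    (by
      intro k hk t h1 h2 h3
      have hLN : t .LN = un n := by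
        rw [h3 .LN (by decide) (by decide) (by decide) (by decide), hs1]
        simp [mid, up]
      have hLP : t .LP = un (m - n) := by
        rw [h3 .LP (by decide) (by decide) (by decide) (by decide), hs1]
        simp [mid, up, hm]
      have hZ1 : t .Z1 = [] := by
        rw [h3 .Z1 (by decide) (by decide) (by decide) (by decide), hs1]
        simp [mid, up]
      have hlen : n ≤ (t .GD).length := by
        rw [h1, List.length_drop, hx]
        have h5 : (k + 1) * m ≤ m * m := Nat.mul_le_mul_right _ (by omega)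
        have h6 : (k + 1) * m = k * m + m := by ring
        omega
      refine (pback_body A hnm hLN hLP hZ1 hlen).congr le_rfl ?_
      rw [h1, h2, List.drop_drop]
      have h7 : k * m + m = (k + 1) * m := by ring
      have h8 : ((x.drop (k * m)).take n).reverse ++ (cat k fun i => (blk m x i).take n).reverse =
          (cat (k + 1) fun i => (blk m x i).take n).reverse := by
        rw [cat_succ, List.reverse_append]
        unfold blk
        rw [List.take_take, min_eq_left hnm]
      rw [h7, h8])
  set s2 := up (up s1 .GD (x.drop (n * m))) .GO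
    (cat n (fun i => (blk m x i).take n)).reverse with hs2
  have h3 := sat_clear (A := A) .TB s2
  set s3 := up s2 .TB [] with hs3
  have h4 := sat_clear (A := A) .GD s3
  set s4 := up s3 .GD [] with hs4
  have h5 := sat_mvAll (A := A) (x := .GO) (y := .GD) (by decide) s4
  set s5 := up (up s4 .GO []) .GD ((s4 .GO).reverse ++ s4 .GD) with hs5
  have h6 := sat_clear (A := A) .LN s5
  set s6 := up s5 .LN [] with hs6
  have h7 := sat_clear (A := A) .LP s6
  set s7 := up s6 .LP [] with hs7
  have h8 := sat_clear (A := A) .LS s7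
  have c3 : (s2 .TB).length = n := by
    rw [hs2, hs1]
    simp [up]
  have c4 : (s3 .GD).length = m * m - n * m := by
    rw [hs3, hs2, hs1]
    simp [up, hx]
  have hcat : (cat n (fun i => (blk m x i).take n)).length = n * n := by
    refine length_cat fun i hi => ?_
    unfold blk
    rw [List.take_take, min_eq_left hnm, List.length_take, List.length_drop, hx]
    have h5 : (i + 1) * m ≤ m * m := Nat.mul_le_mul_right _ (by omega)
    have h6 : (i + 1) * m = i * m + m := by ring
    omega
  have e5 : s4 .GO = (cat n (fun i => (blk m x i).take n)).reverse := by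
    rw [hs4, hs3, hs2]
    simp [up]
  have c5 : (s4 .GO).length = n * n := by
    rw [e5, List.length_reverse, hcat]
  have c6 : (s5 .LN).length = n := by
    rw [hs5, hs4, hs3, hs2, hs1]
    simp [up, mid]
  have c7 : (s6 .LP).length = m - n := by
    rw [hs6, hs5, hs4, hs3, hs2, hs1]
    simp [up, mid, hm]
  have c8 : (s7 .LS).length = Nat.clog 2 n := by
    rw [hs7, hs6, hs5, hs4, hs3, hs2, hs1]
    simp [up, mid]
  refine (h1.seq (h2.seq (h3.seq (h4.seq (h5.seq (h6.seq (h7.seq h8))))))).congr ?_ ?_
  · rw [c3, c4, c5, c6, c7, c8]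
    have g1 : m * m ≤ 4 * n ^ 2 := by nlinarith
    have g2 : n ≤ n ^ 2 := by nlinarith
    have g3 : n * (13 * n + 2 + (10 * (m - n) + 2) + 9) ≤ n * (23 * n + 13) :=
      Nat.mul_le_mul_left _ (by omega)
    have g4 : n * (23 * n + 13) = 23 * n ^ 2 + 13 * n := by ring
    have g5 : n * n = n ^ 2 := by ring
    have g6 : 1 ≤ n ^ 2 := Nat.one_le_pow _ _ hn
    rw [g5]
    omega
  · have e6 : s4 .GD = [] := by rw [hs4]; simp [up]
    rw [hs7, hs6, hs5, e5, e6, List.append_nil, List.reverse_reverse, hs4, hs3, hs2, hs1]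
    have e7 : unpadF n m x = cat n (fun i => (blk m x i).take n) := rfl
    rw [← e7]
    funext z
    simp only [only, mid, up]
    split_ifs <;> simp_all

end Vale.Agent.P338
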