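import Vale.Agent.Lib.P338.Macro
import Vale.Agent.Lib.P338.MNaive

/-!
# P338, module PNaive: the unshuffle and the naive transposition

`exists_unrif`: `D` contains `2 m` pieces of `E = q * a` bits, `TE = un E`, `E ≥ 1`:
```
whileNE D ( mvLen TE Z0 D O ; mvLen TE Z0 D X0 )     -- m iterations
mvAll X0 X1 ; mvAll X1 O                              -- odd pieces after the even pieces
mvAll O D
```
After `k` iterations `O = (cat k (fun i => blk E l (2 i))).reverse`, `X0` similarly with the odd
pieces, `D = l.drop (2 k E)`. (The stacks in `temps` are empty except possibly `HSk`.)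

`exists_naive`: `forC HS HSk unrif`; after `k` iterations `D = (unrifF (a * a / 2) (q * a))^[k] l`
(`Function.iterate_succ_apply'`, lengths by `length_unrifF`; `a * a / 2 * 2 = a * a` because
`a = 2 ^ h`, `h ≥ 1`); use `naive_eq`.
-/

namespace Vale.Agent.P338

/-- the state after `k` iterations of the main loop -/
private def stU (s : St) (E k : ℕ) : St :=
  up (up (up s .O (cat k (fun i => blk E (s .D) (2 * i))).reverse) .X0
    (cat k (fun i => blk E (s .D) (2 * i + 1))).reverse) .D ((s .D).drop (2 * k * E))

private theorem stepU {A : TM} {s : St} {E m k : ℕ} (hn : AllNil (temps.erase .HSk) s)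
    (hE : s .TE = un E) (hl : (s .D).length = 2 * m * E) (hk : k < m) :
    Sat (Prog.seq (mvLen .TE .Z0 .D .O) (mvLen .TE .Z0 .D .X0) : BProg A) (stU s E k)
      (26 * E + 4) (stU s E (k + 1)) := by
  have hlen : ((s .D).drop (2 * k * E)).length = 2 * (m - k) * E := by
    rw [List.length_drop, hl, ← Nat.sub_mul, ← Nat.mul_sub]
  have hlen2 : 2 * E ≤ ((s .D).drop (2 * k * E)).length := by
    rw [hlen]
    have : 1 ≤ m - k := by omega
    nlinarith
  have hZ : s .Z0 = [] := hn.get (by decide)
  have h1 := sat_mvLen (A := A) (c := .TE) (c' := .Z0) (x := .D) (y := .O) (by decide)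
    (s := stU s E k) (m := E) (by simp [stU, up, hE]) (by simp [stU, up, hZ])
    (by
      have : stU s E k .D = (s .D).drop (2 * k * E) := by simp [stU]
      rw [this]; omega)
  have hD : stU s E k .D = (s .D).drop (2 * k * E) := by simp [stU]
  have hO : stU s E k .O = (cat k (fun i => blk E (s .D) (2 * i))).reverse := by
    simp [stU, up]
  have hX : stU s E k .X0 = (cat k (fun i => blk E (s .D) (2 * i + 1))).reverse := by
    simp [stU, up]
  have hTE : stU s E k .TE = un E := by simp [stU, up, hE]
  have hZ0 : stU s E k .Z0 = [] := by simp [stU, up, hZ]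
  rw [hD, hO] at h1
  have h2 := sat_mvLen (A := A) (c := .TE) (c' := .Z0) (x := .D) (y := .X0) (by decide)
    (s := up (up (stU s E k) .D (((s .D).drop (2 * k * E)).drop E)) .O
      ((((s .D).drop (2 * k * E)).take E).reverse ++
        (cat k (fun i => blk E (s .D) (2 * i))).reverse)) (m := E)
    (by rw [up_of_ne _ (by decide), up_of_ne _ (by decide), hTE])
    (by rw [up_of_ne _ (by decide), up_of_ne _ (by decide), hZ0])
    (by
      rw [up_of_ne _ (by decide), up_self, List.length_drop]
      omega)
  rw [up_of_ne (x := SName.O) (y := SName.D) _ (by decide), up_self] at h2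
  refine (h1.seq h2).congr (by omega) ?_
  have e1 : ((s .D).drop (2 * k * E)).drop E = (s .D).drop ((2 * k + 1) * E) := by
    rw [List.drop_drop]
    congr 1
    ring
  have e2 : ((s .D).drop ((2 * k + 1) * E)).drop E = (s .D).drop (2 * (k + 1) * E) := by
    rw [List.drop_drop]
    congr 1
    ring
  have e3 : (((s .D).drop (2 * k * E)).take E).reverse ++
      (cat k (fun i => blk E (s .D) (2 * i))).reverse =
      (cat (k + 1) (fun i => blk E (s .D) (2 * i))).reverse := by
    rw [cat_succ, List.reverse_append]
    rfl
  have e4 : (((s .D).drop ((2 * k + 1) * E)).take E).reverse ++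
      (cat k (fun i => blk E (s .D) (2 * i + 1))).reverse =
      (cat (k + 1) (fun i => blk E (s .D) (2 * i + 1))).reverse := by
    rw [cat_succ, List.reverse_append]
    rfl
  rw [e1, e2, e3, up_of_ne (x := SName.O) (y := SName.X0) _ (by decide),
    up_of_ne (x := SName.D) (y := SName.X0) _ (by decide), hX, e4]
  funext x
  simp only [stU, up]
  split_ifs <;> simp_all

/-- the program -/
private def pU (A : TM) : BProg A :=
  Prog.seq (whileNE .D (Prog.seq (mvLen .TE .Z0 .D .O) (mvLen .TE .Z0 .D .X0)))
    (Prog.seq (mvAll .X0 .X1) (Prog.seq (mvAll .X1 .O) (mvAll .O .D)))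

private theorem satU (A : TM) (s : St) (E m : ℕ) (h1 : 1 ≤ E) (hn : AllNil (temps.erase .HSk) s)
    (hE : s .TE = un E) (hl : (s .D).length = 2 * m * E) :
    Sat (pU A) s (100 * (m * E + 1)) (up s .D (unrifF m E (s .D))) := by
  have hO : s .O = [] := hn.get (by decide)
  have hX0 : s .X0 = [] := hn.get (by decide)
  have hX1 : s .X1 = [] := hn.get (by decide)
  have hw := sat_while' (A := A) .D (Prog.seq (mvLen .TE .Z0 .D .O) (mvLen .TE .Z0 .D .X0))
    (stU s E) (26 * E + 4) m
    (by
      intro k hk h0
      have : stU s E k .D = (s .D).drop (2 * k * E) := by simp [stU]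
      rw [this] at h0
      have h2 := congrArg List.length h0
      rw [List.length_drop, hl, ← Nat.sub_mul, ← Nat.mul_sub, List.length_nil] at h2
      have h3 : 1 ≤ m - k := by omega
      have h4 : 1 * 1 ≤ (m - k) * E := Nat.mul_le_mul h3 h1
      nlinarith)
    (by
      have : stU s E m .D = (s .D).drop (2 * m * E) := by simp [stU]
      rw [this, ← hl, List.drop_length])
    (fun k hk => stepU hn hE hl hk)
  have h0 : stU s E 0 = s := by
    funext x
    simp only [stU, up, cat_zero]
    split_ifs <;> simp_all
  rw [h0] at hw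
  set ev := cat m (fun i => blk E (s .D) (2 * i)) with hev
  set od := cat m (fun i => blk E (s .D) (2 * i + 1)) with hod
  have hsm : stU s E m = up (up (up s .O ev.reverse) .X0 od.reverse) .D [] := by
    unfold stU
    rw [← hl, List.drop_length]
  rw [hsm] at hw
  have lev : ev.length = m * E := by
    rw [hev]
    refine length_cat fun i hi => length_blk ?_
    rw [hl]
    exact Nat.mul_le_mul_right _ (by omega)
  have lod : od.length = m * E := by
    rw [hod]
    refine length_cat fun i hi => length_blk ?_
    rw [hl]
    exact Nat.mul_le_mul_right _ (by omega)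
  have a1 := sat_mvAll (A := A) (x := .X0) (y := .X1) (by decide)
    (up (up (up s .O ev.reverse) .X0 od.reverse) .D [])
  have a2 := sat_mvAll (A := A) (x := .X1) (y := .O) (by decide)
    (up (up (up s .O ev.reverse) .D []) .X1 od)
  have a3 := sat_mvAll (A := A) (x := .O) (y := .D) (by decide)
    (up (up s .O (od.reverse ++ ev.reverse)) .D [])
  have c1 : (5 * ((up (up (up s .O ev.reverse) .X0 od.reverse) .D []) SName.X0).length + 1) =
      5 * (m * E) + 1 := by
    simp [up, lod]
  have c2 : (5 * ((up (up (up s .O ev.reverse) .D []) .X1 od) SName.X1).length + 1) =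
      5 * (m * E) + 1 := by
    simp [up, lod]
  have c3 : (5 * ((up (up s .O (od.reverse ++ ev.reverse)) .D []) SName.O).length + 1) =
      5 * (m * E + m * E) + 1 := by
    simp [up, lod, lev]
  rw [c1] at a1
  rw [c2] at a2
  rw [c3] at a3
  have a1' := a1.congr le_rfl (s'' := up (up (up s .O ev.reverse) .D []) .X1 od) (by
    funext x
    simp only [up]
    split_ifs <;> simp_all)
  have a2' := a2.congr le_rfl (s'' := up (up s .O (od.reverse ++ ev.reverse)) .D []) (by
    funext x
    simp only [up]
    split_ifs <;> simp_all)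
  refine (hw.seq (a1'.seq (a2'.seq a3))).congr ?_ ?_
  · have : m * 1 ≤ m * E := Nat.mul_le_mul_left _ h1
    nlinarith
  · have hu : unrifF m E (s .D) = ev ++ od := rfl
    rw [hu]
    funext x
    simp only [up]
    split_ifs <;> simp_all

theorem exists_unrif (A : TM) : ∃ (P : BProg A) (C : ℕ), ∀ (s : St) (E m : ℕ), 1 ≤ E →
    AllNil (temps.erase .HSk) s → s .TE = un E → (s .D).length = 2 * m * E →
    Sat P s (C * (m * E + 1)) (up s .D (unrifF m E (s .D))) :=
  ⟨pU A, 100, satU A⟩

theorem exists_naive (A : TM) : ∃ (P : BProg A) (C : ℕ), ∀ (s : St) (a q h : ℕ), 1 ≤ h →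
    a = 2 ^ h → 1 ≤ q → AllNil temps s → Par a q s → s .HS = un h →
    (s .D).length = q * a ^ 3 →
    Sat P s (C * (h * (q * a ^ 3))) (up s .D (swapF a (q * a) (s .D))) := by
  refine ⟨forC .HS .HSk (pU A), 300, ?_⟩
  intro s a q h hh ha hq hn hP hHS hl
  have hHSk : s .HSk = [] := hn.get (by decide)
  have ha1 : 1 ≤ a := by rw [ha]; exact Nat.one_le_two_pow
  have hE1 : 1 ≤ q * a := Nat.mul_pos hq ha1
  have hdiv : 2 * (a * a / 2) = a * a := by
    refine Nat.mul_div_cancel' ?_
    refine Dvd.dvd.mul_right ?_ _
    rw [ha]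
    exact dvd_pow_self 2 (by omega)
  have hlen : (s .D).length = 2 * (a * a / 2) * (q * a) := by
    rw [hdiv, hl]; ring
  have hlen' : (s .D).length = a * a * (q * a) := by
    rw [hl]; ring
  have hiter : ∀ k, ((unrifF (a * a / 2) (q * a))^[k] (s .D)).length =
      2 * (a * a / 2) * (q * a) := by
    intro k
    induction k with
    | zero => simpa using hlen
    | succ k ih => rw [Function.iterate_succ_apply', length_unrifF ih, ih]
  have key := sat_for1 (A := A) (c := .HS) (c' := .HSk) (x := .D) (by decide) (P := pU A) (s := s)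
    (q := 100 * ((a * a / 2) * (q * a) + 1)) (m := h) hHS hHSk
    (fun k => (unrifF (a * a / 2) (q * a))^[k] (s .D)) rfl (by
      intro k hk t ht htz
      have hk' : t .D = (unrifF (a * a / 2) (q * a))^[k] (s .D) := ht
      have hu := satU A t (q * a) (a * a / 2) hE1 (by
          intro z hz
          have hz1 : z ∈ temps := List.mem_of_mem_erase hz
          have hz2 : z ≠ .HSk := by
            intro e; subst e; revert hz; decide
          have hz3 : z ≠ .HS := by
            intro e; subst e; revert hz1; decide
          have hz4 : z ≠ .D := by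
            intro e; subst e; revert hz1; decide
          rw [htz z hz3 hz2 hz4]
          exact hn z hz1)
        (by rw [htz _ (by decide) (by decide) (by decide)]; exact hP.TE)
        (by rw [hk']; exact hiter k)
      refine hu.congr le_rfl ?_
      show _ = up t .D ((unrifF (a * a / 2) (q * a))^[k + 1] (s .D))
      rw [Function.iterate_succ_apply', hk'])
  refine key.congr ?_ ?_
  · have e : a * a / 2 * (q * a) * 2 = q * a ^ 3 := by
      have : a * a / 2 * (q * a) * 2 = 2 * (a * a / 2) * (q * a) := by ring
      rw [this, hdiv]; ring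
    set M := a * a / 2 * (q * a) with hM
    have hM1 : 1 ≤ q * a ^ 3 := Nat.mul_pos hq (pow_pos (by omega) 3)
    have hM2 : 1 ≤ M := by omega
    rw [← e]
    nlinarith [Nat.mul_le_mul hh hM2, Nat.mul_le_mul_left h hM2]
  · show up s .D ((unrifF (a * a / 2) (q * a))^[h] (s .D)) = _
    rw [naive_eq ha hlen']

end Vale.Agent.P338
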