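import Vale.Agent.Lib.P338.PTempl
import Vale.Agent.Lib.P338.PNaive

/-!
# P338, modules PUnrifPass, PRifPass, PBase4: the two passes for odd `L`, and the base case

`a = 2 ^ h`, `templO` gives `TE = TF = un (a ^ 2)`.

`exists_unrifPass`: chunks of `4 a ^ 4` bits, i.e. `2 * (2 a ^ 2)` pieces of `a ^ 2` bits:
```
whileNE GD (
  forC TF Z0 ( mvLen TE Z1 GD GO ; mvLen TE Z1 GD X0 ; mvLen TE Z1 GD GO ; mvLen TE Z1 GD X0 )
  mvAll X0 X1 ; mvAll X1 GO )
mvAll GO GD
clear TE ; clear TF
```
`exists_rifPass`: chunks of `2 a ^ 4` bits, two halves of `a ^ 2` pieces of `a ^ 2` bits: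
```
whileNE GD (
  forC TF Z0 ( mvLen TE Z1 GD X0 ) ; mvAll X0 X1
  forC TF Z0 ( mvLen TE Z1 X1 GO ; mvLen TE Z1 GD GO ) )
mvAll GO GD
clear TE ; clear TF
```
`exists_base4`: `whileNE GD ( mv GD GO ; mv GD X0 ; mv GD GO ; mv X0 GO ; mv GD GO ) ; mvAll GO GD`.
-/

namespace Vale.Agent.P338

/-- the body of the loop of `exists_base4` -/
private def b4body {A : TM} : BProg A :=
  Prog.seq (mv .GD .GO) (Prog.seq (mv .GD .X0) (Prog.seq (mv .GD .GO)
    (Prog.seq (mv .X0 .GO) (mv .GD .GO))))

private theorem sat_b4body {A : TM} {s : St} {a b c d : Bool} {l : List Bool}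
    (hs : s .GD = a :: b :: c :: d :: l) (hx : s .X0 = []) :
    Sat (b4body : BProg A) s 20 (up (up s .GD l) .GO (d :: b :: c :: a :: s .GO)) := by
  have h1 := sat_mv (A := A) (x := .GD) (y := .GO) (by decide) hs
  obtain ⟨s1, e1⟩ : ∃ s1, s1 = up (up s .GD (b :: c :: d :: l)) .GO (a :: s .GO) := ⟨_, rfl⟩
  rw [← e1] at h1
  have g1 : s1 .GD = b :: c :: d :: l := by rw [e1]; simp [up]
  have x1 : s1 .X0 = [] := by rw [e1]; simp [up, hx]
  have o1 : s1 .GO = a :: s .GO := by rw [e1]; simp [up]
  have h2 := sat_mv (A := A) (x := .GD) (y := .X0) (by decide) g1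
  obtain ⟨s2, e2⟩ : ∃ s2, s2 = up (up s1 .GD (c :: d :: l)) .X0 (b :: s1 .X0) := ⟨_, rfl⟩
  rw [← e2] at h2
  have g2 : s2 .GD = c :: d :: l := by rw [e2]; simp [up]
  have x2 : s2 .X0 = [b] := by rw [e2]; simp [up, x1]
  have o2 : s2 .GO = a :: s .GO := by rw [e2]; simp [up, o1]
  have h3 := sat_mv (A := A) (x := .GD) (y := .GO) (by decide) g2
  obtain ⟨s3, e3⟩ : ∃ s3, s3 = up (up s2 .GD (d :: l)) .GO (c :: s2 .GO) := ⟨_, rfl⟩
  rw [← e3] at h3
  have g3 : s3 .GD = d :: l := by rw [e3]; simp [up]
  have x3 : s3 .X0 = [b] := by rw [e3]; simp [up, x2]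
  have o3 : s3 .GO = c :: a :: s .GO := by rw [e3]; simp [up, o2]
  have h4 := sat_mv (A := A) (x := .X0) (y := .GO) (by decide) x3
  obtain ⟨s4, e4⟩ : ∃ s4, s4 = up (up s3 .X0 []) .GO (b :: s3 .GO) := ⟨_, rfl⟩
  rw [← e4] at h4
  have g4 : s4 .GD = d :: l := by rw [e4]; simp [up, g3]
  have x4 : s4 .X0 = [] := by rw [e4]; simp [up]
  have o4 : s4 .GO = b :: c :: a :: s .GO := by rw [e4]; simp [up, o3]
  have h5 := sat_mv (A := A) (x := .GD) (y := .GO) (by decide) g4
  refine (h1.seq (h2.seq (h3.seq (h4.seq h5)))).congr (by omega) ?_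
  rw [o4]
  funext x
  simp only [up]
  split_ifs with k1 k2
  · rfl
  · rfl
  · rw [e4, e3, e2, e1]
    simp only [up, if_neg k1, if_neg k2]
    split_ifs with k3
    · rw [k3, hx]
    · rfl

private theorem chunkF_nil4 : chunkF 4 base4F [] = [] := rfl

private theorem chunkF_cons4 (a b c d : Bool) (l : List Bool) :
    chunkF 4 base4F (a :: b :: c :: d :: l) = a :: c :: b :: d :: chunkF 4 base4F l := by
  unfold chunkF cat
  have e : (a :: b :: c :: d :: l).length / 4 = l.length / 4 + 1 := by
    simp only [List.length_cons]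
    omega
  rw [e, List.range_succ_eq_map, List.flatMap_cons, List.flatMap_map]
  have e2 : ∀ k, blk 4 (a :: b :: c :: d :: l) (Nat.succ k) = blk 4 l k := by
    intro k
    unfold blk
    have e3 : Nat.succ k * 4 = k * 4 + 1 + 1 + 1 + 1 := by
      rw [Nat.succ_mul]
    rw [e3]
    rfl
  simp only [e2]
  rfl

private theorem sat_b4loop {A : TM} (k : ℕ) : ∀ s : St, (s .GD).length = 4 * k → s .X0 = [] →
    Sat (whileNE .GD b4body : BProg A) s (21 * k + 1)
      (up (up s .GD []) .GO ((chunkF 4 base4F (s .GD)).reverse ++ s .GO)) := by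
  induction k with
  | zero =>
    intro s hl hx
    have h0 : s .GD = [] := List.eq_nil_of_length_eq_zero (by omega)
    refine (sat_whileNE_nil h0).congr (by omega) ?_
    rw [h0, chunkF_nil4, List.reverse_nil, List.nil_append, ← h0, up_id, up_id]
  | succ k ih =>
    intro s hl hx
    obtain ⟨a, b, c, d, l, hs⟩ : ∃ a b c d l, s .GD = a :: b :: c :: d :: l := by
      match h : s .GD, hl with
      | [], hl => simp at hl
      | [_], hl => simp at hl; omega
      | [_, _], hl => simp at hl; omega
      | [_, _, _], hl => simp at hl; omega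
      | a :: b :: c :: d :: l, _ => exact ⟨a, b, c, d, l, rfl⟩
    have h1 := sat_b4body (A := A) hs hx
    obtain ⟨s1, e1⟩ : ∃ s1, s1 = up (up s .GD l) .GO (d :: b :: c :: a :: s .GO) := ⟨_, rfl⟩
    rw [← e1] at h1
    have g1 : s1 .GD = l := by rw [e1]; simp [up]
    have x1 : s1 .X0 = [] := by rw [e1]; simp [up, hx]
    have o1 : s1 .GO = d :: b :: c :: a :: s .GO := by rw [e1]; simp [up]
    have hl1 : (s1 .GD).length = 4 * k := by
      rw [g1]
      rw [hs] at hl
      simp only [List.length_cons] at hl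
      omega
    have h2 := ih s1 hl1 x1
    refine (sat_whileNE_cons (by rw [hs]; simp) h1 h2).congr (by omega) ?_
    rw [g1, o1, hs, chunkF_cons4]
    funext x
    simp only [up]
    split_ifs with k1 k2
    · simp
    · rfl
    · rw [e1]
      simp only [up, if_neg k1, if_neg k2]

theorem exists_base4 (A : TM) : ∃ (P : BProg A) (C : ℕ), ∀ (s : St) (k : ℕ),
    AllNil rest s → (s .GD).length = 4 * k →
    Sat P s (C * (k + 1)) (up s .GD (chunkF 4 base4F (s .GD))) := by
  refine ⟨Prog.seq (whileNE .GD b4body) (mvAll .GO .GD), 42, ?_⟩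
  intro s k hnil hl
  have hx : s .X0 = [] := hnil.get (by decide)
  have ho : s .GO = [] := hnil.get (by decide)
  have h1 := sat_b4loop (A := A) k s hl hx
  have h2 := sat_mvAll (A := A) (x := .GO) (y := .GD) (by decide)
    (up (up s .GD []) .GO ((chunkF 4 base4F (s .GD)).reverse ++ s .GO))
  refine (h1.seq h2).congr ?_ ?_
  · have e : (chunkF 4 base4F (s .GD)).length = 4 * k := by
      have key : ∀ (k : ℕ) (l : List Bool), l.length = 4 * k →
          (chunkF 4 base4F l).length = 4 * k := by
        intro k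
        induction k with
        | zero =>
          intro l hl
          have h0 : l = [] := List.eq_nil_of_length_eq_zero (by omega)
          rw [h0, chunkF_nil4]
          rfl
        | succ k ih =>
          intro l hl
          match l, hl with
          | [], hl => simp at hl
          | [_], hl => simp at hl; omega
          | [_, _], hl => simp at hl; omega
          | [_, _, _], hl => simp at hl; omega
          | a :: b :: c :: d :: l, hl =>
            rw [chunkF_cons4]
            simp only [List.length_cons] at hl ⊢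
            rw [ih l (by omega)]
            omega
      exact key k _ hl
    rw [up_self, ho, List.append_nil, List.length_reverse, e]
    omega
  · rw [up_self, ho, List.append_nil, List.reverse_reverse]
    funext x
    simp only [up]
    split_ifs with k1 k2 k3
    · exact k2.elim
    · exact List.append_nil _
    · rw [k3, ho]
    · rfl

end Vale.Agent.P338
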