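import Vale.Agent.Lib.P338.PAddBits
import Vale.Agent.Lib.P338.MEac

/-!
# P338, module PDecode: program for `decodeF`

```
whileNE D (
  pushLen T2 Z0 X1 false                    -- X1 = accumulator, least significant bit on top
  7 times ( mvLen T2 Z0 D X0                -- next digit, least significant bit on top
            eac X0 X1 WA X2 )
  mvAll X1 X0                               -- most significant bit on top
  mvLen TA Z0 X0 O
  clear X0 )
mvAll O D
```
One iteration takes a slot `x` of `14 * a` bits from `D` and pushes `(decode1 a x).reverse` on `O`.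
Note that `decode1` is a fold over `List.range 7` (unfold it with
`show List.range 7 = [0, 1, 2, 3, 4, 5, 6]`, or generalise to an arbitrary number of digits and use
a recursive program as in `pushN`).
-/

namespace Vale.Agent.P338

theorem decode_eacF_comm (w : ℕ) (x y : List Bool) : eacF w x y = eacF w y x := by
  unfold eacF
  rw [Nat.add_comm (val x) (val y)]

/-- the sum of the first `m` digits -/
def decAcc (w m : ℕ) (x : List Bool) : List Bool :=
  (List.range m).foldl (fun acc k => eacF w acc (blk w x k)) (List.replicate w false)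

theorem decAcc_succ (w m : ℕ) (x : List Bool) :
    decAcc w (m + 1) x = eacF w (decAcc w m x) (blk w x m) := by
  simp [decAcc, List.range_succ, List.foldl_append]

theorem length_decAcc (w m : ℕ) (x : List Bool) : (decAcc w m x).length = w := by
  cases m with
  | zero => simp [decAcc]
  | succ m => rw [decAcc_succ, length_eacF]

theorem decAcc_congr {w m : ℕ} {x y : List Bool} (h : ∀ k < m, blk w x k = blk w y k) :
    decAcc w m x = decAcc w m y := by
  induction m with
  | zero => rfl
  | succ m ih =>
    rw [decAcc_succ, decAcc_succ, ih fun k hk => h k (by omega), h m (by omega)]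

/-- add `m` digits -/
def decDig {A : TM} (E : BProg A) : ℕ → BProg A
  | 0 => skip
  | m + 1 => Prog.seq (decDig E m) (Prog.seq (mvLen .T2 .Z0 .D .X0) E)

theorem sat_decDig {A : TM} {E : BProg A} {C : ℕ} (hE : ∀ (s : St) (n : ℕ), (s .X0).length = n →
      (s .X1).length = n → s .WA = [] → s .X2 = [] → Sat E s (C * (n + 1))
        (up (up s .X0 []) .X1 (eacF n (s .X0).reverse (s .X1).reverse).reverse))
    (w : ℕ) (s : St) (hT : s .T2 = un w) (hZ : s .Z0 = []) (hX0 : s .X0 = [])
    (hWA : s .WA = []) (hX2 : s .X2 = []) (hX1 : s .X1 = List.replicate w false) (m : ℕ)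
    (hm : m * w ≤ (s .D).length) :
    Sat (decDig E m) s (m * (13 * w + 2 + C * (w + 1)) + 1)
      (up (up s .D ((s .D).drop (m * w))) .X1 (decAcc w m (s .D)).reverse) := by
  induction m with
  | zero =>
    refine (sat_skip s).congr (by omega) ?_
    have e : (decAcc w 0 (s .D)).reverse = s .X1 := by
      rw [hX1]
      simp [decAcc]
    rw [e, Nat.zero_mul, List.drop_zero, up_id, up_id]
  | succ m ih =>
    have hm' : m * w + w ≤ (s .D).length := by
      rw [Nat.succ_mul] at hm
      exact hm
    have h0 := ih (by omega)
    generalize ht : up (up s .D ((s .D).drop (m * w))) .X1 (decAcc w m (s .D)).reverse = t at h0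
    have tD : t .D = (s .D).drop (m * w) := by
      rw [← ht, up_of_ne _ (by decide), up_self]
    have tX1 : t .X1 = (decAcc w m (s .D)).reverse := by
      rw [← ht, up_self]
    have tT : t .T2 = un w := by
      rw [← ht, up_of_ne _ (by decide), up_of_ne _ (by decide), hT]
    have tZ : t .Z0 = [] := by
      rw [← ht, up_of_ne _ (by decide), up_of_ne _ (by decide), hZ]
    have tX0 : t .X0 = [] := by
      rw [← ht, up_of_ne _ (by decide), up_of_ne _ (by decide), hX0]
    have tWA : t .WA = [] := by
      rw [← ht, up_of_ne _ (by decide), up_of_ne _ (by decide), hWA]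
    have tX2 : t .X2 = [] := by
      rw [← ht, up_of_ne _ (by decide), up_of_ne _ (by decide), hX2]
    have h1 := sat_mvLen (A := A) (c := .T2) (c' := .Z0) (x := .D) (y := .X0) (s := t) (m := w)
      (by decide) tT tZ (by rw [tD, List.length_drop]; omega)
    have h2 := hE (up (up t .D ((t .D).drop w)) .X0 (((t .D).take w).reverse ++ t .X0)) w
      (by
        rw [up_self, tX0, List.append_nil, List.length_reverse, List.length_take, tD,
          List.length_drop]
        omega)
      (by
        rw [up_of_ne _ (by decide), up_of_ne _ (by decide), tX1, List.length_reverse,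
          length_decAcc])
      (by rw [up_of_ne _ (by decide), up_of_ne _ (by decide), tWA])
      (by rw [up_of_ne _ (by decide), up_of_ne _ (by decide), tX2])
    refine (h0.seq (h1.seq h2)).congr (le_of_eq (by ring)) ?_
    have e1 : (up (up t .D ((t .D).drop w)) .X0 (((t .D).take w).reverse ++ t .X0)) .X0 =
        (blk w (s .D) m).reverse := by
      rw [up_self, tX0, List.append_nil, tD]
      rfl
    have e2 : (up (up t .D ((t .D).drop w)) .X0 (((t .D).take w).reverse ++ t .X0)) .X1 =
        (decAcc w m (s .D)).reverse := by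
      rw [up_of_ne _ (by decide), up_of_ne _ (by decide), tX1]
    have e3 : (t .D).drop w = (s .D).drop ((m + 1) * w) := by
      rw [tD, List.drop_drop, ← Nat.succ_mul]
    rw [e1, e2, List.reverse_reverse, List.reverse_reverse, decode_eacF_comm, ← decAcc_succ, e3]
    funext z
    cases z <;> simp [up, ← ht, hX0]

/-- one slot -/
def decBody {A : TM} (E : BProg A) : BProg A :=
  Prog.seq (pushLen .T2 .Z0 .X1 false) (Prog.seq (decDig E 7) (Prog.seq (mvAll .X1 .X0)
    (Prog.seq (mvLen .TA .Z0 .X0 .O) (clear .X0))))

theorem sat_decBody {A : TM} {E : BProg A} {C : ℕ} (hE : ∀ (s : St) (n : ℕ), (s .X0).length = n →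
      (s .X1).length = n → s .WA = [] → s .X2 = [] → Sat E s (C * (n + 1))
        (up (up s .X0 []) .X1 (eacF n (s .X0).reverse (s .X1).reverse).reverse))
    (a : ℕ) (ha : 1 ≤ a) (s : St) (hT : s .T2 = un (2 * a)) (hTA : s .TA = un a) (hZ : s .Z0 = [])
    (hX0 : s .X0 = []) (hX1 : s .X1 = []) (hWA : s .WA = []) (hX2 : s .X2 = [])
    (hl : 14 * a ≤ (s .D).length) :
    Sat (decBody E) s ((259 + 21 * C) * a)
      (up (up s .D ((s .D).drop (14 * a))) .O ((decode1 a (blk (14 * a) (s .D) 0)).reverse
        ++ s .O)) := by
  have h1 := sat_pushLen (A := A) (c := .T2) (c' := .Z0) (x := .X1) (by decide) false hT hZ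
  rw [hX1, List.append_nil] at h1
  have h2 := sat_decDig hE (2 * a) (up s .X1 (List.replicate (2 * a) false))
    (by rw [up_of_ne _ (by decide), hT]) (by rw [up_of_ne _ (by decide), hZ])
    (by rw [up_of_ne _ (by decide), hX0]) (by rw [up_of_ne _ (by decide), hWA])
    (by rw [up_of_ne _ (by decide), hX2]) (by rw [up_self]) 7
    (by rw [up_of_ne _ (by decide)]; omega)
  have e0 : up s .X1 (List.replicate (2 * a) false) .D = s .D := up_of_ne _ (by decide) _
  rw [e0, show 7 * (2 * a) = 14 * a by ring] at h2
  have e1 : up (up (up s .X1 (List.replicate (2 * a) false)) .D ((s .D).drop (14 * a))) .X1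
      (decAcc (2 * a) 7 (s .D)).reverse = up (up s .D ((s .D).drop (14 * a))) .X1
      (decAcc (2 * a) 7 (s .D)).reverse := by
    rw [up_comm s (show SName.X1 ≠ SName.D by decide), up_up]
  rw [e1] at h2
  have e2 : decAcc (2 * a) 7 (s .D) = decAcc (2 * a) 7 (blk (14 * a) (s .D) 0) := by
    apply decAcc_congr
    intro k hk
    have h := blk_blk (w := 2 * a) (m := 7) (i := 0) (j := k) (s .D) hk
    rw [show 7 * (2 * a) = 14 * a by ring, show 0 * 7 + k = k by ring] at h
    exact h.symm
  have e3 : (decAcc (2 * a) 7 (s .D)).take a = decode1 a (blk (14 * a) (s .D) 0) := by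
    rw [e2]
    rfl
  generalize hacc : decAcc (2 * a) 7 (s .D) = acc at h2 e3
  have hal : acc.length = 2 * a := by
    rw [← hacc, length_decAcc]
  have h3 := sat_mvAll (A := A) (x := .X1) (y := .X0) (by decide)
    (up (up s .D ((s .D).drop (14 * a))) .X1 acc.reverse)
  have e4 : up (up s .D ((s .D).drop (14 * a))) .X1 acc.reverse .X0 = [] := by
    rw [up_of_ne _ (by decide), up_of_ne _ (by decide), hX0]
  rw [up_self, List.reverse_reverse, e4, List.append_nil, up_up, List.length_reverse, hal] at h3
  have e5 : up (up s .D ((s .D).drop (14 * a))) .X1 [] = up s .D ((s .D).drop (14 * a)) := by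
    have h : up s .D ((s .D).drop (14 * a)) .X1 = [] := by
      rw [up_of_ne _ (by decide), hX1]
    rw [← h, up_id]
  rw [e5] at h3
  have h4 := sat_mvLen (A := A) (c := .TA) (c' := .Z0) (x := .X0) (y := .O)
    (s := up (up s .D ((s .D).drop (14 * a))) .X0 acc) (m := a) (by decide)
    (by rw [up_of_ne _ (by decide), up_of_ne _ (by decide), hTA])
    (by rw [up_of_ne _ (by decide), up_of_ne _ (by decide), hZ])
    (by rw [up_self]; omega)
  rw [up_self, up_of_ne _ (show SName.O ≠ SName.X0 by decide),
    up_of_ne _ (show SName.O ≠ SName.D by decide), up_up, e3] at h4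
  have h5 := sat_clear (A := A) .X0 (up (up (up s .D ((s .D).drop (14 * a))) .X0 (acc.drop a)) .O
    ((decode1 a (blk (14 * a) (s .D) 0)).reverse ++ s .O))
  rw [up_of_ne _ (show SName.X0 ≠ SName.O by decide), up_self] at h5
  refine (h1.seq (h2.seq (h3.seq (h4.seq h5)))).congr ?_ ?_
  · rw [List.length_drop, hal]
    have e6 : 2 * a - a = a := by omega
    rw [e6]
    have h6 : 7 * (13 * (2 * a) + 2 + C * (2 * a + 1)) = 182 * a + 14 + 14 * (C * a) + 7 * C := by
      ring
    rw [h6]
    have h7 : (259 + 21 * C) * a = 259 * a + 14 * (C * a) + 7 * (C * a) := by ring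
    rw [h7]
    have h8 : C ≤ C * a := Nat.le_mul_of_pos_right C ha
    omega
  · funext z
    cases z <;> simp [up, hX0]

theorem exists_decode (A : TM) : ∃ (P : BProg A) (C : ℕ), ∀ (s : St) (a q : ℕ), 1 ≤ a → 1 ≤ q →
    AllNil temps s → Par a q s → (s .D).length = 14 * (q * a ^ 3) →
    Sat P s (C * (q * a ^ 3)) (up s .D (decodeF a (q * a ^ 2) (s .D))) := by
  obtain ⟨E, C, hE⟩ := exists_eac A (x := .X0) (y := .X1) (c := .WA) (z := .X2) (by decide)
  refine ⟨Prog.seq (whileNE .D (decBody E)) (mvAll .O .D), 259 + 21 * C + 8, ?_⟩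
  intro s a q ha hq hn hP hl
  generalize hnn : q * a ^ 2 = n
  have hna : q * a ^ 3 = n * a := by
    rw [← hnn]
    ring
  have hn1 : 1 ≤ n := by
    rw [← hnn]
    exact Nat.mul_pos hq (pow_pos ha 2)
  rw [hna] at hl ⊢
  have hl' : (s .D).length = n * (14 * a) := by
    rw [hl]
    ring
  have hblk : ∀ k < n, (blk (14 * a) (s .D) k).length = 14 * a := by
    intro k hk
    apply length_blk
    rw [hl']
    exact Nat.mul_le_mul_right _ hk
  have hZ := hn.get (x := .Z0) (by decide)
  have hX0 := hn.get (x := .X0) (by decide)
  have hX1 := hn.get (x := .X1) (by decide)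
  have hWA := hn.get (x := .WA) (by decide)
  have hX2 := hn.get (x := .X2) (by decide)
  have hO := hn.get (x := .O) (by decide)
  have hlen : ∀ k, ((s .D).drop (k * (14 * a))).length = (n - k) * (14 * a) := by
    intro k
    rw [List.length_drop, hl', Nat.sub_mul]
  have h1 := sat_while' (A := A) .D (decBody E) (fun k =>
      up (up s .D ((s .D).drop (k * (14 * a)))) .O
        (cat k fun j => decode1 a (blk (14 * a) (s .D) j)).reverse) ((259 + 21 * C) * a) n
    (by
      intro k hk h0
      have h2 : (s .D).drop (k * (14 * a)) = [] := by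
        simpa [up] using h0
      have h3 := hlen k
      rw [h2, List.length_nil] at h3
      have h4 : 0 < (n - k) * (14 * a) := Nat.mul_pos (by omega) (by omega)
      omega)
    (by
      show up (up s .D ((s .D).drop (n * (14 * a)))) .O _ .D = []
      rw [up_of_ne _ (by decide), up_self]
      apply List.drop_eq_nil_of_le
      rw [hl'])
    (by
      intro k hk
      generalize ht : up (up s .D ((s .D).drop (k * (14 * a)))) .O
        (cat k fun j => decode1 a (blk (14 * a) (s .D) j)).reverse = t
      have tD : t .D = (s .D).drop (k * (14 * a)) := by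
        rw [← ht, up_of_ne _ (by decide), up_self]
      have h2 := sat_decBody hE a ha t
        (by rw [← ht, up_of_ne _ (by decide), up_of_ne _ (by decide), hP.T2])
        (by rw [← ht, up_of_ne _ (by decide), up_of_ne _ (by decide), hP.TA])
        (by rw [← ht, up_of_ne _ (by decide), up_of_ne _ (by decide), hZ])
        (by rw [← ht, up_of_ne _ (by decide), up_of_ne _ (by decide), hX0])
        (by rw [← ht, up_of_ne _ (by decide), up_of_ne _ (by decide), hX1])
        (by rw [← ht, up_of_ne _ (by decide), up_of_ne _ (by decide), hWA])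
        (by rw [← ht, up_of_ne _ (by decide), up_of_ne _ (by decide), hX2])
        (by
          rw [tD, hlen]
          have h3 : 1 * (14 * a) ≤ (n - k) * (14 * a) := Nat.mul_le_mul_right _ (by omega)
          omega)
      refine h2.congr le_rfl ?_
      have e1 : blk (14 * a) (t .D) 0 = blk (14 * a) (s .D) k := by
        rw [tD]
        unfold blk
        rw [Nat.zero_mul, List.drop_zero]
      have e2 : (t .D).drop (14 * a) = (s .D).drop ((k + 1) * (14 * a)) := by
        rw [tD, List.drop_drop, ← Nat.succ_mul]
      have e3 : t .O = (cat k fun j => decode1 a (blk (14 * a) (s .D) j)).reverse := by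
        rw [← ht, up_self]
      rw [e1, e2, e3, ← List.reverse_append, ← cat_succ, ← ht,
        up_comm _ (show SName.O ≠ SName.D by decide), up_up, up_up])
  have e0 : up (up s .D ((s .D).drop (0 * (14 * a)))) .O
        (cat 0 fun j => decode1 a (blk (14 * a) (s .D) j)).reverse = s := by
    rw [Nat.zero_mul, List.drop_zero, up_id, cat_zero, List.reverse_nil, ← hO, up_id]
  rw [e0] at h1
  have hfull : (s .D).drop (n * (14 * a)) = [] := by
    apply List.drop_eq_nil_of_le
    rw [hl']
  have h2 := sat_mvAll (A := A) (x := .O) (y := .D) (by decide)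
    (up (up s .D ((s .D).drop (n * (14 * a)))) .O
        (cat n fun j => decode1 a (blk (14 * a) (s .D) j)).reverse)
  have hcl : (cat n fun j => decode1 a (blk (14 * a) (s .D) j)).length = n * a :=
    length_cat fun i hi => length_decode1 (hblk i hi)
  rw [up_self, List.length_reverse, hcl, List.reverse_reverse,
    up_of_ne _ (show SName.D ≠ SName.O by decide), up_self, hfull, List.append_nil] at h2
  rw [hfull] at h1
  refine (h1.seq h2).congr ?_ ?_
  · have h3 : n * ((259 + 21 * C) * a + 1) = (259 + 21 * C) * (n * a) + n := by ring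
    have h4 : n ≤ n * a := Nat.le_mul_of_pos_right n ha
    have h5 : (259 + 21 * C + 8) * (n * a) = (259 + 21 * C) * (n * a) + 8 * (n * a) := by ring
    rw [h3, h5]
    omega
  · unfold decodeF
    funext z
    cases z <;> simp [up, hO]

end Vale.Agent.P338
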