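import Vale.Agent.Lib.P338.Macro

/-!
# P338, module PHalve: the level counter

`exists_halve`: `LS = un L`, `HS = []`: push false on `LV`; `whileNE LS ( pop LS ; ifNE LS
( pop LS ; push HS true ) ( pop LV ; push LV true ) )`.
`exists_double`: `HS = un h`, `LV = p :: v`, `LS = []`: `whileNE HS ( pop HS ; push LS true ;
push LS true ) ; ifTrue LV ( pop LV ; push LS true ) ( pop LV )`.
-/

namespace Vale.Agent.P338

private def PHalve_body (A : TM) : BProg A :=
  Prog.seq (pop .LS) (ifNE .LS (Prog.seq (pop .LS) (push .HS true))
    (Prog.seq (pop .LV) (push .LV true)))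

private theorem PHalve_body_one (A : TM) (s : St) (v : List Bool) (hL : s .LS = un 1)
    (hV : s .LV = false :: v) : Sat (PHalve_body A) s 5 (up (up s .LS []) .LV (true :: v)) := by
  have h1 := sat_pop (A := A) .LS s
  rw [hL, un_succ, List.tail_cons] at h1
  have h2 := (sat_pop (A := A) .LV (up s .LS (un 0))).seq (sat_push .LV true _)
  have h3 : Sat (ifNE .LS (Prog.seq (pop .LS) (push .HS true))
      (Prog.seq (pop .LV) (push .LV true)) : BProg A) (up s .LS (un 0)) 4 _ :=
    sat_ifNE_nil (by rw [up_self]; rfl) h2
  refine (h1.seq h3).congr le_rfl ?_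
  funext x
  simp only [up]
  split_ifs <;> simp_all

private theorem PHalve_body_two (A : TM) (s : St) (L h : ℕ) (hL : s .LS = un (L + 2))
    (hH : s .HS = un h) :
    Sat (PHalve_body A) s 5 (up (up s .LS (un L)) .HS (un (h + 1))) := by
  have h1 := sat_pop (A := A) .LS s
  rw [hL, un_succ, List.tail_cons] at h1
  have h2 := (sat_pop (A := A) .LS (up s .LS (un (L + 1)))).seq (sat_push .HS true _)
  have h3 : Sat (ifNE .LS (Prog.seq (pop .LS) (push .HS true))
      (Prog.seq (pop .LV) (push .LV true)) : BProg A) (up s .LS (un (L + 1))) 4 _ :=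
    sat_ifNE_cons (by rw [up_self, un_succ]; simp) h2
  refine (h1.seq h3).congr le_rfl ?_
  rw [up_self, un_succ L, List.tail_cons, up_up, up_of_ne _ (show SName.HS ≠ SName.LS by decide),
    hH, un_succ]

private theorem PHalve_while (A : TM) (L : ℕ) : ∀ (s : St) (h : ℕ) (v : List Bool),
    s .LS = un L → s .HS = un h → s .LV = false :: v →
    Sat (whileNE .LS (PHalve_body A)) s (6 * L + 1)
      (up (up (up s .LS []) .HS (un (h + L / 2))) .LV (decide (L % 2 = 1) :: v)) := by
  induction L using Nat.strong_induction_on with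
  | _ L ih =>
    intro s h v hL hH hV
    match L, ih, hL with
    | 0, _, hL =>
      refine (sat_whileNE_nil hL).congr le_rfl ?_
      have e : (decide (0 % 2 = 1) :: v) = s .LV := by rw [hV]; simp
      have e2 : un (h + 0 / 2) = s .HS := by rw [hH]; simp
      have e3 : up s .LS [] = s := by
        have e4 : ([] : List Bool) = s .LS := by rw [hL]; rfl
        rw [e4, up_id]
      rw [e, e2, e3, up_id, up_id]
    | 1, _, hL =>
      have h1 := PHalve_body_one A s v hL hV
      refine (sat_whileNE_cons (by rw [hL, un_succ]; simp) h1 (sat_whileNE_nil ?_)).congr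
        (by omega) ?_
      · rw [up_of_ne _ (show SName.LS ≠ SName.LV by decide), up_self]
      · have e2 : un (h + 1 / 2) = s .HS := by rw [hH]; simp
        rw [e2]
        funext x
        simp only [up]
        split_ifs <;> simp_all
    | L + 2, ih, hL =>
      have h1 := PHalve_body_two A s L h hL hH
      have h2 := ih L (by omega) (up (up s .LS (un L)) .HS (un (h + 1))) (h + 1) v
        (by rw [up_of_ne _ (show SName.LS ≠ SName.HS by decide), up_self]) (by rw [up_self])
        (by rw [up_of_ne _ (show SName.LV ≠ SName.HS by decide),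
          up_of_ne _ (show SName.LV ≠ SName.LS by decide), hV])
      refine (sat_whileNE_cons (by rw [hL, un_succ]; simp) h1 h2).congr (by omega) ?_
      have e1 : (L + 2) % 2 = L % 2 := by omega
      have e2 : h + 1 + L / 2 = h + (L + 2) / 2 := by omega
      rw [e1, e2]
      funext x
      simp only [up]
      split_ifs <;> simp_all

theorem exists_halve (A : TM) : ∃ (P : BProg A) (C : ℕ), ∀ (s : St) (L : ℕ), s .LS = un L →
    s .HS = [] → Sat P s (C * (L + 1))
      (up (up (up s .LS []) .HS (un (L / 2))) .LV (decide (L % 2 = 1) :: s .LV)) := by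
  refine ⟨Prog.seq (push .LV false) (whileNE .LS (PHalve_body A)), 6, ?_⟩
  intro s L hL hH
  have h1 := PHalve_while A L (up s .LV (false :: s .LV)) 0 (s .LV)
    (by rw [up_of_ne _ (show SName.LS ≠ SName.LV by decide), hL])
    (by rw [up_of_ne _ (show SName.HS ≠ SName.LV by decide), hH]; rfl) (by rw [up_self])
  refine ((sat_push .LV false s).seq h1).congr (by omega) ?_
  rw [Nat.zero_add]
  funext x
  simp only [up]
  split_ifs <;> simp_all

private theorem PHalve_double (A : TM) (h : ℕ) : ∀ (s : St) (m : ℕ), s .HS = un h →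
    s .LS = un m →
    Sat (whileNE .HS (Prog.seq (pop .HS) (Prog.seq (push .LS true) (push .LS true))) : BProg A) s
      (6 * h + 1) (up (up s .HS []) .LS (un (2 * h + m))) := by
  induction h with
  | zero =>
    intro s m hH hL
    refine (sat_whileNE_nil hH).congr (by omega) ?_
    have e : un (2 * 0 + m) = s .LS := by rw [hL]; simp
    have e2 : ([] : List Bool) = s .HS := by rw [hH]; rfl
    rw [e, e2]
    funext x
    simp only [up]
    split_ifs <;> simp_all
  | succ h ih =>
    intro s m hH hL
    have h1 := (sat_pop (A := A) .HS s).seq ((sat_push .LS true _).seq (sat_push .LS true _))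
    rw [hH, un_succ, List.tail_cons, up_self, up_of_ne _ (show SName.LS ≠ SName.HS by decide),
      up_up, hL, ← un_succ, ← un_succ] at h1
    have h2 := ih (up (up s .HS (un h)) .LS (un (m + 1 + 1))) (m + 1 + 1)
      (by rw [up_of_ne _ (show SName.HS ≠ SName.LS by decide), up_self]) (by rw [up_self])
    refine (sat_whileNE_cons (by rw [hH, un_succ]; simp) h1 h2).congr (by omega) ?_
    have e : 2 * h + (m + 1 + 1) = 2 * (h + 1) + m := by omega
    rw [e]
    funext x
    simp only [up]
    split_ifs <;> simp_all

theorem exists_double (A : TM) : ∃ (P : BProg A) (C : ℕ), ∀ (s : St) (h : ℕ) (p : Bool)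
    (v : List Bool), s .HS = un h → s .LS = [] → s .LV = p :: v → Sat P s (C * (h + 1))
      (up (up (up s .HS []) .LS (un (2 * h + p.toNat))) .LV v) := by
  refine ⟨Prog.seq (whileNE .HS (Prog.seq (pop .HS) (Prog.seq (push .LS true) (push .LS true))))
    (ifTrue .LV (Prog.seq (pop .LV) (push .LS true)) (pop .LV)), 6, ?_⟩
  intro s h p v hH hL hV
  have h1 := PHalve_double A h s 0 hH (by rw [hL]; rfl)
  have e0 : 2 * h + 0 = 2 * h := rfl
  rw [e0] at h1
  set t := up (up s .HS []) .LS (un (2 * h)) with ht
  have htV : t .LV = p :: v := by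
    rw [ht, up_of_ne _ (show SName.LV ≠ SName.LS by decide),
      up_of_ne _ (show SName.LV ≠ SName.HS by decide), hV]
  have htL : t .LS = un (2 * h) := by rw [ht, up_self]
  cases p with
  | true =>
    have h2 := (sat_pop (A := A) .LV t).seq (sat_push .LS true _)
    rw [htV, List.tail_cons, up_of_ne _ (show SName.LS ≠ SName.LV by decide), htL,
      ← un_succ] at h2
    refine (h1.seq (sat_ifTrue_true htV h2)).congr (by omega) ?_
    rw [ht]
    funext x
    simp only [up, Bool.toNat_true]
    split_ifs <;> simp_all
  | false =>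
    have h2 := sat_pop (A := A) .LV t
    rw [htV, List.tail_cons] at h2
    refine (h1.seq (sat_ifTrue_false (by rw [htV]; simp) h2)).congr (by omega) ?_
    rw [ht]
    funext x
    simp only [up, Bool.toNat_false]
    split_ifs <;> simp_all

end Vale.Agent.P338
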