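import Vale.Agent.Lib.P338.PPass

/-!
# P338, module PPass12: the two transposition passes

templ1 (resp. templ2) ; pass ; clearPar. `setPar s a q` satisfies `Par a q` (`par_setPar`) and
`AllNil temps`; after `pass` the state is `up (setPar s a q) .GD l' = setPar (up s .GD l') a q`.
The templates cost `≤ C * a ^ 2 ≤ C * (k * a ^ 3)`.
-/

namespace Vale.Agent.P338

theorem setPar_of_ne (s : St) (a q : ℕ) {x : SName} (hx : x ∉ params) : setPar s a q x = s x := by
  have h : ∀ y ∈ params, x ≠ y := fun y hy e => hx (e ▸ hy)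
  unfold setPar
  rw [up_of_ne _ (h .TE (by decide)), up_of_ne _ (h .TQ (by decide)),
    up_of_ne _ (h .T12 (by decide)), up_of_ne _ (h .T2 (by decide)),
    up_of_ne _ (h .TB (by decide)), up_of_ne _ (h .TA (by decide))]

theorem setPar_GD (s : St) (a q : ℕ) (l : List Bool) :
    up (setPar s a q) .GD l = setPar (up s .GD l) a q := by
  unfold setPar
  rw [up_comm _ (show SName.TE ≠ SName.GD by decide), up_comm _ (show SName.TQ ≠ SName.GD by decide),
    up_comm _ (show SName.T12 ≠ SName.GD by decide), up_comm _ (show SName.T2 ≠ SName.GD by decide),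
    up_comm _ (show SName.TB ≠ SName.GD by decide), up_comm _ (show SName.TA ≠ SName.GD by decide)]

theorem setPar_temps {s : St} (h : AllNil rest s) (a q : ℕ) : AllNil temps (setPar s a q) := by
  intro x hx
  have h1 : ∀ y ∈ temps, y ∉ params := by decide
  rw [setPar_of_ne s a q (h1 x hx)]
  apply h
  unfold rest
  exact List.mem_append_right _ hx

/-- pass and clearPar, after the templates have been set -/
theorem exists_pass_clear (A : TM) (hA : A.Multiplies) : ∃ (P : BProg A) (C : ℕ), ∀ (s : St)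
    (a q h k : ℕ), 1 ≤ h → a = 2 ^ h → 1 ≤ q → 1 ≤ k → AllNil rest s → s .HS = un h →
    (s .GD).length = k * (q * a ^ 3) →
    Sat P (setPar s a q) (C * (k * (q * a ^ 3 +
        min (A.mulTime (14 * (q * a ^ 3))) (h * (14 * (q * a ^ 3))))))
      (up s .GD (chunkF (q * a ^ 3) (swapF a (q * a)) (s .GD))) := by
  obtain ⟨P, C, hP⟩ := exists_pass A hA
  obtain ⟨R, C', hR⟩ := exists_clearPar A
  refine ⟨Prog.seq P R, C + C', ?_⟩
  intro s a q h k hh ha hq hk hnil hHS hGD
  have hget : ∀ x ∈ rest, s x = [] := hnil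
  have ha1 : 1 ≤ a := by
    rw [ha]
    exact Nat.one_le_two_pow
  have h1 := hP (setPar s a q) a q h k hh ha hq hk (setPar_temps hnil a q)
    (par_setPar (hget .TF (by decide)) a q)
    (by rw [setPar_of_ne _ _ _ (by decide)]; exact hHS)
    (by rw [setPar_of_ne _ _ _ (by decide)]; exact hget .D (by decide))
    (by rw [setPar_of_ne _ _ _ (by decide)]; exact hget .Y (by decide))
    (by rw [setPar_of_ne _ _ _ (by decide)]; exact hget .GO (by decide))
    (by rw [setPar_of_ne _ _ _ (by decide)]; exact hget .SV (by decide))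
    (by rw [setPar_of_ne _ _ _ (by decide)]; exact hGD)
  have hG : setPar s a q .GD = s .GD := setPar_of_ne s a q (by decide)
  rw [setPar_GD, hG] at h1
  have hnil' : AllNil rest (up s .GD (chunkF (q * a ^ 3) (swapF a (q * a)) (s .GD))) :=
    hnil.up (by decide) _
  have h2 := hR (up s .GD (chunkF (q * a ^ 3) (swapF a (q * a)) (s .GD))) a q ha1 hq hnil'
  refine (h1.seq h2).congr ?_ rfl
  have h3 : q * a ≤ k * (q * a ^ 3 +
      min (A.mulTime (14 * (q * a ^ 3))) (h * (14 * (q * a ^ 3)))) := by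
    have h4 : q * a ≤ q * a ^ 3 := by
      apply Nat.mul_le_mul_left
      calc a = a ^ 1 := (pow_one a).symm
        _ ≤ a ^ 3 := Nat.pow_le_pow_right ha1 (by omega)
    calc q * a ≤ 1 * (q * a ^ 3) := by rw [one_mul]; exact h4
      _ ≤ k * (q * a ^ 3 + min (A.mulTime (14 * (q * a ^ 3))) (h * (14 * (q * a ^ 3)))) :=
        Nat.mul_le_mul hk (Nat.le_add_right _ _)
  have h5 := Nat.mul_le_mul_left C' h3
  rw [Nat.add_mul]
  omega

/-- `q = 1` -/
theorem exists_pass1 (A : TM) (hA : A.Multiplies) : ∃ (P : BProg A) (C : ℕ), ∀ (s : St)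
    (a h k : ℕ), 1 ≤ h → a = 2 ^ h → 1 ≤ k → AllNil rest s → s .HS = un h →
    (s .GD).length = k * a ^ 3 →
    Sat P s (C * (k * (a ^ 3 + min (A.mulTime (14 * a ^ 3)) (h * (14 * a ^ 3)))))
      (up s .GD (chunkF (a ^ 3) (swapF a a) (s .GD))) := by
  obtain ⟨P, C, hP⟩ := exists_templ1 A
  obtain ⟨R, C', hR⟩ := exists_pass_clear A hA
  refine ⟨Prog.seq P R, C + C', ?_⟩
  intro s a h k hh ha hk hnil hHS hGD
  have ha1 : 1 ≤ a := by
    rw [ha]
    exact Nat.one_le_two_pow
  have h1 := hP s h hnil hHS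
  rw [← ha] at h1
  have h2 := hR s a 1 h k hh ha le_rfl hk hnil hHS (by rw [one_mul]; exact hGD)
  rw [one_mul, one_mul] at h2
  refine (h1.seq h2).congr ?_ rfl
  have h3 : a ≤ k * (a ^ 3 + min (A.mulTime (14 * a ^ 3)) (h * (14 * a ^ 3))) := by
    calc a = a ^ 1 := (pow_one a).symm
      _ ≤ a ^ 3 := Nat.pow_le_pow_right ha1 (by omega)
      _ = 1 * a ^ 3 := (one_mul _).symm
      _ ≤ k * (a ^ 3 + min (A.mulTime (14 * a ^ 3)) (h * (14 * a ^ 3))) :=
        Nat.mul_le_mul hk (Nat.le_add_right _ _)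
  have h5 := Nat.mul_le_mul_left C h3
  rw [Nat.add_mul]
  omega

/-- `q = a` -/
theorem exists_pass2 (A : TM) (hA : A.Multiplies) : ∃ (P : BProg A) (C : ℕ), ∀ (s : St)
    (a h k : ℕ), 1 ≤ h → a = 2 ^ h → 1 ≤ k → AllNil rest s → s .HS = un h →
    (s .GD).length = k * a ^ 4 →
    Sat P s (C * (k * (a ^ 4 + min (A.mulTime (14 * a ^ 4)) (h * (14 * a ^ 4)))))
      (up s .GD (chunkF (a ^ 4) (swapF a (a ^ 2)) (s .GD))) := by
  obtain ⟨P, C, hP⟩ := exists_templ2 A
  obtain ⟨R, C', hR⟩ := exists_pass_clear A hA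
  refine ⟨Prog.seq P R, C + C', ?_⟩
  intro s a h k hh ha hk hnil hHS hGD
  have ha1 : 1 ≤ a := by
    rw [ha]
    exact Nat.one_le_two_pow
  have h1 := hP s h hnil hHS
  rw [← ha] at h1
  have e4 : a * a ^ 3 = a ^ 4 := by ring
  have e2 : a * a = a ^ 2 := by ring
  have h2 := hR s a a h k hh ha ha1 hk hnil hHS (by rw [e4]; exact hGD)
  rw [e4, e2] at h2
  refine (h1.seq h2).congr ?_ rfl
  have h3 : a ^ 2 ≤ k * (a ^ 4 + min (A.mulTime (14 * a ^ 4)) (h * (14 * a ^ 4))) := by
    calc a ^ 2 ≤ a ^ 4 := Nat.pow_le_pow_right ha1 (by omega)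
      _ = 1 * a ^ 4 := (one_mul _).symm
      _ ≤ k * (a ^ 4 + min (A.mulTime (14 * a ^ 4)) (h * (14 * a ^ 4))) :=
        Nat.mul_le_mul hk (Nat.le_add_right _ _)
  have h5 := Nat.mul_le_mul_left C h3
  rw [Nat.add_mul]
  omega

end Vale.Agent.P338
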