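import Vale.Agent.Lib.P338.PTempl
import Vale.Agent.Lib.P338.PNaive
import Vale.Agent.Lib.P338.MBlk

/-!
# P338, modules PUnrifPass, PRifPass, PBase4: the two passes for odd `L`, and the base case

`a = 2 ^ h`, `templO` gives `TE = TF = un (a ^ 2)`.

`exists_unrifPass`: chunks of `4 a ^ 4` bits, i.e. `2 * (2 a ^ 2)` pieces of `a ^ 2` bits:
```
whileNE GD (
  forC TF Z0 ( mvLen TE Z1 GD GO ; mvLen TE Z1 GD X0 ; mvLen TE Z1 GD GO ; mvLen TE Z1 GD X0 )
  mvAll X0 X1 ; mvAll X1 GO )
mvAll GO GD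
clear TE ; clear TF
```
`exists_rifPass`: chunks of `2 a ^ 4` bits, two halves of `a ^ 2` pieces of `a ^ 2` bits:
```
whileNE GD (
  forC TF Z0 ( mvLen TE Z1 GD X0 ) ; mvAll X0 X1
  forC TF Z0 ( mvLen TE Z1 X1 GO ; mvLen TE Z1 GD GO ) )
mvAll GO GD
clear TE ; clear TF
```
`exists_base4`: `whileNE GD ( mv GD GO ; mv GD X0 ; mv GD GO ; mv X0 GO ; mv GD GO ) ; mvAll GO GD`.
-/

namespace Vale.Agent.P338

section unrifPass

variable {A : TM}

/-- four pieces -/
private def quadU : BProg A :=
  Prog.seq (mvLen .TE .Z1 .GD .GO) (Prog.seq (mvLen .TE .Z1 .GD .X0)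
    (Prog.seq (mvLen .TE .Z1 .GD .GO) (mvLen .TE .Z1 .GD .X0)))

private theorem sat_quadU {t : St} {E q : ℕ} {l : List Bool} (hTE : t .TE = un E)
    (hZ1 : t .Z1 = []) (hGD : t .GD = l.drop q) (hl : q + 4 * E ≤ l.length) :
    Sat (quadU : BProg A) t (4 * (13 * E + 2))
      (up (up (up t .GD (l.drop (q + 4 * E)))
        .GO (((l.drop (q + 2 * E)).take E).reverse ++ (((l.drop q).take E).reverse ++ t .GO)))
        .X0 (((l.drop (q + 3 * E)).take E).reverse ++
          (((l.drop (q + E)).take E).reverse ++ t .X0))) := by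
  have h1 := sat_mvLen (A := A) (c := .TE) (c' := .Z1) (x := .GD) (y := .GO) (by decide) hTE hZ1
    (by rw [hGD, List.length_drop]; omega)
  obtain ⟨t1, ht1⟩ : ∃ t1, t1 = (up (up t .GD ((t .GD).drop E)) .GO
    (((t .GD).take E).reverse ++ t .GO)) := ⟨_, rfl⟩
  rw [← ht1] at h1
  have a1 : t1 .TE = un E := by rw [ht1]; simpa [up] using hTE
  have a2 : t1 .Z1 = [] := by rw [ht1]; simpa [up] using hZ1
  have a3 : t1 .GD = l.drop (q + E) := by
    rw [ht1]
    simp [up, hGD, List.drop_drop]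
  have h2 := sat_mvLen (A := A) (c := .TE) (c' := .Z1) (x := .GD) (y := .X0) (by decide) a1 a2
    (by rw [a3, List.length_drop]; omega)
  obtain ⟨t2, ht2⟩ : ∃ t2, t2 = (up (up t1 .GD ((t1 .GD).drop E)) .X0
    (((t1 .GD).take E).reverse ++ t1 .X0)) := ⟨_, rfl⟩
  rw [← ht2] at h2
  have b1 : t2 .TE = un E := by rw [ht2]; simpa [up] using a1
  have b2 : t2 .Z1 = [] := by rw [ht2]; simpa [up] using a2
  have b3 : t2 .GD = l.drop (q + 2 * E) := by
    rw [ht2]
    simp only [up, a3, List.drop_drop]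
    simp
    congr 1
    omega
  have h3 := sat_mvLen (A := A) (c := .TE) (c' := .Z1) (x := .GD) (y := .GO) (by decide) b1 b2
    (by rw [b3, List.length_drop]; omega)
  obtain ⟨t3, ht3⟩ : ∃ t3, t3 = (up (up t2 .GD ((t2 .GD).drop E)) .GO
    (((t2 .GD).take E).reverse ++ t2 .GO)) := ⟨_, rfl⟩
  rw [← ht3] at h3
  have c1 : t3 .TE = un E := by rw [ht3]; simpa [up] using b1
  have c2 : t3 .Z1 = [] := by rw [ht3]; simpa [up] using b2
  have c3 : t3 .GD = l.drop (q + 3 * E) := by
    rw [ht3]
    simp only [up, b3, List.drop_drop]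
    simp
    congr 1
    omega
  have h4 := sat_mvLen (A := A) (c := .TE) (c' := .Z1) (x := .GD) (y := .X0) (by decide) c1 c2
    (by rw [c3, List.length_drop]; omega)
  have e4 : q + 3 * E + E = q + 4 * E := by omega
  refine (h1.seq (h2.seq (h3.seq h4))).congr (by omega) ?_
  rw [c3, List.drop_drop, e4, ht3, b3, ht2, a3, ht1, hGD]
  funext x
  simp only [up]
  split_ifs <;> simp_all

private theorem innerU_blk (E : ℕ) (l : List Bool) (r q : ℕ) (h : q = r * E) :
    (l.drop q).take E = blk E l r := by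
  rw [h]
  rfl

/-- state after `i` iterations of the inner loop -/
private def innU (s : St) (E k : ℕ) (l : List Bool) (i : ℕ) : St :=
  up (up (up s .GD (l.drop ((k * (4 * E) + 4 * i) * E)))
    .GO ((cat (2 * i) (fun r => blk E l (k * (4 * E) + 2 * r))).reverse ++ s .GO))
    .X0 ((cat (2 * i) (fun r => blk E l (k * (4 * E) + (2 * r + 1)))).reverse)

private theorem sat_innerU {s : St} {E k : ℕ} {l : List Bool} (hTE : s .TE = un E)
    (hTF : s .TF = un E) (hZ0 : s .Z0 = []) (hZ1 : s .Z1 = []) (hX0 : s .X0 = [])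
    (hGD : s .GD = l.drop (k * (4 * E) * E)) (hl : (k + 1) * (4 * E) * E ≤ l.length) :
    Sat (forC .TF .Z0 quadU : BProg A) s (E * (4 * (13 * E + 2) + 9) + 2) (innU s E k l E) := by
  refine sat_for (by decide) hTF hZ0 (innU s E k l) ?_ ?_ ?_ ?_
  · unfold innU
    rw [Nat.mul_zero, cat_zero, cat_zero, List.reverse_nil, List.nil_append, Nat.add_zero]
    rw [← hGD, up_id, up_id]
    rw [← hX0, up_id]
  · unfold innU
    simpa [up] using hTF
  · unfold innU
    simpa [up] using hZ0
  · intro i hi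
    obtain ⟨t, ht⟩ : ∃ t, t = cnt .TF .Z0 (innU s E k l i) (E - (i + 1)) (i + 1) := ⟨_, rfl⟩
    rw [← ht]
    have t1 : t .TE = un E := by rw [ht]; simpa [up, cnt, innU] using hTE
    have t2 : t .Z1 = [] := by rw [ht]; simpa [up, cnt, innU] using hZ1
    have t3 : t .GD = l.drop ((k * (4 * E) + 4 * i) * E) := by
      rw [ht]; simp [up, cnt, innU]
    have t4 : t .GO = (cat (2 * i) (fun r => blk E l (k * (4 * E) + 2 * r))).reverse ++ s .GO := by
      rw [ht]; simp [up, cnt, innU]
    have t5 : t .X0 = (cat (2 * i) (fun r => blk E l (k * (4 * E) + (2 * r + 1)))).reverse := by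
      rw [ht]; simp [up, cnt, innU]
    have hq : (k * (4 * E) + 4 * i) * E + 4 * E ≤ l.length := by
      refine le_trans ?_ hl
      have h1 : 4 * i + 4 ≤ 4 * E := by omega
      calc (k * (4 * E) + 4 * i) * E + 4 * E = k * (4 * E) * E + (4 * i + 4) * E := by ring
        _ ≤ k * (4 * E) * E + (4 * E) * E := Nat.add_le_add_left (Nat.mul_le_mul_right E h1) _
        _ = (k + 1) * (4 * E) * E := by ring
    refine (sat_quadU t1 t2 t3 hq).congr le_rfl ?_
    have p0 : (l.drop ((k * (4 * E) + 4 * i) * E)).take E =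
        blk E l (k * (4 * E) + 2 * (2 * i)) :=
      innerU_blk E l _ _ (by ring)
    have p1 : (l.drop ((k * (4 * E) + 4 * i) * E + E)).take E =
        blk E l (k * (4 * E) + (2 * (2 * i) + 1)) :=
      innerU_blk E l _ _ (by ring)
    have p2 : (l.drop ((k * (4 * E) + 4 * i) * E + 2 * E)).take E =
        blk E l (k * (4 * E) + 2 * (2 * i + 1)) :=
      innerU_blk E l _ _ (by ring)
    have p3 : (l.drop ((k * (4 * E) + 4 * i) * E + 3 * E)).take E =
        blk E l (k * (4 * E) + (2 * (2 * i + 1) + 1)) :=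
      innerU_blk E l _ _ (by ring)
    have p4 : (k * (4 * E) + 4 * i) * E + 4 * E = (k * (4 * E) + 4 * (i + 1)) * E := by ring
    have q1 : (cat (2 * (i + 1)) (fun r => blk E l (k * (4 * E) + 2 * r))).reverse =
        (blk E l (k * (4 * E) + 2 * (2 * i + 1))).reverse ++
          ((blk E l (k * (4 * E) + 2 * (2 * i))).reverse ++
            (cat (2 * i) (fun r => blk E l (k * (4 * E) + 2 * r))).reverse) := by
      rw [show 2 * (i + 1) = 2 * i + 1 + 1 by ring, cat_succ, cat_succ, List.reverse_append,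
        List.reverse_append]
    have q2 : (cat (2 * (i + 1)) (fun r => blk E l (k * (4 * E) + (2 * r + 1)))).reverse =
        (blk E l (k * (4 * E) + (2 * (2 * i + 1) + 1))).reverse ++
          ((blk E l (k * (4 * E) + (2 * (2 * i) + 1))).reverse ++
            (cat (2 * i) (fun r => blk E l (k * (4 * E) + (2 * r + 1)))).reverse) := by
      rw [show 2 * (i + 1) = 2 * i + 1 + 1 by ring, cat_succ, cat_succ, List.reverse_append,
        List.reverse_append]
    rw [p0, p1, p2, p3, p4, t4, t5]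
    have hfin : cnt .TF .Z0 (innU s E k l (i + 1)) (E - (i + 1)) (i + 1) =
        up (up (up t .GD (l.drop ((k * (4 * E) + 4 * (i + 1)) * E)))
          .GO ((cat (2 * (i + 1)) (fun r => blk E l (k * (4 * E) + 2 * r))).reverse ++ s .GO))
          .X0 ((cat (2 * (i + 1)) (fun r => blk E l (k * (4 * E) + (2 * r + 1)))).reverse) := by
      rw [ht]
      unfold innU cnt
      funext x
      simp only [up]
      split_ifs <;> simp_all
    rw [hfin, q1, q2]
    simp only [List.append_assoc]

private def bodyU : BProg A :=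
  Prog.seq (forC .TF .Z0 quadU) (Prog.seq (mvAll .X0 .X1) (mvAll .X1 .GO))

private theorem length_catU {E k n : ℕ} {l : List Bool} (f : ℕ → ℕ)
    (hf : ∀ r < n, f r < 4 * E) (hl : (k + 1) * (4 * E) * E ≤ l.length) :
    (cat n (fun r => blk E l (k * (4 * E) + f r))).length = n * E := by
  refine length_cat fun r hr => length_blk ?_
  refine le_trans ?_ hl
  refine Nat.mul_le_mul_right E ?_
  have := hf r hr
  have h2 : (k + 1) * (4 * E) = k * (4 * E) + 4 * E := by ring
  omega

private theorem sat_bodyU {s : St} {E k : ℕ} {l : List Bool} (hTE : s .TE = un E)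
    (hTF : s .TF = un E) (hZ0 : s .Z0 = []) (hZ1 : s .Z1 = []) (hX0 : s .X0 = [])
    (hX1 : s .X1 = []) (hE : 1 ≤ E)
    (hGD : s .GD = l.drop (k * (4 * E) * E)) (hl : (k + 1) * (4 * E) * E ≤ l.length) :
    Sat (bodyU : BProg A) s (93 * E ^ 2)
      (up (up s .GD (l.drop ((k + 1) * (4 * E) * E)))
        .GO ((unrifF (2 * E) E (blk (4 * E * E) l k)).reverse ++ s .GO)) := by
  have h1 := sat_innerU (A := A) hTE hTF hZ0 hZ1 hX0 hGD hl
  obtain ⟨ev, hev⟩ : ∃ ev, ev = cat (2 * E) (fun r => blk E l (k * (4 * E) + 2 * r)) := ⟨_, rfl⟩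
  obtain ⟨od, hod⟩ : ∃ od, od = cat (2 * E) (fun r => blk E l (k * (4 * E) + (2 * r + 1))) :=
    ⟨_, rfl⟩
  have lev : ev.length = 2 * E * E := by
    rw [hev]
    exact length_catU (fun r => 2 * r) (fun r hr => by omega) hl
  have lod : od.length = 2 * E * E := by
    rw [hod]
    exact length_catU (fun r => 2 * r + 1) (fun r hr => by omega) hl
  have e1 : (k * (4 * E) + 4 * E) * E = (k + 1) * (4 * E) * E := by ring
  have hinn : innU s E k l E = up (up (up s .GD (l.drop ((k + 1) * (4 * E) * E)))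
      .GO (ev.reverse ++ s .GO)) .X0 od.reverse := by
    rw [innU, ← hev, ← hod, e1]
  rw [hinn] at h1
  obtain ⟨t, ht⟩ : ∃ t, t = up (up (up s .GD (l.drop ((k + 1) * (4 * E) * E)))
      .GO (ev.reverse ++ s .GO)) .X0 od.reverse := ⟨_, rfl⟩
  rw [← ht] at h1
  have t1 : t .X0 = od.reverse := by rw [ht]; simp [up]
  have t2 : t .X1 = [] := by rw [ht]; simpa [up] using hX1
  have h2 := sat_mvAll (A := A) (x := .X0) (y := .X1) (by decide) t
  rw [t1, t2, List.reverse_reverse, List.append_nil, List.length_reverse, lod] at h2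
  have h3 := sat_mvAll (A := A) (x := .X1) (y := .GO) (by decide) (up (up t .X0 []) .X1 od)
  rw [up_self, lod] at h3
  refine (h1.seq (h2.seq h3)).congr ?_ ?_
  · have e2 : E ≤ E ^ 2 := by nlinarith
    have e3 : 1 ≤ E ^ 2 := by nlinarith
    have e4 : E * (4 * (13 * E + 2) + 9) + 2 + (5 * (2 * E * E) + 1 + (5 * (2 * E * E) + 1)) =
        72 * E ^ 2 + 17 * E + 4 := by ring
    rw [e4]
    omega
  · have e5 : unrifF (2 * E) E (blk (4 * E * E) l k) = ev ++ od := by
      unfold unrifF
      rw [hev, hod]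
      congr 1
      · refine cat_congr fun i hi => ?_
        exact blk_blk (m := 4 * E) l (by omega)
      · refine cat_congr fun i hi => ?_
        exact blk_blk (m := 4 * E) l (by omega)
    rw [e5, List.reverse_append, ht]
    funext x
    simp only [up]
    split_ifs <;> simp_all

/-- state after `k` chunks -/
private def outU (s : St) (E : ℕ) (l : List Bool) (k : ℕ) : St :=
  up (up s .GD (l.drop (k * (4 * E) * E)))
    .GO ((cat k (fun j => unrifF (2 * E) E (blk (4 * E * E) l j))).reverse)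

private theorem sat_outerU {s : St} {E K : ℕ} {l : List Bool} (hTE : s .TE = un E)
    (hTF : s .TF = un E) (hZ0 : s .Z0 = []) (hZ1 : s .Z1 = []) (hX0 : s .X0 = [])
    (hX1 : s .X1 = []) (hGO : s .GO = []) (hE : 1 ≤ E)
    (hGD : s .GD = l) (hl : l.length = K * (4 * E) * E) :
    Sat (whileNE .GD bodyU : BProg A) s (K * (93 * E ^ 2 + 1) + 1) (outU s E l K) := by
  have h0 : outU s E l 0 = s := by
    unfold outU
    rw [cat_zero, List.reverse_nil, Nat.zero_mul, Nat.zero_mul, List.drop_zero]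
    rw [← hGD, up_id, ← hGO, up_id]
  have h := sat_while' (A := A) .GD bodyU (outU s E l) (93 * E ^ 2) K ?_ ?_ ?_
  · rw [h0] at h
    exact h
  · intro k hk
    unfold outU
    have h1 : up (up s .GD (l.drop (k * (4 * E) * E)))
        .GO ((cat k (fun j => unrifF (2 * E) E (blk (4 * E * E) l j))).reverse) .GD =
        l.drop (k * (4 * E) * E) := by simp [up]
    rw [h1]
    intro h2
    have h3 := congrArg List.length h2
    rw [List.length_drop, hl, List.length_nil] at h3
    have h4 : k * (4 * E) * E < K * (4 * E) * E := by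
      refine Nat.mul_lt_mul_of_pos_right (Nat.mul_lt_mul_of_pos_right hk ?_) ?_
      · omega
      · omega
    omega
  · unfold outU
    have h1 : up (up s .GD (l.drop (K * (4 * E) * E)))
        .GO ((cat K (fun j => unrifF (2 * E) E (blk (4 * E * E) l j))).reverse) .GD =
        l.drop (K * (4 * E) * E) := by simp [up]
    rw [h1, ← hl, List.drop_length]
  · intro k hk
    obtain ⟨t, ht⟩ : ∃ t, t = outU s E l k := ⟨_, rfl⟩
    rw [← ht]
    have t1 : t .TE = un E := by rw [ht]; simpa [up, outU] using hTE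
    have t2 : t .TF = un E := by rw [ht]; simpa [up, outU] using hTF
    have t3 : t .Z0 = [] := by rw [ht]; simpa [up, outU] using hZ0
    have t4 : t .Z1 = [] := by rw [ht]; simpa [up, outU] using hZ1
    have t5 : t .X0 = [] := by rw [ht]; simpa [up, outU] using hX0
    have t6 : t .X1 = [] := by rw [ht]; simpa [up, outU] using hX1
    have t7 : t .GD = l.drop (k * (4 * E) * E) := by rw [ht]; simp [up, outU]
    have t8 : t .GO = (cat k (fun j => unrifF (2 * E) E (blk (4 * E * E) l j))).reverse := by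
      rw [ht]; simp [up, outU]
    have hl' : (k + 1) * (4 * E) * E ≤ l.length := by
      rw [hl]
      exact Nat.mul_le_mul_right E (Nat.mul_le_mul_right (4 * E) hk)
    refine (sat_bodyU t1 t2 t3 t4 t5 t6 hE t7 hl').congr le_rfl ?_
    rw [t8, outU, cat_succ, List.reverse_append, ht, outU]
    funext x
    simp only [up]
    split_ifs <;> simp_all

end unrifPass

theorem exists_unrifPass (A : TM) : ∃ (P : BProg A) (C : ℕ), ∀ (s : St) (a h k : ℕ),
    a = 2 ^ h → 1 ≤ k → AllNil rest s → s .HS = un h → (s .GD).length = k * (4 * a ^ 4) →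
    Sat P s (C * (k * a ^ 4))
      (up s .GD (chunkF (4 * a ^ 4) (unrifF (2 * a ^ 2) (a ^ 2)) (s .GD))) := by
  obtain ⟨P0, C0, h0⟩ := exists_templO A
  refine ⟨Prog.seq P0 (Prog.seq (whileNE .GD bodyU) (Prog.seq (mvAll .GO .GD)
    (Prog.seq (clear .TE) (clear .TF)))), C0 + 126, ?_⟩
  intro s a h k ha hk hnil hHS hlen
  have ha1 : 1 ≤ a := by rw [ha]; exact Nat.one_le_two_pow
  have hP0 := h0 s h hnil hHS
  rw [← ha] at hP0
  obtain ⟨E, hE⟩ : ∃ E, E = a ^ 2 := ⟨_, rfl⟩
  have hE1 : 1 ≤ E := by rw [hE]; exact Nat.one_le_pow _ _ ha1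
  have hE2 : a ^ 4 = E ^ 2 := by rw [hE]; ring
  rw [← hE] at hP0
  rw [hE2] at hlen
  rw [hE2, ← hE]
  obtain ⟨l, hl⟩ : ∃ l, l = s .GD := ⟨_, rfl⟩
  rw [← hl] at hlen ⊢
  obtain ⟨t, ht⟩ : ∃ t, t = up (up s .TE (un E)) .TF (un E) := ⟨_, rfl⟩
  rw [← ht] at hP0
  have n1 : s .TE = [] := hnil.get (by decide)
  have n2 : s .TF = [] := hnil.get (by decide)
  have n3 : s .GO = [] := hnil.get (by decide)
  have t1 : t .TE = un E := by rw [ht]; simp [up]
  have t2 : t .TF = un E := by rw [ht]; simp [up]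
  have t3 : t .Z0 = [] := by rw [ht]; simpa [up] using hnil.get (x := .Z0) (by decide)
  have t4 : t .Z1 = [] := by rw [ht]; simpa [up] using hnil.get (x := .Z1) (by decide)
  have t5 : t .X0 = [] := by rw [ht]; simpa [up] using hnil.get (x := .X0) (by decide)
  have t6 : t .X1 = [] := by rw [ht]; simpa [up] using hnil.get (x := .X1) (by decide)
  have t7 : t .GO = [] := by rw [ht]; simpa [up] using n3
  have t8 : t .GD = l := by rw [ht, hl]; simp [up]
  have hlen' : l.length = k * (4 * E) * E := by rw [hlen]; ring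
  have h1 := sat_outerU (A := A) t1 t2 t3 t4 t5 t6 t7 hE1 t8 hlen'
  obtain ⟨r, hr⟩ : ∃ r, r = cat k (fun j => unrifF (2 * E) E (blk (4 * E * E) l j)) := ⟨_, rfl⟩
  have hch : chunkF (4 * E ^ 2) (unrifF (2 * E) E) l = r := by
    unfold chunkF
    have e1 : l.length / (4 * E ^ 2) = k := by
      rw [hlen]
      exact Nat.mul_div_cancel _ (by positivity)
    rw [e1, hr]
    have e2 : 4 * E ^ 2 = 4 * E * E := by ring
    rw [e2]
  have hrlen : r.length = k * (4 * E * E) := by
    rw [hr]
    refine length_cat fun j hj => ?_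
    have e1 : (blk (4 * E * E) l j).length = 4 * E * E := by
      refine length_blk ?_
      rw [hlen']
      calc (j + 1) * (4 * E * E) ≤ k * (4 * E * E) := Nat.mul_le_mul_right _ hj
        _ = k * (4 * E) * E := by ring
    rw [length_unrifF (m := 2 * E) (E := E) (by rw [e1]; ring), e1]
  obtain ⟨t', ht'⟩ : ∃ t', t' = outU t E l k := ⟨_, rfl⟩
  rw [← ht'] at h1
  have u1 : t' .GO = r.reverse := by rw [ht', hr]; simp [up, outU]
  have u2 : t' .GD = [] := by
    rw [ht']
    simp only [outU, up]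
    simp [hlen']
  have h2 := sat_mvAll (A := A) (x := .GO) (y := .GD) (by decide) t'
  rw [u1, u2, List.reverse_reverse, List.append_nil, List.length_reverse, hrlen] at h2
  have h3 := sat_clear (A := A) .TE (up (up t' .GO []) .GD r)
  have u3 : (up (up t' .GO []) .GD r) .TE = un E := by
    rw [ht']; simpa [up, outU] using t1
  rw [u3] at h3
  have h4 := sat_clear (A := A) .TF (up (up (up t' .GO []) .GD r) .TE [])
  have u4 : (up (up (up t' .GO []) .GD r) .TE []) .TF = un E := by
    rw [ht']; simpa [up, outU] using t2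
  rw [u4] at h4
  have hun : (un E).length = E := List.length_replicate
  rw [hun] at h3 h4
  refine (hP0.seq (h1.seq (h2.seq (h3.seq h4)))).congr ?_ ?_
  · have e1 : E ≤ k * E ^ 2 := by
      calc E ≤ E ^ 2 := by nlinarith
        _ ≤ k * E ^ 2 := Nat.le_mul_of_pos_left _ hk
    have e2 : 1 ≤ k * E ^ 2 := le_trans hE1 e1
    have e3 : k ≤ k * E ^ 2 := Nat.le_mul_of_pos_right _ (by positivity)
    have e4 : C0 * E ≤ C0 * (k * E ^ 2) := Nat.mul_le_mul_left _ e1
    have e5 : k * (93 * E ^ 2 + 1) = 93 * (k * E ^ 2) + k := by ring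
    have e6 : 5 * (k * (4 * E * E)) = 20 * (k * E ^ 2) := by ring
    have e7 : (C0 + 126) * (k * E ^ 2) = C0 * (k * E ^ 2) + 126 * (k * E ^ 2) := by ring
    have e8 : C0 * a ^ 2 = C0 * E := by rw [hE]
    rw [e5, e6, e7]
    omega
  · rw [hch, ht', outU, ht]
    funext x
    simp only [up]
    split_ifs <;> simp_all

end Vale.Agent.P338
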