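import Vale.Agent.Lib.P338.LvlDefs
import Vale.Agent.Lib.P338.PPass12
import Vale.Agent.Lib.P338.PUnrifPass
import Vale.Agent.Lib.P338.PHalve
import Vale.Agent.Lib.P338.MLists
import Vale.Agent.Lib.P338.MNaive

/-!
# P338, modules PDown, PUp: one level of the recursion

`exists_down`: halve ; `ifTrue LV (unrifPass) skip` ; pass1 ; pass2 ; `mvAll HS LS`.
Here `a = 2 ^ (L / 2)`; `4 ^ L = a ^ 4` for even `L` and `4 * a ^ 4` for odd `L`. The number of
chunks of `pass1` is `(k * 4 ^ L) / a ^ 3`, that of `pass2` is `(k * 4 ^ L) / a ^ 4`.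
(`AllNil rest` is preserved by `up _ .GD _`, `up _ .LV _`, `up _ .LS _`, `up _ .HS _`, which are not
in `rest`. Lengths after `chunkF`: `length_chunkF`, `length_swapF`, `length_unrifF`.)

`exists_up`: the stack `LS = un h` (`h ≥ 1`) is moved to `HS` ; pass1 ; `ifTrue LV (rifPass) skip` ;
double. `(2 h + p) / 2 = h`.
-/

namespace Vale.Agent.P338

theorem pdown_pow_dvd (L m : ℕ) (hm : m ≤ 4) : (2 ^ (L / 2)) ^ m ∣ 4 ^ L := by
  rw [← pow_mul]
  have h4 : (4 : ℕ) ^ L = 2 ^ (2 * L) := by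
    rw [pow_mul]
    norm_num
  rw [h4]
  refine pow_dvd_pow 2 ?_
  have h1 : L / 2 * m ≤ L / 2 * 4 := Nat.mul_le_mul_left _ hm
  omega

theorem pdown_four_pow_odd {L : ℕ} (hL : L % 2 = 1) : 4 ^ L = 4 * (2 ^ (L / 2)) ^ 4 := by
  rw [← pow_mul]
  have h4 : (4 : ℕ) ^ L = 2 ^ (2 * L) := by
    rw [pow_mul]
    norm_num
  have h3 : 2 * L = 2 + L / 2 * 4 := by omega
  rw [h4, h3, pow_add]
  norm_num

theorem pdown_state (s : St) (h : ℕ) (v l : List Bool) (hHS : s .HS = []) :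
    up (up (up (up (up (up s .LS []) .HS (un h)) .LV v) .GD l) .HS []) .LS (un h) =
      up (up (up s .LS (un h)) .LV v) .GD l := by
  funext x
  simp only [up]
  split_ifs <;> simp_all

theorem pdown_length_chunk {c : ℕ} {f : List Bool → List Bool} {l : List Bool} (hc : 0 < c)
    (hf : ∀ x : List Bool, x.length = c → (f x).length = x.length) (hl : c ∣ l.length) :
    (chunkF c f l).length = l.length :=
  length_chunkF hc (fun x hx => (hf x hx).trans hx) hl

theorem exists_down (A : TM) (hA : A.Multiplies) : ∃ (P : BProg A) (C : ℕ), ∀ (s : St) (L k : ℕ),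
    2 ≤ L → 1 ≤ k → AllNil rest s → s .HS = [] → s .LS = un L → (s .GD).length = k * 4 ^ L →
    Sat P s (C * lvl A (k * 4 ^ L) (L / 2))
      (up (up (up s .LS (un (L / 2))) .LV (decide (L % 2 = 1) :: s .LV)) .GD
        (downF L (s .GD))) := by
  obtain ⟨Ph, Ch, hh⟩ := exists_halve A
  obtain ⟨Pu, Cu, hu⟩ := exists_unrifPass A
  obtain ⟨P1, C1, h1⟩ := exists_pass1 A hA
  obtain ⟨P2, C2, h2⟩ := exists_pass2 A hA
  refine ⟨Prog.seq Ph (Prog.seq (ifTrue .LV Pu skip) (Prog.seq P1 (Prog.seq P2 (mvAll .HS .LS)))),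
    2 * Ch + Cu + C1 + C2 + 20, fun s L k hL hk hnil hHS hLS hGD => ?_⟩
  obtain ⟨h, hdef⟩ : ∃ h, h = L / 2 := ⟨_, rfl⟩
  obtain ⟨a, ha⟩ : ∃ a, a = 2 ^ h := ⟨_, rfl⟩
  have hh1 : 1 ≤ h := by omega
  have ha1 : 1 ≤ a := by
    rw [ha]
    exact Nat.one_le_two_pow
  have hd3 : a ^ 3 ∣ 4 ^ L := by
    rw [ha, hdef]
    exact pdown_pow_dvd L 3 (by norm_num)
  have hd4 : a ^ 4 ∣ 4 ^ L := by
    rw [ha, hdef]
    exact pdown_pow_dvd L 4 (by norm_num)
  have h4L : L + 1 ≤ 4 ^ L := by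
    have : L < 4 ^ L := Nat.lt_pow_self (by norm_num)
    omega
  have hW : 4 ^ L ≤ k * 4 ^ L := Nat.le_mul_of_pos_left _ hk
  obtain ⟨W, hWdef⟩ : ∃ W, W = k * 4 ^ L := ⟨_, rfl⟩
  have hW3 : W / a ^ 3 * a ^ 3 = W := by
    rw [hWdef]
    exact Nat.div_mul_cancel (Dvd.dvd.mul_left hd3 k)
  have hW4 : W / a ^ 4 * a ^ 4 = W := by
    rw [hWdef]
    exact Nat.div_mul_cancel (Dvd.dvd.mul_left hd4 k)
  have hWpos : 1 ≤ W := by omega
  have hk3 : 1 ≤ W / a ^ 3 := by
    rcases Nat.eq_zero_or_pos (W / a ^ 3) with h0 | h0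
    · rw [h0] at hW3
      omega
    · exact h0
  have hk4 : 1 ≤ W / a ^ 4 := by
    rcases Nat.eq_zero_or_pos (W / a ^ 4) with h0 | h0
    · rw [h0] at hW4
      omega
    · exact h0
  rw [← hWdef] at hGD ⊢
  rw [← hdef]
  -- after halving
  obtain ⟨s1, hs1⟩ : ∃ s1, s1 = up (up (up s .LS []) .HS (un h)) .LV (decide (L % 2 = 1) :: s .LV) :=
    ⟨_, rfl⟩
  have e1 := hh s L hLS hHS
  rw [← hdef, ← hs1] at e1
  have n1 : AllNil rest s1 := by
    rw [hs1]
    exact ((hnil.up (by decide) _).up (by decide) _).up (by decide) _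
  have g1 : s1 .GD = s .GD := by
    rw [hs1, up_of_ne _ (by decide), up_of_ne _ (by decide), up_of_ne _ (by decide)]
  have k1 : s1 .HS = un h := by
    rw [hs1, up_of_ne _ (by decide), up_self]
  have v1 : s1 .LV = decide (L % 2 = 1) :: s .LV := by
    rw [hs1, up_self]
  -- the unriffle pass
  obtain ⟨l1, hl1⟩ : ∃ l1, l1 = if L % 2 = 1 then chunkF (4 * a ^ 4)
      (unrifF (2 * a ^ 2) (a ^ 2)) (s .GD) else s .GD := ⟨_, rfl⟩
  have e2 : Sat (ifTrue .LV Pu skip) s1 (Cu * W + 2) (up s1 .GD l1) := by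
    by_cases hodd : L % 2 = 1
    · rw [decide_eq_true hodd] at v1
      refine sat_ifTrue_true (n := Cu * W + 1) v1 ?_
      have h4 := pdown_four_pow_odd hodd
      rw [← hdef, ← ha] at h4
      have e3 := hu s1 a h k ha hk n1 k1 (by rw [g1, hGD, hWdef, h4])
      refine e3.congr ?_ ?_
      · have : k * a ^ 4 ≤ W := by
          rw [hWdef, h4]
          exact Nat.mul_le_mul_left _ (by omega)
        have := Nat.mul_le_mul_left Cu this
        omega
      · rw [g1, hl1, if_pos hodd]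
    · rw [decide_eq_false hodd] at v1
      refine sat_ifTrue_false (n := Cu * W + 1) (by rw [v1]; simp) ?_
      refine (sat_skip s1).congr (by omega) ?_
      rw [hl1, if_neg hodd, ← g1, up_id]
  have len1 : l1.length = W := by
    rw [hl1]
    split_ifs with hodd
    · have h4 := pdown_four_pow_odd hodd
      rw [← hdef, ← ha] at h4
      rw [pdown_length_chunk (by positivity) ?_ ?_, hGD]
      · intro x hx
        exact length_unrifF (by rw [hx]; ring)
      · rw [hGD, hWdef, h4]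
        exact Dvd.intro_left k rfl
    · exact hGD
  -- first pass
  obtain ⟨l2, hl2⟩ : ∃ l2, l2 = chunkF (a ^ 3) (swapF a a) l1 := ⟨_, rfl⟩
  have e3 := h1 (up s1 .GD l1) a h (W / a ^ 3) hh1 ha hk3 (n1.up (by decide) _)
    (by rw [up_of_ne _ (by decide), k1]) (by rw [up_self, len1, hW3])
  rw [up_self, up_up, ← hl2] at e3
  have len2 : l2.length = W := by
    rw [hl2, pdown_length_chunk (by positivity) ?_ ?_, len1]
    · intro x hx
      exact length_swapF (by rw [hx]; ring)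
    · rw [len1]
      exact Dvd.intro_left _ hW3
  -- second pass
  obtain ⟨l3, hl3⟩ : ∃ l3, l3 = chunkF (a ^ 4) (swapF a (a ^ 2)) l2 := ⟨_, rfl⟩
  have e4 := h2 (up s1 .GD l2) a h (W / a ^ 4) hh1 ha hk4 (n1.up (by decide) _)
    (by rw [up_of_ne _ (by decide), k1]) (by rw [up_self, len2, hW4])
  rw [up_self, up_up, ← hl3] at e4
  -- move back the counter
  have e5 := sat_mvAll (A := A) (x := .HS) (y := .LS) (by decide) (up s1 .GD l3)
  have k5 : (up s1 .GD l3) .HS = un h := by rw [up_of_ne _ (by decide), k1]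
  have k6 : (up s1 .GD l3) .LS = [] := by
    rw [up_of_ne _ (by decide), hs1, up_of_ne _ (by decide), up_of_ne _ (by decide), up_self]
  rw [k5, k6, un_reverse, List.append_nil, List.length_replicate] at e5
  have hdown : downF L (s .GD) = l3 := by
    unfold downF
    rw [hl3, hl2, hl1, ← hdef, ← ha]
  refine (e1.seq (e2.seq (e3.seq (e4.seq e5)))).congr ?_ ?_
  · unfold lvl tA
    rw [← ha]
    obtain ⟨M3, hM3⟩ : ∃ M3, M3 = min (A.mulTime (14 * a ^ 3)) (h * (14 * a ^ 3)) := ⟨_, rfl⟩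
    obtain ⟨M4, hM4⟩ : ∃ M4, M4 = min (A.mulTime (14 * a ^ 4)) (h * (14 * a ^ 4)) := ⟨_, rfl⟩
    rw [← hM3, ← hM4]
    have f3 : W / a ^ 3 * (a ^ 3 + M3) = W + W / a ^ 3 * M3 := by
      rw [Nat.mul_add, hW3]
    have f4 : W / a ^ 4 * (a ^ 4 + M4) = W + W / a ^ 4 * M4 := by
      rw [Nat.mul_add, hW4]
    rw [f3, f4]
    obtain ⟨X, hX⟩ : ∃ X, X = W / a ^ 3 * M3 := ⟨_, rfl⟩
    obtain ⟨Y, hY⟩ : ∃ Y, Y = W / a ^ 4 * M4 := ⟨_, rfl⟩
    rw [← hX, ← hY]
    have i1 : Ch * (L + 1) ≤ Ch * (2 * W) := Nat.mul_le_mul_left _ (by omega)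
    have i2 : (2 * Ch + Cu + C1 + C2 + 20) * (W + X + Y) =
        Ch * (2 * W) + Cu * W + C1 * (W + X) + C2 * (W + Y) + 20 * W +
          (2 * Ch + Cu + C2 + 20) * X + (2 * Ch + Cu + C1 + 20) * Y := by ring
    rw [i2]
    have i3 : h ≤ W := by omega
    have i4 : 0 ≤ (2 * Ch + Cu + C2 + 20) * X := Nat.zero_le _
    have i5 : 0 ≤ (2 * Ch + Cu + C1 + 20) * Y := Nat.zero_le _
    omega
  · rw [hdown, hs1]
    exact pdown_state s h _ l3 hHS

end Vale.Agent.P338
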