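import Vale.Agent.Lib.P338.Macro
import Vale.Agent.Lib.P338.MLists

/-!
# P338, module PEncode: program for `encodeF`

```
whileNE D (
  pushLen T12 Z0 O false
  forC TA Z0 (mv2 D O X0)        -- X0 gets a copy of the entry, last bit on top
  mvAll X0 X1                    -- X1: first bit on top
  whileNE X1 (mvNot X1 O) )
mvAll O D
```
One iteration replaces `D = x ++ r` (`x` an entry of `a` bits) by `r` and pushes
`(replicate (12 a) false ++ (x ++ x.map not)).reverse` on `O`, in `≤ C * a` steps. There are
`q * a ^ 2` iterations (`sat_while'`).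
-/

namespace Vale.Agent.P338

section encodeAux

variable {A : TM}

/-- move as many symbols as the length of the counter `c` from `x` to `y` and copy them to `z` -/
theorem sat_encMv2Len {c c' x y z : SName} (hd : [c, c', x, y, z].Nodup) {s : St} {m : ℕ}
    (hs : s c = un m) (hs' : s c' = []) (hl : m ≤ (s x).length) :
    Sat (forC c c' (mv2 x y z) : BProg A) s (15 * m + 2)
      (up (up (up s x ((s x).drop m)) y (((s x).take m).reverse ++ s y)) z
        (((s x).take m).reverse ++ s z)) := by
  have hcc : c ≠ c' := by
    intro h; subst h; simp at hd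
  have hcx : c ≠ x := by
    intro h; subst h; simp at hd
  have hcy : c ≠ y := by
    intro h; subst h; simp at hd
  have hcz : c ≠ z := by
    intro h; subst h; simp at hd
  have hcx' : c' ≠ x := by
    intro h; subst h; simp at hd
  have hcy' : c' ≠ y := by
    intro h; subst h; simp at hd
  have hcz' : c' ≠ z := by
    intro h; subst h; simp at hd
  have hxy : x ≠ y := by
    intro h; subst h; simp at hd
  have hxz : x ≠ z := by
    intro h; subst h; simp at hd
  have hyz : y ≠ z := by
    intro h; subst h; simp at hd
  have hd3 : [x, y, z].Nodup := by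
    simp [hxy, hxz, hyz]
  refine (sat_for (q := 6) hcc hs hs'
    (fun k => up (up (up s x ((s x).drop k)) y (((s x).take k).reverse ++ s y)) z
        (((s x).take k).reverse ++ s z)) ?_ ?_ ?_ ?_).congr (by ring_nf; exact le_rfl) rfl
  · simp [up_id]
  · show up _ z _ c = un m
    rw [up_of_ne _ hcz, up_of_ne _ hcy, up_of_ne _ hcx, hs]
  · show up _ z _ c' = []
    rw [up_of_ne _ hcz', up_of_ne _ hcy', up_of_ne _ hcx', hs']
  · intro k hk
    have hk' : k < (s x).length := by omega
    have e1 : (s x).drop k = (s x)[k] :: (s x).drop (k + 1) := List.drop_eq_getElem_cons hk'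
    have e2 : ∀ l : List Bool, ((s x).take (k + 1)).reverse ++ l =
        (s x)[k] :: (((s x).take k).reverse ++ l) := by
      intro l
      rw [List.take_succ_eq_append_getElem hk', List.reverse_append]
      rfl
    refine (sat_mv2 hd3 (b := (s x)[k]) (l := (s x).drop (k + 1)) ?_).congr le_rfl ?_
    · unfold cnt
      rw [up_of_ne _ hcx'.symm, up_of_ne _ hcx.symm, up_of_ne _ hxz, up_of_ne _ hxy, up_self, e1]
    · unfold cnt
      funext w
      simp only [up, e2]
      split_ifs <;> simp_all

/-- pop all symbols of `x` and push the negated bits on `y` -/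
theorem sat_encNotAll {x y : SName} (hxy : x ≠ y) (s : St) :
    Sat (whileNE x (mvNot x y) : BProg A) s (5 * (s x).length + 1)
      (up (up s x []) y (((s x).map not).reverse ++ s y)) := by
  obtain ⟨l, hl⟩ : ∃ l, s x = l := ⟨_, rfl⟩
  rw [hl]
  induction l generalizing s with
  | nil =>
    refine (sat_whileNE_nil hl).congr (by simp) ?_
    rw [List.map_nil, List.reverse_nil, List.nil_append, ← hl, up_id, up_id]
  | cons b l ih =>
    have h1 := sat_mvNot (A := A) hxy hl
    have h2 := ih (up (up s x l) y ((!b) :: s y)) (by rw [up_of_ne _ hxy, up_self])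
    refine (sat_whileNE_cons (by rw [hl]; simp) h1 h2).congr ?_ ?_
    · simp only [List.length_cons]
      omega
    · rw [up_self, up_comm _ (Ne.symm hxy), up_up, up_up]
      simp

/-- the program for one entry -/
def encBody : BProg A :=
  Prog.seq (pushLen .T12 .Z0 .O false)
    (Prog.seq (forC .TA .Z0 (mv2 .D .O .X0))
      (Prog.seq (mvAll .X0 .X1) (whileNE .X1 (mvNot .X1 .O))))

/-- one iteration -/
theorem sat_encBody {t : St} {a : ℕ} (h12 : t .T12 = un (12 * a)) (hTA : t .TA = un a)
    (hZ : t .Z0 = []) (h0 : t .X0 = []) (h1 : t .X1 = []) (hl : a ≤ (t .D).length) :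
    Sat (encBody : BProg A) t (157 * a + 6) (up (up t .D ((t .D).drop a)) .O
      ((List.replicate (12 * a) false ++ ((t .D).take a ++ ((t .D).take a).map not)).reverse ++
        t .O)) := by
  have s1 := sat_pushLen (A := A) (c := .T12) (c' := .Z0) (x := .O) (by decide) false h12 hZ
  have s2 := sat_encMv2Len (A := A) (c := .TA) (c' := .Z0) (x := .D) (y := .O) (z := .X0)
    (by decide) (s := up t .O (List.replicate (12 * a) false ++ t .O)) (m := a)
    (by rw [up_of_ne _ (by decide)]; exact hTA) (by rw [up_of_ne _ (by decide)]; exact hZ)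
    (by rw [up_of_ne _ (by decide)]; exact hl)
  have hlen : ((t .D).take a).length = a := by
    rw [List.length_take]
    omega
  set t2 : St := up (up (up (up t .O (List.replicate (12 * a) false ++ t .O)) .D
      (((up t .O (List.replicate (12 * a) false ++ t .O)) .D).drop a)) .O
      ((((up t .O (List.replicate (12 * a) false ++ t .O)) .D).take a).reverse ++
        (up t .O (List.replicate (12 * a) false ++ t .O)) .O)) .X0
      ((((up t .O (List.replicate (12 * a) false ++ t .O)) .D).take a).reverse ++
        (up t .O (List.replicate (12 * a) false ++ t .O)) .X0) with ht2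
  have s3 := sat_mvAll (A := A) (x := .X0) (y := .X1) (by decide) t2
  have s4 := sat_encNotAll (A := A) (x := .X1) (y := .O) (by decide)
    (up (up t2 .X0 []) .X1 ((t2 .X0).reverse ++ t2 .X1))
  have e0 : t2 .X0 = ((t .D).take a).reverse := by
    rw [ht2, up_self, up_of_ne _ (by decide), up_of_ne _ (by decide), h0, List.append_nil]
  have e1 : t2 .X1 = [] := by
    rw [ht2, up_of_ne _ (by decide), up_of_ne _ (by decide), up_of_ne _ (by decide),
      up_of_ne _ (by decide), h1]
  refine (s1.seq (s2.seq (s3.seq s4))).congr ?_ ?_
  · rw [up_self, e0, e1]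
    simp only [List.length_reverse, List.append_nil, hlen]
    omega
  · rw [up_self, e0, e1]
    funext w
    simp only [ht2, up]
    cases w <;> simp [h0, h1]

end encodeAux

theorem exists_encode (A : TM) : ∃ (P : BProg A) (C : ℕ), ∀ (s : St) (a q : ℕ), 1 ≤ a → 1 ≤ q →
    AllNil temps s → Par a q s → (s .D).length = q * a ^ 3 →
    Sat P s (C * (q * a ^ 3)) (up s .D (encodeF a (q * a ^ 2) (s .D))) := by
  refine ⟨Prog.seq (whileNE .D encBody) (mvAll .O .D), 240, ?_⟩
  intro s a q ha hq hnil hpar hlen
  have hO : s .O = [] := hnil.get (by decide)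
  have hX0 : s .X0 = [] := hnil.get (by decide)
  have hX1 : s .X1 = [] := hnil.get (by decide)
  have hZ0 : s .Z0 = [] := hnil.get (by decide)
  have hm : q * a ^ 3 = q * a ^ 2 * a := by ring
  set st : ℕ → St := fun k => up (up s .D ((s .D).drop (k * a))) .O
    ((encodeF a k (s .D)).reverse) with hst
  have hstD : ∀ k, st k .D = (s .D).drop (k * a) := by
    intro k
    show up (up s .D ((s .D).drop (k * a))) .O ((encodeF a k (s .D)).reverse) .D = _
    rw [up_of_ne _ (by decide), up_self]
  have hstz : ∀ k (z : SName), z ≠ .D → z ≠ .O → st k z = s z := by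
    intro k z h1 h2
    show up (up s .D ((s .D).drop (k * a))) .O ((encodeF a k (s .D)).reverse) z = _
    rw [up_of_ne _ h2, up_of_ne _ h1]
  have hstO : ∀ k, st k .O = (encodeF a k (s .D)).reverse := by
    intro k
    show up (up s .D ((s .D).drop (k * a))) .O ((encodeF a k (s .D)).reverse) .O = _
    rw [up_self]
  have hst0 : st 0 = s := by
    show up (up s .D ((s .D).drop (0 * a))) .O ((encodeF a 0 (s .D)).reverse) = s
    have e : (encodeF a 0 (s .D)).reverse = s .O := by
      rw [hO]
      rfl
    rw [zero_mul, List.drop_zero, up_id, e, up_id]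
  have hklt : ∀ k < q * a ^ 2, (k + 1) * a ≤ (s .D).length := by
    intro k hk
    rw [hlen, hm]
    exact Nat.mul_le_mul_right a hk
  have hloop := sat_while' (A := A) .D encBody st (157 * a + 6) (q * a ^ 2)
    (by
      intro k hk
      rw [hstD]
      have h1 := hklt k hk
      have h2 : 0 < ((s .D).drop (k * a)).length := by
        rw [List.length_drop]
        have : (k + 1) * a = k * a + a := by ring
        omega
      exact List.ne_nil_of_length_pos h2)
    (by
      rw [hstD, List.drop_eq_nil_iff, hlen, hm])
    (by
      intro k hk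
      have h1 := hklt k hk
      have e1 : (k + 1) * a = k * a + a := by ring
      refine (sat_encBody (A := A) (t := st k) (a := a) ?_ ?_ ?_ ?_ ?_ ?_).congr le_rfl ?_
      · rw [hstz k _ (by decide) (by decide)]
        exact hpar.T12
      · rw [hstz k _ (by decide) (by decide)]
        exact hpar.TA
      · rw [hstz k _ (by decide) (by decide)]
        exact hZ0
      · rw [hstz k _ (by decide) (by decide)]
        exact hX0
      · rw [hstz k _ (by decide) (by decide)]
        exact hX1
      · rw [hstD, List.length_drop]
        omega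
      · rw [hstD, hstO, List.drop_drop]
        have e2 : encodeF a (k + 1) (s .D) = encodeF a k (s .D) ++
            (List.replicate (12 * a) false ++ (((s .D).drop (k * a)).take a ++
              (((s .D).drop (k * a)).take a).map not)) := by
          unfold encodeF
          rw [cat_succ]
          rfl
        show _ = up (up s .D ((s .D).drop ((k + 1) * a))) .O ((encodeF a (k + 1) (s .D)).reverse)
        rw [e2, e1]
        simp only [List.reverse_append, List.append_assoc]
        funext w
        simp only [hst, up]
        split_ifs <;> rfl)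
  rw [hst0] at hloop
  have hlen' : (encodeF a (q * a ^ 2) (s .D)).length = q * a ^ 2 * (14 * a) :=
    length_encodeF (by rw [hlen, hm])
  refine (hloop.seq (sat_mvAll (A := A) (x := .O) (y := .D) (by decide) _)).congr ?_ ?_
  · rw [hstO, List.length_reverse, hlen']
    have h1 : 1 ≤ q * a ^ 2 := Nat.mul_pos hq (pow_pos ha 2)
    have h2 : q * a ^ 2 ≤ q * a ^ 2 * a := Nat.le_mul_of_pos_right _ ha
    rw [hm]
    nlinarith [h1, h2]
  · rw [hstO, hstD, List.reverse_reverse]
    have e : (s .D).drop (q * a ^ 2 * a) = [] := by
      rw [List.drop_eq_nil_iff, hlen, hm]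
    rw [e, List.append_nil]
    funext w
    simp only [hst, up]
    cases w <;> simp [hO]

end Vale.Agent.P338
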