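import Vale.Agent.Lib.P338.FrontDefs
import Vale.Agent.Lib.P338.MPad

/-!
# P338, modules PFront, PBack: size, padding, and the final step

`only x` is the state with `GD = x` and all other stacks empty.

`exists_front`: `x` has `n * n` bits, `L = Nat.clog 2 n`, `m = 2 ^ L`.
```
copyAll GD WA Z0
whileNE WA ( pop WA ; dropLen LN Z0 WA ; dropLen LN Z0 WA ; push LN true )      -- LN = un n
push TA true                                                                 -- TA = un (2 ^ j)
pushLen LN Z0 X0 true ; dropLen TA Z0 X0                                      -- X0 = un (n - 2 ^ j)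
whileNE X0 ( clear X0 ; mvAll TA X1 ; whileNE X1 ( pop X1 ; push TA true ; push TA true ) ;
  push LS true ; pushLen LN Z0 X0 true ; dropLen TA Z0 X0 )                   -- n <= 2 ^ L
mvAll TA LP ; dropLen LN Z0 LP                                                -- LP = un (m - n)
pushLen LN Z0 TB true ; pushLen LP Z0 TE true
forC TB Z0 ( mvLen LN Z1 GD GO ; pushLen LP Z1 GO false )
forC TE Z0 ( pushLen LN Z1 GO false ; pushLen LP Z1 GO false )
clear TE ; clear TB ; mvAll GO GD
```
(The loop for `LN`: before iteration `i` one has `LN = un i`, and `WA` has `n * n - i * i` symbols;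
`2 ^ j < n ↔ j < Nat.clog 2 n`, `Nat.lt_pow_iff_log_lt`/`Nat.clog` lemmas; `m ≤ 2 n`, `L ≤ n`, so
the cost is `≤ C * n ^ 2`.)

`exists_back`: `pushLen LN Z0 TB true ; forC TB Z0 ( mvLen LN Z1 GD GO ; dropLen LP Z1 GD ) ;
clear TB ; clear GD ; mvAll GO GD ; clear LN ; clear LP ; clear LS`.
-/

namespace Vale.Agent.P338

namespace Front

/-- the states that occur -/
def S0 (gd go ls ln lp ta tb te wa x0 x1 : List Bool) : St := fun z => match z with
  | .GD => gd | .GO => go | .LS => ls | .LN => ln | .LP => lp | .TA => ta | .TB => tb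
  | .TE => te | .WA => wa | .X0 => x0 | .X1 => x1 | _ => []

section ups

variable (gd go ls ln lp ta tb te wa x0 x1 l : List Bool)

theorem up_GD : up (S0 gd go ls ln lp ta tb te wa x0 x1) .GD l =
    S0 l go ls ln lp ta tb te wa x0 x1 := by
  funext z; cases z <;> rfl

theorem up_GO : up (S0 gd go ls ln lp ta tb te wa x0 x1) .GO l =
    S0 gd l ls ln lp ta tb te wa x0 x1 := by
  funext z; cases z <;> rfl

theorem up_LS : up (S0 gd go ls ln lp ta tb te wa x0 x1) .LS l =
    S0 gd go l ln lp ta tb te wa x0 x1 := by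
  funext z; cases z <;> rfl

theorem up_LN : up (S0 gd go ls ln lp ta tb te wa x0 x1) .LN l =
    S0 gd go ls l lp ta tb te wa x0 x1 := by
  funext z; cases z <;> rfl

theorem up_LP : up (S0 gd go ls ln lp ta tb te wa x0 x1) .LP l =
    S0 gd go ls ln l ta tb te wa x0 x1 := by
  funext z; cases z <;> rfl

theorem up_TA : up (S0 gd go ls ln lp ta tb te wa x0 x1) .TA l =
    S0 gd go ls ln lp l tb te wa x0 x1 := by
  funext z; cases z <;> rfl

theorem up_TB : up (S0 gd go ls ln lp ta tb te wa x0 x1) .TB l =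
    S0 gd go ls ln lp ta l te wa x0 x1 := by
  funext z; cases z <;> rfl

theorem up_TE : up (S0 gd go ls ln lp ta tb te wa x0 x1) .TE l =
    S0 gd go ls ln lp ta tb l wa x0 x1 := by
  funext z; cases z <;> rfl

theorem up_WA : up (S0 gd go ls ln lp ta tb te wa x0 x1) .WA l =
    S0 gd go ls ln lp ta tb te l x0 x1 := by
  funext z; cases z <;> rfl

theorem up_X0 : up (S0 gd go ls ln lp ta tb te wa x0 x1) .X0 l =
    S0 gd go ls ln lp ta tb te wa l x1 := by
  funext z; cases z <;> rfl

theorem up_X1 : up (S0 gd go ls ln lp ta tb te wa x0 x1) .X1 l =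
    S0 gd go ls ln lp ta tb te wa x0 l := by
  funext z; cases z <;> rfl

end ups

theorem only_eq (x : List Bool) : only x = S0 x [] [] [] [] [] [] [] [] [] [] := by
  funext z; cases z <;> rfl

theorem mid_eq (n : ℕ) (x : List Bool) : mid n x =
    S0 x [] (un (Nat.clog 2 n)) (un n) (un (2 ^ Nat.clog 2 n - n)) [] [] [] [] [] [] := by
  funext z; cases z <;> rfl

/-- the first loop computes the square root of the length of `WA` -/
def P1 (A : TM) : BProg A :=
  whileNE .WA (Prog.seq (pop .WA) (Prog.seq (dropLen .LN .Z0 .WA)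
    (Prog.seq (dropLen .LN .Z0 .WA) (push .LN true))))

theorem sat_P1 (A : TM) (n : ℕ) (x : List Bool) (hx : x.length = n * n) :
    Sat (P1 A) (S0 x [] [] [] [] [] [] [] x [] []) (n * (20 * n + 7 + 1) + 1)
      (S0 x [] [] (un n) [] [] [] [] [] [] []) := by
  have h := sat_while' (A := A) .WA (Prog.seq (pop .WA) (Prog.seq (dropLen .LN .Z0 .WA)
    (Prog.seq (dropLen .LN .Z0 .WA) (push .LN true))))
    (fun k => S0 x [] [] (un k) [] [] [] [] (x.drop (k * k)) [] []) (20 * n + 7) n ?_ ?_ ?_
  · have e1 : x.drop (n * n) = [] := by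
      rw [List.drop_eq_nil_iff]
      omega
    have e2 : x.drop (0 * 0) = x := by simp
    simp only [e1, e2] at h
    exact h
  · intro k hk
    show x.drop (k * k) ≠ []
    rw [Ne, List.drop_eq_nil_iff, hx, not_le]
    exact Nat.mul_lt_mul'' hk hk
  · show x.drop (n * n) = []
    rw [List.drop_eq_nil_iff]
    omega
  · intro k hk
    have h1 := sat_pop (A := A) .WA (S0 x [] [] (un k) [] [] [] [] (x.drop (k * k)) [] [])
    rw [up_WA] at h1
    have h2 := sat_dropLen (A := A) (c := .LN) (c' := .Z0) (x := .WA) (by decide)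
      (s := S0 x [] [] (un k) [] [] [] []
        (S0 x [] [] (un k) [] [] [] [] (x.drop (k * k)) [] [] .WA).tail [] []) (m := k) rfl rfl
    rw [up_WA] at h2
    have h3 := sat_dropLen (A := A) (c := .LN) (c' := .Z0) (x := .WA) (by decide)
      (s := S0 x [] [] (un k) [] [] [] []
        ((S0 x [] [] (un k) [] [] [] []
        (S0 x [] [] (un k) [] [] [] [] (x.drop (k * k)) [] [] .WA).tail [] [] .WA).drop k) [] [])
        (m := k) rfl rfl
    rw [up_WA] at h3
    refine (h1.seq (h2.seq (h3.seq (sat_push .LN true _)))).congr (by nlinarith) ?_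
    rw [up_LN]
    have e : (((x.drop (k * k)).tail.drop k).drop k) = x.drop ((k + 1) * (k + 1)) := by
      rw [List.tail_drop, List.drop_drop, List.drop_drop]
      congr 1
      ring
    show S0 x [] [] (true :: un k) [] [] [] [] (((x.drop (k * k)).tail.drop k).drop k) [] [] = _
    rw [e]
    rfl

/-- the loop doubling `TA` -/
def P2 (A : TM) : BProg A :=
  whileNE .X1 (Prog.seq (pop .X1) (Prog.seq (push .TA true) (push .TA true)))

theorem sat_P2 (A : TM) (k : ℕ) (x ls ln x0 : List Bool) :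
    Sat (P2 A) (S0 x [] ls ln [] [] [] [] [] x0 (un k)) (k * (5 + 1) + 1)
      (S0 x [] ls ln [] (un (2 * k)) [] [] [] x0 []) := by
  have h := sat_while' (A := A) .X1 (Prog.seq (pop .X1) (Prog.seq (push .TA true) (push .TA true)))
    (fun i => S0 x [] ls ln [] (un (2 * i)) [] [] [] x0 (un (k - i))) 5 k ?_ ?_ ?_
  · have e1 : k - k = 0 := Nat.sub_self k
    simp only [e1, Nat.sub_zero, Nat.mul_zero] at h
    exact h
  · intro i hi
    show un (k - i) ≠ []
    obtain ⟨j, hj⟩ : ∃ j, k - i = j + 1 := ⟨k - i - 1, by omega⟩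
    rw [hj, un_succ]
    simp
  · show un (k - k) = []
    rw [Nat.sub_self]
    rfl
  · intro i hi
    have h1 := sat_pop (A := A) .X1 (S0 x [] ls ln [] (un (2 * i)) [] [] [] x0 (un (k - i)))
    rw [up_X1] at h1
    refine (h1.seq ((sat_push .TA true _).seq (sat_push .TA true _))).congr (by omega) ?_
    rw [up_TA, up_TA]
    have e1 : k - i = (k - (i + 1)) + 1 := by omega
    have e2 : 2 * (i + 1) = 2 * i + 1 + 1 := by ring
    rw [e2, un_succ, un_succ]
    show S0 x [] ls ln [] (true :: true :: un (2 * i)) [] [] [] x0 (un (k - i)).tail = _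
    rw [e1, un_succ]
    rfl

/-- body of the loop computing `2 ^ L` -/
def P3 (A : TM) : BProg A :=
  Prog.seq (clear .X0) (Prog.seq (mvAll .TA .X1) (Prog.seq (P2 A) (Prog.seq (push .LS true)
    (Prog.seq (pushLen .LN .Z0 .X0 true) (dropLen .TA .Z0 .X0)))))

theorem un_drop (a b : ℕ) : (un a).drop b = un (a - b) := by
  unfold un
  rw [List.drop_replicate]

theorem sat_P3 (A : TM) (n k : ℕ) (x ls x0 : List Bool) :
    Sat (P3 A) (S0 x [] ls (un n) [] (un k) [] [] [] x0 []) (2 * x0.length + 31 * k + 11 * n + 9)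
      (S0 x [] (true :: ls) (un n) [] (un (2 * k)) [] [] [] (un (n - 2 * k)) []) := by
  have h1 := sat_clear (A := A) .X0 (S0 x [] ls (un n) [] (un k) [] [] [] x0 [])
  rw [up_X0] at h1
  have h2 := sat_mvAll (A := A) (x := .TA) (y := .X1) (by decide)
    (S0 x [] ls (un n) [] (un k) [] [] [] [] [])
  rw [up_TA, up_X1] at h2
  have h2' : Sat (mvAll .TA .X1 : BProg A) (S0 x [] ls (un n) [] (un k) [] [] [] [] [])
      (5 * k + 1) (S0 x [] ls (un n) [] [] [] [] [] [] (un k)) := by
    refine h2.congr ?_ ?_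
    · show 5 * (un k).length + 1 ≤ _
      simp [un]
    · show S0 x [] ls (un n) [] [] [] [] [] [] ((un k).reverse ++ []) = _
      rw [un_reverse, List.append_nil]
  have h3 := sat_P2 A k x ls (un n) []
  have h4 := sat_push (A := A) .LS true (S0 x [] ls (un n) [] (un (2 * k)) [] [] [] [] [])
  rw [up_LS] at h4
  have h5 := sat_pushLen (A := A) (c := .LN) (c' := .Z0) (x := .X0) (by decide) true
    (s := S0 x [] (true :: ls) (un n) [] (un (2 * k)) [] [] [] [] []) (m := n) rfl rfl
  rw [up_X0] at h5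
  have h6 := sat_dropLen (A := A) (c := .TA) (c' := .Z0) (x := .X0) (by decide)
    (s := S0 x [] (true :: ls) (un n) [] (un (2 * k)) [] [] [] (un n) []) (m := 2 * k) rfl rfl
  rw [up_X0] at h6
  have h5' : Sat (pushLen .LN .Z0 .X0 true : BProg A)
      (S0 x [] (true :: ls) (un n) [] (un (2 * k)) [] [] [] [] []) (11 * n + 2)
      (S0 x [] (true :: ls) (un n) [] (un (2 * k)) [] [] [] (un n) []) := by
    refine h5.congr le_rfl ?_
    show S0 x [] (true :: ls) (un n) [] (un (2 * k)) [] [] [] (List.replicate n true ++ []) [] = _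
    rw [List.append_nil]
  refine (h1.seq (h2'.seq (h3.seq (h4.seq (h5'.seq h6))))).congr ?_ ?_
  · show 2 * x0.length + 1 + (5 * k + 1 + (k * (5 + 1) + 1 + (2 + (11 * n + 2 +
      (10 * (2 * k) + 2))))) ≤ _
    omega
  · show S0 x [] (true :: ls) (un n) [] (un (2 * k)) [] [] [] ((un n).drop (2 * k)) [] = _
    rw [un_drop]

theorem sat_P4 (A : TM) (n : ℕ) (_hn : 1 ≤ n) (x : List Bool) :
    Sat (whileNE .X0 (P3 A)) (S0 x [] [] (un n) [] (un 1) [] [] [] (un (n - 1)) [])
      (n * (44 * n + 9 + 1) + 1)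
      (S0 x [] (un (Nat.clog 2 n)) (un n) [] (un (2 ^ Nat.clog 2 n)) [] [] [] [] []) := by
  have hlt : ∀ j, j < Nat.clog 2 n → 2 ^ j < n := by
    intro j hj
    exact (Nat.lt_clog_iff_pow_lt (by norm_num)).1 hj
  have hle : n ≤ 2 ^ Nat.clog 2 n := Nat.le_pow_clog (by norm_num) n
  have hL : Nat.clog 2 n ≤ n := Nat.clog_le_of_le_pow (Nat.lt_two_pow_self).le
  have h := sat_while' (A := A) .X0 (P3 A)
    (fun j => S0 x [] (un j) (un n) [] (un (2 ^ j)) [] [] [] (un (n - 2 ^ j)) []) (44 * n + 9)
    (Nat.clog 2 n) ?_ ?_ ?_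
  · refine Sat.congr h ?_ ?_
    · exact Nat.add_le_add_right (Nat.mul_le_mul_right _ hL) 1
    · have e : n - 2 ^ Nat.clog 2 n = 0 := by omega
      simp only [e]
      rfl
  · intro j hj
    show un (n - 2 ^ j) ≠ []
    have h1 := hlt j hj
    obtain ⟨i, hi⟩ : ∃ i, n - 2 ^ j = i + 1 := ⟨n - 2 ^ j - 1, by omega⟩
    rw [hi, un_succ]
    simp
  · show un (n - 2 ^ Nat.clog 2 n) = []
    have e : n - 2 ^ Nat.clog 2 n = 0 := by omega
    rw [e]
    rfl
  · intro j hj
    have h1 := hlt j hj
    have h2 := sat_P3 A n (2 ^ j) x (un j) (un (n - 2 ^ j))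
    refine h2.congr ?_ ?_
    · simp only [un, List.length_replicate]
      omega
    · have e : 2 ^ (j + 1) = 2 * 2 ^ j := by rw [pow_succ]; ring
      rw [e]
      rfl

theorem cat_succ (n : ℕ) (g : ℕ → List Bool) : cat (n + 1) g = cat n g ++ g n := by
  unfold cat
  rw [List.range_succ, List.flatMap_append]
  simp

/-- the loop writing the rows -/
def P5 (A : TM) : BProg A :=
  forC .TB .Z0 (Prog.seq (mvLen .LN .Z1 .GD .GO) (pushLen .LP .Z1 .GO false))

theorem sat_P5 (A : TM) (n p : ℕ) (x ls te : List Bool) (hx : x.length = n * n) :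
    Sat (P5 A) (S0 x [] ls (un n) (un p) [] (un n) te [] [] [])
      (n * (13 * n + 2 + (11 * p + 2) + 9) + 2)
      (S0 [] (cat n (fun i => blk n x i ++ List.replicate p false)).reverse ls (un n) (un p) []
        (un n) te [] [] []) := by
  have h := sat_for2 (A := A) (c := .TB) (c' := .Z0) (x := .GD) (y := .GO) (by decide)
    (P := Prog.seq (mvLen .LN .Z1 .GD .GO) (pushLen .LP .Z1 .GO false))
    (s := S0 x [] ls (un n) (un p) [] (un n) te [] [] []) (q := 13 * n + 2 + (11 * p + 2)) (m := n)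
    rfl rfl (fun k => x.drop (k * n))
    (fun k => (cat k (fun i => blk n x i ++ List.replicate p false)).reverse)
    (by show x.drop (0 * n) = x; simp) (by show (cat 0 _).reverse = []; simp [cat]) ?_
  · rw [up_GD, up_GO] at h
    have e : x.drop (n * n) = [] := by
      rw [List.drop_eq_nil_iff]
      omega
    simp only [e] at h
    exact h
  · intro k hk t h1 h2 h3
    have hLN : t .LN = un n := h3 .LN (by decide) (by decide) (by decide) (by decide)
    have hLP : t .LP = un p := h3 .LP (by decide) (by decide) (by decide) (by decide)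
    have hZ1 : t .Z1 = [] := h3 .Z1 (by decide) (by decide) (by decide) (by decide)
    have hlen : n ≤ (t .GD).length := by
      rw [h1, List.length_drop, hx]
      have h4 : (k + 1) * n ≤ n * n := Nat.mul_le_mul_right n hk
      have h5 : (k + 1) * n = k * n + n := by ring
      omega
    have h4 := sat_mvLen (A := A) (c := .LN) (c' := .Z1) (x := .GD) (y := .GO) (by decide)
      hLN hZ1 hlen
    have h5 := sat_pushLen (A := A) (c := .LP) (c' := .Z1) (x := .GO) (by decide) false
      (s := up (up t .GD ((t .GD).drop n)) .GO (((t .GD).take n).reverse ++ t .GO)) (m := p)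
      (by rw [up_of_ne _ (by decide), up_of_ne _ (by decide)]; exact hLP)
      (by rw [up_of_ne _ (by decide), up_of_ne _ (by decide)]; exact hZ1)
    refine (h4.seq h5).congr le_rfl ?_
    rw [up_up, up_self, h1, h2, cat_succ, List.reverse_append, List.reverse_append,
      List.reverse_replicate, List.drop_drop, List.append_assoc]
    have e : k * n + n = (k + 1) * n := by ring
    rw [e]
    rfl

/-- the loop writing the rows of zeros -/
def P6 (A : TM) : BProg A :=
  forC .TE .Z0 (Prog.seq (pushLen .LN .Z1 .GO false) (pushLen .LP .Z1 .GO false))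

theorem sat_P6 (A : TM) (n p : ℕ) (go ls tb : List Bool) :
    Sat (P6 A) (S0 [] go ls (un n) (un p) [] tb (un p) [] [] [])
      (p * (11 * n + 2 + (11 * p + 2) + 9) + 2)
      (S0 [] (List.replicate (p * (n + p)) false ++ go) ls (un n) (un p) []
        tb (un p) [] [] []) := by
  have h := sat_for1 (A := A) (c := .TE) (c' := .Z0) (x := .GO) (by decide)
    (P := Prog.seq (pushLen .LN .Z1 .GO false) (pushLen .LP .Z1 .GO false))
    (s := S0 [] go ls (un n) (un p) [] tb (un p) [] [] []) (q := 11 * n + 2 + (11 * p + 2)) (m := p)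
    rfl rfl (fun k => List.replicate (k * (n + p)) false ++ go)
    (by show List.replicate (0 * (n + p)) false ++ go = go; simp) ?_
  · rw [up_GO] at h
    exact h
  · intro k hk t h1 h3
    have hLN : t .LN = un n := h3 .LN (by decide) (by decide) (by decide)
    have hLP : t .LP = un p := h3 .LP (by decide) (by decide) (by decide)
    have hZ1 : t .Z1 = [] := h3 .Z1 (by decide) (by decide) (by decide)
    have h4 := sat_pushLen (A := A) (c := .LN) (c' := .Z1) (x := .GO) (by decide) false
      hLN hZ1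
    have h5 := sat_pushLen (A := A) (c := .LP) (c' := .Z1) (x := .GO) (by decide) false
      (s := up t .GO (List.replicate n false ++ t .GO)) (m := p)
      (by rw [up_of_ne _ (by decide)]; exact hLP)
      (by rw [up_of_ne _ (by decide)]; exact hZ1)
    refine (h4.seq h5).congr le_rfl ?_
    rw [up_up, up_self, h1, ← List.append_assoc, ← List.append_assoc,
      List.replicate_append_replicate, List.replicate_append_replicate]
    have e : p + n + k * (n + p) = (k + 1) * (n + p) := by ring
    rw [e]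

/-- part 1 -/
def FA (A : TM) : BProg A :=
  Prog.seq (copyAll .GD .WA .Z0) (Prog.seq (P1 A) (Prog.seq (push .TA true)
    (Prog.seq (pushLen .LN .Z0 .X0 true) (dropLen .TA .Z0 .X0))))

theorem sat_FA (A : TM) (n : ℕ) (hn : 1 ≤ n) (x : List Bool) (hx : x.length = n * n) :
    Sat (FA A) (S0 x [] [] [] [] [] [] [] [] [] []) (100 * (n * n))
      (S0 x [] [] (un n) [] (un 1) [] [] [] (un (n - 1)) []) := by
  have s1 := sat_copyAll (A := A) (x := .GD) (y := .WA) (z := .Z0) (by decide)
    (S0 x [] [] [] [] [] [] [] [] [] []) rfl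
  rw [up_WA] at s1
  have s1' : Sat (copyAll .GD .WA .Z0 : BProg A) (S0 x [] [] [] [] [] [] [] [] [] [])
      (12 * (n * n) + 2) (S0 x [] [] [] [] [] [] [] x [] []) := by
    refine s1.congr ?_ ?_
    · show 12 * x.length + 2 ≤ _
      rw [hx]
    · show S0 x [] [] [] [] [] [] [] (x ++ []) [] [] = _
      rw [List.append_nil]
  have s2 := sat_P1 A n x hx
  have s3 := sat_push (A := A) .TA true (S0 x [] [] (un n) [] [] [] [] [] [] [])
  rw [up_TA] at s3
  have s4 := sat_pushLen (A := A) (c := .LN) (c' := .Z0) (x := .X0) (by decide) true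
    (s := S0 x [] [] (un n) [] (un 1) [] [] [] [] []) (m := n) rfl rfl
  rw [up_X0] at s4
  have s4' : Sat (pushLen .LN .Z0 .X0 true : BProg A) (S0 x [] [] (un n) [] (un 1) [] [] [] [] [])
      (11 * n + 2) (S0 x [] [] (un n) [] (un 1) [] [] [] (un n) []) := by
    refine s4.congr le_rfl ?_
    show S0 x [] [] (un n) [] (un 1) [] [] [] (List.replicate n true ++ []) [] = _
    rw [List.append_nil]
  have s5 := sat_dropLen (A := A) (c := .TA) (c' := .Z0) (x := .X0) (by decide)
    (s := S0 x [] [] (un n) [] (un 1) [] [] [] (un n) []) (m := 1) rfl rfl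
  rw [up_X0] at s5
  have s5' : Sat (dropLen .TA .Z0 .X0 : BProg A)
      (S0 x [] [] (un n) [] (un 1) [] [] [] (un n) [])
      12 (S0 x [] [] (un n) [] (un 1) [] [] [] (un (n - 1)) []) := by
    refine s5.congr (by omega) ?_
    show S0 x [] [] (un n) [] (un 1) [] [] [] ((un n).drop 1) [] = _
    rw [un_drop]
  refine (s1'.seq (s2.seq (s3.seq (s4'.seq s5')))).congr ?_ rfl
  have b1 : n ≤ n * n := Nat.le_mul_of_pos_left n hn
  have c1 : n * (20 * n + 7 + 1) + 1 = 20 * (n * n) + 8 * n + 1 := by ring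
  rw [c1]
  omega

/-- part 2 -/
def FB (A : TM) : BProg A :=
  Prog.seq (mvAll .TA .LP) (Prog.seq (dropLen .LN .Z0 .LP)
    (Prog.seq (pushLen .LN .Z0 .TB true) (pushLen .LP .Z0 .TE true)))

theorem sat_FB (A : TM) (n m p : ℕ) (hp : p = m - n) (x ls : List Bool) :
    Sat (FB A) (S0 x [] ls (un n) [] (un m) [] [] [] [] []) (5 * m + 21 * n + 11 * p + 7)
      (S0 x [] ls (un n) (un p) [] (un n) (un p) [] [] []) := by
  have s7 := sat_mvAll (A := A) (x := .TA) (y := .LP) (by decide)
    (S0 x [] ls (un n) [] (un m) [] [] [] [] [])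
  rw [up_TA, up_LP] at s7
  have s7' : Sat (mvAll .TA .LP : BProg A) (S0 x [] ls (un n) [] (un m) [] [] [] [] [])
      (5 * m + 1) (S0 x [] ls (un n) (un m) [] [] [] [] [] []) := by
    refine s7.congr ?_ ?_
    · show 5 * (un m).length + 1 ≤ _
      simp [un]
    · show S0 x [] ls (un n) ((un m).reverse ++ []) [] [] [] [] [] [] = _
      rw [un_reverse, List.append_nil]
  have s8 := sat_dropLen (A := A) (c := .LN) (c' := .Z0) (x := .LP) (by decide)
    (s := S0 x [] ls (un n) (un m) [] [] [] [] [] []) (m := n) rfl rfl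
  rw [up_LP] at s8
  have s8' : Sat (dropLen .LN .Z0 .LP : BProg A)
      (S0 x [] ls (un n) (un m) [] [] [] [] [] [])
      (10 * n + 2) (S0 x [] ls (un n) (un p) [] [] [] [] [] []) := by
    refine s8.congr le_rfl ?_
    show S0 x [] ls (un n) ((un m).drop n) [] [] [] [] [] [] = _
    rw [un_drop, hp]
  have s9 := sat_pushLen (A := A) (c := .LN) (c' := .Z0) (x := .TB) (by decide) true
    (s := S0 x [] ls (un n) (un p) [] [] [] [] [] []) (m := n) rfl rfl
  rw [up_TB] at s9
  have s9' : Sat (pushLen .LN .Z0 .TB true : BProg A)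
      (S0 x [] ls (un n) (un p) [] [] [] [] [] [])
      (11 * n + 2) (S0 x [] ls (un n) (un p) [] (un n) [] [] [] []) := by
    refine s9.congr le_rfl ?_
    show S0 x [] ls (un n) (un p) [] (List.replicate n true ++ []) [] [] [] [] = _
    rw [List.append_nil]
  have s10 := sat_pushLen (A := A) (c := .LP) (c' := .Z0) (x := .TE) (by decide) true
    (s := S0 x [] ls (un n) (un p) [] (un n) [] [] [] []) (m := p) rfl rfl
  rw [up_TE] at s10
  have s10' : Sat (pushLen .LP .Z0 .TE true : BProg A)
      (S0 x [] ls (un n) (un p) [] (un n) [] [] [] [])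
      (11 * p + 2) (S0 x [] ls (un n) (un p) [] (un n) (un p) [] [] []) := by
    refine s10.congr le_rfl ?_
    show S0 x [] ls (un n) (un p) [] (un n) (List.replicate p true ++ []) [] [] [] = _
    rw [List.append_nil]
  exact (s7'.seq (s8'.seq (s9'.seq s10'))).congr (by omega) rfl

/-- part 3 -/
def FC (A : TM) : BProg A :=
  Prog.seq (clear .TE) (Prog.seq (clear .TB) (mvAll .GO .GD))

theorem sat_FC (A : TM) (n p : ℕ) (go ls ln lp : List Bool) :
    Sat (FC A) (S0 [] go ls ln lp [] (un n) (un p) [] [] []) (2 * p + 2 * n + 5 * go.length + 3)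
      (S0 go.reverse [] ls ln lp [] [] [] [] [] []) := by
  have s13 := sat_clear (A := A) .TE (S0 [] go ls ln lp [] (un n) (un p) [] [] [])
  rw [up_TE] at s13
  have s13' : Sat (clear .TE : BProg A) (S0 [] go ls ln lp [] (un n) (un p) [] [] [])
      (2 * p + 1) (S0 [] go ls ln lp [] (un n) [] [] [] []) := by
    refine s13.congr ?_ rfl
    show 2 * (un p).length + 1 ≤ _
    simp [un]
  have s14 := sat_clear (A := A) .TB (S0 [] go ls ln lp [] (un n) [] [] [] [])
  rw [up_TB] at s14
  have s14' : Sat (clear .TB : BProg A) (S0 [] go ls ln lp [] (un n) [] [] [] [])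
      (2 * n + 1) (S0 [] go ls ln lp [] [] [] [] [] []) := by
    refine s14.congr ?_ rfl
    show 2 * (un n).length + 1 ≤ _
    simp [un]
  have s15 := sat_mvAll (A := A) (x := .GO) (y := .GD) (by decide)
    (S0 [] go ls ln lp [] [] [] [] [] [])
  rw [up_GO, up_GD] at s15
  have s15' : Sat (mvAll .GO .GD : BProg A) (S0 [] go ls ln lp [] [] [] [] [] [])
      (5 * go.length + 1) (S0 go.reverse [] ls ln lp [] [] [] [] [] []) := by
    refine s15.congr le_rfl ?_
    show S0 (go.reverse ++ []) [] ls ln lp [] [] [] [] [] [] = _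
    rw [List.append_nil]
  exact (s13'.seq (s14'.seq s15')).congr (by omega) rfl

theorem cost_front (n m p : ℕ) (hn : 1 ≤ n) (hm2 : m ≤ 2 * n) (hpn : p ≤ n) :
    100 * (n * n) + (n * (44 * n + 9 + 1) + 1 + (5 * m + 21 * n + 11 * p + 7 +
      (n * (13 * n + 2 + (11 * p + 2) + 9) + 2 + (p * (11 * n + 2 + (11 * p + 2) + 9) + 2 +
        (2 * p + 2 * n + 5 * (m * m) + 3))))) ≤ 1000 * n ^ 2 := by
  have b1 : n ≤ n * n := Nat.le_mul_of_pos_left n hn
  have b2 : 1 ≤ n * n := le_trans hn b1
  have b3 : m * m ≤ 4 * (n * n) := by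
    calc m * m ≤ (2 * n) * (2 * n) := Nat.mul_le_mul hm2 hm2
      _ = 4 * (n * n) := by ring
  have b4 : p * p ≤ n * n := Nat.mul_le_mul hpn hpn
  have b5 : p * n ≤ n * n := Nat.mul_le_mul_right n hpn
  have b6 : n * p ≤ n * n := Nat.mul_le_mul_left n hpn
  have c2 : n * (44 * n + 9 + 1) + 1 = 44 * (n * n) + 10 * n + 1 := by ring
  have c3 : n * (13 * n + 2 + (11 * p + 2) + 9) + 2 = 13 * (n * n) + 11 * (n * p) + 13 * n + 2 := by
    ring
  have c4 : p * (11 * n + 2 + (11 * p + 2) + 9) + 2 = 11 * (p * n) + 11 * (p * p) + 13 * p + 2 := by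
    ring
  have c5 : n ^ 2 = n * n := sq n
  rw [c2, c3, c4, c5]
  omega

end Front

open Front in
theorem exists_front (A : TM) : ∃ (P : BProg A) (C : ℕ), ∀ (n : ℕ) (x : List Bool), 1 ≤ n →
    x.length = n * n → Sat P (only x) (C * n ^ 2) (mid n (padF n (2 ^ Nat.clog 2 n) x)) := by
  refine ⟨Prog.seq (FA A) (Prog.seq (whileNE .X0 (P3 A)) (Prog.seq (FB A)
    (Prog.seq (P5 A) (Prog.seq (P6 A) (FC A))))), 1000, ?_⟩
  intro n x hn hx
  have hle : n ≤ 2 ^ Nat.clog 2 n := Nat.le_pow_clog (by norm_num) n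
  have hm2 : 2 ^ Nat.clog 2 n ≤ 2 * n := by
    rcases Nat.eq_zero_or_pos (Nat.clog 2 n) with h0 | h0
    · rw [h0]
      omega
    · have h1 : 2 ^ (Nat.clog 2 n - 1) < n :=
        (Nat.lt_clog_iff_pow_lt (by norm_num)).1 (by omega)
      have h2 : 2 ^ Nat.clog 2 n = 2 * 2 ^ (Nat.clog 2 n - 1) := by
        rw [← pow_succ']
        congr 1
        omega
      omega
  obtain ⟨m, hm⟩ : ∃ m, m = 2 ^ Nat.clog 2 n := ⟨_, rfl⟩
  obtain ⟨p, hp⟩ : ∃ p, p = m - n := ⟨_, rfl⟩
  have s6 := sat_P4 A n hn x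
  rw [only_eq, mid_eq, ← hm, ← hp]
  rw [← hm] at s6 hle hm2
  have hmp : m = n + p := by omega
  have hpn : p ≤ n := by omega
  have s1 := sat_FA A n hn x hx
  have s7 := sat_FB A n m p hp x (un (Nat.clog 2 n))
  have s11 := sat_P5 A n p x (un (Nat.clog 2 n)) (un p) hx
  obtain ⟨go, hgo⟩ : ∃ go, go = (cat n (fun i => blk n x i ++ List.replicate p false)).reverse :=
    ⟨_, rfl⟩
  rw [← hgo] at s11
  have s12 := sat_P6 A n p go (un (Nat.clog 2 n)) (un n)
  obtain ⟨go', hgo'⟩ : ∃ go', go' = List.replicate (p * (n + p)) false ++ go := ⟨_, rfl⟩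
  rw [← hgo'] at s12
  have s13 := sat_FC A n p go' (un (Nat.clog 2 n)) (un n) (un p)
  have hrev : go'.reverse = padF n m x := by
    rw [hgo', hgo, List.reverse_append, List.reverse_reverse, List.reverse_replicate]
    unfold padF
    rw [← hp, hmp]
  have hlen : go'.length = m * m := by
    rw [← List.length_reverse, hrev, length_padF hle hx]
  rw [hrev, hlen] at s13
  exact (s1.seq (s6.seq (s7.seq (s11.seq (s12.seq s13))))).congr (cost_front n m p hn hm2 hpn) rfl

end Vale.Agent.P338
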