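import Vale.Agent.Lib.P338.PShift

/-!
# P338, module PGenG: the second factor

Write the pattern `patF a q` on `O`:
```
forC TA Z0 ( forC TB Z1 ( forC TQ Z2 ( pushLen T12 Z3 O false ; pushLen T2 Z3 O false ) ) ; pop O ; push O true )
mvAll O D
```
(`a * q * (12 a + 2 a)` zeros per row, the last one is replaced by `true`; `List.replicate` of
`a * q * (14 a)` zeros has `a * q * (14 a) - 1` zeros after the `pop`). Then set the registers
`τ = 1, δ = 3, δ2 = 2, κ = κ2 = 0` (a register `r, rc` gets the value `m` by
`pushLen T2 Z0 rc true ; mvN rc r m`; `3 ≤ 2 a`), use `exists_shift`, and finally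
`mvAll D O ; mvAll O Y`.
-/

namespace Vale.Agent.P338

section genG

variable {A : TM}

private def PGenG_slot : BProg A :=
  Prog.seq (pushLen .T12 .Z3 .O false) (pushLen .T2 .Z3 .O false)

private theorem PGenG_sat_slot {s : St} {a : ℕ} (h12 : s .T12 = un (12 * a))
    (h2 : s .T2 = un (2 * a)) (hz : s .Z3 = []) :
    Sat (PGenG_slot : BProg A) s (154 * a + 4)
      (up s .O (List.replicate (14 * a) false ++ s .O)) := by
  have e1 := sat_pushLen (A := A) (c := .T12) (c' := .Z3) (x := .O) (by decide) false h12 hz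
  have e2 := sat_pushLen (A := A) (c := .T2) (c' := .Z3) (x := .O) (by decide) false
    (s := up s .O (List.replicate (12 * a) false ++ s .O)) (m := 2 * a)
    (by rw [up_of_ne _ (by decide)]; exact h2) (by rw [up_of_ne _ (by decide)]; exact hz)
  refine (e1.seq e2).congr (by omega) ?_
  rw [up_up, up_self, ← List.append_assoc, List.replicate_append_replicate]
  have e3 : 2 * a + 12 * a = 14 * a := by omega
  rw [e3]

private def PGenG_cell : BProg A := forC .TQ .Z2 PGenG_slot

private theorem PGenG_sat_cell {s : St} {a q : ℕ} (hq : s .TQ = un q) (hz2 : s .Z2 = [])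
    (h12 : s .T12 = un (12 * a)) (h2 : s .T2 = un (2 * a)) (hz3 : s .Z3 = []) :
    Sat (PGenG_cell : BProg A) s (q * (154 * a + 13) + 2)
      (up s .O (List.replicate (q * (14 * a)) false ++ s .O)) := by
  refine (sat_for1 (c := .TQ) (c' := .Z2) (x := .O) (q := 154 * a + 4) (by decide) hq hz2
    (fun k => List.replicate (k * (14 * a)) false ++ s .O) (by simp) ?_).congr (le_refl _) rfl
  intro k _ t h1 h3
  refine (PGenG_sat_slot (a := a) (by rw [h3 _ (by decide) (by decide) (by decide)]; exact h12)
    (by rw [h3 _ (by decide) (by decide) (by decide)]; exact h2)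
    (by rw [h3 _ (by decide) (by decide) (by decide)]; exact hz3)).congr le_rfl ?_
  rw [h1, ← List.append_assoc, List.replicate_append_replicate]
  have e3 : 14 * a + k * (14 * a) = (k + 1) * (14 * a) := by ring
  rw [e3]

private def PGenG_rowI : BProg A := forC .TB .Z1 PGenG_cell

private theorem PGenG_sat_rowI {s : St} {a q : ℕ} (hb : s .TB = un a) (hz1 : s .Z1 = [])
    (hq : s .TQ = un q) (hz2 : s .Z2 = [])
    (h12 : s .T12 = un (12 * a)) (h2 : s .T2 = un (2 * a)) (hz3 : s .Z3 = []) :
    Sat (PGenG_rowI : BProg A) s (a * (q * (154 * a + 13) + 11) + 2)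
      (up s .O (List.replicate (a * (q * (14 * a))) false ++ s .O)) := by
  refine (sat_for1 (c := .TB) (c' := .Z1) (x := .O) (q := q * (154 * a + 13) + 2) (by decide) hb hz1
    (fun k => List.replicate (k * (q * (14 * a))) false ++ s .O) (by simp) ?_).congr (le_refl _) rfl
  intro k _ t h1 h3
  refine (PGenG_sat_cell (a := a) (q := q)
    (by rw [h3 _ (by decide) (by decide) (by decide)]; exact hq)
    (by rw [h3 _ (by decide) (by decide) (by decide)]; exact hz2)
    (by rw [h3 _ (by decide) (by decide) (by decide)]; exact h12)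
    (by rw [h3 _ (by decide) (by decide) (by decide)]; exact h2)
    (by rw [h3 _ (by decide) (by decide) (by decide)]; exact hz3)).congr le_rfl ?_
  rw [h1, ← List.append_assoc, List.replicate_append_replicate]
  have e3 : q * (14 * a) + k * (q * (14 * a)) = (k + 1) * (q * (14 * a)) := by ring
  rw [e3]

private def PGenG_row : BProg A := Prog.seq PGenG_rowI (Prog.seq (pop .O) (push .O true))

private theorem PGenG_sat_row {s : St} {a q : ℕ} (ha : 1 ≤ a) (hq1 : 1 ≤ q)
    (hb : s .TB = un a) (hz1 : s .Z1 = [])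
    (hq : s .TQ = un q) (hz2 : s .Z2 = [])
    (h12 : s .T12 = un (12 * a)) (h2 : s .T2 = un (2 * a)) (hz3 : s .Z3 = []) :
    Sat (PGenG_row : BProg A) s (a * (q * (154 * a + 13) + 11) + 5)
      (up s .O (true :: (List.replicate (a * q * (14 * a) - 1) false ++ s .O))) := by
  have e1 := PGenG_sat_rowI (A := A) hb hz1 hq hz2 h12 h2 hz3
  have e2 := (e1.seq ((sat_pop (A := A) .O _).seq (sat_push .O true _)))
  refine e2.congr (by omega) ?_
  have hpos : 0 < a * (q * (14 * a)) := by positivity
  obtain ⟨n, hn⟩ : ∃ n, a * (q * (14 * a)) = n + 1 := ⟨a * (q * (14 * a)) - 1, by omega⟩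
  have hn' : a * q * (14 * a) - 1 = n := by
    rw [mul_assoc, hn]
    rfl
  rw [up_up, up_up, up_self, up_self, hn, hn', List.replicate_succ, List.cons_append,
    List.tail_cons]

private def PGenG_all : BProg A := forC .TA .Z0 PGenG_row

private theorem PGenG_sat_all {s : St} {a q : ℕ} (ha : 1 ≤ a) (hq1 : 1 ≤ q)
    (ht : AllNil temps s) (hp : Par a q s) :
    Sat (PGenG_all : BProg A) s (a * (a * (q * (154 * a + 13) + 11) + 14) + 2)
      (up s .O ((patF a q).reverse ++ s .O)) := by
  refine (sat_for1 (c := .TA) (c' := .Z0) (x := .O) (q := a * (q * (154 * a + 13) + 11) + 5)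
    (by decide) hp.TA (ht.get (by decide))
    (fun k => (cat k fun _ => List.replicate (a * q * (14 * a) - 1) false ++ [true]).reverse ++ s .O)
    (by rw [cat_zero]; simp) ?_).congr (le_refl _) rfl
  intro k _ t h1 h3
  refine (PGenG_sat_row (a := a) (q := q) ha hq1
    (by rw [h3 _ (by decide) (by decide) (by decide)]; exact hp.TB)
    (by rw [h3 _ (by decide) (by decide) (by decide)]; exact ht.get (by decide))
    (by rw [h3 _ (by decide) (by decide) (by decide)]; exact hp.TQ)
    (by rw [h3 _ (by decide) (by decide) (by decide)]; exact ht.get (by decide))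
    (by rw [h3 _ (by decide) (by decide) (by decide)]; exact hp.T12)
    (by rw [h3 _ (by decide) (by decide) (by decide)]; exact hp.T2)
    (by rw [h3 _ (by decide) (by decide) (by decide)]; exact ht.get (by decide))).congr le_rfl ?_
  rw [h1]
  show _ = up t .O ((cat (k + 1) fun _ =>
    List.replicate (a * q * (14 * a) - 1) false ++ [true]).reverse ++ s .O)
  rw [cat_succ, List.reverse_append, List.reverse_append, List.reverse_replicate]
  simp

private theorem PGenG_length_patF {a q : ℕ} (ha : 1 ≤ a) (hq : 1 ≤ q) :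
    (patF a q).length = 14 * (q * a ^ 3) := by
  have hpos : 0 < a * q * (14 * a) := by positivity
  have h1 : (patF a q).length = a * (a * q * (14 * a)) := by
    unfold patF
    refine length_cat fun i _ => ?_
    simp only [List.length_append, List.length_replicate, List.length_cons, List.length_nil]
    omega
  rw [h1]
  ring

private def PGenG_pat : BProg A := Prog.seq PGenG_all (mvAll .O .D)

private theorem PGenG_sat_pat {s : St} {a q : ℕ} (ha : 1 ≤ a) (hq1 : 1 ≤ q)
    (ht : AllNil temps s) (hp : Par a q s) (hD : s .D = []) :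
    Sat (PGenG_pat : BProg A) s
      (a * (a * (q * (154 * a + 13) + 11) + 14) + 2 + (70 * (q * a ^ 3) + 1))
      (up s .D (patF a q)) := by
  have hO : s .O = [] := ht.get (by decide)
  have e1 := (PGenG_sat_all (A := A) ha hq1 ht hp).seq
    (sat_mvAll (x := .O) (y := .D) (by decide) _)
  refine e1.congr ?_ ?_
  · rw [up_self, hO, List.append_nil, List.length_reverse, PGenG_length_patF ha hq1]
    omega
  · rw [up_self, hO, List.append_nil, List.reverse_reverse, up_up, up_of_ne _ (by decide), hD,
      List.append_nil]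
    rw [← hO, up_id]

private def PGenG_reg : BProg A :=
  Prog.seq (pushLen .T2 .Z0 .RTc true) (Prog.seq (mvN .RTc .RT 1)
    (Prog.seq (pushLen .T2 .Z0 .RDc true) (Prog.seq (mvN .RDc .RD 3)
      (Prog.seq (pushLen .T2 .Z0 .RKc true) (pushN .RE true 2)))))

private theorem PGenG_sat_fill {s : St} {a : ℕ} {x : SName} (hd : [.T2, .Z0, x].Nodup)
    (h2 : s .T2 = un (2 * a)) (hz : s .Z0 = []) (hx : s x = []) :
    Sat (pushLen .T2 .Z0 x true : BProg A) s (22 * a + 2) (up s x (un (2 * a))) := by
  refine (sat_pushLen hd true h2 hz).congr (by omega) ?_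
  rw [hx, List.append_nil]

private theorem PGenG_sat_part {s : St} {m n : ℕ} {x y : SName} (hxy : x ≠ y) (hn : n ≤ m)
    (hx : s x = un m) (hy : s y = []) :
    Sat (mvN x y n : BProg A) s (4 * n + 1) (up (up s x (un (m - n))) y (un n)) := by
  refine (sat_mvN hxy n s (by rw [hx]; simpa using hn)).congr le_rfl ?_
  rw [hx, hy, List.append_nil, List.drop_replicate, List.take_replicate, List.reverse_replicate,
    min_eq_left hn]

private theorem PGenG_sat_reg {s : St} {a q : ℕ} (ha : 2 ≤ a)
    (ht : AllNil temps s) (hp : Par a q s) :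
    Sat (PGenG_reg : BProg A) s (66 * a + 29) (regs s (2 * a) 1 3 2 0 0) := by
  have hZ0 : s .Z0 = [] := ht.get (by decide)
  have hRT : s .RT = [] := ht.get (by decide)
  have hRTc : s .RTc = [] := ht.get (by decide)
  have hRD : s .RD = [] := ht.get (by decide)
  have hRDc : s .RDc = [] := ht.get (by decide)
  have hRK : s .RK = [] := ht.get (by decide)
  have hRKc : s .RKc = [] := ht.get (by decide)
  have hRE : s .RE = [] := ht.get (by decide)
  have hRL : s .RL = [] := ht.get (by decide)
  have hT2 : s .T2 = un (2 * a) := hp.T2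
  have e1 := PGenG_sat_fill (A := A) (s := s) (a := a) (x := .RTc) (by decide) hT2 hZ0 hRTc
  have e2 := PGenG_sat_part (A := A) (s := up s .RTc (un (2 * a))) (m := 2 * a) (n := 1)
    (x := .RTc) (y := .RT) (by decide) (by omega) (by rw [up_self])
    (by rw [up_of_ne _ (by decide)]; exact hRT)
  rw [up_up] at e2
  have e3 := PGenG_sat_fill (A := A) (s := up (up s .RTc (un (2 * a - 1))) .RT (un 1)) (a := a)
    (x := .RDc) (by decide)
    (by rw [up_of_ne _ (by decide), up_of_ne _ (by decide)]; exact hT2)
    (by rw [up_of_ne _ (by decide), up_of_ne _ (by decide)]; exact hZ0)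
    (by rw [up_of_ne _ (by decide), up_of_ne _ (by decide)]; exact hRDc)
  have e4 := PGenG_sat_part (A := A)
    (s := up (up (up s .RTc (un (2 * a - 1))) .RT (un 1)) .RDc (un (2 * a))) (m := 2 * a) (n := 3)
    (x := .RDc) (y := .RD) (by decide) (by omega) (by rw [up_self])
    (by rw [up_of_ne _ (by decide), up_of_ne _ (by decide), up_of_ne _ (by decide)]; exact hRD)
  rw [up_up] at e4
  have e5 := PGenG_sat_fill (A := A)
    (s := up (up (up (up s .RTc (un (2 * a - 1))) .RT (un 1)) .RDc (un (2 * a - 3))) .RD (un 3))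
    (a := a) (x := .RKc) (by decide)
    (by rw [up_of_ne _ (by decide), up_of_ne _ (by decide), up_of_ne _ (by decide),
          up_of_ne _ (by decide)]; exact hT2)
    (by rw [up_of_ne _ (by decide), up_of_ne _ (by decide), up_of_ne _ (by decide),
          up_of_ne _ (by decide)]; exact hZ0)
    (by rw [up_of_ne _ (by decide), up_of_ne _ (by decide), up_of_ne _ (by decide),
          up_of_ne _ (by decide)]; exact hRKc)
  have e6 := sat_pushN (A := A) .RE true 2
    (up (up (up (up (up s .RTc (un (2 * a - 1))) .RT (un 1)) .RDc (un (2 * a - 3))) .RD (un 3))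
      .RKc (un (2 * a)))
  refine (e1.seq (e2.seq (e3.seq (e4.seq (e5.seq e6))))).congr (by omega) ?_
  rw [up_of_ne _ (by decide), up_of_ne _ (by decide), up_of_ne _ (by decide),
    up_of_ne _ (by decide), up_of_ne _ (by decide), hRE, List.append_nil]
  unfold regs
  have hun : List.replicate 2 true = un 2 := rfl
  rw [hun]
  funext z
  cases z <;> first | rfl | simp [up, hRK, hRL]

end genG

theorem exists_genG (A : TM) : ∃ (P : BProg A) (C : ℕ), ∀ (s : St) (a q : ℕ), 2 ≤ a → 1 ≤ q →
    AllNil temps s → Par a q s → s .D = [] → s .Y = [] →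
    Sat P s (C * (q * a ^ 3)) (up s .Y (GF a q)) := by
  obtain ⟨P, C, hP⟩ := exists_shift A
  refine ⟨Prog.seq PGenG_pat (Prog.seq PGenG_reg (Prog.seq P (Prog.seq (mvAll .D .O)
    (mvAll .O .Y)))), C + 600, ?_⟩
  intro s a q ha hq ht hp hD hY
  have hO : s .O = [] := ht.get (by decide)
  have e1 := PGenG_sat_pat (A := A) (by omega) hq ht hp hD
  have ht1 : AllNil temps (up s .D (patF a q)) := ht.up (by decide) _
  have hp1 : Par a q (up s .D (patF a q)) := hp.up (by decide) _
  have e2 := PGenG_sat_reg (A := A) ha ht1 hp1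
  have e3 := hP (up s .D (patF a q)) a q 1 3 2 0 0 (by omega) hq (by omega) (by omega) (by omega)
    (by omega) (by omega) ht1 hp1 (by rw [up_self]; exact PGenG_length_patF (by omega) hq)
  have hG : shiftF a q (tauF (2 * a) 1 3 2 0 0) (patF a q) = GF a q := rfl
  rw [up_self, hG, up_up] at e3
  have e4 := sat_mvAll (A := A) (x := .D) (y := .O) (by decide) (up s .D (GF a q))
  rw [up_self, up_of_ne _ (by decide), hO, List.append_nil, up_up] at e4
  have e5 := sat_mvAll (A := A) (x := .O) (y := .Y) (by decide)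
    (up (up s .D []) .O (GF a q).reverse)
  rw [up_self, List.reverse_reverse, up_up, List.length_reverse] at e5
  have hlen := length_GF ha hq
  rw [hlen] at e4 e5
  refine (e1.seq (e2.seq (e3.seq (e4.seq e5)))).congr ?_ ?_
  · have h1 : 1 ≤ q * a ^ 3 := Nat.one_le_iff_ne_zero.2 (by positivity)
    have h2 : a ≤ q * a ^ 3 := by
      calc a = 1 * (a * 1) := by ring
        _ ≤ q * (a * a ^ 2) := Nat.mul_le_mul hq (Nat.mul_le_mul le_rfl (Nat.one_le_pow _ _ (by omega)))
        _ = q * a ^ 3 := by ring
    have h3 : q * a ^ 2 ≤ q * a ^ 3 :=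
      Nat.mul_le_mul le_rfl (Nat.pow_le_pow_right (by omega) (by norm_num))
    have h4 : a ^ 2 ≤ q * a ^ 3 := by
      calc a ^ 2 = 1 * a ^ 2 := by ring
        _ ≤ q * a ^ 3 := Nat.mul_le_mul hq (Nat.pow_le_pow_right (by omega) (by norm_num))
    have h5 : a * (a * (q * (154 * a + 13) + 11) + 14) =
        154 * (q * a ^ 3) + 13 * (q * a ^ 2) + 11 * a ^ 2 + 14 * a := by ring
    have h6 : (C + 600) * (q * a ^ 3) = C * (q * a ^ 3) + 600 * (q * a ^ 3) := by ring
    rw [h5, h6]
    omega
  · funext z
    cases z <;> simp [up, hD, hO, hY]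

end Vale.Agent.P338
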