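import Vale.Agent.Lib.P338.PTempl
import Vale.Agent.Lib.P338.PNaive

/-!
# P338, modules PUnrifPass, PRifPass, PBase4: the two passes for odd `L`, and the base case

`a = 2 ^ h`, `templO` gives `TE = TF = un (a ^ 2)`.

`exists_unrifPass`: chunks of `4 a ^ 4` bits, i.e. `2 * (2 a ^ 2)` pieces of `a ^ 2` bits:
```
whileNE GD (
  forC TF Z0 ( mvLen TE Z1 GD GO ; mvLen TE Z1 GD X0 ; mvLen TE Z1 GD GO ; mvLen TE Z1 GD X0 )
  mvAll X0 X1 ; mvAll X1 GO )
mvAll GO GD
clear TE ; clear TF
```
`exists_rifPass`: chunks of `2 a ^ 4` bits, two halves of `a ^ 2` pieces of `a ^ 2` bits: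
```
whileNE GD (
  forC TF Z0 ( mvLen TE Z1 GD X0 ) ; mvAll X0 X1
  forC TF Z0 ( mvLen TE Z1 X1 GO ; mvLen TE Z1 GD GO ) )
mvAll GO GD
clear TE ; clear TF
```
`exists_base4`: `whileNE GD ( mv GD GO ; mv GD X0 ; mv GD GO ; mv X0 GO ; mv GD GO ) ; mvAll GO GD`.
-/

namespace Vale.Agent.P338

namespace RifPass

variable {A : TM}

/-- the rule for `forC` when the body changes three stacks -/
theorem sat_for3 {c c' x y w : SName} (hd : [c, c', x, y, w].Nodup) {P : BProg A} {s : St}
    {q m : ℕ} (hs : s c = un m) (hs' : s c' = []) (f g u : ℕ → List Bool) (hf : f 0 = s x)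
    (hg : g 0 = s y) (hu : u 0 = s w)
    (h : ∀ k < m, ∀ t : St, t x = f k → t y = g k → t w = u k →
      (∀ z, z ≠ c → z ≠ c' → z ≠ x → z ≠ y → z ≠ w → t z = s z) →
      Sat P t q (up (up (up t x (f (k + 1))) y (g (k + 1))) w (u (k + 1)))) :
    Sat (forC c c' P) s (m * (q + 9) + 2) (up (up (up s x (f m)) y (g m)) w (u m)) := by
  have hcc : c ≠ c' := by
    intro h; subst h; simp at hd
  have hcx : c ≠ x := by
    intro h; subst h; simp at hd
  have hcy : c ≠ y := by
    intro h; subst h; simp at hd
  have hcw : c ≠ w := by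
    intro h; subst h; simp at hd
  have hcx' : c' ≠ x := by
    intro h; subst h; simp at hd
  have hcy' : c' ≠ y := by
    intro h; subst h; simp at hd
  have hcw' : c' ≠ w := by
    intro h; subst h; simp at hd
  have hxy : x ≠ y := by
    intro h; subst h; simp at hd
  have hxw : x ≠ w := by
    intro h; subst h; simp at hd
  have hyw : y ≠ w := by
    intro h; subst h; simp at hd
  refine sat_for hcc hs hs' (fun k => up (up (up s x (f k)) y (g k)) w (u k)) ?_ ?_ ?_ ?_
  · show up (up (up s x (f 0)) y (g 0)) w (u 0) = s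
    rw [hf, hg, hu, up_id, up_id, up_id]
  · show up (up (up s x (f m)) y (g m)) w (u m) c = un m
    rw [up_of_ne _ hcw, up_of_ne _ hcy, up_of_ne _ hcx, hs]
  · show up (up (up s x (f m)) y (g m)) w (u m) c' = []
    rw [up_of_ne _ hcw', up_of_ne _ hcy', up_of_ne _ hcx', hs']
  · intro k hk
    refine (h k hk _ ?_ ?_ ?_ ?_).congr le_rfl ?_
    · unfold cnt
      rw [up_of_ne _ hcx'.symm, up_of_ne _ hcx.symm, up_of_ne _ hxw, up_of_ne _ hxy, up_self]
    · unfold cnt
      rw [up_of_ne _ hcy'.symm, up_of_ne _ hcy.symm, up_of_ne _ hyw, up_self]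
    · unfold cnt
      rw [up_of_ne _ hcw'.symm, up_of_ne _ hcw.symm, up_self]
    · intro z h1 h2 h3 h4 h5
      unfold cnt
      rw [up_of_ne _ h2, up_of_ne _ h1, up_of_ne _ h5, up_of_ne _ h4, up_of_ne _ h3]
    · unfold cnt
      funext z
      simp only [up]
      split_ifs <;> simp_all

/-- a block of an initial part -/
theorem blk_take {E n i : ℕ} (l : List Bool) (hi : i < n) :
    blk E (l.take (n * E)) i = blk E l i := by
  unfold blk
  rw [List.drop_take, List.take_take]
  congr 1
  apply min_eq_left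
  have h1 : (i + 1) * E ≤ n * E := Nat.mul_le_mul_right E hi
  have h2 : (i + 1) * E = i * E + E := by ring
  omega

theorem blk_drop (E n i : ℕ) (l : List Bool) :
    blk E (l.drop (n * E)) i = blk E l (n + i) := by
  unfold blk
  rw [List.drop_drop]
  congr 2
  ring

/-- interleave, without the condition for the length -/
def rif (m E : ℕ) (l : List Bool) (n : ℕ) : List Bool :=
  cat n fun i => blk E l i ++ blk E l (m + i)

theorem rif_zero (m E : ℕ) (l : List Bool) : rif m E l 0 = [] := cat_zero _

theorem rif_succ (m E : ℕ) (l : List Bool) (n : ℕ) :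
    rif m E l (n + 1) = rif m E l n ++ (blk E l n ++ blk E l (m + n)) := cat_succ _ _

theorem rifF_blk (m E j : ℕ) (l : List Bool) :
    rifF m E (blk (2 * (m * E)) l j) = rif m E (l.drop (j * (2 * (m * E)))) m := by
  unfold rifF rif
  apply cat_congr
  intro i hi
  have e : 2 * (m * E) = (2 * m) * E := by ring
  have h1 : blk (2 * (m * E)) l j = (l.drop (j * (2 * (m * E)))).take ((2 * m) * E) := by
    unfold blk
    rw [e]
  rw [h1, blk_take _ (by omega), blk_take _ (by omega)]

/-- first half of a chunk -/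
def loop1 : BProg A := forC .TF .Z0 (mvLen .TE .Z1 .GD .X0)

theorem sat_loop1 {s : St} {m E : ℕ} (hTE : s .TE = un E) (hTF : s .TF = un m) (h0 : s .Z0 = [])
    (h1 : s .Z1 = []) (hx : s .X0 = []) (hl : m * E ≤ (s .GD).length) :
    Sat (loop1 : BProg A) s (m * (13 * E + 2 + 9) + 2)
      (up (up s .GD ((s .GD).drop (m * E))) .X0 ((s .GD).take (m * E)).reverse) := by
  refine sat_for2 (by decide) hTF h0 (fun i => (s .GD).drop (i * E))
    (fun i => ((s .GD).take (i * E)).reverse) (by simp) (by simp [hx]) ?_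
  intro k hk t h2 h3 h4
  have hE : (k + 1) * E ≤ m * E := Nat.mul_le_mul_right E hk
  have hk1 : (k + 1) * E = k * E + E := by ring
  have hd : t .TE = un E := by rw [h4 _ (by decide) (by decide) (by decide) (by decide), hTE]
  have hz : t .Z1 = [] := by rw [h4 _ (by decide) (by decide) (by decide) (by decide), h1]
  have h5 := sat_mvLen (A := A) (c := .TE) (c' := .Z1) (x := .GD) (y := .X0) (by decide) hd hz
    (by rw [h2, List.length_drop]; omega)
  refine h5.congr le_rfl ?_
  rw [h2, h3]
  show _ = up (up t .GD ((s .GD).drop ((k + 1) * E))) .X0 ((s .GD).take ((k + 1) * E)).reverse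
  rw [List.drop_drop, hk1, List.take_add, List.reverse_append]

/-- the two halves are interleaved -/
def loop2 : BProg A := forC .TF .Z0 (Prog.seq (mvLen .TE .Z1 .X1 .GO) (mvLen .TE .Z1 .GD .GO))

theorem sat_loop2 {s : St} {m E : ℕ} (l : List Bool) (hTE : s .TE = un E) (hTF : s .TF = un m)
    (h0 : s .Z0 = []) (h1 : s .Z1 = []) (hx : s .X1 = l.take (m * E))
    (hg : s .GD = l.drop (m * E)) (hl : 2 * (m * E) ≤ l.length) :
    Sat (loop2 : BProg A) s (m * (13 * E + 2 + (13 * E + 2) + 9) + 2)
      (up (up (up s .X1 []) .GD (l.drop (2 * (m * E)))) .GO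
        ((rif m E l m).reverse ++ s .GO)) := by
  have key := sat_for3 (A := A) (c := .TF) (c' := .Z0) (x := .X1) (y := .GD) (w := .GO)
    (P := Prog.seq (mvLen .TE .Z1 .X1 .GO) (mvLen .TE .Z1 .GD .GO))
    (q := 13 * E + 2 + (13 * E + 2)) (s := s) (m := m)
    (by decide) hTF h0 (fun i => (l.take (m * E)).drop (i * E))
    (fun i => (l.drop (m * E)).drop (i * E)) (fun i => (rif m E l i).reverse ++ s .GO)
    (by simp [hx]) (by simp [hg]) (by simp [rif_zero]) ?_
  · refine key.congr le_rfl ?_
    have e1 : (l.take (m * E)).drop (m * E) = [] := by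
      rw [List.drop_eq_nil_iff, List.length_take]
      exact min_le_left _ _
    have e2 : (l.drop (m * E)).drop (m * E) = l.drop (2 * (m * E)) := by
      rw [List.drop_drop]
      congr 1
      ring
    show up (up (up s .X1 ((l.take (m * E)).drop (m * E))) .GD ((l.drop (m * E)).drop (m * E))) .GO
      ((rif m E l m).reverse ++ s .GO) = _
    rw [e1, e2]
  · intro k hk t h2 h3 h4 h5
    have hE : (k + 1) * E ≤ m * E := Nat.mul_le_mul_right E hk
    have hk1 : (k + 1) * E = k * E + E := by ring
    have hd : t .TE = un E := by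
      rw [h5 _ (by decide) (by decide) (by decide) (by decide) (by decide), hTE]
    have hz : t .Z1 = [] := by
      rw [h5 _ (by decide) (by decide) (by decide) (by decide) (by decide), h1]
    have h6 := sat_mvLen (A := A) (c := .TE) (c' := .Z1) (x := .X1) (y := .GO) (by decide) hd hz
      (by rw [h2, List.length_drop, List.length_take]; omega)
    have h7 := sat_mvLen (A := A) (c := .TE) (c' := .Z1) (x := .GD) (y := .GO) (by decide)
      (s := up (up t .X1 ((t .X1).drop E)) .GO (((t .X1).take E).reverse ++ t .GO)) (m := E)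
      (by rw [up_of_ne _ (by decide), up_of_ne _ (by decide), hd])
      (by rw [up_of_ne _ (by decide), up_of_ne _ (by decide), hz])
      (by
        rw [up_of_ne _ (by decide), up_of_ne _ (by decide), h3, List.length_drop,
          List.length_drop]
        omega)
    refine (h6.seq h7).congr le_rfl ?_
    rw [up_self, up_of_ne (x := .GO) (y := .GD) _ (by decide),
      up_of_ne (x := .X1) (y := .GD) _ (by decide), h2, h3, h4]
    show _ = up (up (up t .X1 ((l.take (m * E)).drop ((k + 1) * E))) .GD
      ((l.drop (m * E)).drop ((k + 1) * E))) .GO ((rif m E l (k + 1)).reverse ++ s .GO)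
    have e3 : ((l.take (m * E)).drop (k * E)).drop E = (l.take (m * E)).drop ((k + 1) * E) := by
      rw [List.drop_drop, hk1]
    have e4 : ((l.drop (m * E)).drop (k * E)).drop E = (l.drop (m * E)).drop ((k + 1) * E) := by
      rw [List.drop_drop, hk1]
    have e5 : ((l.take (m * E)).drop (k * E)).take E = blk E l k := blk_take l hk
    have e6 : ((l.drop (m * E)).drop (k * E)).take E = blk E l (m + k) := blk_drop E m k l
    have e7 : (rif m E l (k + 1)).reverse ++ s .GO =
        (blk E l (m + k)).reverse ++ ((blk E l k).reverse ++ ((rif m E l k).reverse ++ s .GO)) := by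
      rw [rif_succ]
      simp only [List.reverse_append, List.append_assoc]
    rw [e3, e4, e5, e6, e7]
    funext z
    simp only [up]
    split_ifs <;> simp_all

/-- one chunk -/
def body : BProg A := Prog.seq loop1 (Prog.seq (mvAll .X0 .X1) loop2)

theorem sat_body {s : St} {m E : ℕ} (hE : 1 ≤ E) (hm : 1 ≤ m) (hTE : s .TE = un E)
    (hTF : s .TF = un m) (h0 : s .Z0 = []) (h1 : s .Z1 = []) (hx : s .X0 = []) (hx1 : s .X1 = [])
    (hl : 2 * (m * E) ≤ (s .GD).length) :
    Sat (body : BProg A) s (73 * (m * E))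
      (up (up s .GD ((s .GD).drop (2 * (m * E)))) .GO
        ((rif m E (s .GD) m).reverse ++ s .GO)) := by
  obtain ⟨l, hg⟩ : ∃ l, s .GD = l := ⟨_, rfl⟩
  rw [hg] at hl ⊢
  have a1 := sat_loop1 (A := A) hTE hTF h0 h1 hx (by rw [hg]; omega)
  rw [hg] at a1
  have a2 := sat_mvAll (A := A) (x := .X0) (y := .X1) (by decide)
    (up (up s .GD (l.drop (m * E))) .X0 (l.take (m * E)).reverse)
  rw [up_self, List.reverse_reverse, up_of_ne (x := .X0) (y := .X1) _ (by decide),
    up_of_ne (x := .GD) (y := .X1) _ (by decide), hx1, List.append_nil, up_up,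
    List.length_reverse] at a2
  have a3 := sat_loop2 (A := A) (s := up (up (up s .GD (l.drop (m * E))) .X0 []) .X1
    (l.take (m * E))) (m := m) (E := E) l
    (by rw [up_of_ne _ (by decide), up_of_ne _ (by decide), up_of_ne _ (by decide), hTE])
    (by rw [up_of_ne _ (by decide), up_of_ne _ (by decide), up_of_ne _ (by decide), hTF])
    (by rw [up_of_ne _ (by decide), up_of_ne _ (by decide), up_of_ne _ (by decide), h0])
    (by rw [up_of_ne _ (by decide), up_of_ne _ (by decide), up_of_ne _ (by decide), h1])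
    (by rw [up_self])
    (by rw [up_of_ne _ (by decide), up_of_ne _ (by decide), up_self])
    hl
  refine (a1.seq (a2.seq a3)).congr ?_ ?_
  · have b1 : (l.take (m * E)).length ≤ m * E := by
      rw [List.length_take]
      exact min_le_left _ _
    have b2 : m ≤ m * E := Nat.le_mul_of_pos_right m hE
    have b3 : m * (13 * E + 2 + 9) = 13 * (m * E) + 11 * m := by ring
    have b4 : m * (13 * E + 2 + (13 * E + 2) + 9) = 26 * (m * E) + 13 * m := by ring
    omega
  · rw [up_of_ne (x := .X1) (y := .GO) _ (by decide), up_of_ne (x := .X0) (y := .GO) _ (by decide),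
      up_of_ne (x := .GD) (y := .GO) _ (by decide)]
    funext z
    simp only [up]
    split_ifs <;> simp_all

/-- all chunks -/
theorem sat_pass {s : St} {m E k : ℕ} (hE : 1 ≤ E) (hm : 1 ≤ m) (hTE : s .TE = un E)
    (hTF : s .TF = un m) (h0 : s .Z0 = []) (h1 : s .Z1 = []) (hx : s .X0 = []) (hx1 : s .X1 = [])
    (hgo : s .GO = []) (hl : (s .GD).length = k * (2 * (m * E))) :
    Sat (whileNE .GD body : BProg A) s (k * (73 * (m * E) + 1) + 1)
      (up (up s .GD []) .GO (chunkF (2 * (m * E)) (rifF m E) (s .GD)).reverse) := by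
  obtain ⟨l, hg⟩ : ∃ l, s .GD = l := ⟨_, rfl⟩
  rw [hg] at hl ⊢
  have hpos : 0 < m * E := Nat.mul_pos hm hE
  have key := sat_while' (A := A) .GD body
    (fun j => up (up s .GD (l.drop (j * (2 * (m * E))))) .GO
      (cat j fun i => rifF m E (blk (2 * (m * E)) l i)).reverse) (73 * (m * E)) k ?_ ?_ ?_
  · have e0 : up (up s .GD (l.drop (0 * (2 * (m * E))))) .GO
        (cat 0 fun i => rifF m E (blk (2 * (m * E)) l i)).reverse = s := by
      rw [cat_zero, List.reverse_nil, Nat.zero_mul, List.drop_zero, ← hg, up_id, ← hgo, up_id]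
    have e1 : l.drop (k * (2 * (m * E))) = [] := by
      rw [List.drop_eq_nil_iff, hl]
    have e2 : l.length / (2 * (m * E)) = k := by
      rw [hl]
      exact Nat.mul_div_cancel _ (by omega)
    simp only [e0] at key
    refine key.congr le_rfl ?_
    show up (up s .GD (l.drop (k * (2 * (m * E))))) .GO
      (cat k fun i => rifF m E (blk (2 * (m * E)) l i)).reverse = _
    unfold chunkF
    rw [e1, e2]
  · intro j hj
    show up (up s .GD (l.drop (j * (2 * (m * E))))) .GO
      (cat j fun i => rifF m E (blk (2 * (m * E)) l i)).reverse .GD ≠ []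
    rw [up_of_ne _ (by decide), up_self]
    intro h
    rw [List.drop_eq_nil_iff, hl] at h
    have h2 : k ≤ j := Nat.le_of_mul_le_mul_right h (by omega)
    omega
  · show up (up s .GD (l.drop (k * (2 * (m * E))))) .GO
      (cat k fun i => rifF m E (blk (2 * (m * E)) l i)).reverse .GD = []
    rw [up_of_ne _ (by decide), up_self, List.drop_eq_nil_iff, hl]
  · intro j hj
    have hj1 : (j + 1) * (2 * (m * E)) ≤ k * (2 * (m * E)) := Nat.mul_le_mul_right _ hj
    have hj2 : (j + 1) * (2 * (m * E)) = j * (2 * (m * E)) + 2 * (m * E) := by ring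
    have b := sat_body (A := A) (s := up (up s .GD (l.drop (j * (2 * (m * E))))) .GO
      (cat j fun i => rifF m E (blk (2 * (m * E)) l i)).reverse) (m := m) (E := E) hE hm
      (by rw [up_of_ne _ (by decide), up_of_ne _ (by decide), hTE])
      (by rw [up_of_ne _ (by decide), up_of_ne _ (by decide), hTF])
      (by rw [up_of_ne _ (by decide), up_of_ne _ (by decide), h0])
      (by rw [up_of_ne _ (by decide), up_of_ne _ (by decide), h1])
      (by rw [up_of_ne _ (by decide), up_of_ne _ (by decide), hx])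
      (by rw [up_of_ne _ (by decide), up_of_ne _ (by decide), hx1])
      (by
        rw [up_of_ne _ (by decide), up_self, List.length_drop, hl]
        omega)
    refine b.congr le_rfl ?_
    show _ = up (up s .GD (l.drop ((j + 1) * (2 * (m * E))))) .GO
      (cat (j + 1) fun i => rifF m E (blk (2 * (m * E)) l i)).reverse
    rw [up_self, up_of_ne (x := .GO) (y := .GD) _ (by decide), up_self, List.drop_drop, hj2,
      cat_succ, List.reverse_append, rifF_blk]
    funext z
    simp only [up]
    split_ifs <;> simp_all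

end RifPass

open RifPass in
theorem exists_rifPass (A : TM) : ∃ (P : BProg A) (C : ℕ), ∀ (s : St) (a h k : ℕ),
    a = 2 ^ h → 1 ≤ k → AllNil rest s → s .HS = un h → (s .GD).length = k * (2 * a ^ 4) →
    Sat P s (C * (k * a ^ 4))
      (up s .GD (chunkF (2 * a ^ 4) (rifF (a ^ 2) (a ^ 2)) (s .GD))) := by
  obtain ⟨T, C, hT⟩ := exists_templO A
  refine ⟨Prog.seq T (Prog.seq (whileNE .GD body) (Prog.seq (mvAll .GO .GD)
    (Prog.seq (clear .TE) (clear .TF)))), C + 100, ?_⟩
  intro s a h k ha hk hn hh hl
  have t1 := hT s h hn hh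
  rw [← ha] at t1
  have ha1 : 1 ≤ a := by
    rw [ha]
    exact Nat.one_le_two_pow
  obtain ⟨m, hm⟩ : ∃ m, a ^ 2 = m := ⟨_, rfl⟩
  have hm1 : 1 ≤ m := by
    rw [← hm]
    exact Nat.one_le_pow _ _ ha1
  have ha4 : a ^ 4 = m * m := by
    rw [← hm]
    ring
  rw [ha4, hm]
  rw [ha4] at hl
  rw [hm] at t1
  obtain ⟨l, hg⟩ : ∃ l, s .GD = l := ⟨_, rfl⟩
  obtain ⟨r, hr⟩ : ∃ r, chunkF (2 * (m * m)) (rifF m m) l = r := ⟨_, rfl⟩
  have nTE : s .TE = [] := hn.get (by decide)
  have nTF : s .TF = [] := hn.get (by decide)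
  have nGO : s .GO = [] := hn.get (by decide)
  have nX0 : s .X0 = [] := hn.get (by decide)
  have nX1 : s .X1 = [] := hn.get (by decide)
  have nZ0 : s .Z0 = [] := hn.get (by decide)
  have nZ1 : s .Z1 = [] := hn.get (by decide)
  have t2 := sat_pass (A := A) (s := up (up s .TE (un m)) .TF (un m)) (m := m) (E := m) (k := k)
    hm1 hm1
    (by rw [up_of_ne _ (by decide), up_self])
    (by rw [up_self])
    (by rw [up_of_ne _ (by decide), up_of_ne _ (by decide), nZ0])
    (by rw [up_of_ne _ (by decide), up_of_ne _ (by decide), nZ1])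
    (by rw [up_of_ne _ (by decide), up_of_ne _ (by decide), nX0])
    (by rw [up_of_ne _ (by decide), up_of_ne _ (by decide), nX1])
    (by rw [up_of_ne _ (by decide), up_of_ne _ (by decide), nGO])
    (by rw [up_of_ne _ (by decide), up_of_ne _ (by decide), hl])
  rw [up_of_ne (x := .TF) (y := .GD) _ (by decide), up_of_ne (x := .TE) (y := .GD) _ (by decide),
    hg, hr] at t2
  have hrl : r.length = k * (2 * (m * m)) := by
    have hpos : 0 < 2 * (m * m) := by
      have := Nat.mul_pos hm1 hm1
      omega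
    rw [← hr, length_chunkF hpos, ← hg, hl]
    · intro x hx
      rw [length_rifF, hx]
      rw [hx]
      ring
    · rw [← hg, hl]
      exact Dvd.intro_left k rfl
  have t3 := sat_mvAll (A := A) (x := .GO) (y := .GD) (by decide)
    (up (up (up (up s .TE (un m)) .TF (un m)) .GD []) .GO r.reverse)
  rw [up_self, List.reverse_reverse, up_of_ne (x := .GO) (y := .GD) _ (by decide), up_self,
    List.append_nil, List.length_reverse, hrl] at t3
  have t4 := sat_clear (A := A) .TE
    (up (up (up (up (up (up s .TE (un m)) .TF (un m)) .GD []) .GO r.reverse) .GO []) .GD r)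
  have t5 := sat_clear (A := A) .TF
    (up (up (up (up (up (up (up s .TE (un m)) .TF (un m)) .GD []) .GO r.reverse) .GO []) .GD r)
      .TE [])
  refine (t1.seq (t2.seq (t3.seq (t4.seq t5)))).congr ?_ ?_
  · have e1 : up (up (up (up (up (up s .TE (un m)) .TF (un m)) .GD []) .GO r.reverse) .GO []) .GD r
        .TE = un m := by
      simp [up]
    have e2 : up (up (up (up (up (up (up s .TE (un m)) .TF (un m)) .GD []) .GO r.reverse) .GO [])
        .GD r) .TE [] .TF = un m := by
      simp [up]
    rw [e1, e2, List.length_replicate]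
    have hmm : m ≤ k * (m * m) := by
      calc m = 1 * (m * 1) := by ring
        _ ≤ k * (m * m) := Nat.mul_le_mul hk (Nat.mul_le_mul_left m hm1)
    have hkm : k ≤ k * (m * m) := Nat.le_mul_of_pos_right k (Nat.mul_pos hm1 hm1)
    have c1 : C * m ≤ C * (k * (m * m)) := Nat.mul_le_mul_left C hmm
    have c2 : k * (73 * (m * m) + 1) = 73 * (k * (m * m)) + k := by ring
    have c3 : 5 * (k * (2 * (m * m))) = 10 * (k * (m * m)) := by ring
    have c4 : (C + 100) * (k * (m * m)) = C * (k * (m * m)) + 100 * (k * (m * m)) := by ring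
    rw [c2, c3, c4]
    omega
  · funext z
    simp only [up]
    split_ifs <;> simp_all

end Vale.Agent.P338
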