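import Vale.Agent.Lib.P338.LvlDefs
import Vale.Agent.Lib.P338.PPass12
import Vale.Agent.Lib.P338.PRifPass
import Vale.Agent.Lib.P338.PHalve

/-!
# P338, modules PDown, PUp: one level of the recursion

`exists_down`: halve ; `ifTrue LV (unrifPass) skip` ; pass1 ; pass2 ; `mvAll HS LS`.
Here `a = 2 ^ (L / 2)`; `4 ^ L = a ^ 4` for even `L` and `4 * a ^ 4` for odd `L`. The number of
chunks of `pass1` is `(k * 4 ^ L) / a ^ 3`, that of `pass2` is `(k * 4 ^ L) / a ^ 4`.
(`AllNil rest` is preserved by `up _ .GD _`, `up _ .LV _`, `up _ .LS _`, `up _ .HS _`, which are not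
in `rest`. Lengths after `chunkF`: `length_chunkF`, `length_swapF`, `length_unrifF`.)

`exists_up`: the stack `LS = un h` (`h ≥ 1`) is moved to `HS` ; pass1 ; `ifTrue LV (rifPass) skip` ;
double. `(2 h + p) / 2 = h`.
-/

namespace Vale.Agent.P338

theorem up_pow_four (a h : ℕ) (ha : a = 2 ^ h) (p : Bool) :
    4 ^ (2 * h + p.toNat) = 4 ^ p.toNat * a ^ 4 := by
  subst ha
  have e : (4 : ℕ) ^ (2 * h) = (2 ^ h) ^ 4 := by
    calc (4 : ℕ) ^ (2 * h) = (2 ^ 2) ^ (2 * h) := by norm_num
      _ = 2 ^ (2 * (2 * h)) := (pow_mul 2 2 (2 * h)).symm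
      _ = 2 ^ (h * 4) := by
        congr 1
        ring
      _ = (2 ^ h) ^ 4 := pow_mul 2 h 4
  rw [pow_add, e, mul_comm]

theorem exists_up (A : TM) (hA : A.Multiplies) : ∃ (P : BProg A) (C : ℕ), ∀ (s : St)
    (h k : ℕ) (p : Bool) (v : List Bool), 1 ≤ h → 1 ≤ k → AllNil rest s → s .HS = [] →
    s .LS = un h → s .LV = p :: v → (s .GD).length = k * 4 ^ (2 * h + p.toNat) →
    Sat P s (C * lvl A (k * 4 ^ (2 * h + p.toNat)) h)
      (up (up (up s .LS (un (2 * h + p.toNat))) .LV v) .GD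
        (upF (2 * h + p.toNat) (s .GD))) := by
  obtain ⟨P1, C1, h1⟩ := exists_pass1 A hA
  obtain ⟨P2, C2, h2⟩ := exists_rifPass A
  obtain ⟨P3, C3, h3⟩ := exists_double A
  refine ⟨Prog.seq (mvAll .LS .HS) (Prog.seq P1 (Prog.seq (ifTrue .LV P2 skip) P3)),
    C1 + C2 + 2 * C3 + 20, ?_⟩
  intro s h k p v hh hk hrest hHS hLS hLV hGD
  obtain ⟨a, ha⟩ : ∃ a, a = 2 ^ h := ⟨_, rfl⟩
  have hapos : 0 < a := by rw [ha]; positivity
  have h4 := up_pow_four a h ha p
  have hW : k * 4 ^ (2 * h + p.toNat) = (k * 4 ^ p.toNat * a) * a ^ 3 := by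
    rw [h4]; ring
  -- first step
  have e1 := sat_mvAll (A := A) (x := .LS) (y := .HS) (by decide) s
  rw [hLS, hHS, List.append_nil, un_reverse] at e1
  have hrest1 : AllNil rest (up (up s .LS []) .HS (un h)) :=
    (hrest.up (by decide) _).up (by decide) _
  have hGD1 : (up (up s .LS []) .HS (un h)) .GD = s .GD := by
    rw [up_of_ne _ (by decide), up_of_ne _ (by decide)]
  have e2 := h1 (up (up s .LS []) .HS (un h)) a h (k * 4 ^ p.toNat * a) hh ha
    (Nat.mul_pos (Nat.mul_pos hk (by positivity)) hapos) hrest1 (up_self _ _ _)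
    (by rw [hGD1, hGD, hW])
  rw [hGD1] at e2
  have hlen : (chunkF (a ^ 3) (swapF a a) (s .GD)).length = (s .GD).length := by
    apply length_chunkF (by positivity)
    · intro x hx
      rw [length_swapF (by rw [hx]; ring), hx]
    · rw [hGD, hW]
      exact Dvd.intro_left _ rfl
  have hrest2 : AllNil rest (up (up (up s .LS []) .HS (un h)) .GD
      (chunkF (a ^ 3) (swapF a a) (s .GD))) := hrest1.up (by decide) _
  have hhalf : (2 * h + p.toNat) / 2 = h := by
    cases p <;> simp <;> omega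
  -- third step
  have e3 : Sat (ifTrue .LV P2 skip) (up (up (up s .LS []) .HS (un h)) .GD
      (chunkF (a ^ 3) (swapF a a) (s .GD))) (C2 * (k * 4 ^ (2 * h + p.toNat)) + 2)
      (up (up (up s .LS []) .HS (un h)) .GD (upF (2 * h + p.toNat) (s .GD))) := by
    have hLV' : (up (up (up s .LS []) .HS (un h)) .GD
      (chunkF (a ^ 3) (swapF a a) (s .GD))) .LV = p :: v := by
      rw [up_of_ne _ (by decide), up_of_ne _ (by decide), up_of_ne _ (by decide), hLV]
    cases p with
    | true =>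
      have hl2 : ((up (up (up s .LS []) .HS (un h)) .GD
          (chunkF (a ^ 3) (swapF a a) (s .GD))) .GD).length = (2 * k) * (2 * a ^ 4) := by
        rw [up_self, hlen, hGD, h4]
        simp only [Bool.toNat_true]
        ring
      have e := h2 _ a h (2 * k) ha (by omega) hrest2
        (by rw [up_of_ne _ (by decide), up_self]) hl2
      refine (sat_ifTrue_true hLV' e).congr ?_ ?_
      · have : 2 * k * a ^ 4 ≤ k * 4 ^ (2 * h + true.toNat) := by
          rw [h4]
          simp only [Bool.toNat_true]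
          have : 2 * (k * a ^ 4) ≤ 4 * (k * a ^ 4) := Nat.mul_le_mul_right _ (by norm_num)
          calc 2 * k * a ^ 4 = 2 * (k * a ^ 4) := by ring
            _ ≤ 4 * (k * a ^ 4) := this
            _ = k * (4 ^ 1 * a ^ 4) := by ring
        have := Nat.mul_le_mul_left C2 this
        omega
      · rw [up_self, up_up]
        congr 1
        unfold upF
        rw [if_pos (by simp), hhalf, ← ha]
    | false =>
      refine (sat_ifTrue_false ?_ (sat_skip _)).congr ?_ ?_
      · rw [hLV']; simp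
      · omega
      · congr 1
        unfold upF
        rw [if_neg (by simp), hhalf, ← ha]
  -- fourth step
  have e4 := h3 (up (up (up s .LS []) .HS (un h)) .GD (upF (2 * h + p.toNat) (s .GD))) h p v
    (by rw [up_of_ne _ (by decide), up_self])
    (by rw [up_of_ne _ (by decide), up_of_ne _ (by decide), up_self])
    (by rw [up_of_ne _ (by decide), up_of_ne _ (by decide), up_of_ne _ (by decide), hLV])
  refine (e1.seq (e2.seq (e3.seq e4))).congr ?_ ?_
  · -- cost
    have hc3 : 0 < a ^ 3 := by positivity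
    have hdiv : k * 4 ^ (2 * h + p.toNat) / (2 ^ h) ^ 3 = k * 4 ^ p.toNat * a := by
      rw [hW, ← ha]
      exact Nat.mul_div_cancel _ hc3
    have hlvl : k * 4 ^ (2 * h + p.toNat) +
        (k * 4 ^ p.toNat * a) * tA A h (a ^ 3) ≤ lvl A (k * 4 ^ (2 * h + p.toNat)) h := by
      unfold lvl
      rw [hdiv, ← ha]
      omega
    have hh1 : h + 1 ≤ k * 4 ^ (2 * h + p.toNat) := by
      have i1 : h + 1 ≤ 4 ^ (2 * h + p.toNat) := by
        calc h + 1 ≤ 2 * h + p.toNat + 1 := by omega
          _ ≤ 4 ^ (2 * h + p.toNat) := Nat.lt_pow_self (by norm_num)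
      exact i1.trans (Nat.le_mul_of_pos_left _ hk)
    have hcost1 : C1 * (k * 4 ^ p.toNat * a *
        (a ^ 3 + min (A.mulTime (14 * a ^ 3)) (h * (14 * a ^ 3)))) =
        C1 * (k * 4 ^ (2 * h + p.toNat) + (k * 4 ^ p.toNat * a) * tA A h (a ^ 3)) := by
      rw [hW]
      unfold tA
      ring
    rw [hcost1]
    simp only [un, List.length_replicate]
    clear hcost1 hdiv hc3
    generalize hLd : lvl A (k * 4 ^ (2 * h + p.toNat)) h = Lv at hlvl ⊢
    generalize hVd : k * 4 ^ p.toNat * a * tA A h (a ^ 3) = V at hlvl ⊢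
    generalize hWd : k * 4 ^ (2 * h + p.toNat) = W at hlvl hh1 ⊢
    have j1 : C1 * (W + V) ≤ C1 * Lv := Nat.mul_le_mul_left _ hlvl
    have j2 : C2 * W ≤ C2 * Lv := Nat.mul_le_mul_left _ (by omega)
    have j3 : C3 * (h + 1) ≤ C3 * Lv := Nat.mul_le_mul_left _ (by omega)
    have j4 : h + 1 ≤ Lv := by omega
    have j5 : (C1 + C2 + 2 * C3 + 20) * Lv = C1 * Lv + C2 * Lv + 2 * (C3 * Lv) + 20 * Lv := by ring
    rw [j5]
    omega
  · funext x
    simp only [up]
    split_ifs <;> simp_all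

end Vale.Agent.P338
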