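import Vale.Agent.Lib.P338.LvlDefs

/-!
# P338: the cost of the recursion
-/

namespace Vale.Agent.P338

/-- total cost of the recursion with `W` bits of data -/
noncomputable def recCost (A : TM) (W L : ℕ) : ℕ :=
  if L < 2 then W + 1 else lvl A W (L / 2) + recCost A W (L / 2)
termination_by L
decreasing_by omega

end Vale.Agent.P338
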