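import Vale.Agent.Lib.P338.PDown
import Vale.Agent.Lib.P338.PUp
import Vale.Agent.Lib.P338.PBase4
import Vale.Agent.Lib.P338.RecCost
import Vale.Agent.Lib.P338.MRec

/-!
# P338, module PMain: the recursion

```
ifNE LS (
  pop LS
  whileNE LS ( push LS true ; down ; pop LS )      -- while the level is at least 2
  push LS true                                     -- the level is 1
  base4
  whileNE LV ( up ) )
skip
```
Down phase: the levels are `L, L / 2, L / 4, ...`. Prove a statement by strong induction on `L`, for
the program `down phase ; base4 ; up phase restricted`: it is easiest to prove two statements.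

(1) By strong induction on `L ≥ 1`: from `LS = un (L - 1)` and any `LV = v` the first loop
leads to `LS = []`, `LV = pars L ++ v`, `GD = downs L l`, where `pars`, `downs` are defined by
recursion: `pars L = [], downs L l = l` for `L ≤ 1`, and `pars L = pars (L / 2) ++ [decide (L % 2 = 1)]`,
`downs L l = downs (L / 2) (downF L l)` for `L ≥ 2`. The cost is `C * recCost A W L` (the length
`W` of the data does not change: `length_downF`, `4 ^ (L / 2) ∣ 4 ^ L`).

(2) By strong induction on `L`, for `LV = pars L ++ v`, `LS = un 1`, `GD = ups`: after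
`(pars L).length` iterations of `up` one has `LS = un L`, `LV = v` and `GD = ups L l`, with
`ups L l = l` for `L ≤ 1` and `ups L l = upF L (ups (L / 2) l)` for `L ≥ 2`.
(The loop of (2) ends when `LV = []`; to use the induction hypothesis state (2) for
the number of iterations, e.g. with the rule `sat_while`, or state it in continuation form:
if `Sat (whileNE LV up) s' n s''` for the state `s'` after these iterations then
`Sat (whileNE LV up) s (cost + n) s''`.)

Finally `ups L (chunkF 4 base4F (downs L l)) = recF L l` for `L ≥ 1` (strong induction, unfold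
`recF`).
-/

namespace Vale.Agent.P338

/-- parities of the levels -/
def pmainPars (L : ℕ) : List Bool :=
  if L < 2 then [] else pmainPars (L / 2) ++ [decide (L % 2 = 1)]
termination_by L
decreasing_by omega

/-- the data after the down phase -/
def pmainDowns (L : ℕ) (l : List Bool) : List Bool :=
  if L < 2 then l else pmainDowns (L / 2) (downF L l)
termination_by L
decreasing_by omega

theorem pmain_recCost_ge (A : TM) (W L : ℕ) : W + 1 ≤ recCost A W L := by
  induction L using Nat.strong_induction_on with
  | _ L ih =>
    rw [recCost]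
    split_ifs with h
    · exact le_rfl
    · exact le_trans (ih (L / 2) (by omega)) (Nat.le_add_left _ _)

theorem pmain_lvl_ge (A : TM) (W h : ℕ) : W ≤ lvl A W h := by
  unfold lvl
  omega

theorem pmain_pow (L k : ℕ) : k * 4 ^ (L - L / 2) * 4 ^ (L / 2) = k * 4 ^ L := by
  rw [mul_assoc, ← pow_add]
  congr 2
  omega

theorem pmain_length_downs (L : ℕ) : ∀ (k : ℕ) (l : List Bool), l.length = k * 4 ^ L →
    (pmainDowns L l).length = l.length := by
  induction L using Nat.strong_induction_on with
  | _ L ih =>
    intro k l hl
    rw [pmainDowns]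
    split_ifs with h
    · rfl
    · have h1 : (downF L l).length = l.length :=
        length_downF (by omega) (Dvd.intro_left k hl.symm)
      rw [ih (L / 2) (by omega) (k * 4 ^ (L - L / 2)) _ (by rw [h1, hl, pmain_pow]), h1]

theorem pmain_rec_length (L : ℕ) {l : List Bool} (hl : 4 ^ L ∣ l.length) :
    (recF L l).length = l.length := by
  rw [recF_eq L hl]
  apply length_chunkF (by positivity) _ hl
  intro x _
  rw [length_transpose]
  rw [← pow_add, ← two_mul, pow_mul]
  norm_num

theorem pmain_down (A : TM) (P : BProg A) (C : ℕ)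
    (hP : ∀ (s : St) (L k : ℕ), 2 ≤ L → 1 ≤ k → AllNil rest s → s .HS = [] → s .LS = un L →
      (s .GD).length = k * 4 ^ L → Sat P s (C * lvl A (k * 4 ^ L) (L / 2))
      (up (up (up s .LS (un (L / 2))) .LV (decide (L % 2 = 1) :: s .LV)) .GD
        (downF L (s .GD)))) (L : ℕ) :
    1 ≤ L → ∀ (s : St) (k : ℕ), 1 ≤ k → AllNil rest s → s .HS = [] → s .LS = un (L - 1) →
      (s .GD).length = k * 4 ^ L →
      Sat (whileNE .LS (Prog.seq (push .LS true) (Prog.seq P (pop .LS)))) s
        ((C + 4) * recCost A (k * 4 ^ L) L)
        (up (up (up s .LS []) .LV (pmainPars L ++ s .LV)) .GD (pmainDowns L (s .GD))) := by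
  induction L using Nat.strong_induction_on with
  | _ L ih =>
    intro hL1 s k hk hrest hHS hLS hlen
    by_cases hL : L < 2
    · have e1 : s .LS = [] := by
        rw [hLS]
        have : L - 1 = 0 := by omega
        rw [this]
        rfl
      refine (sat_whileNE_nil e1).congr ?_ ?_
      · have h1 := pmain_recCost_ge A (k * 4 ^ L) L
        have h2 : 1 * 1 ≤ (C + 4) * recCost A (k * 4 ^ L) L :=
          Nat.mul_le_mul (by omega) (by omega)
        omega
      · rw [pmainPars, pmainDowns, if_pos hL, if_pos hL, List.nil_append]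
        funext x
        simp only [up]
        split_ifs <;> simp_all
    · have hLS1 : up s .LS (true :: s .LS) .LS = un L := by
        rw [up_self, hLS, ← un_succ]
        congr 1
        omega
      have b1 := sat_push (A := A) .LS true s
      have b2 := hP (up s .LS (true :: s .LS)) L k (by omega) hk (hrest.up (by decide) _)
        (by rw [up_of_ne _ (by decide)]; exact hHS) hLS1
        (by rw [up_of_ne _ (by decide)]; exact hlen)
      have b3 := sat_pop (A := A) .LS (up (up (up (up s .LS (true :: s .LS)) .LS (un (L / 2))) .LV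
        (decide (L % 2 = 1) :: up s .LS (true :: s .LS) .LV)) .GD
        (downF L (up s .LS (true :: s .LS) .GD)))
      have hdl : (downF L (s .GD)).length = (s .GD).length :=
        length_downF (by omega) (Dvd.intro_left k hlen.symm)
      have b4 := ih (L / 2) (by omega) (by omega)
        (up (up (up (up (up s .LS (true :: s .LS)) .LS (un (L / 2))) .LV
        (decide (L % 2 = 1) :: up s .LS (true :: s .LS) .LV)) .GD
        (downF L (up s .LS (true :: s .LS) .GD))) .LS
          ((up (up (up (up s .LS (true :: s .LS)) .LS (un (L / 2))) .LV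
        (decide (L % 2 = 1) :: up s .LS (true :: s .LS) .LV)) .GD
        (downF L (up s .LS (true :: s .LS) .GD))) .LS).tail) (k * 4 ^ (L - L / 2))
        (Nat.mul_pos hk (by positivity))
        (((((hrest.up (by decide) _).up (by decide) _).up (by decide) _).up (by decide) _).up
          (by decide) _)
        (by
          rw [up_of_ne _ (by decide), up_of_ne _ (by decide), up_of_ne _ (by decide),
            up_of_ne _ (by decide), up_of_ne _ (by decide)]
          exact hHS)
        (by
          rw [up_self, up_of_ne _ (by decide), up_of_ne _ (by decide), up_self]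
          obtain ⟨m, hm⟩ : ∃ m, L / 2 = m + 1 := ⟨L / 2 - 1, by omega⟩
          rw [hm]
          rfl)
        (by
          rw [up_of_ne _ (by decide), up_self, up_of_ne _ (by decide), hdl, hlen, pmain_pow])
      rw [pmain_pow] at b4
      have hne : s .LS ≠ [] := by
        rw [hLS]
        obtain ⟨m, hm⟩ : ∃ m, L - 1 = m + 1 := ⟨L - 2, by omega⟩
        rw [hm, un_succ]
        simp
      refine (sat_whileNE_cons hne (b1.seq (b2.seq b3)) b4).congr ?_ ?_
      · have h1 : recCost A (k * 4 ^ L) L =
            lvl A (k * 4 ^ L) (L / 2) + recCost A (k * 4 ^ L) (L / 2) := by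
          rw [recCost, if_neg hL]
        have h2 := pmain_lvl_ge A (k * 4 ^ L) (L / 2)
        have h3 : 1 ≤ k * 4 ^ L := Nat.mul_pos hk (by positivity)
        rw [h1, mul_add, add_mul C 4 (lvl A (k * 4 ^ L) (L / 2))]
        omega
      · rw [pmainPars.eq_def L, pmainDowns.eq_def L, if_neg hL, if_neg hL]
        funext x
        simp only [up]
        split_ifs <;> simp_all

theorem pmain_up (A : TM) (P : BProg A) (C : ℕ)
    (hP : ∀ (s : St) (h k : ℕ) (p : Bool) (v : List Bool), 1 ≤ h → 1 ≤ k → AllNil rest s →
      s .HS = [] → s .LS = un h → s .LV = p :: v → (s .GD).length = k * 4 ^ (2 * h + p.toNat) →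
      Sat P s (C * lvl A (k * 4 ^ (2 * h + p.toNat)) h)
        (up (up (up s .LS (un (2 * h + p.toNat))) .LV v) .GD
        (upF (2 * h + p.toNat) (s .GD)))) (L : ℕ) :
    1 ≤ L → ∀ (s : St) (k : ℕ) (v x : List Bool) (n : ℕ) (s'' : St), 1 ≤ k → AllNil rest s →
      s .HS = [] → s .LS = un 1 → s .LV = pmainPars L ++ v → x.length = k * 4 ^ L →
      s .GD = chunkF 4 base4F (pmainDowns L x) →
      Sat (whileNE .LV P) (up (up (up s .LS (un L)) .LV v) .GD (recF L x)) n s'' →
      Sat (whileNE .LV P) s ((C + 1) * recCost A (k * 4 ^ L) L + n) s'' := by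
  induction L using Nat.strong_induction_on with
  | _ L ih =>
    intro hL1 s k v x n s'' hk hrest hHS hLS hLV hlen hGD hfin
    by_cases hL : L < 2
    · have hL' : L = 1 := by omega
      subst hL'
      have e : up (up (up s .LS (un 1)) .LV v) .GD (recF 1 x) = s := by
        have e1 : recF 1 x = s .GD := by
          rw [hGD, recF, pmainDowns]
          simp
        have e2 : s .LV = v := by
          rw [hLV, pmainPars]
          simp
        rw [e1, ← e2, ← hLS]
        funext y
        simp only [up]
        split_ifs <;> simp_all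
      rw [e] at hfin
      exact hfin.mono (Nat.le_add_left _ _)
    · obtain ⟨p, hp⟩ : ∃ p : Bool, p = decide (L % 2 = 1) := ⟨_, rfl⟩
      have hLp : 2 * (L / 2) + p.toNat = L := by
        rw [hp]
        by_cases h1 : L % 2 = 1
        · simp only [h1, decide_true, Bool.toNat_true]
          omega
        · simp only [h1, decide_false, Bool.toNat_false]
          omega
      have hdl : (downF L x).length = x.length :=
        length_downF (by omega) (Dvd.intro_left k hlen.symm)
      have hrl : (recF (L / 2) (downF L x)).length = x.length := by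
        rw [pmain_rec_length, hdl]
        rw [hdl, hlen, ← pmain_pow]
        exact Dvd.intro_left _ rfl
      have c1 := hP (up (up (up s .LS (un (L / 2))) .LV (p :: v)) .GD (recF (L / 2) (downF L x)))
        (L / 2) k p v (by omega) hk
        (((hrest.up (by decide) _).up (by decide) _).up (by decide) _)
        (by
          rw [up_of_ne _ (by decide), up_of_ne _ (by decide), up_of_ne _ (by decide)]
          exact hHS)
        (by
          rw [up_of_ne _ (by decide), up_of_ne _ (by decide), up_self])
        (by
          rw [up_of_ne _ (by decide), up_self])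
        (by
          rw [up_self, hrl, hlen, hLp])
      rw [hLp, up_self] at c1
      have c2 : upF L (recF (L / 2) (downF L x)) = recF L x := by
        rw [recF.eq_def L, if_neg (by omega), if_neg (by omega)]
      rw [c2] at c1
      have c3 : up (up (up (up (up (up s .LS (un (L / 2))) .LV (p :: v)) .GD
          (recF (L / 2) (downF L x))) .LS (un L)) .LV v) .GD (recF L x) =
          up (up (up s .LS (un L)) .LV v) .GD (recF L x) := by
        funext y
        simp only [up]
        split_ifs <;> simp_all
      rw [c3] at c1
      have c4 := ih (L / 2) (by omega) (by omega) s (k * 4 ^ (L - L / 2)) (p :: v) (downF L x)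
        (C * lvl A (k * 4 ^ L) (L / 2) + n + 1) s'' (Nat.mul_pos hk (by positivity)) hrest hHS hLS
        (by
          rw [hLV, pmainPars.eq_def L, if_neg hL, hp, List.append_assoc]
          rfl)
        (by rw [hdl, hlen, pmain_pow])
        (by rw [hGD, pmainDowns.eq_def L, if_neg hL])
        (sat_whileNE_cons (by rw [up_of_ne _ (by decide), up_self]; simp) c1 hfin)
      rw [pmain_pow] at c4
      refine c4.mono ?_
      have h1 : recCost A (k * 4 ^ L) L =
            lvl A (k * 4 ^ L) (L / 2) + recCost A (k * 4 ^ L) (L / 2) := by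
        rw [recCost, if_neg hL]
      have h2 := pmain_lvl_ge A (k * 4 ^ L) (L / 2)
      have h3 : 1 ≤ k * 4 ^ L := Nat.mul_pos hk (by positivity)
      rw [h1, mul_add, add_mul C 1 (lvl A (k * 4 ^ L) (L / 2))]
      omega

theorem exists_rec (A : TM) (hA : A.Multiplies) : ∃ (P : BProg A) (C : ℕ), ∀ (s : St) (L k : ℕ),
    1 ≤ k → AllNil rest s → s .HS = [] → s .LV = [] → s .LS = un L →
    (s .GD).length = k * 4 ^ L →
    Sat P s (C * recCost A (k * 4 ^ L) L) (up s .GD (recF L (s .GD))) := by
  obtain ⟨Pd, Cd, hd⟩ := exists_down A hA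
  obtain ⟨Pu, Cu, hu⟩ := exists_up A hA
  obtain ⟨Pb, Cb, hb⟩ := exists_base4 A
  refine ⟨ifNE .LS (Prog.seq (pop .LS) (Prog.seq
    (whileNE .LS (Prog.seq (push .LS true) (Prog.seq Pd (pop .LS))))
    (Prog.seq (push .LS true) (Prog.seq Pb (whileNE .LV Pu))))) skip,
    (Cd + 4) + (Cu + 1) + Cb + 5, ?_⟩
  intro s L k hk hrest hHS hLV hLS hlen
  have hrc := pmain_recCost_ge A (k * 4 ^ L) L
  rcases Nat.eq_zero_or_pos L with h0 | hpos
  · subst h0
    refine (sat_ifNE_nil (by rw [hLS]; rfl) (sat_skip s)).congr ?_ ?_
    · have h2 : 2 * 1 ≤ ((Cd + 4) + (Cu + 1) + Cb + 5) * recCost A (k * 4 ^ 0) 0 :=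
        Nat.mul_le_mul (by omega) (by omega)
      omega
    · have e1 : recF 0 (s .GD) = s .GD := by
        rw [recF]
        simp
      rw [e1, up_id]
  · have a1 := sat_pop (A := A) .LS s
    have hLS1 : up s .LS (s .LS).tail .LS = un (L - 1) := by
      rw [up_self, hLS]
      obtain ⟨m, hm⟩ : ∃ m, L = m + 1 := ⟨L - 1, by omega⟩
      rw [hm]
      rfl
    have a2 := pmain_down A Pd Cd hd L hpos (up s .LS (s .LS).tail) k hk
      (hrest.up (by decide) _) (by rw [up_of_ne _ (by decide)]; exact hHS) hLS1
      (by rw [up_of_ne _ (by decide)]; exact hlen)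
    rw [up_of_ne s (show SName.LV ≠ .LS by decide), up_of_ne s (show SName.GD ≠ .LS by decide),
      hLV, List.append_nil] at a2
    have a3 := sat_push (A := A) .LS true (up (up (up (up s .LS (s .LS).tail) .LS []) .LV
      (pmainPars L)) .GD (pmainDowns L (s .GD)))
    have hdl := pmain_length_downs L k (s .GD) hlen
    have hsplit : k * 4 ^ L = 4 * (k * 4 ^ (L - 1)) := by
      obtain ⟨m, hm⟩ : ∃ m, L = m + 1 := ⟨L - 1, by omega⟩
      subst hm
      rw [Nat.add_sub_cancel, pow_succ]
      ring
    have e3 : up (up (up (up (up s .LS (s .LS).tail) .LS []) .LV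
      (pmainPars L)) .GD (pmainDowns L (s .GD))) .LS (true :: (up (up (up (up s .LS
      (s .LS).tail) .LS []) .LV (pmainPars L)) .GD (pmainDowns L (s .GD))) .LS) =
      up (up (up s .LS (un 1)) .LV (pmainPars L)) .GD (pmainDowns L (s .GD)) := by
      funext y
      simp only [up]
      split_ifs <;> simp_all
    rw [e3] at a3
    have a4 := hb (up (up (up s .LS (un 1)) .LV (pmainPars L)) .GD (pmainDowns L (s .GD)))
      (k * 4 ^ (L - 1)) (((hrest.up (by decide) _).up (by decide) _).up (by decide) _)
      (by rw [up_self, hdl, hlen, hsplit])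
    rw [up_self, up_up] at a4
    have a5 := pmain_up A Pu Cu hu L hpos (up (up (up s .LS (un 1)) .LV (pmainPars L)) .GD
      (chunkF 4 base4F (pmainDowns L (s .GD)))) k [] (s .GD) 1 (up s .GD (recF L (s .GD))) hk
      (((hrest.up (by decide) _).up (by decide) _).up (by decide) _)
      (by
        rw [up_of_ne _ (by decide), up_of_ne _ (by decide), up_of_ne _ (by decide)]
        exact hHS)
      (by rw [up_of_ne _ (by decide), up_of_ne _ (by decide), up_self])
      (by rw [up_of_ne _ (by decide), up_self, List.append_nil]) hlen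
      (by rw [up_self])
      (by
        have e : up (up (up (up (up (up s .LS (un 1)) .LV (pmainPars L)) .GD
            (chunkF 4 base4F (pmainDowns L (s .GD)))) .LS (un L)) .LV []) .GD
            (recF L (s .GD)) = up s .GD (recF L (s .GD)) := by
          funext y
          simp only [up]
          split_ifs <;> simp_all
        rw [e]
        exact sat_whileNE_nil (by rw [up_of_ne _ (by decide)]; exact hLV))
    refine (sat_ifNE_cons (by
      rw [hLS]
      obtain ⟨m, hm⟩ : ∃ m, L = m + 1 := ⟨L - 1, by omega⟩
      rw [hm, un_succ]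
      simp) (a1.seq (a2.seq (a3.seq (a4.seq a5))))).congr ?_ rfl
    have h1 : Cb * (k * 4 ^ (L - 1) + 1) ≤ Cb * recCost A (k * 4 ^ L) L := by
      apply Nat.mul_le_mul_left
      omega
    have h2 : ((Cd + 4) + (Cu + 1) + Cb + 5) * recCost A (k * 4 ^ L) L =
      (Cd + 4) * recCost A (k * 4 ^ L) L + (Cu + 1) * recCost A (k * 4 ^ L) L +
      Cb * recCost A (k * 4 ^ L) L + 5 * recCost A (k * 4 ^ L) L := by ring
    rw [h2]
    omega

end Vale.Agent.P338
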