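import Vale.Agent.Lib.P338.CallMain
import Vale.Agent.Lib.P338.PAddBits

/-!
# P338, module PMulFold: the folded product

`D` and `Y` have the same length `N ≥ 1`, first bit on top; `Y` is preserved. Program:
```
copyAll Y X1 Z0                -- X1 = Y
copyAll Y WA Z0                -- the clock, length N
mvAll D Z0 ; mvAll Z0 X0       -- X0 = D
call                           -- OUT = product, least significant bit on top, or empty
ifNE OUT (
  mvAll WA WB                  -- counter of length N (use a whileNE loop, the bits are arbitrary):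
  whileNE WB ( pop WB ; mv OUT X0 )      -- X0 = low half, most significant bit on top
  mvAll X0 X1                  -- X1 = low half, least significant bit on top
  push X2 false                -- carry
  addBits X1 OUT X2 D          -- D = low + high modulo 2 ^ N, most significant bit on top
  pop X2 ) (clear WA)
```
`bin (2 N) z = hi ++ lo` with `hi = take N`, `lo = drop N`; OUT is its reverse
`lo.reverse ++ hi.reverse`. `foldF N z = bin N (val hi + val lo)`, and `bin N (z % 2 ^ N) = bin N z`
(`testBit` of positions `< N`).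
-/

namespace Vale.Agent.P338

open Classical in
/-- the folded product if `A` needs less than `h * |x|` steps, and `[]` otherwise -/
noncomputable def mfRes (A : TM) (h : ℕ) (x y : List Bool) : List Bool :=
  if A.time (A.mulInput x y) < h * x.length then mulFold x.length x y else []

theorem pmf_bin_mod (N z : ℕ) : bin N (z % 2 ^ N) = bin N z := by
  unfold bin
  refine List.map_congr_left fun i hi => ?_
  have hi' := List.mem_range.1 hi
  rw [Nat.testBit_mod_two_pow]
  have h : N - 1 - i < N := by omega
  simp [h]

/-- the loop that takes the low half from `OUT` to `X0`, with the clock `WB` -/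
theorem pmf_loop {A : TM} {s : St} (hl : (s .WB).length ≤ (s .OUT).length) :
    Sat (whileNE .WB (Prog.seq (pop .WB) (mv .OUT .X0)) : BProg A) s (6 * (s .WB).length + 1)
      (up (up (up s .WB []) .OUT ((s .OUT).drop (s .WB).length)) .X0
        (((s .OUT).take (s .WB).length).reverse ++ s .X0)) := by
  obtain ⟨N, hN⟩ : ∃ N, (s .WB).length = N := ⟨_, rfl⟩
  rw [hN] at hl ⊢
  have h1 := sat_while' (A := A) .WB (Prog.seq (pop .WB) (mv .OUT .X0))
    (fun k => up (up (up s .WB ((s .WB).drop k)) .OUT ((s .OUT).drop k)) .X0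
        (((s .OUT).take k).reverse ++ s .X0)) 5 N
    (by
      intro k hk
      simp only [up]
      simp
      omega)
    (by
      simp only [up]
      simp
      omega)
    (by
      intro k hk
      have hk' : k < (s .OUT).length := by omega
      have h2 := (sat_pop (A := A) .WB (up (up (up s .WB ((s .WB).drop k)) .OUT ((s .OUT).drop k))
        .X0 (((s .OUT).take k).reverse ++ s .X0)))
      have h3 := sat_mv (A := A) (x := .OUT) (y := .X0) (by decide)
        (s := up (up (up (up s .WB ((s .WB).drop k)) .OUT ((s .OUT).drop k))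
        .X0 (((s .OUT).take k).reverse ++ s .X0)) .WB ((s .WB).drop (k + 1)))
        (b := (s .OUT)[k]) (l := (s .OUT).drop (k + 1))
        (by
          simp only [up]
          simp)
      have e1 : up (up (up s .WB ((s .WB).drop k)) .OUT ((s .OUT).drop k))
        .X0 (((s .OUT).take k).reverse ++ s .X0) .WB = (s .WB).drop k := by
        simp [up]
      rw [e1, List.tail_drop] at h2
      refine (h2.seq h3).congr (by norm_num) ?_
      have e2 : (((s .OUT).take (k + 1)).reverse ++ s .X0) =
          (s .OUT)[k] :: (((s .OUT).take k).reverse ++ s .X0) := by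
        rw [List.take_succ_eq_append_getElem hk', List.reverse_append]
        rfl
      funext x
      simp only [up, e2]
      split_ifs <;> simp_all)
  have e3 : (s .WB).drop N = [] := by
    rw [← hN, List.drop_length]
  simp only [List.drop_zero, List.take_zero, List.reverse_nil, List.nil_append, up_id, e3] at h1
  exact h1.congr (by omega) rfl

/-- the first four programs -/
theorem pmf_front {A : TM} {s : St} {x y : List Bool} {N : ℕ} (hx : s .D = x) (hy : s .Y = y)
    (hN : x.length = N) (hY : y.length = N) (n0 : s .Z0 = []) (nX0 : s .X0 = [])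
    (nX1 : s .X1 = []) (nWA : s .WA = []) :
    Sat (Prog.seq (copyAll .Y .X1 .Z0) (Prog.seq (copyAll .Y .WA .Z0) (Prog.seq (mvAll .D .Z0)
      (mvAll .Z0 .X0))) : BProg A) s (40 * N + 10)
      (up (up (up (up s .X1 y) .WA y) .D []) .X0 x) := by
  have q1 : Sat (copyAll .Y .X1 .Z0 : BProg A) s (12 * N + 2) (up s .X1 y) := by
    refine (sat_copyAll (by decide) s n0).congr (by rw [hy, hY]) ?_
    rw [hy, nX1, List.append_nil]
  have q2 : Sat (copyAll .Y .WA .Z0 : BProg A) (up s .X1 y) (12 * N + 2)
      (up (up s .X1 y) .WA y) := by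
    refine (sat_copyAll (by decide) _ (by rw [up_of_ne _ (by decide), n0])).congr ?_ ?_
    · rw [up_of_ne _ (by decide), hy, hY]
    · rw [up_of_ne _ (by decide), up_of_ne _ (by decide), nWA, hy, List.append_nil]
  have q3 : Sat (mvAll .D .Z0 : BProg A) (up (up s .X1 y) .WA y) (5 * N + 1)
      (up (up (up (up s .X1 y) .WA y) .D []) .Z0 x.reverse) := by
    have v1 : up (up s .X1 y) .WA y .D = x := by
      rw [up_of_ne _ (by decide), up_of_ne _ (by decide), hx]
    have v2 : up (up s .X1 y) .WA y .Z0 = [] := by
      rw [up_of_ne _ (by decide), up_of_ne _ (by decide), n0]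
    refine (sat_mvAll (by decide) _).congr ?_ ?_
    · rw [v1, hN]
    · rw [v1, v2, List.append_nil]
  have q4 : Sat (mvAll .Z0 .X0 : BProg A) (up (up (up (up s .X1 y) .WA y) .D []) .Z0 x.reverse)
      (5 * N + 1) (up (up (up (up s .X1 y) .WA y) .D []) .X0 x) := by
    have v2 : up (up (up (up s .X1 y) .WA y) .D []) .Z0 x.reverse .X0 = [] := by
      rw [up_of_ne _ (by decide), up_of_ne _ (by decide), up_of_ne _ (by decide),
        up_of_ne _ (by decide), nX0]
    have v3 : up (up (up s .X1 y) .WA y) .D [] = up (up (up (up s .X1 y) .WA y) .D []) .Z0 [] := by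
      have h1 : up (up (up s .X1 y) .WA y) .D [] .Z0 = [] := by
        rw [up_of_ne _ (by decide), up_of_ne _ (by decide), up_of_ne _ (by decide), n0]
      have h2 := up_id (up (up (up s .X1 y) .WA y) .D []) .Z0
      rw [h1] at h2
      exact h2.symm
    refine (sat_mvAll (by decide) _).congr ?_ ?_
    · rw [up_self, List.length_reverse, hN]
    · rw [up_self, v2, List.append_nil, List.reverse_reverse, up_up, ← v3]
  exact (q1.seq (q2.seq (q3.seq q4))).congr (by omega) rfl

theorem pmf_up_nil {s : St} {x : SName} (h : s x = []) : up s x [] = s := by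
  have h2 := up_id s x
  rw [h] at h2
  exact h2

/-- the last programs, if the call was successful -/
theorem pmf_back {A : TM} {Pa : BProg A} {Ca : ℕ}
    (ha : ∀ (s : St) (n : ℕ) (b : Bool), (s .X1).length = n →
      (s .OUT).length = n → s .X2 = [b] →
      Sat Pa s (Ca * (n + 1)) (up (up (up (up s .X1 []) .OUT []) .D
        (bin n ((val (s .X1).reverse + val (s .OUT).reverse + b.toNat) % 2 ^ n) ++ s .D)) .X2
        [decide (2 ^ n ≤ val (s .X1).reverse + val (s .OUT).reverse + b.toNat)]))
    {s : St} {y hi lo : List Bool} {N : ℕ} (hY : y.length = N) (hhil : hi.length = N)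
    (hlol : lo.length = N) (nX0 : s .X0 = []) (nX1 : s .X1 = []) (nX2 : s .X2 = [])
    (nWA : s .WA = []) (nWB : s .WB = []) (nO : s .OUT = []) :
    Sat (Prog.seq (mvAll .WA .WB) (Prog.seq (whileNE .WB (Prog.seq (pop .WB) (mv .OUT .X0)))
        (Prog.seq (mvAll .X0 .X1) (Prog.seq (push .X2 false) (Prog.seq Pa (pop .X2))))))
      (up (up (up s .WA y) .D []) .OUT (lo.reverse ++ hi.reverse))
      (16 * N + 10 + Ca * (N + 1)) (up s .D (bin N (val hi + val lo))) := by
  have q6 : Sat (mvAll .WA .WB : BProg A)
      (up (up (up s .WA y) .D []) .OUT (lo.reverse ++ hi.reverse)) (5 * N + 1)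
      (up (up (up s .WB y.reverse) .D []) .OUT (lo.reverse ++ hi.reverse)) := by
    have v1 : up (up (up s .WA y) .D []) .OUT (lo.reverse ++ hi.reverse) .WA = y := by
      rw [up_of_ne _ (by decide), up_of_ne _ (by decide), up_self]
    have v2 : up (up (up s .WA y) .D []) .OUT (lo.reverse ++ hi.reverse) .WB = [] := by
      rw [up_of_ne _ (by decide), up_of_ne _ (by decide), up_of_ne _ (by decide), nWB]
    refine (sat_mvAll (by decide) _).congr ?_ ?_
    · rw [v1, hY]
    · rw [v1, v2, List.append_nil]
      rw [up_comm _ (show SName.OUT ≠ .WA by decide), up_comm _ (show SName.D ≠ .WA by decide),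
        up_up, pmf_up_nil nWA, up_comm _ (show SName.OUT ≠ .WB by decide),
        up_comm _ (show SName.D ≠ .WB by decide)]
  have q7 : Sat (whileNE .WB (Prog.seq (pop .WB) (mv .OUT .X0)) : BProg A)
      (up (up (up s .WB y.reverse) .D []) .OUT (lo.reverse ++ hi.reverse)) (6 * N + 1)
      (up (up (up s .D []) .OUT hi.reverse) .X0 lo) := by
    have e1 : (up (up (up s .WB y.reverse) .D []) .OUT (lo.reverse ++ hi.reverse) .WB) =
        y.reverse := by
      rw [up_of_ne _ (by decide), up_of_ne _ (by decide), up_self]
    have e2 : (up (up (up s .WB y.reverse) .D []) .OUT (lo.reverse ++ hi.reverse) .OUT) =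
        lo.reverse ++ hi.reverse := up_self _ _ _
    have e0 : (up (up (up s .WB y.reverse) .D []) .OUT (lo.reverse ++ hi.reverse) .X0) = [] := by
      rw [up_of_ne _ (by decide), up_of_ne _ (by decide), up_of_ne _ (by decide), nX0]
    have hl : y.reverse.length = lo.reverse.length := by
      rw [List.length_reverse, List.length_reverse, hY, hlol]
    have h1 := pmf_loop (A := A)
      (s := up (up (up s .WB y.reverse) .D []) .OUT (lo.reverse ++ hi.reverse)) (by
        rw [e1, e2, hl, List.length_append]
        omega)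
    rw [e1, e2, e0, hl, List.drop_left, List.take_left, List.reverse_reverse,
      List.append_nil, List.length_reverse, hlol] at h1
    refine h1.congr le_rfl ?_
    rw [up_comm _ (show SName.OUT ≠ .WB by decide), up_comm _ (show SName.D ≠ .WB by decide),
      up_up, up_up, pmf_up_nil nWB]
  have q8 : Sat (mvAll .X0 .X1 : BProg A) (up (up (up s .D []) .OUT hi.reverse) .X0 lo)
      (5 * N + 1) (up (up (up s .D []) .OUT hi.reverse) .X1 lo.reverse) := by
    have v2 : up (up (up s .D []) .OUT hi.reverse) .X0 lo .X1 = [] := by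
      rw [up_of_ne _ (by decide), up_of_ne _ (by decide), up_of_ne _ (by decide), nX1]
    have v3 : up (up s .D []) .OUT hi.reverse .X0 = [] := by
      rw [up_of_ne _ (by decide), up_of_ne _ (by decide), nX0]
    refine (sat_mvAll (by decide) _).congr ?_ ?_
    · rw [up_self, hlol]
    · rw [up_self, v2, List.append_nil, up_up, pmf_up_nil v3]
  have q9 : Sat (push .X2 false : BProg A)
      (up (up (up s .D []) .OUT hi.reverse) .X1 lo.reverse) 2
      (up (up (up (up s .D []) .OUT hi.reverse) .X1 lo.reverse) .X2 [false]) := by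
    refine (sat_push _ _ _).congr le_rfl ?_
    rw [up_of_ne _ (show SName.X2 ≠ .X1 by decide), up_of_ne _ (show SName.X2 ≠ .OUT by decide),
      up_of_ne _ (show SName.X2 ≠ .D by decide), nX2]
  have w1 : up (up (up (up s .D []) .OUT hi.reverse) .X1 lo.reverse) .X2 [false] .X1 =
      lo.reverse := by
    rw [up_of_ne _ (by decide), up_self]
  have w2 : up (up (up (up s .D []) .OUT hi.reverse) .X1 lo.reverse) .X2 [false] .OUT =
      hi.reverse := by
    rw [up_of_ne _ (by decide), up_of_ne _ (by decide), up_self]
  have w3 : up (up (up (up s .D []) .OUT hi.reverse) .X1 lo.reverse) .X2 [false] .D =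
      [] := by
    rw [up_of_ne _ (by decide), up_of_ne _ (by decide), up_of_ne _ (by decide), up_self]
  have q10 := ha (up (up (up (up s .D []) .OUT hi.reverse) .X1 lo.reverse) .X2 [false]) N false
    (by rw [w1, List.length_reverse, hlol]) (by rw [w2, List.length_reverse, hhil]) (up_self _ _ _)
  rw [w1, w2, w3, List.reverse_reverse, List.reverse_reverse, List.append_nil, pmf_bin_mod]
    at q10
  have q11 := sat_pop (A := A) .X2 (up (up (up (up (up (up (up (up s .D []) .OUT hi.reverse)
    .X1 lo.reverse) .X2 [false]) .X1 []) .OUT []) .D (bin N (val lo + val hi + false.toNat))) .X2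
      [decide (2 ^ N ≤ val lo + val hi + false.toNat)])
  rw [up_self, List.tail_cons] at q11
  refine (q6.seq (q7.seq (q8.seq (q9.seq (q10.seq q11))))).congr (by omega) ?_
  have e5 : val lo + val hi + false.toNat = val hi + val lo := by
    rw [Bool.toNat_false, Nat.add_zero, Nat.add_comm]
  rw [e5, up_up]
  clear q6 q7 q8 q9 q10 q11 w1 w2 w3 ha e5
  funext w
  simp only [up]
  split_ifs <;> simp_all

theorem exists_mulFold (A : TM) (hA : A.Multiplies) : ∃ (P : BProg A) (C : ℕ), ∀ (s : St) (h : ℕ),
    AllNil temps s → 1 ≤ (s .D).length → (s .Y).length = (s .D).length → s .HS = un h →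
    Sat P s (C * ((s .D).length + h + min (A.mulTime (s .D).length) (h * (s .D).length)))
      (up s .D (mfRes A h (s .D) (s .Y))) := by
  obtain ⟨Pc, Cc, hc⟩ := exists_call A hA
  obtain ⟨Pa, Ca, ha⟩ := exists_addBits A (x := .X1) (y := .OUT) (c := .X2) (z := .D) (by decide)
  refine ⟨Prog.seq (Prog.seq (copyAll .Y .X1 .Z0) (Prog.seq (copyAll .Y .WA .Z0)
    (Prog.seq (mvAll .D .Z0) (mvAll .Z0 .X0)))) (Prog.seq Pc (ifNE .OUT
      (Prog.seq (mvAll .WA .WB) (Prog.seq (whileNE .WB (Prog.seq (pop .WB) (mv .OUT .X0)))
        (Prog.seq (mvAll .X0 .X1) (Prog.seq (push .X2 false) (Prog.seq Pa (pop .X2))))))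
      (clear .WA))), Cc + 2 * Ca + 100, ?_⟩
  intro s h hnil hD hY hH
  have n0 : s .Z0 = [] := hnil.get (by decide)
  have nX0 : s .X0 = [] := hnil.get (by decide)
  have nX1 : s .X1 = [] := hnil.get (by decide)
  have nX2 : s .X2 = [] := hnil.get (by decide)
  have nWA : s .WA = [] := hnil.get (by decide)
  have nWB : s .WB = [] := hnil.get (by decide)
  have nO : s .OUT = [] := hnil.get (by decide)
  have nH : s .HSk = [] := hnil.get (by decide)
  have nC : s .CK = [] := hnil.get (by decide)
  clear hnil
  obtain ⟨x, hx⟩ : ∃ x, s .D = x := ⟨_, rfl⟩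
  obtain ⟨y, hy⟩ : ∃ y, s .Y = y := ⟨_, rfl⟩
  obtain ⟨N, hN⟩ : ∃ N, x.length = N := ⟨_, rfl⟩
  rw [hx, hy, hN] at hY
  rw [hx, hN] at hD
  rw [hx, hy, hN]
  have q1 := pmf_front (A := A) hx hy hN hY n0 nX0 nX1 nWA
  have key : ∀ z : SName, z ≠ .X1 → z ≠ .WA → z ≠ .D → z ≠ .X0 →
      up (up (up (up s .X1 y) .WA y) .D []) .X0 x z = s z := by
    intro z h1 h2 h3 h4
    rw [up_of_ne _ h4, up_of_ne _ h3, up_of_ne _ h2, up_of_ne _ h1]
  have v0 : up (up (up (up s .X1 y) .WA y) .D []) .X0 x .X0 = x := up_self _ _ _
  have v1 : up (up (up (up s .X1 y) .WA y) .D []) .X0 x .X1 = y := by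
    rw [up_of_ne _ (by decide), up_of_ne _ (by decide), up_of_ne _ (by decide), up_self]
  have v2 : up (up (up (up s .X1 y) .WA y) .D []) .X0 x .WA = y := by
    rw [up_of_ne _ (by decide), up_of_ne _ (by decide), up_self]
  have q5 := hc (up (up (up (up s .X1 y) .WA y) .D []) .X0 x) N h hD
    (by rw [v0, hN]) (by rw [v1, hY]) (by rw [v2, hY])
    (by rw [key _ (by decide) (by decide) (by decide) (by decide), hH])
    (by rw [key _ (by decide) (by decide) (by decide) (by decide), nH])
    (by rw [key _ (by decide) (by decide) (by decide) (by decide), nWB])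
    (by rw [key _ (by decide) (by decide) (by decide) (by decide), nC])
    (by rw [key _ (by decide) (by decide) (by decide) (by decide), nO])
  rw [v0, v1] at q5
  -- the state after the call, without the contents of `OUT`
  have e0 : up (up (up (up (up (up s .X1 y) .WA y) .D []) .X0 x) .X0 []) .X1 [] =
      up (up s .WA y) .D [] := by
    have hX0 : up (up (up s .X1 y) .WA y) .D [] .X0 = [] := by
      rw [up_of_ne _ (by decide), up_of_ne _ (by decide), up_of_ne _ (by decide), nX0]
    rw [up_up, pmf_up_nil hX0, up_comm _ (show SName.D ≠ .X1 by decide),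
      up_comm _ (show SName.WA ≠ .X1 by decide), up_up, pmf_up_nil nX1]
  rw [e0] at q5
  have cost : ∀ K : ℕ, K ≤ 18 * N + 20 + Ca * (N + 1) →
      40 * N + 10 + (Cc * (N + h + min (A.mulTime N) (h * N)) + K) ≤
        (Cc + 2 * Ca + 100) * (N + h + min (A.mulTime N) (h * N)) := by
    intro K hK
    obtain ⟨m, hm⟩ : ∃ m, N + h + min (A.mulTime N) (h * N) = m := ⟨_, rfl⟩
    have hNm : N ≤ m := by omega
    rw [hm]
    have h1 : Ca * (N + 1) ≤ Ca * (2 * m) := Nat.mul_le_mul_left Ca (by omega)
    have h2 : (Cc + 2 * Ca + 100) * m = Cc * m + Ca * (2 * m) + 100 * m := by ring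
    rw [h2]
    omega
  by_cases ht : A.time (A.mulInput x y) < h * N
  · -- success
    rw [if_pos ht] at q5
    obtain ⟨z, hz⟩ : ∃ z, bin (2 * N) (val x * val y) = z := ⟨_, rfl⟩
    rw [hz] at q5
    have hzl : z.length = 2 * N := by rw [← hz, length_bin]
    obtain ⟨hi, hhi⟩ : ∃ hi, z.take N = hi := ⟨_, rfl⟩
    obtain ⟨lo, hlo⟩ : ∃ lo, z.drop N = lo := ⟨_, rfl⟩
    have hhil : hi.length = N := by
      rw [← hhi, List.length_take, hzl]
      omega
    have hlol : lo.length = N := by
      rw [← hlo, List.length_drop, hzl]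
      omega
    have hzz : z = hi ++ lo := by rw [← hhi, ← hlo, List.take_append_drop]
    have hres : mfRes A h x y = bin N (val hi + val lo) := by
      unfold mfRes mulFold foldF
      rw [hN, if_pos ht, hz, hhi, hlo]
    rw [hzz, List.reverse_append] at q5
    have q6 := pmf_back ha hY hhil hlol nX0 nX1 nX2 nWA nWB nO
    have hne : up (up (up s .WA y) .D []) .OUT (lo.reverse ++ hi.reverse) .OUT ≠ [] := by
      rw [up_self]
      intro h0
      have := congrArg List.length h0
      rw [List.length_append, List.length_reverse, List.length_reverse, hlol, hhil,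
        List.length_nil] at this
      omega
    rw [hres]
    exact (q1.seq (q5.seq (sat_ifNE_cons hne q6))).congr (cost _ (by omega)) rfl
  · -- failure
    rw [if_neg ht] at q5
    have hres : mfRes A h x y = [] := by
      unfold mfRes
      rw [hN, if_neg ht]
    have hOn : up (up s .WA y) .D [] .OUT = [] := by
      rw [up_of_ne _ (by decide), up_of_ne _ (by decide), nO]
    rw [pmf_up_nil hOn] at q5
    have q6 := sat_clear (A := A) .WA (up (up s .WA y) .D [])
    have w1 : up (up s .WA y) .D [] .WA = y := by
      rw [up_of_ne _ (by decide), up_self]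
    rw [w1, hY, up_comm _ (show SName.D ≠ .WA by decide), up_up, pmf_up_nil nWA] at q6
    rw [hres]
    exact (q1.seq (q5.seq (sat_ifNE_nil hOn q6))).congr (cost _ (by omega)) rfl

/-- the clock bound -/
theorem mulTime_of_fail (A : TM) (hA : A.Multiplies) {h : ℕ} {x y : List Bool}
    (hx : 1 ≤ x.length) (hy : y.length = x.length)
    (h' : ¬ A.time (A.mulInput x y) < h * x.length) : h * x.length ≤ A.mulTime x.length :=
  (not_lt.1 h').trans (time_spec A hA hx rfl hy).2.2.2

end Vale.Agent.P338
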