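import Vale.Agent.Lib.P338.PShift

/-!
# P338, module PStages: the three shift programs

Set the registers (`T2 = un (2 a)`, companion `Z0`), then use `exists_shift`.
* a register `r, rc` gets the value `m` (a constant `≤ 4 ≤ 2 a`) by `pushLen T2 Z0 rc true`,
  `mvN rc r m`; it gets the value `2 a - m` by `pushLen T2 Z0 r true`, `mvN r rc m`.
* stage 0: `τ = 0, δ = 2 a - 1, δ2 = 2 a - 2, κ = 0, κ2 = 0`; stage 1: `τ = 0, δ = 2 a - 2,
  δ2 = 2 a - 4, κ = 0, κ2 = 2`; stage 2: `τ = 2 a - h` (`mvLen HS Z0 RT RTc` after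
  `pushLen T2 Z0 RT true`), `δ = 2 a - 1, δ2 = 2 a - 2, κ = κ2 = 0`; pattern: `τ = 1, δ = 3, δ2 = 2,
  κ = κ2 = 0`.
-/

namespace Vale.Agent.P338

/-- pop `m` symbols (`m` is a constant) -/
def stagesPop {A : TM} (x : SName) : ℕ → BProg A
  | 0 => skip
  | m + 1 => Prog.seq (stagesPop x m) (pop x)

theorem stages_pop {A : TM} (x : SName) (m : ℕ) (s : St) :
    Sat (stagesPop x m : BProg A) s (m + 1) (up s x ((s x).drop m)) := by
  induction m with
  | zero =>
    refine (sat_skip s).congr (by omega) ?_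
    simp [up_id]
  | succ m ih =>
    refine (ih.seq (sat_pop x _)).congr (by omega) ?_
    rw [up_up, up_self, List.tail_drop]

/-- the program `P` sets the empty stack `x` to `v`, in all states which agree with `s` on `T2`
and `HS` -/
def StagesSet {A : TM} (s : St) (P : BProg A) (x : SName) (v : List Bool) (c : ℕ) : Prop :=
  ∀ t : St, t .T2 = s .T2 → t .HS = s .HS → t .Z0 = [] → t x = [] → Sat P t c (up t x v)

theorem stages_const {A : TM} (s : St) (x : SName) (m c : ℕ) (hc : 2 * m + 1 ≤ c) :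
    StagesSet s (pushN x true m : BProg A) x (un m) c := by
  intro t _ _ _ hx
  refine (sat_pushN x true m t).congr hc ?_
  rw [hx, List.append_nil]

theorem stages_diff {A : TM} {s : St} {a : ℕ} (hT : s .T2 = un (2 * a)) {x : SName}
    (hx2 : [SName.T2, SName.Z0, x].Nodup) (m c : ℕ) (hc : 22 * a + m + 3 ≤ c) :
    StagesSet s (Prog.seq (pushLen .T2 .Z0 x true) (stagesPop x m) : BProg A) x
      (un (2 * a - m)) c := by
  intro t h1 _ h3 hx
  have h4 := sat_pushLen (A := A) hx2 true (s := t) (m := 2 * a) (by rw [h1, hT]) h3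
  refine (h4.seq (stages_pop x m _)).congr (by omega) ?_
  rw [up_up, up_self, hx, List.append_nil, List.drop_replicate]

theorem stages_hs {A : TM} {s : St} {h : ℕ} (hH : s .HS = un h) {x : SName}
    (hx2 : [SName.HS, SName.Z0, x].Nodup) (c : ℕ) (hc : 11 * h + 2 ≤ c) :
    StagesSet s (pushLen .HS .Z0 x true : BProg A) x (un h) c := by
  intro t _ h2 h3 hx
  refine (sat_pushLen (A := A) hx2 true (s := t) (m := h) (by rw [h2, hH]) h3).congr hc ?_
  rw [hx, List.append_nil]

theorem stages_hsd {A : TM} {s : St} {a h : ℕ} (hT : s .T2 = un (2 * a)) (hH : s .HS = un h)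
    {x : SName} (hx2 : [SName.T2, SName.Z0, x].Nodup) (hx3 : [SName.HS, SName.Z0, x].Nodup)
    (c : ℕ) (hc : 22 * a + 10 * h + 4 ≤ c) :
    StagesSet s (Prog.seq (pushLen .T2 .Z0 x true) (dropLen .HS .Z0 x) : BProg A) x
      (un (2 * a - h)) c := by
  intro t h1 h2 h3 hx
  have hne1 : SName.HS ≠ x := by
    intro e
    subst e
    simp at hx3
  have hne2 : SName.Z0 ≠ x := by
    intro e
    subst e
    simp at hx3
  have h4 := sat_pushLen (A := A) hx2 true (s := t) (m := 2 * a) (by rw [h1, hT]) h3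
  have h5 := sat_dropLen (A := A) hx3 (s := up t x (List.replicate (2 * a) true ++ t x)) (m := h)
    (by rw [up_of_ne _ hne1, h2, hH]) (by rw [up_of_ne _ hne2, h3])
  refine (h4.seq h5).congr (by omega) ?_
  rw [up_up, up_self, hx, List.append_nil, List.drop_replicate]

theorem stages_chain {A : TM} {s : St} (hnil : AllNil temps s) {P1 P2 P3 P4 P5 P6 P7 P8 : BProg A}
    {v1 v2 v3 v4 v5 v6 v7 v8 : List Bool} {c : ℕ}
    (h1 : StagesSet s P1 .RT v1 c) (h2 : StagesSet s P2 .RTc v2 c)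
    (h3 : StagesSet s P3 .RD v3 c) (h4 : StagesSet s P4 .RDc v4 c)
    (h5 : StagesSet s P5 .RK v5 c) (h6 : StagesSet s P6 .RKc v6 c)
    (h7 : StagesSet s P7 .RE v7 c) (h8 : StagesSet s P8 .RL v8 c) :
    Sat (Prog.seq P1 (Prog.seq P2 (Prog.seq P3 (Prog.seq P4 (Prog.seq P5 (Prog.seq P6
      (Prog.seq P7 P8))))))) s (8 * c)
      (up (up (up (up (up (up (up (up s .RT v1) .RTc v2) .RD v3) .RDc v4) .RK v5) .RKc v6)
        .RE v7) .RL v8) := by
  have n1 : s .RT = [] := hnil _ (by decide)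
  have n2 : s .RTc = [] := hnil _ (by decide)
  have n3 : s .RD = [] := hnil _ (by decide)
  have n4 : s .RDc = [] := hnil _ (by decide)
  have n5 : s .RK = [] := hnil _ (by decide)
  have n6 : s .RKc = [] := hnil _ (by decide)
  have n7 : s .RE = [] := hnil _ (by decide)
  have n8 : s .RL = [] := hnil _ (by decide)
  have nz : s .Z0 = [] := hnil _ (by decide)
  refine ((h1 _ ?_ ?_ ?_ ?_).seq ((h2 _ ?_ ?_ ?_ ?_).seq ((h3 _ ?_ ?_ ?_ ?_).seq
    ((h4 _ ?_ ?_ ?_ ?_).seq ((h5 _ ?_ ?_ ?_ ?_).seq ((h6 _ ?_ ?_ ?_ ?_).seq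
      ((h7 _ ?_ ?_ ?_ ?_).seq (h8 _ ?_ ?_ ?_ ?_)))))))).congr (by omega) rfl
  all_goals simp [up, n1, n2, n3, n4, n5, n6, n7, n8, nz]

theorem stages_cost {a q C : ℕ} (ha : 2 ≤ a) (hq : 1 ≤ q) :
    8 * (42 * a + 20) + C * (q * a ^ 3) ≤ (C + 496) * (q * a ^ 3) := by
  have h1 : a ≤ q * a ^ 3 := by
    calc a = 1 * a ^ 1 := by ring
      _ ≤ q * a ^ 3 := Nat.mul_le_mul hq (Nat.pow_le_pow_right (by omega) (by norm_num))
  rw [add_mul]
  omega

theorem exists_stage0 (A : TM) : ∃ (P : BProg A) (C : ℕ), ∀ (s : St) (a q : ℕ), 2 ≤ a → 1 ≤ q →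
    AllNil temps s → Par a q s → (s .D).length = 14 * (q * a ^ 3) →
    Sat P s (C * (q * a ^ 3)) (up s .D (shiftF a q (tau0 a) (s .D))) := by
  obtain ⟨P, C, hP⟩ := exists_shift A
  refine ⟨Prog.seq (Prog.seq (pushN .RT true 0) (Prog.seq
    (Prog.seq (pushLen .T2 .Z0 .RTc true) (stagesPop .RTc 0)) (Prog.seq
    (Prog.seq (pushLen .T2 .Z0 .RD true) (stagesPop .RD 1)) (Prog.seq (pushN .RDc true 1)
    (Prog.seq (pushN .RK true 0) (Prog.seq
    (Prog.seq (pushLen .T2 .Z0 .RKc true) (stagesPop .RKc 0)) (Prog.seq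
    (Prog.seq (pushLen .T2 .Z0 .RE true) (stagesPop .RE 2)) (pushN .RL true 0)))))))) P,
    C + 496, ?_⟩
  intro s a q ha hq hnil hpar hD
  have hT := hpar.T2
  have h1 := stages_chain hnil (A := A) (c := 42 * a + 20)
    (stages_const s .RT 0 _ (by omega)) (stages_diff hT (x := .RTc) (by decide) 0 _ (by omega))
    (stages_diff hT (x := .RD) (by decide) 1 _ (by omega)) (stages_const s .RDc 1 _ (by omega))
    (stages_const s .RK 0 _ (by omega)) (stages_diff hT (x := .RKc) (by decide) 0 _ (by omega))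
    (stages_diff hT (x := .RE) (by decide) 2 _ (by omega)) (stages_const s .RL 0 _ (by omega))
  have h2 := hP s a q 0 (2 * a - 1) (2 * a - 2) 0 0 (by omega) hq (by omega) (by omega) (by omega)
    (by omega) (by omega) hnil hpar hD
  have e : 2 * a - (2 * a - 1) = 1 := by omega
  unfold regs at h2
  rw [e] at h2
  exact (h1.seq h2).congr (stages_cost ha hq) rfl

theorem exists_stage1 (A : TM) : ∃ (P : BProg A) (C : ℕ), ∀ (s : St) (a q : ℕ), 2 ≤ a → 1 ≤ q →
    AllNil temps s → Par a q s → (s .D).length = 14 * (q * a ^ 3) →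
    Sat P s (C * (q * a ^ 3)) (up s .D (shiftF a q (tau1 a) (s .D))) := by
  obtain ⟨P, C, hP⟩ := exists_shift A
  refine ⟨Prog.seq (Prog.seq (pushN .RT true 0) (Prog.seq
    (Prog.seq (pushLen .T2 .Z0 .RTc true) (stagesPop .RTc 0)) (Prog.seq
    (Prog.seq (pushLen .T2 .Z0 .RD true) (stagesPop .RD 2)) (Prog.seq (pushN .RDc true 2)
    (Prog.seq (pushN .RK true 0) (Prog.seq
    (Prog.seq (pushLen .T2 .Z0 .RKc true) (stagesPop .RKc 0)) (Prog.seq
    (Prog.seq (pushLen .T2 .Z0 .RE true) (stagesPop .RE 4)) (pushN .RL true 2)))))))) P,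
    C + 496, ?_⟩
  intro s a q ha hq hnil hpar hD
  have hT := hpar.T2
  have h1 := stages_chain hnil (A := A) (c := 42 * a + 20)
    (stages_const s .RT 0 _ (by omega)) (stages_diff hT (x := .RTc) (by decide) 0 _ (by omega))
    (stages_diff hT (x := .RD) (by decide) 2 _ (by omega)) (stages_const s .RDc 2 _ (by omega))
    (stages_const s .RK 0 _ (by omega)) (stages_diff hT (x := .RKc) (by decide) 0 _ (by omega))
    (stages_diff hT (x := .RE) (by decide) 4 _ (by omega)) (stages_const s .RL 2 _ (by omega))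
  have h2 := hP s a q 0 (2 * a - 2) (2 * a - 4) 0 2 (by omega) hq (by omega) (by omega) (by omega)
    (by omega) (by omega) hnil hpar hD
  have e : 2 * a - (2 * a - 2) = 2 := by omega
  unfold regs at h2
  rw [e] at h2
  exact (h1.seq h2).congr (stages_cost ha hq) rfl

theorem exists_stage2 (A : TM) : ∃ (P : BProg A) (C : ℕ), ∀ (s : St) (a q h : ℕ), 2 ≤ a → 1 ≤ q →
    h ≤ 2 * a → AllNil temps s → Par a q s → s .HS = un h → (s .D).length = 14 * (q * a ^ 3) →
    Sat P s (C * (q * a ^ 3)) (up s .D (shiftF a q (tau2 a h) (s .D))) := by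
  obtain ⟨P, C, hP⟩ := exists_shift A
  refine ⟨Prog.seq (Prog.seq (Prog.seq (pushLen .T2 .Z0 .RT true) (dropLen .HS .Z0 .RT)) (Prog.seq
    (pushLen .HS .Z0 .RTc true) (Prog.seq
    (Prog.seq (pushLen .T2 .Z0 .RD true) (stagesPop .RD 1)) (Prog.seq (pushN .RDc true 1)
    (Prog.seq (pushN .RK true 0) (Prog.seq
    (Prog.seq (pushLen .T2 .Z0 .RKc true) (stagesPop .RKc 0)) (Prog.seq
    (Prog.seq (pushLen .T2 .Z0 .RE true) (stagesPop .RE 2)) (pushN .RL true 0)))))))) P,
    C + 496, ?_⟩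
  intro s a q h ha hq hh hnil hpar hH hD
  have hT := hpar.T2
  have h1 := stages_chain hnil (A := A) (c := 42 * a + 20)
    (stages_hsd hT hH (x := .RT) (by decide) (by decide) _ (by omega))
    (stages_hs hH (x := .RTc) (by decide) _ (by omega))
    (stages_diff hT (x := .RD) (by decide) 1 _ (by omega)) (stages_const s .RDc 1 _ (by omega))
    (stages_const s .RK 0 _ (by omega)) (stages_diff hT (x := .RKc) (by decide) 0 _ (by omega))
    (stages_diff hT (x := .RE) (by decide) 2 _ (by omega)) (stages_const s .RL 0 _ (by omega))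
  have h2 := hP s a q (2 * a - h) (2 * a - 1) (2 * a - 2) 0 0 (by omega) hq (by omega) (by omega)
    (by omega) (by omega) (by omega) hnil hpar hD
  have e : 2 * a - (2 * a - 1) = 1 := by omega
  have e' : 2 * a - (2 * a - h) = h := by omega
  unfold regs at h2
  rw [e, e'] at h2
  exact (h1.seq h2).congr (stages_cost ha hq) rfl

end Vale.Agent.P338
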