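import Vale.Agent.Lib.P338.PShear
import Vale.Agent.Lib.P338.PEncode
import Vale.Agent.Lib.P338.PDecode
import Vale.Agent.Lib.P338.PStages
import Vale.Agent.Lib.P338.PMulFold
import Vale.Agent.Lib.P338.PNaive
import Vale.Agent.Lib.P338.MOp

/-!
# P338, module POp: transposition of one chunk, with two multiplications or naively

`Y = GF a q`. The stack `SV` is the backup of the chunk (it is not in `temps`; the subprograms do
not touch it, since their specifications have the form `Sat P s _ (up s .D _)`). Program: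
```
copyAll D SV Z0
shearP ; encode ; stage0 ; mulFold
ifNE D ( stage1 ; mulFold ; ifNE D ( stage2 ; decode ; shearM ) skip ) skip
ifNE D (clear SV) (mvAll SV Z0 ; mvAll Z0 D ; naive)
```
If both multiplications succeed the result is `opF a q h l = swapF a (q * a) l` (`opF_eq`), which is
not empty. Otherwise `D = []` after the failing multiplication, and
`h * (14 * (q * a ^ 3)) ≤ A.mulTime (14 * (q * a ^ 3))` by `mulTime_of_fail`, so that the naive
transposition is affordable. The strings have length `14 * (q * a ^ 3)` between encode and decode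
(`length_encodeF`, `length_shiftF`, `length_mulFold`, `tau0_le`, ..., `length_GF`), and
`h ≤ 2 ^ h = a`.
-/

namespace Vale.Agent.P338

private theorem pop_length_mulFold (N : ℕ) (x y : List Bool) : (mulFold N x y).length = N := by
  unfold mulFold foldF
  exact length_bin _ _

private theorem pop_state0 (s : St) (hSV : s .SV = []) :
    up s .SV (s .D ++ s .SV) = up (up s .SV (s .D)) .D (s .D) := by
  rw [hSV, List.append_nil]
  funext x
  simp only [up]
  split_ifs <;> simp_all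

private theorem pop_state1 (s : St) (l0 l : List Bool) (hSV : s .SV = []) :
    up (up (up s .SV l0) .D l) .SV [] = up s .D l := by
  funext x
  simp only [up]
  split_ifs <;> simp_all

private theorem pop_state2 (s : St) (hSV : s .SV = []) (hZ0 : s .Z0 = []) :
    up (up (up (up (up (up s .SV (s .D)) .D []) .SV []) .Z0 ((s .D).reverse ++ [])) .Z0 []) .D
      (((s .D).reverse ++ []).reverse ++ []) = s := by
  funext x
  simp only [up]
  split_ifs <;> simp_all

private theorem pop_cost0 {C4 w M h : ℕ} (hh : h ≤ w) :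
    C4 * (14 * w + h + M) ≤ 15 * (C4 * w) + C4 * M := by
  have : C4 * (14 * w + h + M) ≤ C4 * (14 * w + w + M) := by
    apply Nat.mul_le_mul_left
    omega
  refine this.trans (le_of_eq ?_)
  ring

private theorem pop_cost1 {C1 C2 C3 C4 C5 C6 C7 C8 C9 w M h : ℕ} (hw : 1 ≤ w) (hh : h ≤ w) :
    12 * w + 2 + (C1 * w + (C2 * w + (C3 * w + (C4 * (14 * w + h + M) +
      (C5 * w + (C4 * (14 * w + h + M) + (C6 * w + (C7 * w + C8 * w) + 1)) + 1 +
        (2 * w + 1 + 1)))))) ≤
      (C1 + C2 + C3 + 32 * C4 + C5 + C6 + C7 + C8 + C9 + 40) * (w + M) := by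
  have : (C1 + C2 + C3 + 32 * C4 + C5 + C6 + C7 + C8 + C9 + 40) * (w + M) =
      C1 * w + C2 * w + C3 * w + 32 * (C4 * w) + C5 * w + C6 * w + C7 * w + C8 * w + C9 * w +
      40 * w + (C1 + C2 + C3 + C5 + C6 + C7 + C8 + C9 + 40) * M + 32 * (C4 * M) := by ring
  rw [this]
  have hC4 := pop_cost0 (C4 := C4) (M := M) hh
  have p1 := Nat.zero_le ((C1 + C2 + C3 + C5 + C6 + C7 + C8 + C9 + 40) * M)
  omega

private theorem pop_cost2 {C1 C2 C3 C4 C5 C6 C7 C8 C9 w M h : ℕ} (hw : 1 ≤ w) (hh : h ≤ w)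
    (hhw : h * w ≤ M) :
    12 * w + 2 + (C1 * w + (C2 * w + (C3 * w + (C4 * (14 * w + h + M) +
      (C5 * w + (C4 * (14 * w + h + M) + (1 + 1)) + 1 +
        (10 * w + 2 + C9 * (h * w) + 1)))))) ≤
      (C1 + C2 + C3 + 32 * C4 + C5 + C6 + C7 + C8 + C9 + 40) * (w + M) := by
  have : (C1 + C2 + C3 + 32 * C4 + C5 + C6 + C7 + C8 + C9 + 40) * (w + M) =
      C1 * w + C2 * w + C3 * w + 32 * (C4 * w) + C5 * w + C6 * w + C7 * w + C8 * w + C9 * w +
      40 * w + (C1 + C2 + C3 + C5 + C6 + C7 + C8 + 40) * M + C9 * M + 32 * (C4 * M) := by ring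
  rw [this]
  have hC4 := pop_cost0 (C4 := C4) (M := M) hh
  have p0 : C9 * (h * w) ≤ C9 * M := Nat.mul_le_mul_left _ hhw
  have p1 := Nat.zero_le ((C1 + C2 + C3 + C5 + C6 + C7 + C8 + 40) * M)
  omega

private theorem pop_cost3 {C1 C2 C3 C4 C5 C6 C7 C8 C9 w M h : ℕ} (hw : 1 ≤ w) (hh : h ≤ w)
    (hhw : h * w ≤ M) :
    12 * w + 2 + (C1 * w + (C2 * w + (C3 * w + (C4 * (14 * w + h + M) +
      (1 + 1 + (10 * w + 2 + C9 * (h * w) + 1)))))) ≤
      (C1 + C2 + C3 + 32 * C4 + C5 + C6 + C7 + C8 + C9 + 40) * (w + M) := by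
  refine le_trans ?_ (pop_cost2 (C1 := C1) (C2 := C2) (C3 := C3) (C4 := C4) (C5 := C5) (C6 := C6)
    (C7 := C7) (C8 := C8) (C9 := C9) hw hh hhw)
  omega

private theorem pop_fin1 {A : TM} (P9 : BProg A) (s : St) (l0 l : List Bool) (w : ℕ)
    (hSV : s .SV = []) (hl0 : l0.length = w) (hl : l ≠ []) :
    Sat (ifNE .D (clear .SV) (Prog.seq (mvAll .SV .Z0)
      (Prog.seq (mvAll .Z0 .D) P9))) (up (up s .SV l0) .D l) (2 * w + 1 + 1) (up s .D l) := by
  refine sat_ifNE_cons (by rw [up_self]; exact hl) ?_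
  refine (sat_clear .SV (up (up s .SV l0) .D l)).congr ?_ ?_
  · rw [up_of_ne _ (by decide), up_self, hl0]
  · exact pop_state1 s l0 l hSV

private theorem pop_fin2 {A : TM} (P9 : BProg A) (s : St) (w n : ℕ) (r : List Bool)
    (hSV : s .SV = []) (hZ0 : s .Z0 = []) (hl0 : (s .D).length = w) (k3 : Sat P9 s n (up s .D r)) :
    Sat (ifNE .D (clear .SV) (Prog.seq (mvAll .SV .Z0)
      (Prog.seq (mvAll .Z0 .D) P9))) (up (up s .SV (s .D)) .D []) (10 * w + 2 + n + 1)
      (up s .D r) := by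
  refine sat_ifNE_nil (by rw [up_self]) ?_
  have k1 := sat_mvAll (A := A) (show SName.SV ≠ .Z0 by decide) (up (up s .SV (s .D)) .D [])
  have e1 : up (up s .SV (s .D)) .D [] .SV = s .D := by
    rw [up_of_ne _ (by decide), up_self]
  have e2 : up (up s .SV (s .D)) .D [] .Z0 = [] := by
    rw [up_of_ne _ (by decide), up_of_ne _ (by decide), hZ0]
  rw [e1, e2] at k1
  have k2 := sat_mvAll (A := A) (show SName.Z0 ≠ .D by decide)
    (up (up (up (up s .SV (s .D)) .D []) .SV []) .Z0 ((s .D).reverse ++ []))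
  have e3 : up (up (up (up s .SV (s .D)) .D []) .SV []) .Z0 ((s .D).reverse ++ []) .D = [] := by
    rw [up_of_ne _ (by decide), up_of_ne _ (by decide), up_self]
  rw [up_self, e3, pop_state2 s hSV hZ0] at k2
  refine (k1.seq (k2.seq k3)).congr ?_ rfl
  simp only [List.length_append, List.length_reverse, List.length_nil, hl0]
  omega

theorem exists_op (A : TM) (hA : A.Multiplies) : ∃ (P : BProg A) (C : ℕ), ∀ (s : St)
    (a q h : ℕ), 1 ≤ h → a = 2 ^ h → 1 ≤ q → AllNil temps s → Par a q s → s .HS = un h →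
    s .SV = [] → s .Y = GF a q → (s .D).length = q * a ^ 3 →
    Sat P s (C * (q * a ^ 3 + min (A.mulTime (14 * (q * a ^ 3))) (h * (14 * (q * a ^ 3)))))
      (up s .D (swapF a (q * a) (s .D))) := by
  obtain ⟨P1, C1, h1⟩ := exists_shearP A
  obtain ⟨P2, C2, h2⟩ := exists_encode A
  obtain ⟨P3, C3, h3⟩ := exists_stage0 A
  obtain ⟨P4, C4, h4⟩ := exists_mulFold A hA
  obtain ⟨P5, C5, h5⟩ := exists_stage1 A
  obtain ⟨P6, C6, h6⟩ := exists_stage2 A
  obtain ⟨P7, C7, h7⟩ := exists_decode A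
  obtain ⟨P8, C8, h8⟩ := exists_shearM A
  obtain ⟨P9, C9, h9⟩ := exists_naive A
  refine ⟨Prog.seq (copyAll .D .SV .Z0) (Prog.seq P1 (Prog.seq P2 (Prog.seq P3 (Prog.seq P4
    (Prog.seq (ifNE .D (Prog.seq P5 (Prog.seq P4 (ifNE .D (Prog.seq P6 (Prog.seq P7 P8)) skip)))
      skip) (ifNE .D (clear .SV) (Prog.seq (mvAll .SV .Z0) (Prog.seq (mvAll .Z0 .D) P9)))))))),
    C1 + C2 + C3 + 32 * C4 + C5 + C6 + C7 + C8 + C9 + 40, ?_⟩
  intro s a q h hh ha hq hnil hpar hHS hSV hY hD
  -- sizes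
  have ha2 : 2 ≤ a := by
    rw [ha]
    calc 2 = 2 ^ 1 := rfl
      _ ≤ 2 ^ h := Nat.pow_le_pow_right (by norm_num) hh
  have ha1 : 1 ≤ a := le_trans (by norm_num) ha2
  have hha : h ≤ a := by
    rw [ha]
    exact Nat.lt_two_pow_self.le
  obtain ⟨w, hw⟩ : ∃ w, w = q * a ^ 3 := ⟨_, rfl⟩
  have haw : a ≤ w := by
    rw [hw]
    calc a ≤ a ^ 3 := Nat.le_self_pow (by norm_num) a
      _ ≤ q * a ^ 3 := Nat.le_mul_of_pos_left _ hq
  have hw1 : 1 ≤ w := ha1.trans haw
  have hhw0 : h ≤ w := hha.trans haw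
  have h14 : 1 ≤ 14 * w := by omega
  have hbnd : 2 * a ≤ 14 * a := Nat.mul_le_mul_right _ (by norm_num)
  obtain ⟨M, hM⟩ : ∃ M, M = min (A.mulTime (14 * w)) (h * (14 * w)) := ⟨_, rfl⟩
  rw [← hw, ← hM]
  obtain ⟨l0, hl0⟩ : ∃ l0, l0 = s .D := ⟨_, rfl⟩
  have hl0w : l0.length = w := by rw [hl0, hD, hw]
  have eE : a * a * (q * a) = q * a ^ 3 := by ring
  have eF : q * a ^ 2 * a = q * a ^ 3 := by ring
  have eG : q * a ^ 2 * (14 * a) = 14 * (q * a ^ 3) := by ring
  -- the states
  obtain ⟨t, ht⟩ : ∃ t, t = up s .SV l0 := ⟨_, rfl⟩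
  have tnil : ∀ l, AllNil temps (up t .D l) := by
    intro l
    rw [ht]
    exact (hnil.up (by decide) _).up (by decide) _
  have tpar : ∀ l, Par a q (up t .D l) := by
    intro l
    rw [ht]
    exact (hpar.up (by decide) _).up (by decide) _
  have tHS : ∀ l, (up t .D l) .HS = un h := by
    intro l
    rw [ht, up_of_ne _ (by decide), up_of_ne _ (by decide), hHS]
  have tY : ∀ l, (up t .D l) .Y = GF a q := by
    intro l
    rw [ht, up_of_ne _ (by decide), up_of_ne _ (by decide), hY]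
  have tD : ∀ l, (up t .D l) .D = l := fun l => up_self _ _ _
  have tstep : ∀ l l', up (up t .D l) .D l' = up t .D l' := fun l l' => up_up _ _ _ _
  -- the subprograms
  have g1 : ∀ l, l.length = w → Sat P1 (up t .D l) (C1 * w) (up t .D (shearP a (q * a) l)) := by
    intro l hl
    have := h1 (up t .D l) a q ha1 hq (tnil l) (tpar l) (by rw [tD, hl, hw])
    rw [tD, tstep, ← hw] at this
    exact this
  have g2 : ∀ l, l.length = w → Sat P2 (up t .D l) (C2 * w)
      (up t .D (encodeF a (q * a ^ 2) l)) := by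
    intro l hl
    have := h2 (up t .D l) a q ha1 hq (tnil l) (tpar l) (by rw [tD, hl, hw])
    rw [tD, tstep, ← hw] at this
    exact this
  have g3 : ∀ l, l.length = 14 * w → Sat P3 (up t .D l) (C3 * w)
      (up t .D (shiftF a q (tau0 a) l)) := by
    intro l hl
    have := h3 (up t .D l) a q ha2 hq (tnil l) (tpar l) (by rw [tD, hl, hw])
    rw [tD, tstep, ← hw] at this
    exact this
  have g4 : ∀ l, l.length = 14 * w → Sat P4 (up t .D l) (C4 * (14 * w + h + M))
      (up t .D (mfRes A h l (GF a q))) := by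
    intro l hl
    have := h4 (up t .D l) h (tnil l) (by rw [tD, hl]; exact h14)
      (by rw [tD, tY, hl, length_GF ha2 hq, hw]) (tHS l)
    rw [tD, tY, tstep, hl, ← hM] at this
    exact this
  have g5 : ∀ l, l.length = 14 * w → Sat P5 (up t .D l) (C5 * w)
      (up t .D (shiftF a q (tau1 a) l)) := by
    intro l hl
    have := h5 (up t .D l) a q ha2 hq (tnil l) (tpar l) (by rw [tD, hl, hw])
    rw [tD, tstep, ← hw] at this
    exact this
  have g6 : ∀ l, l.length = 14 * w → Sat P6 (up t .D l) (C6 * w)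
      (up t .D (shiftF a q (tau2 a h) l)) := by
    intro l hl
    have := h6 (up t .D l) a q h ha2 hq (hha.trans (Nat.le_mul_of_pos_left _ (by norm_num)))
      (tnil l) (tpar l) (tHS l) (by rw [tD, hl, hw])
    rw [tD, tstep, ← hw] at this
    exact this
  have g7 : ∀ l, l.length = 14 * w → Sat P7 (up t .D l) (C7 * w)
      (up t .D (decodeF a (q * a ^ 2) l)) := by
    intro l hl
    have := h7 (up t .D l) a q ha1 hq (tnil l) (tpar l) (by rw [tD, hl, hw])
    rw [tD, tstep, ← hw] at this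
    exact this
  have g8 : ∀ l, l.length = w → Sat P8 (up t .D l) (C8 * w) (up t .D (shearM a (q * a) l)) := by
    intro l hl
    have := h8 (up t .D l) a q ha1 hq (tnil l) (tpar l) (by rw [tD, hl, hw])
    rw [tD, tstep, ← hw] at this
    exact this
  -- the last part
  have f1 : ∀ l, l ≠ [] → Sat (ifNE .D (clear .SV) (Prog.seq (mvAll .SV .Z0)
      (Prog.seq (mvAll .Z0 .D) P9))) (up t .D l) (2 * w + 1 + 1) (up s .D l) := by
    intro l hl
    rw [ht]
    exact pop_fin1 P9 s l0 l w hSV hl0w hl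
  have f2 : Sat (ifNE .D (clear .SV) (Prog.seq (mvAll .SV .Z0)
      (Prog.seq (mvAll .Z0 .D) P9))) (up t .D []) (10 * w + 2 + C9 * (h * w) + 1)
      (up s .D (swapF a (q * a) l0)) := by
    have k3 := h9 s a q h hh ha hq hnil hpar hHS hD
    rw [← hw] at k3
    rw [ht, hl0]
    exact pop_fin2 P9 s w _ _ hSV (hnil.get (by decide)) (by rw [hD, hw]) k3
  -- the first part
  obtain ⟨l1, hl1⟩ : ∃ l, l = shearP a (q * a) l0 := ⟨_, rfl⟩
  have n1 : l1.length = w := by
    rw [hl1, length_shearP (by rw [hl0w, hw, eE]), hl0w]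
  obtain ⟨l2, hl2⟩ : ∃ l, l = encodeF a (q * a ^ 2) l1 := ⟨_, rfl⟩
  have n2 : l2.length = 14 * w := by
    rw [hl2, length_encodeF (by rw [n1, hw, eF]), eG, hw]
  obtain ⟨l3, hl3⟩ : ∃ l, l = shiftF a q (tau0 a) l2 := ⟨_, rfl⟩
  have n3 : l3.length = 14 * w := by
    rw [hl3, length_shiftF (fun i _ j _ => (tau0_le ha2 i j).trans hbnd) (by rw [n2, hw]),
      hw]
  have nG : (GF a q).length = 14 * w := by rw [length_GF ha2 hq, hw]
  have c0 : Sat (copyAll .D .SV .Z0 : BProg A) s (12 * w + 2) (up t .D l0) := by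
    refine (sat_copyAll (A := A) (by decide) s (hnil.get (by decide))).congr ?_ ?_
    · rw [← hl0, hl0w]
    · rw [ht, hl0]
      exact pop_state0 s hSV
  have c1 : Sat P1 (up t .D l0) (C1 * w) (up t .D l1) := hl1 ▸ g1 l0 hl0w
  have c2 : Sat P2 (up t .D l1) (C2 * w) (up t .D l2) := hl2 ▸ g2 l1 n1
  have c3 : Sat P3 (up t .D l2) (C3 * w) (up t .D l3) := hl3 ▸ g3 l2 n2
  have c4 := g4 l3 n3
  -- failure of a multiplication
  have hfail : ∀ l : List Bool, l.length = 14 * w →
      ¬ A.time (A.mulInput l (GF a q)) < h * l.length → h * w ≤ M := by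
    intro l hl hf
    have := mulTime_of_fail A hA (by rw [hl]; exact h14) (by rw [nG, hl]) hf
    rw [hl] at this
    rw [hM]
    have e1 : h * w ≤ h * (14 * w) := Nat.mul_le_mul_left _ (Nat.le_mul_of_pos_left _ (by norm_num))
    exact le_min (e1.trans this) e1
  have hne : ∀ (l : List Bool) (n : ℕ), l.length = n → 1 ≤ n → l ≠ [] := by
    intro l n h1 h2 h3
    rw [h3, List.length_nil] at h1
    rw [← h1] at h2
    exact absurd h2 (by norm_num)
  rw [← hl0]
  by_cases hA1 : A.time (A.mulInput l3 (GF a q)) < h * l3.length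
  · -- the first multiplication succeeds
    obtain ⟨l4, hl4⟩ : ∃ l, l = mulFold l3.length l3 (GF a q) := ⟨_, rfl⟩
    have n4 : l4.length = 14 * w := by rw [hl4, pop_length_mulFold, n3]
    have e4 : mfRes A h l3 (GF a q) = l4 := by
      unfold mfRes
      rw [if_pos hA1, hl4]
    rw [e4] at c4
    have hl4ne : l4 ≠ [] := hne _ _ n4 h14
    obtain ⟨l5, hl5⟩ : ∃ l, l = shiftF a q (tau1 a) l4 := ⟨_, rfl⟩
    have n5 : l5.length = 14 * w := by
      rw [hl5, length_shiftF (fun i _ j _ => (tau1_le ha2 i j).trans hbnd)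
        (by rw [n4, hw]), hw]
    have c5 : Sat P5 (up t .D l4) (C5 * w) (up t .D l5) := hl5 ▸ g5 l4 n4
    have c6 := g4 l5 n5
    by_cases hA2 : A.time (A.mulInput l5 (GF a q)) < h * l5.length
    · -- both succeed
      obtain ⟨l6, hl6⟩ : ∃ l, l = mulFold l5.length l5 (GF a q) := ⟨_, rfl⟩
      have n6 : l6.length = 14 * w := by rw [hl6, pop_length_mulFold, n5]
      have e6 : mfRes A h l5 (GF a q) = l6 := by
        unfold mfRes
        rw [if_pos hA2, hl6]
      rw [e6] at c6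
      have hl6ne : l6 ≠ [] := hne _ _ n6 h14
      obtain ⟨l7, hl7⟩ : ∃ l, l = shiftF a q (tau2 a h) l6 := ⟨_, rfl⟩
      have n7 : l7.length = 14 * w := by
        rw [hl7, length_shiftF (fun i _ j _ => (tau2_le ha2
          (hha.trans (Nat.le_mul_of_pos_left _ (by norm_num))) i j).trans hbnd)
          (by rw [n6, hw]), hw]
      obtain ⟨l8, hl8⟩ : ∃ l, l = decodeF a (q * a ^ 2) l7 := ⟨_, rfl⟩
      have n8 : l8.length = w := by
        rw [hl8]
        unfold decodeF
        rw [length_cat (w := a), hw, eF]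
        intro k hk
        apply length_decode1
        apply length_blk
        rw [n7, hw, ← eG]
        exact Nat.mul_le_mul_right _ hk
      obtain ⟨l9, hl9⟩ : ∃ l, l = shearM a (q * a) l8 := ⟨_, rfl⟩
      have n9 : l9.length = w := by
        rw [hl9, length_shearM (by rw [n8, hw, eE]), n8]
      have hl9ne : l9 ≠ [] := hne _ _ n9 hw1
      have c7 : Sat P6 (up t .D l6) (C6 * w) (up t .D l7) := hl7 ▸ g6 l6 n6
      have c8 : Sat P7 (up t .D l7) (C7 * w) (up t .D l8) := hl8 ▸ g7 l7 n7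
      have c9 : Sat P8 (up t .D l8) (C8 * w) (up t .D l9) := hl9 ▸ g8 l8 n8
      have hop : l9 = swapF a (q * a) l0 := by
        rw [← opF_eq hh ha hq (by rw [hl0w, hw])]
        unfold opF
        rw [hl9, hl8, hl7, hl6, n5, hl5, hl4, n3, hl3, hl2, hl1, hw]
      have d1 : Sat (ifNE .D (Prog.seq P6 (Prog.seq P7 P8)) skip) (up t .D l6)
          (C6 * w + (C7 * w + C8 * w) + 1) (up t .D l9) :=
        sat_ifNE_cons (by rw [tD]; exact hl6ne) (c7.seq (c8.seq c9))
      have d2 : Sat (ifNE .D (Prog.seq P5 (Prog.seq P4 (ifNE .D (Prog.seq P6 (Prog.seq P7 P8))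
          skip))) skip) (up t .D l4)
          (C5 * w + (C4 * (14 * w + h + M) + (C6 * w + (C7 * w + C8 * w) + 1)) + 1)
          (up t .D l9) :=
        sat_ifNE_cons (by rw [tD]; exact hl4ne) (c5.seq (c6.seq d1))
      exact (c0.seq (c1.seq (c2.seq (c3.seq (c4.seq (d2.seq (f1 l9 hl9ne))))))).congr
        (pop_cost1 hw1 hhw0) (by rw [hop])
    · -- the second fails
      have hhw := hfail l5 n5 hA2
      have e6 : mfRes A h l5 (GF a q) = [] := by
        unfold mfRes
        rw [if_neg hA2]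
      rw [e6] at c6
      have d1 : Sat (ifNE .D (Prog.seq P6 (Prog.seq P7 P8)) skip) (up t .D []) (1 + 1)
          (up t .D []) :=
        sat_ifNE_nil (by rw [tD]) (sat_skip _)
      have d2 : Sat (ifNE .D (Prog.seq P5 (Prog.seq P4 (ifNE .D (Prog.seq P6 (Prog.seq P7 P8))
          skip))) skip) (up t .D l4)
          (C5 * w + (C4 * (14 * w + h + M) + (1 + 1)) + 1) (up t .D []) :=
        sat_ifNE_cons (by rw [tD]; exact hl4ne) (c5.seq (c6.seq d1))
      exact (c0.seq (c1.seq (c2.seq (c3.seq (c4.seq (d2.seq f2)))))).congr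
        (pop_cost2 hw1 hhw0 hhw) rfl
  · -- the first fails
    have hhw := hfail l3 n3 hA1
    have e4 : mfRes A h l3 (GF a q) = [] := by
      unfold mfRes
      rw [if_neg hA1]
    rw [e4] at c4
    have d2 : Sat (ifNE .D (Prog.seq P5 (Prog.seq P4 (ifNE .D (Prog.seq P6 (Prog.seq P7 P8))
        skip))) skip) (up t .D []) (1 + 1) (up t .D []) :=
      sat_ifNE_nil (by rw [tD]) (sat_skip _)
    exact (c0.seq (c1.seq (c2.seq (c3.seq (c4.seq (d2.seq f2)))))).congr
      (pop_cost3 hw1 hhw0 hhw) rfl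

end Vale.Agent.P338
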