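import Vale.Agent.Lib.P338.Macro

/-!
# P338, module PTempl: parameter stacks

`HS = un h`, `a = 2 ^ h`. `exists_templ1`: first `TA = un (2 ^ h)`:
```
push TA true ; forC HS HSk ( mvAll TA X0 ; whileNE X0 ( pop X0 ; push TA true ; push TA true ) )
```
(the `k`-th doubling costs `≤ C * 2 ^ k`, use `sat_forC` with a non-uniform cost, total
`≤ C * 2 ^ h`), then `pushLen TA Z0 _ true` for `TB`, `T2` (twice), `T12` (12 times), `TE`, and
`push TQ true`. `exists_templ2`: the same with `TQ = un a` and `TE = un (a * a)`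
(`forC TA Z0 (pushLen TB Z1 TE true)`). `exists_clearPar`: `clear` the six stacks.
`exists_templO`: only `TE = un (a ^ 2)`, `TF = un (a ^ 2)` (used by the passes for odd `L`).
-/

namespace Vale.Agent.P338

/-- set the parameter stacks -/
def setPar (s : St) (a q : ℕ) : St :=
  up (up (up (up (up (up s .TA (un a)) .TB (un a)) .T2 (un (2 * a))) .T12 (un (12 * a)))
    .TQ (un q)) .TE (un (q * a))

theorem par_setPar {s : St} (h : s .TF = []) (a q : ℕ) : Par a q (setPar s a q) := by
  constructor <;> simp [setPar, up, h]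

section templ

variable {A : TM}

/-- double the stack `TA` -/
def templDbl : BProg A :=
  Prog.seq (mvAll .TA .X0) (whileNE .X0 (Prog.seq (pop .X0) (Prog.seq (push .TA true)
    (push .TA true))))

theorem sat_templDbl {s : St} {m : ℕ} (h : s .TA = un m) (h0 : s .X0 = []) :
    Sat (templDbl : BProg A) s (11 * m + 2) (up s .TA (un (2 * m))) := by
  have h1 := sat_mvAll (A := A) (x := .TA) (y := .X0) (by decide) s
  have h2 := sat_while' (A := A) .X0 (Prog.seq (pop .X0) (Prog.seq (push .TA true)
    (push .TA true))) (fun k => up (up s .TA (un (2 * k))) .X0 (un (m - k))) 5 m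
    (by
      intro k hk
      obtain ⟨j, hj⟩ : ∃ j, m - k = j + 1 := ⟨m - k - 1, by omega⟩
      simp only [up_self, hj, un_succ]
      simp)
    (by simp)
    (by
      intro k hk
      obtain ⟨j, hj⟩ : ∃ j, m - k = j + 1 := ⟨m - k - 1, by omega⟩
      have hj' : m - (k + 1) = j := by omega
      have h3 := (sat_pop (A := A) .X0 (up (up s .TA (un (2 * k))) .X0 (un (m - k)))).seq
        ((sat_push .TA true _).seq (sat_push .TA true _))
      refine h3.congr (by omega) ?_
      rw [hj, hj']
      have e : 2 * (k + 1) = 2 * k + 1 + 1 := by ring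
      rw [e]
      funext x
      cases x <;> simp [up, un_succ])
  have e0 : up (up s .TA []) .X0 ((s .TA).reverse ++ s .X0) =
      (fun k => up (up s .TA (un (2 * k))) .X0 (un (m - k))) 0 := by
    simp only [h, h0, un_reverse, List.append_nil, Nat.mul_zero, Nat.sub_zero]
    rfl
  rw [e0] at h1
  refine (h1.seq h2).congr ?_ ?_
  · rw [h]
    simp only [un, List.length_replicate]
    omega
  · funext x
    cases x <;> simp [up, h0]

/-- `TA = un (2 ^ h)` -/
def templPow : BProg A := Prog.seq (push .TA true) (forC .HS .HSk templDbl)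

theorem sat_templPow {s : St} {h : ℕ} (hs : s .HS = un h) (h1 : s .HSk = []) (h2 : s .TA = [])
    (h3 : s .X0 = []) :
    Sat (templPow : BProg A) s (30 * 2 ^ h) (up s .TA (un (2 ^ h))) := by
  have h4 := sat_forC (A := A) (c := .HS) (c' := .HSk) (by decide) templDbl
    (fun k => up s .TA (un (2 ^ k))) (fun k => 11 * 2 ^ k + 2) h
    (by
      intro k hk
      refine (sat_templDbl (m := 2 ^ k) ?_ ?_).congr le_rfl ?_
      · simp [cnt, up]
      · simp [cnt, up, h3]
      · rw [pow_succ, Nat.mul_comm (2 ^ k) 2]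
        funext x
        cases x <;> simp [cnt, up])
  have h5 : cnt .HS .HSk (up s .TA (un (2 ^ 0))) h 0 = up s .TA (true :: s .TA) := by
    funext x
    cases x <;> simp [cnt, up, hs, h1, h2]
  have h6 : cnt .HS .HSk (up s .TA (un (2 ^ h))) h 0 = up s .TA (un (2 ^ h)) := by
    funext x
    cases x <;> simp [cnt, up, hs, h1]
  rw [h5, h6] at h4
  refine ((sat_push .TA true s).seq h4).congr ?_ rfl
  have h7 : ∑ k ∈ Finset.range h, (11 * 2 ^ k + 2 + 4) ≤ 11 * 2 ^ h + 6 * h := by
    rw [Finset.sum_add_distrib, Finset.sum_add_distrib, ← Finset.mul_sum]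
    have h8 : ∑ k ∈ Finset.range h, 2 ^ k ≤ 2 ^ h := by
      have := Nat.geomSum_lt (m := 2) (n := h) (s := Finset.range h) le_rfl
        (fun k hk => Finset.mem_range.mp hk)
      exact this.le
    simp only [Finset.sum_const, Finset.card_range, smul_eq_mul]
    omega
  have h9 : h < 2 ^ h := Nat.lt_two_pow_self
  omega

/-- push the contents of `TA` on `x`, `n` times -/
def templPush (x : SName) : ℕ → BProg A
  | 0 => skip
  | n + 1 => Prog.seq (templPush x n) (pushLen .TA .Z0 x true)

theorem sat_templPush {x : SName} (hx1 : x ≠ .TA) (hx2 : x ≠ .Z0) {s : St} {a : ℕ}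
    (h1 : s .TA = un a) (h2 : s .Z0 = []) (h3 : s x = []) (n : ℕ) :
    Sat (templPush x n : BProg A) s (n * (11 * a + 2) + 1) (up s x (un (n * a))) := by
  induction n with
  | zero =>
    refine (sat_skip s).congr (by omega) ?_
    have : un (0 * a) = s x := by
      rw [h3, Nat.zero_mul]
      rfl
    rw [this, up_id]
  | succ n ih =>
    have hd : [SName.TA, SName.Z0, x].Nodup := by
      simp only [List.nodup_cons, List.mem_cons, List.not_mem_nil, or_false, not_or,
        not_false_eq_true, List.nodup_nil, and_true]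
      exact ⟨⟨by decide, hx1.symm⟩, hx2.symm⟩
    have h4 := sat_pushLen (A := A) hd true (s := up s x (un (n * a))) (m := a)
      (by rw [up_of_ne _ hx1.symm, h1]) (by rw [up_of_ne _ hx2.symm, h2])
    refine (ih.seq h4).congr ?_ ?_
    · ring_nf
      exact le_rfl
    · rw [up_self, up_up]
      have : List.replicate a true ++ un (n * a) = un ((n + 1) * a) := by
        rw [un_append]
        congr 1
        ring
      rw [this]

/-- `x = un (a * a)` -/
def templSq (x : SName) : BProg A := forC .TA .Z0 (pushLen .TB .Z1 x true)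

theorem sat_templSq {x : SName} (hx : x = .TE ∨ x = .TF) {s : St} {a : ℕ}
    (h1 : s .TA = un a) (h2 : s .TB = un a) (h3 : s .Z0 = []) (h4 : s .Z1 = [])
    (h5 : s x = []) :
    Sat (templSq x : BProg A) s (a * (11 * a + 11) + 2) (up s x (un (a * a))) := by
  have hd : [SName.TA, SName.Z0, x].Nodup := by
    rcases hx with rfl | rfl <;> decide
  have hd2 : [SName.TB, SName.Z1, x].Nodup := by
    rcases hx with rfl | rfl <;> decide
  have hB : SName.TB ≠ x := by
    rcases hx with rfl | rfl <;> decide
  have hZ : SName.Z1 ≠ x := by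
    rcases hx with rfl | rfl <;> decide
  refine (sat_for1 (A := A) (q := 11 * a + 2) (m := a) hd h1 h3 (fun k => un (k * a)) ?_
    ?_).congr le_rfl rfl
  · rw [h5, Nat.zero_mul]
    rfl
  · intro k hk t h6 h7
    refine (sat_pushLen (A := A) hd2 true (s := t) (m := a) ?_ ?_).congr le_rfl ?_
    · rw [h7 .TB (by decide) (by decide) hB, h2]
    · rw [h7 .Z1 (by decide) (by decide) hZ, h4]
    · rw [h6]
      have : List.replicate a true ++ un (k * a) = un ((k + 1) * a) := by
        rw [un_append]
        congr 1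
        ring
      rw [this]

end templ

theorem exists_templ1 (A : TM) : ∃ (P : BProg A) (C : ℕ), ∀ (s : St) (h : ℕ),
    AllNil rest s → s .HS = un h → Sat P s (C * 2 ^ h) (setPar s (2 ^ h) 1) := by
  refine ⟨Prog.seq templPow (Prog.seq (templPush .TB 1) (Prog.seq (templPush .T2 2)
    (Prog.seq (templPush .T12 12) (Prog.seq (push .TQ true) (templPush .TE 1))))), 300, ?_⟩
  intro s h hn hs
  have hTA : s .TA = [] := hn.get (by decide)
  have hTB : s .TB = [] := hn.get (by decide)
  have hT2 : s .T2 = [] := hn.get (by decide)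
  have hT12 : s .T12 = [] := hn.get (by decide)
  have hTQ : s .TQ = [] := hn.get (by decide)
  have hTE : s .TE = [] := hn.get (by decide)
  have hX0 : s .X0 = [] := hn.get (by decide)
  have hZ0 : s .Z0 = [] := hn.get (by decide)
  have hHSk : s .HSk = [] := hn.get (by decide)
  obtain ⟨a, ha⟩ : ∃ a, a = 2 ^ h := ⟨_, rfl⟩
  have ha1 : 1 ≤ a := by rw [ha]; exact Nat.one_le_two_pow
  have e1 := sat_templPow (A := A) hs hHSk hTA hX0
  rw [← ha] at e1 ⊢
  have e2 := sat_templPush (A := A) (x := .TB) (by decide) (by decide) (a := a)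
    (s := up s .TA (un a)) (by simp [up]) (by simp [up, hZ0]) (by simp [up, hTB]) 1
  have e3 := sat_templPush (A := A) (x := .T2) (by decide) (by decide) (a := a)
    (s := up (up s .TA (un a)) .TB (un (1 * a)))
    (by simp [up]) (by simp [up, hZ0]) (by simp [up, hT2]) 2
  have e4 := sat_templPush (A := A) (x := .T12) (by decide) (by decide) (a := a)
    (s := up (up (up s .TA (un a)) .TB (un (1 * a))) .T2 (un (2 * a)))
    (by simp [up]) (by simp [up, hZ0]) (by simp [up, hT12]) 12
  have e5 := sat_push (A := A) .TQ true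
    (up (up (up (up s .TA (un a)) .TB (un (1 * a))) .T2 (un (2 * a))) .T12 (un (12 * a)))
  have e6 := sat_templPush (A := A) (x := .TE) (by decide) (by decide) (a := a)
    (s := up (up (up (up (up s .TA (un a)) .TB (un (1 * a))) .T2 (un (2 * a))) .T12
      (un (12 * a))) .TQ (true ::
      (up (up (up (up s .TA (un a)) .TB (un (1 * a))) .T2 (un (2 * a))) .T12 (un (12 * a))) .TQ))
    (by simp [up]) (by simp [up, hZ0]) (by simp [up, hTE]) 1
  refine (e1.seq (e2.seq (e3.seq (e4.seq (e5.seq e6))))).congr ?_ ?_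
  · omega
  · have : (up (up (up (up s .TA (un a)) .TB (un (1 * a))) .T2 (un (2 * a))) .T12
        (un (12 * a))) .TQ = [] := by simp [up, hTQ]
    rw [this, Nat.one_mul]
    unfold setPar
    rw [Nat.one_mul]
    rfl

theorem exists_templ2 (A : TM) : ∃ (P : BProg A) (C : ℕ), ∀ (s : St) (h : ℕ),
    AllNil rest s → s .HS = un h → Sat P s (C * (2 ^ h) ^ 2) (setPar s (2 ^ h) (2 ^ h)) := by
  refine ⟨Prog.seq templPow (Prog.seq (templPush .TB 1) (Prog.seq (templPush .T2 2)
    (Prog.seq (templPush .T12 12) (Prog.seq (templPush .TQ 1) (templSq .TE))))), 400, ?_⟩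
  intro s h hn hs
  have hTA : s .TA = [] := hn.get (by decide)
  have hTB : s .TB = [] := hn.get (by decide)
  have hT2 : s .T2 = [] := hn.get (by decide)
  have hT12 : s .T12 = [] := hn.get (by decide)
  have hTQ : s .TQ = [] := hn.get (by decide)
  have hTE : s .TE = [] := hn.get (by decide)
  have hX0 : s .X0 = [] := hn.get (by decide)
  have hZ0 : s .Z0 = [] := hn.get (by decide)
  have hZ1 : s .Z1 = [] := hn.get (by decide)
  have hHSk : s .HSk = [] := hn.get (by decide)
  obtain ⟨a, ha⟩ : ∃ a, a = 2 ^ h := ⟨_, rfl⟩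
  have ha1 : 1 ≤ a := by rw [ha]; exact Nat.one_le_two_pow
  have e1 := sat_templPow (A := A) hs hHSk hTA hX0
  rw [← ha] at e1 ⊢
  have e2 := sat_templPush (A := A) (x := .TB) (by decide) (by decide) (a := a)
    (s := up s .TA (un a)) (by simp [up]) (by simp [up, hZ0]) (by simp [up, hTB]) 1
  have e3 := sat_templPush (A := A) (x := .T2) (by decide) (by decide) (a := a)
    (s := up (up s .TA (un a)) .TB (un (1 * a)))
    (by simp [up]) (by simp [up, hZ0]) (by simp [up, hT2]) 2
  have e4 := sat_templPush (A := A) (x := .T12) (by decide) (by decide) (a := a)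
    (s := up (up (up s .TA (un a)) .TB (un (1 * a))) .T2 (un (2 * a)))
    (by simp [up]) (by simp [up, hZ0]) (by simp [up, hT12]) 12
  have e5 := sat_templPush (A := A) (x := .TQ) (by decide) (by decide) (a := a)
    (s := up (up (up (up s .TA (un a)) .TB (un (1 * a))) .T2 (un (2 * a))) .T12 (un (12 * a)))
    (by simp [up]) (by simp [up, hZ0]) (by simp [up, hTQ]) 1
  have e6 := sat_templSq (A := A) (x := .TE) (Or.inl rfl) (a := a)
    (s := up (up (up (up (up s .TA (un a)) .TB (un (1 * a))) .T2 (un (2 * a))) .T12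
      (un (12 * a))) .TQ (un (1 * a)))
    (by simp [up]) (by simp [up]) (by simp [up, hZ0]) (by simp [up, hZ1]) (by simp [up, hTE])
  refine (e1.seq (e2.seq (e3.seq (e4.seq (e5.seq e6))))).congr ?_ ?_
  · have h1 : a ≤ a ^ 2 := by nlinarith
    have h2 : a * (11 * a + 11) = 11 * a ^ 2 + 11 * a := by ring
    rw [h2]
    have h3 : 1 ≤ a ^ 2 := by nlinarith
    omega
  · unfold setPar
    rw [Nat.one_mul]

theorem exists_clearPar (A : TM) : ∃ (P : BProg A) (C : ℕ), ∀ (s : St) (a q : ℕ), 1 ≤ a → 1 ≤ q →
    AllNil rest s → Sat P (setPar s a q) (C * (q * a)) s := by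
  refine ⟨Prog.seq (clear .TA) (Prog.seq (clear .TB) (Prog.seq (clear .T2)
    (Prog.seq (clear .T12) (Prog.seq (clear .TQ) (clear .TE))))), 50, ?_⟩
  intro s a q ha hq hn
  have hTA : s .TA = [] := hn.get (by decide)
  have hTB : s .TB = [] := hn.get (by decide)
  have hT2 : s .T2 = [] := hn.get (by decide)
  have hT12 : s .T12 = [] := hn.get (by decide)
  have hTQ : s .TQ = [] := hn.get (by decide)
  have hTE : s .TE = [] := hn.get (by decide)
  have e := (sat_clear (A := A) .TA (setPar s a q)).seq ((sat_clear .TB _).seq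
    ((sat_clear .T2 _).seq ((sat_clear .T12 _).seq ((sat_clear .TQ _).seq (sat_clear .TE _)))))
  refine e.congr ?_ ?_
  · simp only [setPar, up, un]
    simp only [reduceCtorEq, if_true, if_false, List.length_replicate]
    have h1 : a ≤ q * a := Nat.le_mul_of_pos_left a hq
    have h2 : q ≤ q * a := Nat.le_mul_of_pos_right q ha
    omega
  · funext x
    cases x <;> simp [up, setPar, hTA, hTB, hT2, hT12, hTQ, hTE]

theorem exists_templO (A : TM) : ∃ (P : BProg A) (C : ℕ), ∀ (s : St) (h : ℕ),
    AllNil rest s → s .HS = un h →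
    Sat P s (C * (2 ^ h) ^ 2) (up (up s .TE (un ((2 ^ h) ^ 2))) .TF (un ((2 ^ h) ^ 2))) := by
  refine ⟨Prog.seq templPow (Prog.seq (templPush .TB 1) (Prog.seq (templSq .TE)
    (Prog.seq (templSq .TF) (Prog.seq (clear .TA) (clear .TB))))), 200, ?_⟩
  intro s h hn hs
  have hTA : s .TA = [] := hn.get (by decide)
  have hTB : s .TB = [] := hn.get (by decide)
  have hTE : s .TE = [] := hn.get (by decide)
  have hTF : s .TF = [] := hn.get (by decide)
  have hX0 : s .X0 = [] := hn.get (by decide)
  have hZ0 : s .Z0 = [] := hn.get (by decide)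
  have hZ1 : s .Z1 = [] := hn.get (by decide)
  have hHSk : s .HSk = [] := hn.get (by decide)
  obtain ⟨a, ha⟩ : ∃ a, a = 2 ^ h := ⟨_, rfl⟩
  have ha1 : 1 ≤ a := by rw [ha]; exact Nat.one_le_two_pow
  have e1 := sat_templPow (A := A) hs hHSk hTA hX0
  rw [← ha] at e1 ⊢
  have e2 := sat_templPush (A := A) (x := .TB) (by decide) (by decide) (a := a)
    (s := up s .TA (un a)) (by simp [up]) (by simp [up, hZ0]) (by simp [up, hTB]) 1
  have e3 := sat_templSq (A := A) (x := .TE) (Or.inl rfl) (a := a)
    (s := up (up s .TA (un a)) .TB (un (1 * a)))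
    (by simp [up]) (by simp [up]) (by simp [up, hZ0]) (by simp [up, hZ1]) (by simp [up, hTE])
  have e4 := sat_templSq (A := A) (x := .TF) (Or.inr rfl) (a := a)
    (s := up (up (up s .TA (un a)) .TB (un (1 * a))) .TE (un (a * a)))
    (by simp [up]) (by simp [up]) (by simp [up, hZ0]) (by simp [up, hZ1]) (by simp [up, hTF])
  have e5 := sat_clear (A := A) .TA
    (up (up (up (up s .TA (un a)) .TB (un (1 * a))) .TE (un (a * a))) .TF (un (a * a)))
  have e6 := sat_clear (A := A) .TB
    (up (up (up (up (up s .TA (un a)) .TB (un (1 * a))) .TE (un (a * a))) .TF (un (a * a)))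
      .TA [])
  refine (e1.seq (e2.seq (e3.seq (e4.seq (e5.seq e6))))).congr ?_ ?_
  · simp only [up, un]
    simp only [reduceCtorEq, if_true, if_false, List.length_replicate]
    have h1 : a ≤ a ^ 2 := by nlinarith
    have h2 : a * (11 * a + 11) = 11 * a ^ 2 + 11 * a := by ring
    rw [h2]
    have h3 : 1 ≤ a ^ 2 := by nlinarith
    omega
  · have e : a * a = a ^ 2 := by ring
    rw [e]
    funext x
    cases x <;> simp [up, hTA, hTB]

end Vale.Agent.P338
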