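import Vale.Agent.Lib.P338.POp
import Vale.Agent.Lib.P338.PGenG
import Vale.Agent.Lib.P338.PTempl

/-!
# P338, module PPass: transposition of all chunks

`exists_pass`: `GD` consists of `k` chunks of `a * a` cells of `E = q * a` bits.
```
genG                                                       -- Y = GF a q
whileNE GD (
  forC TA Z0 ( forC TB Z1 ( mvLen TE Z2 GD X0 ) )          -- a chunk, last bit on top
  mvAll X0 D
  op
  mvAll D GO )
mvAll GO GD
clear Y
```
After `j` iterations: `GD = l.drop (j * c)`, `GO = (cat j (fun k => swapF a (q * a) (blk c l k))).reverse`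
with `c = q * a ^ 3` (`a * (a * (q * a)) = c`). `chunkF c f l = cat (l.length / c) _` and
`l.length / c = k`.

-/

namespace Vale.Agent.P338

private theorem pass_for {A : TM} {c c' : SName} {P : BProg A} {w q m : ℕ} {s : St}
    (hd : [c, c', .GD, .X0].Nodup) (hs : s c = un m) (hs' : s c' = [])
    (hl : m * w ≤ (s .GD).length)
    (h : ∀ t : St, (∀ z, z ≠ c → z ≠ c' → z ≠ .GD → z ≠ .X0 → t z = s z) →
      w ≤ (t .GD).length →
      Sat P t q (up (up t .GD ((t .GD).drop w)) .X0 (((t .GD).take w).reverse ++ t .X0))) :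
    Sat (forC c c' P) s (m * (q + 9) + 2)
      (up (up s .GD ((s .GD).drop (m * w))) .X0 (((s .GD).take (m * w)).reverse ++ s .X0)) := by
  refine sat_for2 hd hs hs' (fun k => (s .GD).drop (k * w))
    (fun k => ((s .GD).take (k * w)).reverse ++ s .X0) (by simp) (by simp) ?_
  intro k hk t h1 h2 h3
  have hkw : (k + 1) * w ≤ m * w := Nat.mul_le_mul_right w hk
  have hw : w ≤ (t .GD).length := by
    rw [h1, List.length_drop]
    have : (k + 1) * w = k * w + w := by ring
    omega
  refine (h t h3 hw).congr le_rfl ?_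
  have e1 : (k + 1) * w = k * w + w := by ring
  show _ = up (up t .GD ((s .GD).drop ((k + 1) * w))) .X0
    (((s .GD).take ((k + 1) * w)).reverse ++ s .X0)
  rw [h1, h2, e1, List.drop_drop, List.take_add, List.reverse_append, List.append_assoc]

/-- load one chunk -/
private def loadP (A : TM) : BProg A := forC .TA .Z0 (forC .TB .Z1 (mvLen .TE .Z2 .GD .X0))

private theorem sat_loadP {A : TM} {s : St} {a q : ℕ} (hT : AllNil temps s) (hP : Par a q s)
    (hl : a * (a * (q * a)) ≤ (s .GD).length) :
    Sat (loadP A) s (a * ((a * ((13 * (q * a) + 2) + 9) + 2) + 9) + 2)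
      (up (up s .GD ((s .GD).drop (a * (a * (q * a))))) .X0
        (((s .GD).take (a * (a * (q * a)))).reverse ++ s .X0)) := by
  refine pass_for (by decide) hP.TA (hT.get (by decide)) hl ?_
  intro t ht hw
  refine pass_for (by decide) ?_ ?_ hw ?_
  · rw [ht _ (by decide) (by decide) (by decide) (by decide)]; exact hP.TB
  · rw [ht _ (by decide) (by decide) (by decide) (by decide)]; exact hT.get (by decide)
  intro t' ht' hw'
  refine sat_mvLen (by decide) ?_ ?_ hw'
  · rw [ht' _ (by decide) (by decide) (by decide) (by decide),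
      ht _ (by decide) (by decide) (by decide) (by decide)]; exact hP.TE
  · rw [ht' _ (by decide) (by decide) (by decide) (by decide),
      ht _ (by decide) (by decide) (by decide) (by decide)]; exact hT.get (by decide)

/-- the body of the main loop -/
private def bodyP {A : TM} (op : BProg A) : BProg A :=
  Prog.seq (loadP A) (Prog.seq (mvAll .X0 .D) (Prog.seq op (mvAll .D .GO)))

private theorem sat_bodyP {A : TM} {op : BProg A} {n : ℕ} {t : St} {a q h : ℕ}
    (hop : ∀ s : St, AllNil temps s → Par a q s → s .HS = un h →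
      s .SV = [] → s .Y = GF a q → (s .D).length = q * a ^ 3 →
      Sat op s n (up s .D (swapF a (q * a) (s .D))))
    (hT : AllNil temps t) (hP : Par a q t) (hHS : t .HS = un h) (hSV : t .SV = [])
    (hY : t .Y = GF a q) (hD : t .D = []) (hl : q * a ^ 3 ≤ (t .GD).length)
    {ld : ℕ} (hld : a * ((a * ((13 * (q * a) + 2) + 9) + 2) + 9) + 2 ≤ ld) :
    Sat (bodyP op) t (ld + 10 * (q * a ^ 3) + 2 + n)
      (up (up t .GD ((t .GD).drop (q * a ^ 3))) .GO
        ((swapF a (q * a) ((t .GD).take (q * a ^ 3))).reverse ++ t .GO)) := by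
  have hc : a * (a * (q * a)) = q * a ^ 3 := by ring
  have hX0 : t .X0 = [] := hT.get (by decide)
  have h1 := sat_loadP (A := A) hT hP (by rw [hc]; exact hl)
  rw [hc, hX0, List.append_nil] at h1
  set t1 : St := up (up t .GD ((t .GD).drop (q * a ^ 3))) .X0
    ((t .GD).take (q * a ^ 3)).reverse with ht1
  have h2 := sat_mvAll (A := A) (x := .X0) (y := .D) (by decide) t1
  have e2 : up (up t1 .X0 []) .D ((t1 .X0).reverse ++ t1 .D) =
      up (up t .GD ((t .GD).drop (q * a ^ 3))) .D ((t .GD).take (q * a ^ 3)) := by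
    funext x
    have e3 : t1 .X0 = ((t .GD).take (q * a ^ 3)).reverse := by rw [ht1, up_self]
    have e4 : t1 .D = [] := by
      rw [ht1, up_of_ne _ (by decide), up_of_ne _ (by decide)]; exact hD
    rw [e3, e4, ht1, List.reverse_reverse, List.append_nil, up_up]
    simp only [up]
    split_ifs <;> simp_all
  rw [e2] at h2
  set t2 : St := up (up t .GD ((t .GD).drop (q * a ^ 3))) .D ((t .GD).take (q * a ^ 3)) with ht2
  have hlen : ((t .GD).take (q * a ^ 3)).length = q * a ^ 3 := by
    rw [List.length_take]; omega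
  have ht2D : t2 .D = (t .GD).take (q * a ^ 3) := by rw [ht2, up_self]
  have h3 := hop t2 ((hT.up (by decide) _).up (by decide) _) ((hP.up (by decide) _).up (by decide) _)
    (by rw [ht2, up_of_ne _ (by decide), up_of_ne _ (by decide)]; exact hHS)
    (by rw [ht2, up_of_ne _ (by decide), up_of_ne _ (by decide)]; exact hSV)
    (by rw [ht2, up_of_ne _ (by decide), up_of_ne _ (by decide)]; exact hY)
    (by rw [ht2D]; exact hlen)
  set t3 : St := up t2 .D (swapF a (q * a) (t2 .D)) with ht3
  have h4 := sat_mvAll (A := A) (x := .D) (y := .GO) (by decide) t3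
  have ht3D : t3 .D = swapF a (q * a) ((t .GD).take (q * a ^ 3)) := by rw [ht3, up_self, ht2D]
  have hl3 : (t3 .D).length = q * a ^ 3 := by
    rw [ht3D, length_swapF (by rw [hlen]; ring), hlen]
  have hl1 : (t1 .X0).length = q * a ^ 3 := by
    rw [ht1, up_self, List.length_reverse, hlen]
  rw [hl3] at h4
  rw [hl1] at h2
  refine (h1.seq (h2.seq (h3.seq h4))).congr (by omega) ?_
  rw [ht3D]
  have e5 : t3 .GO = t .GO := by
    rw [ht3, up_of_ne _ (by decide), ht2, up_of_ne _ (by decide), up_of_ne _ (by decide)]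
  rw [e5, ht3, ht2, up_up]
  funext x
  simp only [up]
  split_ifs <;> simp_all

theorem exists_pass (A : TM) (hA : A.Multiplies) : ∃ (P : BProg A) (C : ℕ), ∀ (s : St)
    (a q h k : ℕ), 1 ≤ h → a = 2 ^ h → 1 ≤ q → 1 ≤ k → AllNil temps s → Par a q s →
    s .HS = un h → s .D = [] → s .Y = [] → s .GO = [] → s .SV = [] →
    (s .GD).length = k * (q * a ^ 3) →
    Sat P s (C * (k * (q * a ^ 3 +
        min (A.mulTime (14 * (q * a ^ 3))) (h * (14 * (q * a ^ 3))))))
      (up s .GD (chunkF (q * a ^ 3) (swapF a (q * a)) (s .GD))) := by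
  obtain ⟨PG, CG, hG⟩ := exists_genG A
  obtain ⟨PO, CO, hO⟩ := exists_op A hA
  refine ⟨Prog.seq PG (Prog.seq (whileNE .GD (bodyP PO)) (Prog.seq (mvAll .GO .GD) (clear .Y))),
    CG + (37 + 10 + 3 + CO) + 1 + 5 + 1 + 28 + 1, ?_⟩
  intro s a q h k hh ha hq hk hT hP hHS hD hY hGO hSV hlen
  have ha2 : 2 ≤ a := by
    rw [ha]
    calc 2 = 2 ^ 1 := rfl
      _ ≤ 2 ^ h := Nat.pow_le_pow_right (by norm_num) hh
  obtain ⟨c, hc⟩ : ∃ c, c = q * a ^ 3 := ⟨_, rfl⟩
  obtain ⟨m, hm⟩ : ∃ m, m = min (A.mulTime (14 * (q * a ^ 3))) (h * (14 * (q * a ^ 3))) := ⟨_, rfl⟩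
  obtain ⟨l, hl⟩ : ∃ l, l = s .GD := ⟨_, rfl⟩
  have hcpos : 1 ≤ c := by
    rw [hc]
    exact Nat.mul_pos hq (pow_pos (by omega) 3)
  -- cost of loading
  have hload : a * ((a * ((13 * (q * a) + 2) + 9) + 2) + 9) + 2 ≤ 37 * c := by
    have h1 : a * ((a * ((13 * (q * a) + 2) + 9) + 2) + 9) + 2 =
        13 * (q * a ^ 3) + 11 * a ^ 2 + 11 * a + 2 := by ring
    have h2 : a ^ 2 ≤ q * a ^ 3 := by
      calc a ^ 2 = 1 * a ^ 2 := by ring
        _ ≤ (q * a) * a ^ 2 := Nat.mul_le_mul_right _ (Nat.mul_pos hq (by omega))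
        _ = q * a ^ 3 := by ring
    have h3 : a ≤ a ^ 2 := by nlinarith
    rw [h1, ← hc]
    rw [← hc] at h2
    omega
  -- the states of the loop
  have hg := hG s a q ha2 hq hT hP hD hY
  rw [← hc] at hg
  set st : ℕ → St := fun j => up (up (up s .Y (GF a q)) .GD (l.drop (j * c))) .GO
    (cat j (fun i => swapF a (q * a) (blk c l i))).reverse with hst
  have e0 : up s .Y (GF a q) = st 0 := by
    show _ = up (up (up s .Y (GF a q)) .GD (l.drop (0 * c))) .GO
      (cat 0 (fun i => swapF a (q * a) (blk c l i))).reverse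
    rw [cat_zero, zero_mul, List.drop_zero, hl, List.reverse_nil]
    funext x
    simp only [up]
    split_ifs <;> simp_all
  rw [e0] at hg
  have hlc : l.length = k * c := by rw [hl, hlen, hc]
  have stGD : ∀ j, st j .GD = l.drop (j * c) := by
    intro j
    show up (up (up s .Y (GF a q)) .GD (l.drop (j * c))) .GO _ .GD = _
    rw [up_of_ne _ (by decide), up_self]
  have hw := sat_while' (A := A) .GD (bodyP PO) st (37 * c + 10 * c + 2 + CO * (c + m)) k
    (by
      intro j hj
      rw [stGD j]
      intro h0
      have h1 := congrArg List.length h0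
      rw [List.length_drop, hlc, List.length_nil] at h1
      have h2 : (j + 1) * c ≤ k * c := Nat.mul_le_mul_right c hj
      have h3 : (j + 1) * c = j * c + c := by ring
      omega)
    (by
      rw [stGD k, List.drop_eq_nil_iff, hlc])
    (by
      intro j hj
      have h2 : (j + 1) * c ≤ k * c := Nat.mul_le_mul_right c hj
      have h3 : (j + 1) * c = j * c + c := by ring
      have hb := sat_bodyP (A := A) (op := PO) (n := CO * (c + m)) (t := st j) (a := a) (q := q)
        (h := h) (by
          intro s' g1 g2 g3 g4 g5 g6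
          have := hO s' a q h hh ha hq g1 g2 g3 g4 g5 g6
          rw [← hm, ← hc] at this
          exact this)
        (((hT.up (by decide) _).up (by decide) _).up (by decide) _)
        (((hP.up (by decide) _).up (by decide) _).up (by decide) _)
        (by
          show up (up (up s .Y (GF a q)) .GD (l.drop (j * c))) .GO _ .HS = _
          rw [up_of_ne _ (by decide), up_of_ne _ (by decide), up_of_ne _ (by decide)]
          exact hHS)
        (by
          show up (up (up s .Y (GF a q)) .GD (l.drop (j * c))) .GO _ .SV = _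
          rw [up_of_ne _ (by decide), up_of_ne _ (by decide), up_of_ne _ (by decide)]
          exact hSV)
        (by
          show up (up (up s .Y (GF a q)) .GD (l.drop (j * c))) .GO _ .Y = _
          rw [up_of_ne _ (by decide), up_of_ne _ (by decide), up_self])
        (by
          show up (up (up s .Y (GF a q)) .GD (l.drop (j * c))) .GO _ .D = _
          rw [up_of_ne _ (by decide), up_of_ne _ (by decide), up_of_ne _ (by decide)]
          exact hD)
        (by
          rw [stGD j, List.length_drop, hlc, ← hc]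
          omega)
        hload
      rw [← hc] at hb
      refine hb.congr le_rfl ?_
      rw [stGD j]
      have e1 : st j .GO = (cat j (fun i => swapF a (q * a) (blk c l i))).reverse := by
        show up (up (up s .Y (GF a q)) .GD (l.drop (j * c))) .GO _ .GO = _
        rw [up_self]
      rw [e1]
      show _ = up (up (up s .Y (GF a q)) .GD (l.drop ((j + 1) * c))) .GO
        (cat (j + 1) (fun i => swapF a (q * a) (blk c l i))).reverse
      rw [cat_succ, List.drop_drop, ← h3]
      show up (up (up (up (up s .Y (GF a q)) .GD (l.drop (j * c))) .GO _) .GD _) .GO _ = _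
      have e2 : (l.drop (j * c)).take c = blk c l j := rfl
      rw [e2, up_comm _ (show SName.GO ≠ .GD by decide), up_up, up_up]
      congr 1
      rw [List.reverse_append])
  -- the end
  have hdivk : l.length / c = k := by
    rw [hlc]
    exact Nat.mul_div_cancel k hcpos
  have hfin : cat k (fun i => swapF a (q * a) (blk c l i)) = chunkF c (swapF a (q * a)) l := by
    rw [chunkF, hdivk]
  have stGO : st k .GO = (chunkF c (swapF a (q * a)) l).reverse := by
    show up (up (up s .Y (GF a q)) .GD (l.drop (k * c))) .GO _ .GO = _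
    rw [up_self, hfin]
  have hlenGO : (st k .GO).length = k * c := by
    rw [stGO, List.length_reverse, length_chunkF hcpos ?_ ?_, hlc]
    · intro x hx
      rw [length_swapF (by rw [hx, hc]; ring), hx]
    · rw [hlc]; exact Dvd.intro_left k rfl
  have h5 := sat_mvAll (A := A) (x := .GO) (y := .GD) (by decide) (st k)
  rw [hlenGO, stGO, List.reverse_reverse] at h5
  have stGDk : st k .GD = [] := by rw [stGD k, List.drop_eq_nil_iff, hlc]
  rw [stGDk, List.append_nil] at h5
  set u : St := up (up (st k) .GO []) .GD (chunkF c (swapF a (q * a)) l) with hu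
  have h6 := sat_clear (A := A) .Y u
  have hYu : u .Y = GF a q := by
    rw [hu, up_of_ne _ (by decide), up_of_ne _ (by decide)]
    show up (up (up s .Y (GF a q)) .GD (l.drop (k * c))) .GO _ .Y = _
    rw [up_of_ne _ (by decide), up_of_ne _ (by decide), up_self]
  rw [hYu, length_GF ha2 hq, ← hc] at h6
  refine (hg.seq (hw.seq (h5.seq h6))).congr ?_ ?_
  · rw [← hm, ← hc]
    have k1 : c ≤ k * (c + m) := by nlinarith
    have k2 : k * c ≤ k * (c + m) := Nat.mul_le_mul_left k (by omega)
    have k3 : k ≤ k * (c + m) := Nat.le_mul_of_pos_right k (by omega)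
    have k4 : 1 ≤ k * (c + m) := le_trans hk k3
    have k5 : CG * c ≤ CG * (k * (c + m)) := Nat.mul_le_mul_left CG k1
    have k6 : k * (37 * c + 10 * c + 2 + CO * (c + m) + 1) =
        47 * (k * c) + 3 * k + CO * (k * (c + m)) := by ring
    rw [k6]
    generalize k * (c + m) = M at *
    have k7 : (CG + (37 + 10 + 3 + CO) + 1 + 5 + 1 + 28 + 1) * M =
        CG * M + CO * M + 86 * M := by ring
    rw [k7]
    generalize k * c = kc at *
    generalize CG * M = x1 at *
    generalize CO * M = x2 at *
    generalize CG * c = x3 at *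
    omega
  · rw [hu, ← hc, ← hl]
    show up (up (up (up (up (up s .Y (GF a q)) .GD (l.drop (k * c))) .GO _) .GO []) .GD _) .Y [] = _
    funext x
    cases x <;> first | rfl | exact hY.symm | exact hGO.symm

end Vale.Agent.P338
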