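import Vale.Agent.Lib.P338.Macro
import Vale.Agent.Lib.P338.MLists

/-!
# P338, module PShear: programs for `shearP` and `shearM`

The stack `D` contains `a` rows of `a` cells of `E = q * a` bits, first bit on top; `TA = TB = un a`,
`TE = un E`. Program for `shearP`:
```
pushLen TA Z0 RC true                      -- RC = un a, RCc = []
forC TB Z0 (                               -- row i: RC = un (a - i), RCc = un i
  forC RC Z1 (mvLen TE Z2 D X0)            -- first a - i cells: D -> X0
  forC RCc Z1 (mvLen TE Z2 D O)            -- last i cells: D -> O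
  mvAll X0 X1
  mvAll X1 O
  mv RC RCc )
clear RCc
mvAll O D
```
After each row `O` has received `(row.drop ((a - i) * E) ++ row.take ((a - i) * E)).reverse`, i.e.
`O = (cat i ...).reverse` after `i` rows (`cat_succ`), and `D` is `l.drop (i * (a * E))`; use
`sat_for` with `inv i = up (up (up (up s .RC (un (a - i))) .RCc (un i)) .O ..) .D ..`.
For `shearM` start with `RC = []`, `RCc = un a`; the row is the same, followed by `mv RCc RC`, and
finally `clear RC`. The cost of a row is `≤ C * (a * E)`.
-/

namespace Vale.Agent.P338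

section shear

variable {A : TM}

/-- move `r` cells, where `c` has the contents `un r` and `e` has the contents `un E` -/
theorem shear_mvCells {c c1 e e' x y : SName} (hd : [c, c1, e, e', x, y].Nodup) {s : St} {r E : ℕ}
    (hc : s c = un r) (hc1 : s c1 = []) (he : s e = un E) (he' : s e' = [])
    (hl : r * E ≤ (s x).length) :
    Sat (forC c c1 (mvLen e e' x y) : BProg A) s (r * (13 * E + 2 + 9) + 2)
      (up (up s x ((s x).drop (r * E))) y (((s x).take (r * E)).reverse ++ s y)) := by
  simp only [List.nodup_cons, List.mem_cons, List.not_mem_nil, or_false, not_or,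
    List.nodup_nil, and_true, not_false_eq_true] at hd
  obtain ⟨⟨h1, h2, h3, h4, h5⟩, ⟨h6, h7, h8, h9⟩, ⟨h10, h11, h12⟩, ⟨h13, h14⟩, h15⟩ := hd
  refine sat_for2 (q := 13 * E + 2) (x := x) (y := y) ?_ hc hc1 (fun k => (s x).drop (k * E))
    (fun k => ((s x).take (k * E)).reverse ++ s y) (by simp) (by simp) ?_
  · simp only [List.nodup_cons, List.mem_cons, List.not_mem_nil, or_false, not_or,
      List.nodup_nil, and_true, not_false_eq_true]
    exact ⟨⟨h1, h4, h5⟩, ⟨h8, h9⟩, h15⟩
  · intro k hk t ht1 ht2 ht3
    have hte : t e = un E := by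
      rw [ht3 e (Ne.symm h2) (Ne.symm h6) h11 h12, he]
    have hte' : t e' = [] := by
      rw [ht3 e' (Ne.symm h3) (Ne.symm h7) h13 h14, he']
    have hkE : k * E + E ≤ r * E := by
      calc k * E + E = (k + 1) * E := by ring
        _ ≤ r * E := Nat.mul_le_mul_right _ hk
    refine (sat_mvLen (m := E) ?_ hte hte' ?_).congr le_rfl ?_
    · simp only [List.nodup_cons, List.mem_cons, List.not_mem_nil, or_false, not_or,
        List.nodup_nil, and_true, not_false_eq_true]
      exact ⟨⟨h10, h11, h12⟩, ⟨h13, h14⟩, h15⟩
    · rw [ht1, List.length_drop]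
      omega
    · rw [ht1, ht2, List.drop_drop]
      have e1 : (k + 1) * E = k * E + E := by ring
      show _ = up (up t x ((s x).drop ((k + 1) * E))) y
        (((s x).take ((k + 1) * E)).reverse ++ s y)
      rw [e1, List.take_add, List.reverse_append, List.append_assoc]

/-- one row: the first `r` cells are moved to the end of the row -/
def shearRow : BProg A :=
  Prog.seq (forC .RC .Z1 (mvLen .TE .Z2 .D .X0))
    (Prog.seq (forC .RCc .Z1 (mvLen .TE .Z2 .D .O))
      (Prog.seq (mvAll .X0 .X1) (mvAll .X1 .O)))

/-- the row, rotated -/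
def shearRot (n : ℕ) (x : List Bool) : List Bool := x.drop n ++ x.take n

theorem sat_shearRow {s : St} {r r' E : ℕ} (hRC : s .RC = un r) (hRCc : s .RCc = un r')
    (hTE : s .TE = un E) (hZ1 : s .Z1 = []) (hZ2 : s .Z2 = []) (hX0 : s .X0 = [])
    (hX1 : s .X1 = []) (hl : (r + r') * E ≤ (s .D).length) :
    Sat (shearRow : BProg A) s (24 * ((r + r') * E) + 11 * (r + r') + 6)
      (up (up s .D ((s .D).drop ((r + r') * E))) .O
        ((shearRot (r * E) ((s .D).take ((r + r') * E))).reverse ++ s .O)) := by
  have hadd : (r + r') * E = r * E + r' * E := Nat.add_mul _ _ _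
  have h1 := shear_mvCells (A := A) (c := .RC) (c1 := .Z1) (e := .TE) (e' := .Z2) (x := .D)
    (y := .X0) (by decide) hRC hZ1 hTE hZ2 (by omega)
  have h2 := shear_mvCells (A := A) (c := .RCc) (c1 := .Z1) (e := .TE) (e' := .Z2) (x := .D)
    (y := .O) (s := up (up s .D ((s .D).drop (r * E))) .X0 (((s .D).take (r * E)).reverse ++ s .X0))
    (r := r') (E := E) (by decide) (by simp [up, hRCc]) (by simp [up, hZ1]) (by simp [up, hTE])
    (by simp [up, hZ2]) (by simp [up]; omega)
  have h3 := sat_mvAll (A := A) (x := .X0) (y := .X1) (by decide)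
    (up (up (up (up s .D ((s .D).drop (r * E))) .X0 (((s .D).take (r * E)).reverse ++ s .X0)) .D
      (((up (up s .D ((s .D).drop (r * E))) .X0 (((s .D).take (r * E)).reverse ++ s .X0)) .D).drop
        (r' * E))) .O ((((up (up s .D ((s .D).drop (r * E))) .X0
          (((s .D).take (r * E)).reverse ++ s .X0)) .D).take (r' * E)).reverse ++
          (up (up s .D ((s .D).drop (r * E))) .X0 (((s .D).take (r * E)).reverse ++ s .X0)) .O))
  have h4 := sat_mvAll (A := A) (x := .X1) (y := .O) (by decide)
    (up (up (up (up (up (up s .D ((s .D).drop (r * E))) .X0 (((s .D).take (r * E)).reverse ++ s .X0)) .D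
      (((up (up s .D ((s .D).drop (r * E))) .X0 (((s .D).take (r * E)).reverse ++ s .X0)) .D).drop
        (r' * E))) .O ((((up (up s .D ((s .D).drop (r * E))) .X0
          (((s .D).take (r * E)).reverse ++ s .X0)) .D).take (r' * E)).reverse ++
          (up (up s .D ((s .D).drop (r * E))) .X0 (((s .D).take (r * E)).reverse ++ s .X0)) .O))
          .X0 []) .X1 (((up (up (up (up s .D ((s .D).drop (r * E))) .X0 (((s .D).take (r * E)).reverse ++ s .X0)) .D
      (((up (up s .D ((s .D).drop (r * E))) .X0 (((s .D).take (r * E)).reverse ++ s .X0)) .D).drop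
        (r' * E))) .O ((((up (up s .D ((s .D).drop (r * E))) .X0
          (((s .D).take (r * E)).reverse ++ s .X0)) .D).take (r' * E)).reverse ++
          (up (up s .D ((s .D).drop (r * E))) .X0 (((s .D).take (r * E)).reverse ++ s .X0)) .O))
          .X0).reverse ++ (up (up (up (up s .D ((s .D).drop (r * E))) .X0 (((s .D).take (r * E)).reverse ++ s .X0)) .D
      (((up (up s .D ((s .D).drop (r * E))) .X0 (((s .D).take (r * E)).reverse ++ s .X0)) .D).drop
        (r' * E))) .O ((((up (up s .D ((s .D).drop (r * E))) .X0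
          (((s .D).take (r * E)).reverse ++ s .X0)) .D).take (r' * E)).reverse ++
          (up (up s .D ((s .D).drop (r * E))) .X0 (((s .D).take (r * E)).reverse ++ s .X0)) .O))
          .X1))
  have h5 := h1.seq (h2.seq (h3.seq h4))
  refine h5.congr ?_ ?_
  · have hE1 : min (r * E) (s .D).length = r * E := by omega
    simp [up, hX0, hX1, hE1, hadd]
    ring_nf
    omega
  · have ht : ((s .D).take ((r + r') * E)).take (r * E) = (s .D).take (r * E) := by
      rw [List.take_take]
      congr 1
      omega
    have hdr : ((s .D).take ((r + r') * E)).drop (r * E) = ((s .D).drop (r * E)).take (r' * E) := by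
      rw [List.drop_take]
      congr 1
      omega
    unfold shearRot
    rw [ht, hdr, hadd]
    funext z
    simp only [up]
    split_ifs <;> simp_all

/-- the state after `i` rows of `shearP` (`u = a - i`, `v = i`) or `shearM` (`u = i`, `v = a - i`) -/
def shearInv (s : St) (u v : ℕ) (o d : List Bool) : St :=
  up (up (up (up s .RC (un u)) .RCc (un v)) .O o) .D d

theorem shear_len (a q i : ℕ) (hi : i < a) : i * (a * (q * a)) + a * (q * a) ≤ q * a ^ 3 := by
  calc i * (a * (q * a)) + a * (q * a) = (i + 1) * (a * (q * a)) := by ring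
    _ ≤ a * (a * (q * a)) := Nat.mul_le_mul_right _ hi
    _ = q * a ^ 3 := by ring

theorem shear_row_step {s : St} {a q i u v : ℕ} (hi : i < a) (huv : u + v = a)
    (hn : AllNil temps s) (hp : Par a q s) (hlen : (s .D).length = q * a ^ 3)
    (g : ℕ → List Bool)
    (hg : g i = shearRot (u * (q * a)) (blk (a * (q * a)) (s .D) i)) (m j : ℕ) :
    Sat (shearRow : BProg A)
      (cnt .TB .Z0 (shearInv s u v (cat i g).reverse ((s .D).drop (i * (a * (q * a))))) m j)
      (24 * (a * (q * a)) + 11 * a + 6)
      (cnt .TB .Z0 (shearInv s u v (cat (i + 1) g).reverse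
        ((s .D).drop ((i + 1) * (a * (q * a))))) m j) := by
  have hl := shear_len a q i hi
  have h1 := sat_shearRow (A := A) (r := u) (r' := v) (E := q * a)
    (s := cnt .TB .Z0 (shearInv s u v (cat i g).reverse ((s .D).drop (i * (a * (q * a))))) m j)
    (by simp [cnt, shearInv, up]) (by simp [cnt, shearInv, up])
    (by simp [cnt, shearInv, up, hp.TE])
    (by simp [cnt, shearInv, up, hn.get (x := .Z1) (by decide)])
    (by simp [cnt, shearInv, up, hn.get (x := .Z2) (by decide)])
    (by simp [cnt, shearInv, up, hn.get (x := .X0) (by decide)])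
    (by simp [cnt, shearInv, up, hn.get (x := .X1) (by decide)])
    (by
      simp only [cnt, shearInv, up, huv]
      simp
      omega)
  rw [huv] at h1
  refine h1.congr le_rfl ?_
  have e1 : (i + 1) * (a * (q * a)) = i * (a * (q * a)) + a * (q * a) := by ring
  rw [cat_succ, List.reverse_append, hg, e1, ← List.drop_drop]
  funext z
  simp only [cnt, shearInv, up, blk]
  split_ifs <;> simp_all

/-- the program for `shearP` -/
def progShearP : BProg A :=
  Prog.seq (pushLen .TA .Z0 .RC true)
    (Prog.seq (forC .TB .Z0 (Prog.seq shearRow (mv .RC .RCc)))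
      (Prog.seq (clear .RCc) (mvAll .O .D)))

/-- the program for `shearM` -/
def progShearM : BProg A :=
  Prog.seq (pushLen .TA .Z0 .RCc true)
    (Prog.seq (forC .TB .Z0 (Prog.seq shearRow (mv .RCc .RC)))
      (Prog.seq (clear .RC) (mvAll .O .D)))

theorem shear_cost {a q : ℕ} (ha : 1 ≤ a) (hq : 1 ≤ q) :
    11 * a + 2 + (a * (24 * (a * (q * a)) + 11 * a + 6 + 4 + 9) + 2 +
      (2 * a + 1 + (5 * (q * a ^ 3) + 1))) ≤ 100 * (q * a ^ 3) := by
  have h1 : a ^ 3 ≤ q * a ^ 3 := Nat.le_mul_of_pos_left _ hq
  have h2 : a ^ 2 ≤ a ^ 3 := Nat.pow_le_pow_right ha (by omega)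
  have h3 : a ≤ a ^ 2 := by
    calc a = a ^ 1 := (pow_one a).symm
      _ ≤ a ^ 2 := Nat.pow_le_pow_right ha (by omega)
  have h4 : a * (24 * (a * (q * a)) + 11 * a + 6 + 4 + 9) = 24 * (q * a ^ 3) + 11 * a ^ 2 + 19 * a := by
    ring
  rw [h4]
  omega

end shear

theorem exists_shearP (A : TM) : ∃ (P : BProg A) (C : ℕ), ∀ (s : St) (a q : ℕ), 1 ≤ a → 1 ≤ q →
    AllNil temps s → Par a q s → (s .D).length = q * a ^ 3 →
    Sat P s (C * (q * a ^ 3)) (up s .D (shearP a (q * a) (s .D))) := by
  refine ⟨progShearP, 100, ?_⟩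
  intro s a q ha hq hn hp hlen
  set g : ℕ → List Bool := fun i => shearRot ((a - i) * (q * a)) (blk (a * (q * a)) (s .D) i) with hg
  have hcat : cat a g = shearP a (q * a) (s .D) := rfl
  have hRC : s .RC = [] := hn.get (x := .RC) (by decide)
  have hRCc : s .RCc = [] := hn.get (x := .RCc) (by decide)
  have hZ0 : s .Z0 = [] := hn.get (x := .Z0) (by decide)
  have hO : s .O = [] := hn.get (x := .O) (by decide)
  have h1 := sat_pushLen (A := A) (c := .TA) (c' := .Z0) (x := .RC) (by decide) true hp.TA hZ0
  have h2 : Sat (forC .TB .Z0 (Prog.seq shearRow (mv .RC .RCc)) : BProg A) _ _ _ :=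
    sat_for (c := .TB) (c' := .Z0) (P := Prog.seq shearRow (mv .RC .RCc))
    (s := up s .RC (List.replicate a true ++ s .RC)) (q := 24 * (a * (q * a)) + 11 * a + 6 + 4)
    (m := a) (by decide) (by simp [up, hp.TB]) (by simp [up, hZ0])
    (fun i => shearInv s (a - i) i (cat i g).reverse ((s .D).drop (i * (a * (q * a)))))
    (by
      funext z
      simp only [shearInv, up, cat_zero]
      split_ifs <;> simp_all)
    (by simp [shearInv, up, hp.TB]) (by simp [shearInv, up, hZ0])
    (by
      intro i hi
      refine ((shear_row_step (A := A) (q := q) (u := a - i) (v := i) hi (by omega) hn hp hlen g rfl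
        (a - (i + 1)) (i + 1)).seq (sat_mv (x := .RC) (y := .RCc) (b := true)
          (l := un (a - (i + 1))) (by decide) ?_)).congr le_rfl ?_
      · have e : a - i = (a - (i + 1)) + 1 := by omega
        simp only [cnt, shearInv, up]
        simp
        rw [e, un_succ]
      · funext z
        simp only [cnt, shearInv, up]
        split_ifs <;> simp_all [un_succ])
  have h3 := sat_clear (A := A) .RCc
    (shearInv s (a - a) a (cat a g).reverse ((s .D).drop (a * (a * (q * a)))))
  have h4 := sat_mvAll (A := A) (x := .O) (y := .D) (by decide)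
    (up (shearInv s (a - a) a (cat a g).reverse ((s .D).drop (a * (a * (q * a))))) .RCc [])
  have hlcat : (cat a g).length = q * a ^ 3 := by
    rw [hcat, length_shearP, hlen]
    rw [hlen]; ring
  refine (h1.seq (h2.seq (h3.seq h4))).congr ?_ ?_
  · refine le_trans (le_of_eq ?_) (shear_cost ha hq)
    simp [shearInv, up, hlcat]
  · have hdrop : (s .D).drop (a * (a * (q * a))) = [] := by
      apply List.drop_eq_nil_of_le
      rw [hlen]
      apply le_of_eq
      ring
    funext z
    simp only [shearInv, up, hdrop, ← hcat]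
    split_ifs <;> simp_all

theorem exists_shearM (A : TM) : ∃ (P : BProg A) (C : ℕ), ∀ (s : St) (a q : ℕ), 1 ≤ a → 1 ≤ q →
    AllNil temps s → Par a q s → (s .D).length = q * a ^ 3 →
    Sat P s (C * (q * a ^ 3)) (up s .D (shearM a (q * a) (s .D))) := by
  refine ⟨progShearM, 100, ?_⟩
  intro s a q ha hq hn hp hlen
  set g : ℕ → List Bool := fun i => shearRot (i * (q * a)) (blk (a * (q * a)) (s .D) i) with hg
  have hcat : cat a g = shearM a (q * a) (s .D) := rfl
  have hRC : s .RC = [] := hn.get (x := .RC) (by decide)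
  have hRCc : s .RCc = [] := hn.get (x := .RCc) (by decide)
  have hZ0 : s .Z0 = [] := hn.get (x := .Z0) (by decide)
  have hO : s .O = [] := hn.get (x := .O) (by decide)
  have h1 := sat_pushLen (A := A) (c := .TA) (c' := .Z0) (x := .RCc) (by decide) true hp.TA hZ0
  have h2 : Sat (forC .TB .Z0 (Prog.seq shearRow (mv .RCc .RC)) : BProg A) _ _ _ :=
    sat_for (c := .TB) (c' := .Z0) (P := Prog.seq shearRow (mv .RCc .RC))
    (s := up s .RCc (List.replicate a true ++ s .RCc)) (q := 24 * (a * (q * a)) + 11 * a + 6 + 4)
    (m := a) (by decide) (by simp [up, hp.TB]) (by simp [up, hZ0])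
    (fun i => shearInv s i (a - i) (cat i g).reverse ((s .D).drop (i * (a * (q * a)))))
    (by
      funext z
      simp only [shearInv, up, cat_zero]
      split_ifs <;> simp_all)
    (by simp [shearInv, up, hp.TB]) (by simp [shearInv, up, hZ0])
    (by
      intro i hi
      refine ((shear_row_step (A := A) (q := q) (u := i) (v := a - i) hi (by omega) hn hp hlen g rfl
        (a - (i + 1)) (i + 1)).seq (sat_mv (x := .RCc) (y := .RC) (b := true)
          (l := un (a - (i + 1))) (by decide) ?_)).congr le_rfl ?_
      · have e : a - i = (a - (i + 1)) + 1 := by omega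
        simp only [cnt, shearInv, up]
        simp
        rw [e, un_succ]
      · funext z
        simp only [cnt, shearInv, up]
        split_ifs <;> simp_all [un_succ])
  have h3 := sat_clear (A := A) .RC
    (shearInv s a (a - a) (cat a g).reverse ((s .D).drop (a * (a * (q * a)))))
  have h4 := sat_mvAll (A := A) (x := .O) (y := .D) (by decide)
    (up (shearInv s a (a - a) (cat a g).reverse ((s .D).drop (a * (a * (q * a))))) .RC [])
  have hlcat : (cat a g).length = q * a ^ 3 := by
    rw [hcat, length_shearM, hlen]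
    rw [hlen]; ring
  refine (h1.seq (h2.seq (h3.seq h4))).congr ?_ ?_
  · refine le_trans (le_of_eq ?_) (shear_cost ha hq)
    simp [shearInv, up, hlcat]
  · have hdrop : (s .D).drop (a * (a * (q * a))) = [] := by
      apply List.drop_eq_nil_of_le
      rw [hlen]
      apply le_of_eq
      ring
    funext z
    simp only [shearInv, up, hdrop, ← hcat]
    split_ifs <;> simp_all

end Vale.Agent.P338
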