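import Vale.Agent.Lib.P338.PAddReg
import Vale.Agent.Lib.P338.MTau
import Vale.Agent.Lib.P338.MConv

/-!
# P338, module PShift: program for `shiftF` with given registers

`TA = TB = un a` (rows, cells), `TQ = un q` (slots in a cell), `T12 = un (12 a)`, all registers
modulo `M = 2 a`.
```
forC TA Z0 (
  pushLen RT Z3 RC true ; pushLen RTc Z3 RCc true       -- register of the cell
  forC TB Z1 (
    forC TQ Z2 (                                        -- one slot, t = value of RC
      dropLen RC Z3 D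
      mvLen T12 Z3 D O
      mvLen RCc Z3 D O
      pushLen RC Z3 O false )
    addReg RC RCc RK Z4 Z5 )
  clear RC ; clear RCc
  addReg RT RTc RD Z4 Z5 ; addReg RD RDc RE Z4 Z5 ; addReg RK RKc RL Z4 Z5 )
clear RT ; ... ; clear RL
mvAll O D
```
The slot step replaces `D = x ++ r` (`x` of length `14 a = 12 a + (2 a - t) + t`) by `r` and pushes
`(shl t x).reverse` on `O`. The registers at the beginning of row `i` are
`rowReg M τ δ δ2 κ κ2 i`, the register of cell `j` is `cellReg M _ _ j`; all are `≤ M`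
(`rowReg_le`, `cellReg_le`, `addV_le`). Cost of a slot `≤ C a`, of a cell `≤ C q a`, of a row
`≤ C q a ^ 2`. It is recommended to prove a lemma for the slot step, for a cell, for a row, each
with an explicit state. In each loop `O` is `(cat k ...).reverse ++ O0` and `D` is `drop (k * _)`.
-/

namespace Vale.Agent.P338

/-- the state `s` with the eight register stacks set -/
def regs (s : St) (M τ δ δ2 κ κ2 : ℕ) : St :=
  up (up (up (up (up (up (up (up s .RT (un τ)) .RTc (un (M - τ))) .RD (un δ)) .RDc (un (M - δ)))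
    .RK (un κ)) .RKc (un (M - κ))) .RE (un δ2)) .RL (un κ2)

section shiftAux

variable {A : TM}

/-- the state `t` with ten stacks set -/
def shSt (t : St) (d o rc rcc rt rtc rd rdc rk rkc : List Bool) : St
  | .D => d
  | .O => o
  | .RC => rc
  | .RCc => rcc
  | .RT => rt
  | .RTc => rtc
  | .RD => rd
  | .RDc => rdc
  | .RK => rk
  | .RKc => rkc
  | z => t z

section ups

variable (t : St) (d o rc rcc rt rtc rd rdc rk rkc x : List Bool)

theorem shSt_D : up (shSt t d o rc rcc rt rtc rd rdc rk rkc) .D x =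
    shSt t x o rc rcc rt rtc rd rdc rk rkc := by
  funext z; cases z <;> rfl

theorem shSt_O : up (shSt t d o rc rcc rt rtc rd rdc rk rkc) .O x =
    shSt t d x rc rcc rt rtc rd rdc rk rkc := by
  funext z; cases z <;> rfl

theorem shSt_RC : up (shSt t d o rc rcc rt rtc rd rdc rk rkc) .RC x =
    shSt t d o x rcc rt rtc rd rdc rk rkc := by
  funext z; cases z <;> rfl

theorem shSt_RCc : up (shSt t d o rc rcc rt rtc rd rdc rk rkc) .RCc x =
    shSt t d o rc x rt rtc rd rdc rk rkc := by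
  funext z; cases z <;> rfl

theorem shSt_RT : up (shSt t d o rc rcc rt rtc rd rdc rk rkc) .RT x =
    shSt t d o rc rcc x rtc rd rdc rk rkc := by
  funext z; cases z <;> rfl

theorem shSt_RTc : up (shSt t d o rc rcc rt rtc rd rdc rk rkc) .RTc x =
    shSt t d o rc rcc rt x rd rdc rk rkc := by
  funext z; cases z <;> rfl

theorem shSt_RD : up (shSt t d o rc rcc rt rtc rd rdc rk rkc) .RD x =
    shSt t d o rc rcc rt rtc x rdc rk rkc := by
  funext z; cases z <;> rfl

theorem shSt_RDc : up (shSt t d o rc rcc rt rtc rd rdc rk rkc) .RDc x =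
    shSt t d o rc rcc rt rtc rd x rk rkc := by
  funext z; cases z <;> rfl

theorem shSt_RK : up (shSt t d o rc rcc rt rtc rd rdc rk rkc) .RK x =
    shSt t d o rc rcc rt rtc rd rdc x rkc := by
  funext z; cases z <;> rfl

theorem shSt_RKc : up (shSt t d o rc rcc rt rtc rd rdc rk rkc) .RKc x =
    shSt t d o rc rcc rt rtc rd rdc rk x := by
  funext z; cases z <;> rfl

theorem shSt_cntQ (i j : ℕ) : cnt .TQ .Z2 (shSt t d o rc rcc rt rtc rd rdc rk rkc) i j =
    shSt (cnt .TQ .Z2 t i j) d o rc rcc rt rtc rd rdc rk rkc := by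
  funext z; cases z <;> rfl

theorem shSt_cntB (i j : ℕ) : cnt .TB .Z1 (shSt t d o rc rcc rt rtc rd rdc rk rkc) i j =
    shSt (cnt .TB .Z1 t i j) d o rc rcc rt rtc rd rdc rk rkc := by
  funext z; cases z <;> rfl

theorem shSt_cntA (i j : ℕ) : cnt .TA .Z0 (shSt t d o rc rcc rt rtc rd rdc rk rkc) i j =
    shSt (cnt .TA .Z0 t i j) d o rc rcc rt rtc rd rdc rk rkc := by
  funext z; cases z <;> rfl

end ups

/-- the slot step -/
def shSlot : BProg A :=
  Prog.seq (dropLen .RC .Z3 .D) (Prog.seq (mvLen .T12 .Z3 .D .O)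
    (Prog.seq (mvLen .RCc .Z3 .D .O) (pushLen .RC .Z3 .O false)))

theorem shl_split (a v : ℕ) (d : List Bool) (hv : v ≤ 2 * a) :
    (shl v (d.take (14 * a))).reverse = List.replicate v false ++
      ((((d.drop v).drop (12 * a)).take (2 * a - v)).reverse ++
        ((d.drop v).take (12 * a)).reverse) := by
  have h1 : (d.take (14 * a)).drop v = (d.drop v).take (12 * a) ++
      ((d.drop v).drop (12 * a)).take (2 * a - v) := by
    rw [List.drop_take, ← List.take_add]
    congr 1
    omega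
  unfold shl
  rw [h1, List.reverse_append, List.reverse_append, List.reverse_replicate]

theorem sat_shSlot {t : St} {d o rt rtc rd rdc rk rkc : List Bool} {a v : ℕ} (ha : 1 ≤ a)
    (hv : v ≤ 2 * a) (h12 : t .T12 = un (12 * a)) (hZ3 : t .Z3 = []) (hD : 14 * a ≤ d.length) :
    Sat (shSlot : BProg A) (shSt t d o (un v) (un (2 * a - v)) rt rtc rd rdc rk rkc) (240 * a)
      (shSt t (d.drop (14 * a)) ((shl v (d.take (14 * a))).reverse ++ o) (un v)
        (un (2 * a - v)) rt rtc rd rdc rk rkc) := by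
  have h1 := sat_dropLen (A := A) (c := .RC) (c' := .Z3) (x := .D) (by decide)
    (s := shSt t d o (un v) (un (2 * a - v)) rt rtc rd rdc rk rkc) (m := v) rfl hZ3
  rw [shSt_D] at h1
  have h2 := sat_mvLen (A := A) (c := .T12) (c' := .Z3) (x := .D) (y := .O) (by decide)
    (s := shSt t (d.drop v) o (un v) (un (2 * a - v)) rt rtc rd rdc rk rkc) (m := 12 * a) h12 hZ3
    (by
      show 12 * a ≤ (d.drop v).length
      rw [List.length_drop]
      omega)
  rw [shSt_D, shSt_O] at h2
  have h3 := sat_mvLen (A := A) (c := .RCc) (c' := .Z3) (x := .D) (y := .O) (by decide)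
    (s := shSt t ((d.drop v).drop (12 * a)) (((d.drop v).take (12 * a)).reverse ++ o) (un v)
      (un (2 * a - v)) rt rtc rd rdc rk rkc) (m := 2 * a - v) rfl hZ3
    (by
      show 2 * a - v ≤ ((d.drop v).drop (12 * a)).length
      rw [List.length_drop, List.length_drop]
      omega)
  rw [shSt_D, shSt_O] at h3
  have h4 := sat_pushLen (A := A) (c := .RC) (c' := .Z3) (x := .O) (by decide) false
    (s := shSt t (((d.drop v).drop (12 * a)).drop (2 * a - v))
      ((((d.drop v).drop (12 * a)).take (2 * a - v)).reverse ++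
        (((d.drop v).take (12 * a)).reverse ++ o)) (un v)
      (un (2 * a - v)) rt rtc rd rdc rk rkc) (m := v) rfl hZ3
  rw [shSt_O] at h4
  refine (h1.seq (h2.seq (h3.seq h4))).congr (by omega) ?_
  congr 1
  · rw [List.drop_drop, List.drop_drop]
    congr 1
    omega
  · rw [shl_split a v d hv]
    simp only [List.append_assoc]
    rfl

/-- a cell, given the program `P` for the addition to the register of the cell -/
def shCell (P : BProg A) : BProg A := Prog.seq (forC .TQ .Z2 shSlot) P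

theorem blk_drop (w l k : ℕ) (d : List Bool) : blk w (d.drop (l * w)) k = blk w d (l + k) := by
  unfold blk
  rw [List.drop_drop]
  congr 2
  ring

theorem sat_shCell {P : BProg A} {C : ℕ}
    (hP : ∀ (s : St) (M v y : ℕ), v ≤ M → y ≤ M → s .RC = un v →
      s .RCc = un (M - v) → s .RK = un y → s .Z4 = [] → s .Z5 = [] →
      Sat P s (C * (M + 1)) (up (up s .RC (un (addV M v y))) .RCc (un (M - addV M v y))))
    {t : St} {d o rt rtc rd rdc rkc : List Bool} {a q v y : ℕ} (ha : 1 ≤ a) (hq : 1 ≤ q)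
    (hv : v ≤ 2 * a) (hy : y ≤ 2 * a) (h12 : t .T12 = un (12 * a)) (hTQ : t .TQ = un q)
    (hZ2 : t .Z2 = []) (hZ3 : t .Z3 = []) (hZ4 : t .Z4 = []) (hZ5 : t .Z5 = [])
    (hD : q * (14 * a) ≤ d.length) :
    Sat (shCell P) (shSt t d o (un v) (un (2 * a - v)) rt rtc rd rdc (un y) rkc)
      ((251 + 3 * C) * (q * a))
      (shSt t (d.drop (q * (14 * a)))
        ((cat q fun e => shl v (blk (14 * a) d e)).reverse ++ o)
        (un (addV (2 * a) v y)) (un (2 * a - addV (2 * a) v y)) rt rtc rd rdc (un y) rkc) := by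
  have h1 : Sat (forC .TQ .Z2 shSlot : BProg A)
      (shSt t d o (un v) (un (2 * a - v)) rt rtc rd rdc (un y) rkc) (q * (240 * a + 9) + 2)
      (shSt t (d.drop (q * (14 * a)))
        ((cat q fun e => shl v (blk (14 * a) d e)).reverse ++ o)
        (un v) (un (2 * a - v)) rt rtc rd rdc (un y) rkc) := by
    refine sat_for (c := .TQ) (c' := .Z2)
      (s := shSt t d o (un v) (un (2 * a - v)) rt rtc rd rdc (un y) rkc) (by decide) hTQ hZ2
      (fun k => shSt t (d.drop (k * (14 * a)))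
        ((cat k fun e => shl v (blk (14 * a) d e)).reverse ++ o)
        (un v) (un (2 * a - v)) rt rtc rd rdc (un y) rkc) ?_ hTQ hZ2 ?_
    · show shSt t (d.drop (0 * (14 * a))) ((cat 0 fun e => shl v (blk (14 * a) d e)).reverse ++ o)
        (un v) (un (2 * a - v)) rt rtc rd rdc (un y) rkc = _
      rw [cat_zero, Nat.zero_mul, List.drop_zero, List.reverse_nil, List.nil_append]
    · intro k hk
      show Sat _ (cnt .TQ .Z2 (shSt t (d.drop (k * (14 * a)))
        ((cat k fun e => shl v (blk (14 * a) d e)).reverse ++ o)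
        (un v) (un (2 * a - v)) rt rtc rd rdc (un y) rkc) (q - (k + 1)) (k + 1)) _
        (cnt .TQ .Z2 (shSt t (d.drop ((k + 1) * (14 * a)))
        ((cat (k + 1) fun e => shl v (blk (14 * a) d e)).reverse ++ o)
        (un v) (un (2 * a - v)) rt rtc rd rdc (un y) rkc) (q - (k + 1)) (k + 1))
      rw [shSt_cntQ, shSt_cntQ]
      have hkq : (k + 1) * (14 * a) ≤ q * (14 * a) := Nat.mul_le_mul_right _ hk
      have hk1 : (k + 1) * (14 * a) = k * (14 * a) + 14 * a := by ring
      refine (sat_shSlot (A := A) (t := cnt .TQ .Z2 t (q - (k + 1)) (k + 1)) ha hv h12 hZ3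
        (by
          rw [List.length_drop]
          omega)).congr le_rfl ?_
      congr 1
      · rw [List.drop_drop, hk1]
      · rw [cat_succ, List.reverse_append, List.append_assoc]
        rfl
  have h2 := hP (shSt t (d.drop (q * (14 * a)))
        ((cat q fun e => shl v (blk (14 * a) d e)).reverse ++ o)
        (un v) (un (2 * a - v)) rt rtc rd rdc (un y) rkc) (2 * a) v y hv hy rfl rfl rfl hZ4 hZ5
  rw [shSt_RC, shSt_RCc] at h2
  refine (h1.seq h2).congr ?_ rfl
  have e1 : a ≤ q * a := Nat.le_mul_of_pos_left a hq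
  have e2 : q ≤ q * a := Nat.le_mul_of_pos_right q ha
  have e3 : q * (240 * a + 9) + 2 ≤ 251 * (q * a) := by
    have : q * (240 * a + 9) = 240 * (q * a) + 9 * q := by ring
    omega
  have e4 : C * (2 * a + 1) ≤ 3 * C * (q * a) := by
    calc C * (2 * a + 1) ≤ C * (3 * (q * a)) := Nat.mul_le_mul_left _ (by omega)
      _ = _ := by ring
  calc _ ≤ 251 * (q * a) + 3 * C * (q * a) := Nat.add_le_add e3 e4
    _ = _ := by ring

/-- a row -/
def shRow (P1 P2 P3 P4 : BProg A) : BProg A :=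
  Prog.seq (pushLen .RT .Z3 .RC true) (Prog.seq (pushLen .RTc .Z3 .RCc true)
    (Prog.seq (forC .TB .Z1 (shCell P1)) (Prog.seq (clear .RC) (Prog.seq (clear .RCc)
      (Prog.seq P2 (Prog.seq P3 P4))))))

theorem sat_shRow {P1 P2 P3 P4 : BProg A} {C : ℕ}
    (hP1 : ∀ (s : St) (M v y : ℕ), v ≤ M → y ≤ M → s .RC = un v →
      s .RCc = un (M - v) → s .RK = un y → s .Z4 = [] → s .Z5 = [] →
      Sat P1 s (C * (M + 1)) (up (up s .RC (un (addV M v y))) .RCc (un (M - addV M v y))))
    (hP2 : ∀ (s : St) (M v y : ℕ), v ≤ M → y ≤ M → s .RT = un v →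
      s .RTc = un (M - v) → s .RD = un y → s .Z4 = [] → s .Z5 = [] →
      Sat P2 s (C * (M + 1)) (up (up s .RT (un (addV M v y))) .RTc (un (M - addV M v y))))
    (hP3 : ∀ (s : St) (M v y : ℕ), v ≤ M → y ≤ M → s .RD = un v →
      s .RDc = un (M - v) → s .RE = un y → s .Z4 = [] → s .Z5 = [] →
      Sat P3 s (C * (M + 1)) (up (up s .RD (un (addV M v y))) .RDc (un (M - addV M v y))))
    (hP4 : ∀ (s : St) (M v y : ℕ), v ≤ M → y ≤ M → s .RK = un v →
      s .RKc = un (M - v) → s .RL = un y → s .Z4 = [] → s .Z5 = [] →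
      Sat P4 s (C * (M + 1)) (up (up s .RK (un (addV M v y))) .RKc (un (M - addV M v y))))
    {t : St} {d o : List Bool} {a q τ δ δ2 κ κ2 : ℕ} (ha : 1 ≤ a) (hq : 1 ≤ q)
    (hτ : τ ≤ 2 * a) (hδ : δ ≤ 2 * a) (hδ2 : δ2 ≤ 2 * a) (hκ : κ ≤ 2 * a) (hκ2 : κ2 ≤ 2 * a)
    (h12 : t .T12 = un (12 * a)) (hTQ : t .TQ = un q) (hTB : t .TB = un a)
    (hRE : t .RE = un δ2) (hRL : t .RL = un κ2) (hZ1 : t .Z1 = [])
    (hZ2 : t .Z2 = []) (hZ3 : t .Z3 = []) (hZ4 : t .Z4 = []) (hZ5 : t .Z5 = [])
    (hD : a * (q * (14 * a)) ≤ d.length) :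
    Sat (shRow P1 P2 P3 P4)
      (shSt t d o [] [] (un τ) (un (2 * a - τ)) (un δ) (un (2 * a - δ)) (un κ) (un (2 * a - κ)))
      ((320 + 12 * C) * (q * a ^ 2))
      (shSt t (d.drop (a * (q * (14 * a))))
        ((cat a fun j => cat q fun e => shl (cellReg (2 * a) τ κ j)
          (blk (14 * a) d (j * q + e))).reverse ++ o) [] []
        (un (addV (2 * a) τ δ)) (un (2 * a - addV (2 * a) τ δ))
        (un (addV (2 * a) δ δ2)) (un (2 * a - addV (2 * a) δ δ2))
        (un (addV (2 * a) κ κ2)) (un (2 * a - addV (2 * a) κ κ2))) := by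
  have h1 := sat_pushLen (A := A) (c := .RT) (c' := .Z3) (x := .RC) (by decide) true
    (s := shSt t d o [] [] (un τ) (un (2 * a - τ)) (un δ) (un (2 * a - δ)) (un κ)
      (un (2 * a - κ))) (m := τ) rfl hZ3
  rw [shSt_RC] at h1
  have h1' : Sat (pushLen .RT .Z3 .RC true : BProg A)
      (shSt t d o [] [] (un τ) (un (2 * a - τ)) (un δ) (un (2 * a - δ)) (un κ) (un (2 * a - κ)))
      (24 * a)
      (shSt t d o (un τ) [] (un τ) (un (2 * a - τ)) (un δ) (un (2 * a - δ)) (un κ)
        (un (2 * a - κ))) := by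
    refine h1.congr (by omega) ?_
    congr 1
    exact List.append_nil _
  have h2 := sat_pushLen (A := A) (c := .RTc) (c' := .Z3) (x := .RCc) (by decide) true
    (s := shSt t d o (un τ) [] (un τ) (un (2 * a - τ)) (un δ) (un (2 * a - δ)) (un κ)
      (un (2 * a - κ))) (m := 2 * a - τ) rfl hZ3
  rw [shSt_RCc] at h2
  have h2' : Sat (pushLen .RTc .Z3 .RCc true : BProg A)
      (shSt t d o (un τ) [] (un τ) (un (2 * a - τ)) (un δ) (un (2 * a - δ)) (un κ)
        (un (2 * a - κ))) (24 * a)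
      (shSt t d o (un τ) (un (2 * a - τ)) (un τ) (un (2 * a - τ)) (un δ) (un (2 * a - δ)) (un κ)
        (un (2 * a - κ))) := by
    refine h2.congr (by omega) ?_
    congr 1
    exact List.append_nil _
  have hcr := fun j => cellReg_le hτ hκ j
  have h3 : Sat (forC .TB .Z1 (shCell P1) : BProg A)
      (shSt t d o (un τ) (un (2 * a - τ)) (un τ) (un (2 * a - τ)) (un δ) (un (2 * a - δ)) (un κ)
        (un (2 * a - κ))) (a * ((251 + 3 * C) * (q * a) + 9) + 2)
      (shSt t (d.drop (a * (q * (14 * a))))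
        ((cat a fun j => cat q fun e => shl (cellReg (2 * a) τ κ j)
          (blk (14 * a) d (j * q + e))).reverse ++ o)
        (un (cellReg (2 * a) τ κ a)) (un (2 * a - cellReg (2 * a) τ κ a)) (un τ)
        (un (2 * a - τ)) (un δ) (un (2 * a - δ)) (un κ) (un (2 * a - κ))) := by
    refine sat_for (c := .TB) (c' := .Z1)
      (s := shSt t d o (un τ) (un (2 * a - τ)) (un τ) (un (2 * a - τ)) (un δ) (un (2 * a - δ))
        (un κ) (un (2 * a - κ))) (by decide) hTB hZ1
      (fun k => shSt t (d.drop (k * (q * (14 * a))))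
        ((cat k fun j => cat q fun e => shl (cellReg (2 * a) τ κ j)
          (blk (14 * a) d (j * q + e))).reverse ++ o)
        (un (cellReg (2 * a) τ κ k)) (un (2 * a - cellReg (2 * a) τ κ k)) (un τ)
        (un (2 * a - τ)) (un δ) (un (2 * a - δ)) (un κ) (un (2 * a - κ))) ?_ hTB hZ1 ?_
    · show shSt t (d.drop (0 * (q * (14 * a))))
        ((cat 0 fun j => cat q fun e => shl (cellReg (2 * a) τ κ j)
          (blk (14 * a) d (j * q + e))).reverse ++ o)
        (un τ) (un (2 * a - τ)) (un τ)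
        (un (2 * a - τ)) (un δ) (un (2 * a - δ)) (un κ) (un (2 * a - κ)) = _
      rw [cat_zero, Nat.zero_mul, List.drop_zero, List.reverse_nil, List.nil_append]
    · intro k hk
      show Sat _ (cnt .TB .Z1 (shSt t (d.drop (k * (q * (14 * a))))
        ((cat k fun j => cat q fun e => shl (cellReg (2 * a) τ κ j)
          (blk (14 * a) d (j * q + e))).reverse ++ o)
        (un (cellReg (2 * a) τ κ k)) (un (2 * a - cellReg (2 * a) τ κ k)) (un τ)
        (un (2 * a - τ)) (un δ) (un (2 * a - δ)) (un κ) (un (2 * a - κ))) (a - (k + 1)) (k + 1)) _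
        (cnt .TB .Z1 (shSt t (d.drop ((k + 1) * (q * (14 * a))))
        ((cat (k + 1) fun j => cat q fun e => shl (cellReg (2 * a) τ κ j)
          (blk (14 * a) d (j * q + e))).reverse ++ o)
        (un (cellReg (2 * a) τ κ (k + 1))) (un (2 * a - cellReg (2 * a) τ κ (k + 1))) (un τ)
        (un (2 * a - τ)) (un δ) (un (2 * a - δ)) (un κ) (un (2 * a - κ))) (a - (k + 1)) (k + 1))
      rw [shSt_cntB, shSt_cntB]
      have hkq : (k + 1) * (q * (14 * a)) ≤ a * (q * (14 * a)) := Nat.mul_le_mul_right _ hk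
      have hk1 : (k + 1) * (q * (14 * a)) = k * (q * (14 * a)) + q * (14 * a) := by ring
      refine (sat_shCell (A := A) hP1 (t := cnt .TB .Z1 t (a - (k + 1)) (k + 1)) ha hq (hcr k) hκ
        h12 hTQ hZ2 hZ3 hZ4 hZ5
        (by
          rw [List.length_drop]
          omega)).congr le_rfl ?_
      congr 1
      · rw [List.drop_drop, hk1]
      · rw [cat_succ, List.reverse_append, List.append_assoc]
        congr 2
        refine cat_congr fun e _ => ?_
        rw [← Nat.mul_assoc, blk_drop]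
  have h4 := sat_clear (A := A) .RC (shSt t (d.drop (a * (q * (14 * a))))
        ((cat a fun j => cat q fun e => shl (cellReg (2 * a) τ κ j)
          (blk (14 * a) d (j * q + e))).reverse ++ o)
        (un (cellReg (2 * a) τ κ a)) (un (2 * a - cellReg (2 * a) τ κ a)) (un τ)
        (un (2 * a - τ)) (un δ) (un (2 * a - δ)) (un κ) (un (2 * a - κ)))
  rw [shSt_RC] at h4
  have h5 := sat_clear (A := A) .RCc (shSt t (d.drop (a * (q * (14 * a))))
        ((cat a fun j => cat q fun e => shl (cellReg (2 * a) τ κ j)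
          (blk (14 * a) d (j * q + e))).reverse ++ o)
        [] (un (2 * a - cellReg (2 * a) τ κ a)) (un τ)
        (un (2 * a - τ)) (un δ) (un (2 * a - δ)) (un κ) (un (2 * a - κ)))
  rw [shSt_RCc] at h5
  have h6 := hP2 (shSt t (d.drop (a * (q * (14 * a))))
        ((cat a fun j => cat q fun e => shl (cellReg (2 * a) τ κ j)
          (blk (14 * a) d (j * q + e))).reverse ++ o)
        [] [] (un τ) (un (2 * a - τ)) (un δ) (un (2 * a - δ)) (un κ) (un (2 * a - κ)))
        (2 * a) τ δ hτ hδ rfl rfl rfl hZ4 hZ5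
  rw [shSt_RT, shSt_RTc] at h6
  have h7 := hP3 (shSt t (d.drop (a * (q * (14 * a))))
        ((cat a fun j => cat q fun e => shl (cellReg (2 * a) τ κ j)
          (blk (14 * a) d (j * q + e))).reverse ++ o)
        [] [] (un (addV (2 * a) τ δ)) (un (2 * a - addV (2 * a) τ δ)) (un δ) (un (2 * a - δ))
        (un κ) (un (2 * a - κ)))
        (2 * a) δ δ2 hδ hδ2 rfl rfl hRE hZ4 hZ5
  rw [shSt_RD, shSt_RDc] at h7
  have h8 := hP4 (shSt t (d.drop (a * (q * (14 * a))))
        ((cat a fun j => cat q fun e => shl (cellReg (2 * a) τ κ j)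
          (blk (14 * a) d (j * q + e))).reverse ++ o)
        [] [] (un (addV (2 * a) τ δ)) (un (2 * a - addV (2 * a) τ δ))
        (un (addV (2 * a) δ δ2)) (un (2 * a - addV (2 * a) δ δ2))
        (un κ) (un (2 * a - κ)))
        (2 * a) κ κ2 hκ hκ2 rfl rfl hRL hZ4 hZ5
  rw [shSt_RK, shSt_RKc] at h8
  refine (h1'.seq (h2'.seq (h3.seq (h4.seq (h5.seq (h6.seq (h7.seq h8))))))).congr ?_ rfl
  have c1 : ((shSt t (d.drop (a * (q * (14 * a))))
        ((cat a fun j => cat q fun e => shl (cellReg (2 * a) τ κ j)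
          (blk (14 * a) d (j * q + e))).reverse ++ o)
        (un (cellReg (2 * a) τ κ a)) (un (2 * a - cellReg (2 * a) τ κ a)) (un τ)
        (un (2 * a - τ)) (un δ) (un (2 * a - δ)) (un κ) (un (2 * a - κ))) .RC).length ≤ 2 * a := by
    show (un (cellReg (2 * a) τ κ a)).length ≤ 2 * a
    rw [List.length_replicate]
    exact hcr a
  have c2 : ((shSt t (d.drop (a * (q * (14 * a))))
        ((cat a fun j => cat q fun e => shl (cellReg (2 * a) τ κ j)
          (blk (14 * a) d (j * q + e))).reverse ++ o)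
        [] (un (2 * a - cellReg (2 * a) τ κ a)) (un τ)
        (un (2 * a - τ)) (un δ) (un (2 * a - δ)) (un κ) (un (2 * a - κ))) .RCc).length ≤
          2 * a := by
    show (un (2 * a - cellReg (2 * a) τ κ a)).length ≤ 2 * a
    rw [List.length_replicate]
    omega
  obtain ⟨n1, hn1⟩ : ∃ n, n = ((shSt t (d.drop (a * (q * (14 * a))))
        ((cat a fun j => cat q fun e => shl (cellReg (2 * a) τ κ j)
          (blk (14 * a) d (j * q + e))).reverse ++ o)
        (un (cellReg (2 * a) τ κ a)) (un (2 * a - cellReg (2 * a) τ κ a)) (un τ)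
        (un (2 * a - τ)) (un δ) (un (2 * a - δ)) (un κ) (un (2 * a - κ))) .RC).length := ⟨_, rfl⟩
  obtain ⟨n2, hn2⟩ : ∃ n, n = ((shSt t (d.drop (a * (q * (14 * a))))
        ((cat a fun j => cat q fun e => shl (cellReg (2 * a) τ κ j)
          (blk (14 * a) d (j * q + e))).reverse ++ o)
        [] (un (2 * a - cellReg (2 * a) τ κ a)) (un τ)
        (un (2 * a - τ)) (un δ) (un (2 * a - δ)) (un κ) (un (2 * a - κ))) .RCc).length :=
          ⟨_, rfl⟩
  rw [← hn1] at c1 ⊢
  rw [← hn2] at c2 ⊢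
  have e0 : a ≤ a ^ 2 := by nlinarith
  have e1 : a ^ 2 ≤ q * a ^ 2 := Nat.le_mul_of_pos_left _ hq
  have e2 : a * ((251 + 3 * C) * (q * a) + 9) = (251 + 3 * C) * (q * a ^ 2) + 9 * a := by ring
  have e4 : C * (2 * a + 1) ≤ 3 * C * (q * a ^ 2) := by
    calc C * (2 * a + 1) ≤ C * (3 * (q * a ^ 2)) := Nat.mul_le_mul_left _ (by omega)
      _ = _ := by ring
  have e5 : (320 + 12 * C) * (q * a ^ 2) = (251 + 3 * C) * (q * a ^ 2) + 69 * (q * a ^ 2) +
      3 * (3 * C * (q * a ^ 2)) := by ring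
  rw [e2, e5]
  omega

/-- the whole program -/
def shProg (P1 P2 P3 P4 : BProg A) : BProg A :=
  Prog.seq (forC .TA .Z0 (shRow P1 P2 P3 P4)) (Prog.seq (clear .RT) (Prog.seq (clear .RTc)
    (Prog.seq (clear .RD) (Prog.seq (clear .RDc) (Prog.seq (clear .RK) (Prog.seq (clear .RKc)
      (Prog.seq (clear .RE) (Prog.seq (clear .RL) (mvAll .O .D)))))))))

theorem sat_clear' (x : SName) (s : St) {l : List Bool} {n : ℕ} (h : s x = l)
    (hn : l.length ≤ n) : Sat (clear x : BProg A) s (2 * n + 1) (up s x []) := by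
  refine (sat_clear x s).congr ?_ rfl
  rw [h]
  omega

theorem sat_shProg {P1 P2 P3 P4 : BProg A} {C : ℕ}
    (hP1 : ∀ (s : St) (M v y : ℕ), v ≤ M → y ≤ M → s .RC = un v →
      s .RCc = un (M - v) → s .RK = un y → s .Z4 = [] → s .Z5 = [] →
      Sat P1 s (C * (M + 1)) (up (up s .RC (un (addV M v y))) .RCc (un (M - addV M v y))))
    (hP2 : ∀ (s : St) (M v y : ℕ), v ≤ M → y ≤ M → s .RT = un v →
      s .RTc = un (M - v) → s .RD = un y → s .Z4 = [] → s .Z5 = [] →
      Sat P2 s (C * (M + 1)) (up (up s .RT (un (addV M v y))) .RTc (un (M - addV M v y))))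
    (hP3 : ∀ (s : St) (M v y : ℕ), v ≤ M → y ≤ M → s .RD = un v →
      s .RDc = un (M - v) → s .RE = un y → s .Z4 = [] → s .Z5 = [] →
      Sat P3 s (C * (M + 1)) (up (up s .RD (un (addV M v y))) .RDc (un (M - addV M v y))))
    (hP4 : ∀ (s : St) (M v y : ℕ), v ≤ M → y ≤ M → s .RK = un v →
      s .RKc = un (M - v) → s .RL = un y → s .Z4 = [] → s .Z5 = [] →
      Sat P4 s (C * (M + 1)) (up (up s .RK (un (addV M v y))) .RKc (un (M - addV M v y))))
    {s : St} {a q τ δ δ2 κ κ2 : ℕ} (ha : 1 ≤ a) (hq : 1 ≤ q)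
    (hτ : τ ≤ 2 * a) (hδ : δ ≤ 2 * a) (hδ2 : δ2 ≤ 2 * a) (hκ : κ ≤ 2 * a) (hκ2 : κ2 ≤ 2 * a)
    (hn : AllNil temps s) (hp : Par a q s) (hl : (s .D).length = 14 * (q * a ^ 3)) :
    Sat (shProg P1 P2 P3 P4) (regs s (2 * a) τ δ δ2 κ κ2) ((450 + 12 * C) * (q * a ^ 3))
      (up s .D (shiftF a q (tauF (2 * a) τ δ δ2 κ κ2) (s .D))) := by
  obtain ⟨t, ht⟩ : ∃ t : St, t = up (up s .RE (un δ2)) .RL (un κ2) := ⟨_, rfl⟩
  have ht0 : regs s (2 * a) τ δ δ2 κ κ2 = shSt t (s .D) [] [] [] (un τ) (un (2 * a - τ)) (un δ)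
      (un (2 * a - δ)) (un κ) (un (2 * a - κ)) := by
    rw [ht]
    have hO := hn.get (x := .O) (by decide)
    have hRC := hn.get (x := .RC) (by decide)
    have hRCc := hn.get (x := .RCc) (by decide)
    funext z
    cases z
    case O => exact hO
    case RC => exact hRC
    case RCc => exact hRCc
    all_goals rfl
  have h12 : t .T12 = un (12 * a) := by rw [ht]; exact hp.T12
  have hTQ : t .TQ = un q := by rw [ht]; exact hp.TQ
  have hTA : t .TA = un a := by rw [ht]; exact hp.TA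
  have hTB : t .TB = un a := by rw [ht]; exact hp.TB
  have hRE : t .RE = un δ2 := by rw [ht]; rfl
  have hRL : t .RL = un κ2 := by rw [ht]; rfl
  have hZ0 : t .Z0 = [] := by rw [ht]; exact hn.get (x := .Z0) (by decide)
  have hZ1 : t .Z1 = [] := by rw [ht]; exact hn.get (x := .Z1) (by decide)
  have hZ2 : t .Z2 = [] := by rw [ht]; exact hn.get (x := .Z2) (by decide)
  have hZ3 : t .Z3 = [] := by rw [ht]; exact hn.get (x := .Z3) (by decide)
  have hZ4 : t .Z4 = [] := by rw [ht]; exact hn.get (x := .Z4) (by decide)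
  have hZ5 : t .Z5 = [] := by rw [ht]; exact hn.get (x := .Z5) (by decide)
  obtain ⟨d, hd⟩ : ∃ d, d = s .D := ⟨_, rfl⟩
  rw [← hd] at hl ht0
  obtain ⟨R, hR⟩ : ∃ R : ℕ → ℕ × ℕ × ℕ, R = rowReg (2 * a) τ δ δ2 κ κ2 := ⟨_, rfl⟩
  have hRle : ∀ i, (R i).1 ≤ 2 * a ∧ (R i).2.1 ≤ 2 * a ∧ (R i).2.2 ≤ 2 * a := fun i => by
    rw [hR]
    exact rowReg_le hτ hδ hδ2 hκ hκ2 i
  have hlen : d.length = a * (a * (q * (14 * a))) := by
    rw [hl]
    ring
  obtain ⟨W, hW⟩ : ∃ W : ℕ → List Bool, W = fun k => (cat k fun i => cat a fun j => cat q fun e =>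
    shl (tauF (2 * a) τ δ δ2 κ κ2 i j) (blk (14 * a) d ((i * a + j) * q + e))).reverse :=
      ⟨_, rfl⟩
  have h1 : Sat (forC .TA .Z0 (shRow P1 P2 P3 P4) : BProg A)
      (shSt t d [] [] [] (un τ) (un (2 * a - τ)) (un δ) (un (2 * a - δ)) (un κ)
        (un (2 * a - κ))) (a * ((320 + 12 * C) * (q * a ^ 2) + 9) + 2)
      (shSt t (d.drop (a * (a * (q * (14 * a))))) (W a) [] [] (un (R a).1)
        (un (2 * a - (R a).1)) (un (R a).2.1) (un (2 * a - (R a).2.1)) (un (R a).2.2)
        (un (2 * a - (R a).2.2))) := by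
    refine sat_for (c := .TA) (c' := .Z0)
      (s := shSt t d [] [] [] (un τ) (un (2 * a - τ)) (un δ) (un (2 * a - δ)) (un κ)
        (un (2 * a - κ))) (by decide) hTA hZ0
      (fun k => shSt t (d.drop (k * (a * (q * (14 * a))))) (W k) [] [] (un (R k).1)
        (un (2 * a - (R k).1)) (un (R k).2.1) (un (2 * a - (R k).2.1)) (un (R k).2.2)
        (un (2 * a - (R k).2.2))) ?_ hTA hZ0 ?_
    · show shSt t (d.drop (0 * (a * (q * (14 * a))))) (W 0) [] [] (un (R 0).1)
        (un (2 * a - (R 0).1)) (un (R 0).2.1) (un (2 * a - (R 0).2.1)) (un (R 0).2.2)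
        (un (2 * a - (R 0).2.2)) = _
      rw [hW, hR, Nat.zero_mul, List.drop_zero]
      show shSt t d ((cat 0 _).reverse) [] [] (un τ) (un (2 * a - τ)) (un δ) (un (2 * a - δ))
        (un κ) (un (2 * a - κ)) = _
      rw [cat_zero, List.reverse_nil]
    · intro k hk
      show Sat _ (cnt .TA .Z0 (shSt t (d.drop (k * (a * (q * (14 * a))))) (W k) [] [] (un (R k).1)
        (un (2 * a - (R k).1)) (un (R k).2.1) (un (2 * a - (R k).2.1)) (un (R k).2.2)
        (un (2 * a - (R k).2.2))) (a - (k + 1)) (k + 1)) _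
        (cnt .TA .Z0 (shSt t (d.drop ((k + 1) * (a * (q * (14 * a))))) (W (k + 1)) [] []
        (un (R (k + 1)).1)
        (un (2 * a - (R (k + 1)).1)) (un (R (k + 1)).2.1) (un (2 * a - (R (k + 1)).2.1))
        (un (R (k + 1)).2.2)
        (un (2 * a - (R (k + 1)).2.2))) (a - (k + 1)) (k + 1))
      rw [shSt_cntA, shSt_cntA]
      have hkq : (k + 1) * (a * (q * (14 * a))) ≤ a * (a * (q * (14 * a))) :=
        Nat.mul_le_mul_right _ hk
      have hk1 : (k + 1) * (a * (q * (14 * a))) =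
        k * (a * (q * (14 * a))) + a * (q * (14 * a)) := by ring
      obtain ⟨r1, r2, r3⟩ := hRle k
      have hRs : R (k + 1) = (addV (2 * a) (R k).1 (R k).2.1, addV (2 * a) (R k).2.1 δ2,
        addV (2 * a) (R k).2.2 κ2) := by rw [hR]; rfl
      refine (sat_shRow (A := A) hP1 hP2 hP3 hP4 (t := cnt .TA .Z0 t (a - (k + 1)) (k + 1)) ha hq
        r1 r2 hδ2 r3 hκ2 h12 hTQ hTB hRE hRL hZ1 hZ2 hZ3 hZ4 hZ5
        (by
          rw [List.length_drop]
          omega)).congr le_rfl ?_
      rw [hRs]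
      congr 1
      · rw [List.drop_drop, hk1]
      · rw [hW]
        show _ = (cat (k + 1) _).reverse
        rw [cat_succ, List.reverse_append]
        congr 2
        refine cat_congr fun j _ => cat_congr fun e _ => ?_
        have e1 : k * (a * (q * (14 * a))) = (k * a * q) * (14 * a) := by ring
        rw [e1, blk_drop, hR]
        congr 2
        ring
  have hdrop : d.drop (a * (a * (q * (14 * a)))) = [] := by
    rw [← hlen]
    exact List.drop_length
  rw [hdrop] at h1
  obtain ⟨r1, r2, r3⟩ := hRle a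
  have lun : ∀ m : ℕ, (un m).length = m := fun m => List.length_replicate
  have h2 := sat_clear' (A := A) .RT (shSt t [] (W a) [] [] (un (R a).1)
        (un (2 * a - (R a).1)) (un (R a).2.1) (un (2 * a - (R a).2.1)) (un (R a).2.2)
        (un (2 * a - (R a).2.2))) (l := un (R a).1) (n := 2 * a) rfl (by rw [lun]; exact r1)
  rw [shSt_RT] at h2
  have h3 := sat_clear' (A := A) .RTc (shSt t [] (W a) [] [] []
        (un (2 * a - (R a).1)) (un (R a).2.1) (un (2 * a - (R a).2.1)) (un (R a).2.2)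
        (un (2 * a - (R a).2.2))) (l := un (2 * a - (R a).1)) (n := 2 * a) rfl
        (by rw [lun]; omega)
  rw [shSt_RTc] at h3
  have h4 := sat_clear' (A := A) .RD (shSt t [] (W a) [] [] [] [] (un (R a).2.1)
        (un (2 * a - (R a).2.1)) (un (R a).2.2)
        (un (2 * a - (R a).2.2))) (l := un (R a).2.1) (n := 2 * a) rfl (by rw [lun]; exact r2)
  rw [shSt_RD] at h4
  have h5 := sat_clear' (A := A) .RDc (shSt t [] (W a) [] [] [] [] []
        (un (2 * a - (R a).2.1)) (un (R a).2.2)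
        (un (2 * a - (R a).2.2))) (l := un (2 * a - (R a).2.1)) (n := 2 * a) rfl
        (by rw [lun]; omega)
  rw [shSt_RDc] at h5
  have h6 := sat_clear' (A := A) .RK (shSt t [] (W a) [] [] [] [] [] [] (un (R a).2.2)
        (un (2 * a - (R a).2.2))) (l := un (R a).2.2) (n := 2 * a) rfl (by rw [lun]; exact r3)
  rw [shSt_RK] at h6
  have h7 := sat_clear' (A := A) .RKc (shSt t [] (W a) [] [] [] [] [] [] []
        (un (2 * a - (R a).2.2))) (l := un (2 * a - (R a).2.2)) (n := 2 * a) rfl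
        (by rw [lun]; omega)
  rw [shSt_RKc] at h7
  have h8 := sat_clear' (A := A) .RE (shSt t [] (W a) [] [] [] [] [] [] [] [])
    (l := un δ2) (n := 2 * a) hRE (by rw [lun]; exact hδ2)
  have h9 := sat_clear' (A := A) .RL (up (shSt t [] (W a) [] [] [] [] [] [] [] []) .RE [])
    (l := un κ2) (n := 2 * a) hRL (by rw [lun]; exact hκ2)
  have h10 := sat_mvAll (A := A) (x := .O) (y := .D) (by decide)
    (up (up (shSt t [] (W a) [] [] [] [] [] [] [] []) .RE []) .RL [])
  have hWa : (W a).reverse = shiftF a q (tauF (2 * a) τ δ δ2 κ κ2) d := by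
    rw [hW]
    show ((cat a _).reverse).reverse = _
    rw [List.reverse_reverse]
    rfl
  have hWlen : (W a).length = 14 * (q * a ^ 3) := by
    rw [← List.length_reverse, hWa]
    have e1 : ∀ i < a, ∀ j < a, ∀ e < q, (shl (tauF (2 * a) τ δ δ2 κ κ2 i j)
        (blk (14 * a) d ((i * a + j) * q + e))).length = 14 * a := by
      intro i hi j hj e he
      have e2 : (blk (14 * a) d ((i * a + j) * q + e)).length = 14 * a := by
        refine length_blk ?_
        rw [hlen]
        have e3 : i * a + j + 1 ≤ a * a := by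
          calc i * a + j + 1 ≤ i * a + a := by omega
            _ = (i + 1) * a := by ring
            _ ≤ a * a := Nat.mul_le_mul_right _ hi
        have e4 : (i * a + j) * q + e + 1 ≤ a * a * q := by
          calc (i * a + j) * q + e + 1 ≤ (i * a + j) * q + q := by omega
            _ = (i * a + j + 1) * q := by ring
            _ ≤ a * a * q := Nat.mul_le_mul_right _ e3
        calc ((i * a + j) * q + e + 1) * (14 * a) ≤ a * a * q * (14 * a) :=
              Nat.mul_le_mul_right _ e4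
          _ = _ := by ring
      have e5 := tauF_le hτ hδ hδ2 hκ hκ2 i j
      rw [length_shl (by rw [e2]; omega), e2]
    unfold shiftF
    rw [length_cat (w := a * (q * (14 * a))) fun i hi =>
      length_cat (w := q * (14 * a)) fun j hj => length_cat (w := 14 * a) fun e he =>
        e1 i hi j hj e he]
    ring
  rw [ht0]
  refine (h1.seq (h2.seq (h3.seq (h4.seq (h5.seq (h6.seq (h7.seq (h8.seq (h9.seq
    h10))))))))).congr ?_ ?_
  · have hO : (up (up (shSt t [] (W a) [] [] [] [] [] [] [] []) .RE []) .RL []) .O = W a := rfl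
    rw [hO, hWlen]
    have e0 : a ≤ a ^ 3 := by
      calc a = a * 1 := (Nat.mul_one a).symm
        _ ≤ a * a ^ 2 := Nat.mul_le_mul_left _ (Nat.one_le_pow _ _ ha)
        _ = a ^ 3 := by ring
    have e1 : a ^ 3 ≤ q * a ^ 3 := Nat.le_mul_of_pos_left _ hq
    have e2 : a * ((320 + 12 * C) * (q * a ^ 2) + 9) = (320 + 12 * C) * (q * a ^ 3) + 9 * a := by
      ring
    have e5 : (450 + 12 * C) * (q * a ^ 3) = (320 + 12 * C) * (q * a ^ 3) +
      130 * (q * a ^ 3) := by ring
    rw [e2, e5]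
    omega
  · have hO : (up (up (shSt t [] (W a) [] [] [] [] [] [] [] []) .RE []) .RL []) .O = W a := rfl
    have hD : (up (up (shSt t [] (W a) [] [] [] [] [] [] [] []) .RE []) .RL []) .D = [] := rfl
    rw [hO, hD, List.append_nil, hWa, ← hd]
    funext z
    cases z
    case D => rfl
    case O => exact (hn.get (x := .O) (by decide)).symm
    case RC => exact (hn.get (x := .RC) (by decide)).symm
    case RCc => exact (hn.get (x := .RCc) (by decide)).symm
    case RT => exact (hn.get (x := .RT) (by decide)).symm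
    case RTc => exact (hn.get (x := .RTc) (by decide)).symm
    case RD => exact (hn.get (x := .RD) (by decide)).symm
    case RDc => exact (hn.get (x := .RDc) (by decide)).symm
    case RK => exact (hn.get (x := .RK) (by decide)).symm
    case RKc => exact (hn.get (x := .RKc) (by decide)).symm
    case RE => exact (hn.get (x := .RE) (by decide)).symm
    case RL => exact (hn.get (x := .RL) (by decide)).symm
    all_goals (rw [ht]; rfl)

end shiftAux

theorem exists_shift (A : TM) : ∃ (P : BProg A) (C : ℕ), ∀ (s : St) (a q τ δ δ2 κ κ2 : ℕ),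
    1 ≤ a → 1 ≤ q → τ ≤ 2 * a → δ ≤ 2 * a → δ2 ≤ 2 * a → κ ≤ 2 * a → κ2 ≤ 2 * a →
    AllNil temps s → Par a q s → (s .D).length = 14 * (q * a ^ 3) →
    Sat P (regs s (2 * a) τ δ δ2 κ κ2) (C * (q * a ^ 3))
      (up s .D (shiftF a q (tauF (2 * a) τ δ δ2 κ κ2) (s .D))) := by
  obtain ⟨P1, C1, h1⟩ := exists_addReg A (r := .RC) (rc := .RCc) (k := .RK) (k' := .Z4)
    (o := .Z5) (by decide)
  obtain ⟨P2, C2, h2⟩ := exists_addReg A (r := .RT) (rc := .RTc) (k := .RD) (k' := .Z4)
    (o := .Z5) (by decide)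
  obtain ⟨P3, C3, h3⟩ := exists_addReg A (r := .RD) (rc := .RDc) (k := .RE) (k' := .Z4)
    (o := .Z5) (by decide)
  obtain ⟨P4, C4, h4⟩ := exists_addReg A (r := .RK) (rc := .RKc) (k := .RL) (k' := .Z4)
    (o := .Z5) (by decide)
  refine ⟨shProg P1 P2 P3 P4, 450 + 12 * (C1 + C2 + C3 + C4), ?_⟩
  intro s a q τ δ δ2 κ κ2 ha hq hτ hδ hδ2 hκ hκ2 hn hp hl
  exact sat_shProg (C := C1 + C2 + C3 + C4)
    (fun s M v y e1 e2 e3 e4 e5 e6 e7 => (h1 s M v y e1 e2 e3 e4 e5 e6 e7).mono
      (Nat.mul_le_mul_right _ (by omega)))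
    (fun s M v y e1 e2 e3 e4 e5 e6 e7 => (h2 s M v y e1 e2 e3 e4 e5 e6 e7).mono
      (Nat.mul_le_mul_right _ (by omega)))
    (fun s M v y e1 e2 e3 e4 e5 e6 e7 => (h3 s M v y e1 e2 e3 e4 e5 e6 e7).mono
      (Nat.mul_le_mul_right _ (by omega)))
    (fun s M v y e1 e2 e3 e4 e5 e6 e7 => (h4 s M v y e1 e2 e3 e4 e5 e6 e7).mono
      (Nat.mul_le_mul_right _ (by omega)))
    ha hq hτ hδ hδ2 hκ hκ2 hn hp hl

end Vale.Agent.P338
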