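import Vale.Agent.Lib.P338.PMain
import Vale.Agent.Lib.P338.PFront
import Vale.Agent.Lib.P338.PBack

/-!
# P338, module PTop: the whole stack program

front ; rec ; back, with `L = Nat.clog 2 n`, `k = 1`. `recF_eq_transpose`, `unpad_transpose_pad`.
`n ^ 2 ≤ 4 ^ L ≤ recCost A (4 ^ L) L`.
-/

namespace Vale.Agent.P338

theorem ptop_le_recCost (A : TM) (W L : ℕ) : W ≤ recCost A W L := by
  rw [recCost]
  split_ifs with h
  · omega
  · unfold lvl
    omega

theorem ptop_sq (n : ℕ) : n ^ 2 ≤ 4 ^ Nat.clog 2 n := by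
  have h : n ≤ 2 ^ Nat.clog 2 n := Nat.le_pow_clog (by norm_num) n
  calc n ^ 2 ≤ (2 ^ Nat.clog 2 n) ^ 2 := Nat.pow_le_pow_left h 2
    _ = 4 ^ Nat.clog 2 n := by
      rw [← pow_mul, mul_comm, pow_mul]
      norm_num

theorem ptop_mul (L : ℕ) : 2 ^ L * 2 ^ L = 4 ^ L := by
  rw [← mul_pow]
  norm_num

theorem ptop_rest (n : ℕ) (x : List Bool) : AllNil rest (mid n x) := by
  intro y hy
  cases y <;> first | rfl | exact absurd hy (by decide)

theorem exists_top (A : TM) (hA : A.Multiplies) : ∃ (P : BProg A) (C : ℕ), ∀ (n : ℕ)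
    (x : List Bool), 1 ≤ n → x.length = n * n →
    Sat P (only x) (C * recCost A (4 ^ Nat.clog 2 n) (Nat.clog 2 n)) (only (transpose n x)) := by
  obtain ⟨P1, C1, h1⟩ := exists_front A
  obtain ⟨P2, C2, h2⟩ := exists_rec A hA
  obtain ⟨P3, C3, h3⟩ := exists_back A
  refine ⟨Prog.seq P1 (Prog.seq P2 P3), C1 + C2 + C3, fun n x hn hx => ?_⟩
  have hnm : n ≤ 2 ^ Nat.clog 2 n := Nat.le_pow_clog (by norm_num) n
  set L := Nat.clog 2 n with hL
  have hlen : (padF n (2 ^ L) x).length = 4 ^ L := by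
    rw [length_padF hnm hx, ptop_mul]
  have g1 := h1 n x hn hx
  have hGD : mid n (padF n (2 ^ L) x) .GD = padF n (2 ^ L) x := rfl
  have g2 := h2 (mid n (padF n (2 ^ L) x)) L 1 le_rfl (ptop_rest n _) rfl rfl rfl (by
    rw [hGD, hlen, one_mul])
  rw [one_mul, hGD, recF_eq_transpose L hlen] at g2
  have hlen2 : (transpose (2 ^ L) (padF n (2 ^ L) x)).length = 2 ^ L * 2 ^ L := by
    unfold transpose
    rw [List.length_map, List.length_range]
  have g3 := h3 n (transpose (2 ^ L) (padF n (2 ^ L) x)) hn hlen2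
  rw [← hL, unpad_transpose_pad hnm hx] at g3
  have hmid : up (mid n (padF n (2 ^ L) x)) .GD (transpose (2 ^ L) (padF n (2 ^ L) x)) =
      mid n (transpose (2 ^ L) (padF n (2 ^ L) x)) := by
    funext y
    cases y <;> rfl
  rw [hmid] at g2
  refine (g1.seq (g2.seq g3)).mono ?_
  have c1 : n ^ 2 ≤ recCost A (4 ^ L) L := (ptop_sq n).trans (ptop_le_recCost A _ _)
  have c2 := Nat.mul_le_mul_left C1 c1
  have c3 := Nat.mul_le_mul_left C3 c1
  calc C1 * n ^ 2 + (C2 * recCost A (4 ^ L) L + C3 * n ^ 2)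
      ≤ C1 * recCost A (4 ^ L) L + (C2 * recCost A (4 ^ L) L + C3 * recCost A (4 ^ L) L) := by
        omega
    _ = (C1 + C2 + C3) * recCost A (4 ^ L) L := by ring

end Vale.Agent.P338
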