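import Vale.Agent.Lib.P338.Defs

/-!
# P338: programs (machines with an exit) on a finite family of tapes, and how to combine them
-/

namespace Vale.Agent.P338

/-- Contents of the tapes and positions of the heads. -/
@[ext] structure Tapes (K Γ : Type) where
  tape : K → ℕ → Γ
  head : K → ℕ

namespace Tapes

variable {K Γ : Type}

/-- the scanned symbols -/
def read (T : Tapes K Γ) : K → Γ := fun i => T.tape i (T.head i)

/-- write and move -/
def act (T : Tapes K Γ) (a : K → Γ × Move) : Tapes K Γ where
  tape := fun i => Function.update (T.tape i) (T.head i) (a i).1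
  head := fun i => (a i).2.apply (T.head i)

end Tapes

/-- A program: a machine with an exit (`none`). -/
structure Prog (K Γ : Type) where
  Q : Type
  fin : Finite Q
  start : Q
  δ : Q → (K → Γ) → Option Q × (K → Γ × Move)

namespace Prog

variable {K Γ : Type}

/-- Execution from a state (`none`: the exit) in `n` steps. -/
inductive Exec (P : Prog K Γ) : Option P.Q → Tapes K Γ → ℕ → Tapes K Γ → Prop
  | done (T) : Exec P none T 0 T
  | step {q T n T'} : Exec P (P.δ q T.read).1 (T.act (P.δ q T.read).2) n T' →
      Exec P (some q) T (n + 1) T'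

/-- `P` started with the tapes `T` exits after `n` steps with the tapes `T'`. -/
def Run (P : Prog K Γ) (T : Tapes K Γ) (n : ℕ) (T' : Tapes K Γ) : Prop :=
  P.Exec (some P.start) T n T'

/-- a single step -/
def prim (a : (K → Γ) → (K → Γ × Move)) : Prog K Γ where
  Q := Unit
  fin := inferInstance
  start := ()
  δ := fun _ r => (none, a r)

theorem run_prim (a : (K → Γ) → (K → Γ × Move)) (T : Tapes K Γ) :
    (prim a).Run T 1 (T.act (a T.read)) :=
  Exec.step (Exec.done _)

/-- write back the scanned symbols and do not move -/
def idle (r : K → Γ) : K → Γ × Move := fun i => (r i, .stay)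

theorem act_idle (T : Tapes K Γ) : T.act (idle T.read) = T := by
  ext i p
  · simp only [Tapes.act, idle, Tapes.read]
    rw [Function.update_eq_self]
  · simp [Tapes.act, idle, Move.apply]

/-- sequential composition -/
def seq (P R : Prog K Γ) : Prog K Γ where
  Q := P.Q ⊕ R.Q
  fin := by
    have := P.fin
    have := R.fin
    infer_instance
  start := Sum.inl P.start
  δ := fun q r => match q with
    | Sum.inl q => (some ((P.δ q r).1.elim (Sum.inr R.start) Sum.inl), (P.δ q r).2)
    | Sum.inr q => ((R.δ q r).1.map Sum.inr, (R.δ q r).2)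

theorem exec_seq_right (P R : Prog K Γ) {q : Option R.Q} {T : Tapes K Γ} {n : ℕ}
    {T' : Tapes K Γ} (h : R.Exec q T n T') :
    (seq P R).Exec (q.map Sum.inr) T n T' := by
  induction h with
  | done T => exact Exec.done T
  | step _ ih => exact Exec.step ih

theorem exec_seq_left (P R : Prog K Γ) {q : Option P.Q} {T : Tapes K Γ} {n : ℕ}
    {T' : Tapes K Γ} (h : P.Exec q T n T') {m : ℕ} {T'' : Tapes K Γ}
    (h' : (seq P R).Exec (some (Sum.inr R.start)) T' m T'') :
    (seq P R).Exec (some (q.elim (Sum.inr R.start) Sum.inl)) T (n + m) T'' := by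
  induction h with
  | done T =>
    rw [Nat.zero_add]
    exact h'
  | @step q T n T' _ ih =>
    have h2 := ih h'
    have h3 : (seq P R).Exec (some (Sum.inl q)) T (n + m + 1) T'' := Exec.step h2
    have e : n + 1 + m = n + m + 1 := by omega
    rw [e]
    exact h3

theorem run_seq {P R : Prog K Γ} {T T' T'' : Tapes K Γ} {n m : ℕ} (h : P.Run T n T')
    (h' : R.Run T' m T'') : (seq P R).Run T (n + m) T'' :=
  exec_seq_left P R h (exec_seq_right P R h')

/-- conditional -/
def cond (p : (K → Γ) → Bool) (P R : Prog K Γ) : Prog K Γ where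
  Q := Unit ⊕ (P.Q ⊕ R.Q)
  fin := by
    have := P.fin
    have := R.fin
    infer_instance
  start := Sum.inl ()
  δ := fun q r => match q with
    | Sum.inl _ => (some (Sum.inr (if p r then Sum.inl P.start else Sum.inr R.start)), idle r)
    | Sum.inr (Sum.inl q) => ((P.δ q r).1.map fun q => Sum.inr (Sum.inl q), (P.δ q r).2)
    | Sum.inr (Sum.inr q) => ((R.δ q r).1.map fun q => Sum.inr (Sum.inr q), (R.δ q r).2)

theorem run_cond_true {p : (K → Γ) → Bool} {P R : Prog K Γ} {T T' : Tapes K Γ} {n : ℕ}
    (hp : p T.read = true) (h : P.Run T n T') : (cond p P R).Run T (n + 1) T' := by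
  have key : ∀ {q : Option P.Q} {T : Tapes K Γ} {n : ℕ} {T' : Tapes K Γ}, P.Exec q T n T' →
      (cond p P R).Exec (q.map fun q => Sum.inr (Sum.inl q)) T n T' := by
    intro q T n T' h
    induction h with
    | done T => exact Exec.done T
    | step _ ih => exact Exec.step ih
  apply Exec.step
  show (cond p P R).Exec (some (Sum.inr (if p T.read then Sum.inl P.start else Sum.inr R.start)))
    (T.act (idle T.read)) n T'
  rw [act_idle, hp]
  exact key h

theorem run_cond_false {p : (K → Γ) → Bool} {P R : Prog K Γ} {T T' : Tapes K Γ} {n : ℕ}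
    (hp : p T.read = false) (h : R.Run T n T') : (cond p P R).Run T (n + 1) T' := by
  have key : ∀ {q : Option R.Q} {T : Tapes K Γ} {n : ℕ} {T' : Tapes K Γ}, R.Exec q T n T' →
      (cond p P R).Exec (q.map fun q => Sum.inr (Sum.inr q)) T n T' := by
    intro q T n T' h
    induction h with
    | done T => exact Exec.done T
    | step _ ih => exact Exec.step ih
  apply Exec.step
  show (cond p P R).Exec (some (Sum.inr (if p T.read then Sum.inl P.start else Sum.inr R.start)))
    (T.act (idle T.read)) n T'
  rw [act_idle, hp]
  exact key h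

/-- loop while the scanned symbols satisfy `p` -/
def loop (p : (K → Γ) → Bool) (P : Prog K Γ) : Prog K Γ where
  Q := Unit ⊕ P.Q
  fin := by
    have := P.fin
    infer_instance
  start := Sum.inl ()
  δ := fun q r => match q with
    | Sum.inl _ => (if p r then some (Sum.inr P.start) else none, idle r)
    | Sum.inr q => (some ((P.δ q r).1.elim (Sum.inl ()) Sum.inr), (P.δ q r).2)

theorem run_loop_false {p : (K → Γ) → Bool} {P : Prog K Γ} {T : Tapes K Γ}
    (hp : p T.read = false) : (loop p P).Run T 1 T := by
  apply Exec.step
  show (loop p P).Exec (if p T.read then some (Sum.inr P.start) else none)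
    (T.act (idle T.read)) 0 T
  rw [act_idle, hp]
  exact Exec.done T

theorem run_loop_true {p : (K → Γ) → Bool} {P : Prog K Γ} {T T' T'' : Tapes K Γ} {n m : ℕ}
    (hp : p T.read = true) (h : P.Run T n T') (h' : (loop p P).Run T' m T'') :
    (loop p P).Run T (n + m + 1) T'' := by
  have key : ∀ {q : Option P.Q} {T : Tapes K Γ} {n : ℕ} {T' : Tapes K Γ}, P.Exec q T n T' →
      (loop p P).Run T' m T'' →
      (loop p P).Exec (some (q.elim (Sum.inl ()) Sum.inr)) T (n + m) T'' := by
    intro q T n T' h h'
    induction h with
    | done T =>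
      rw [Nat.zero_add]
      exact h'
    | @step q T n T' _ ih =>
      have h3 : (loop p P).Exec (some (Sum.inr q)) T (n + m + 1) T'' := Exec.step (ih h')
      have e : n + 1 + m = n + m + 1 := by omega
      rw [e]
      exact h3
  apply Exec.step
  show (loop p P).Exec (if p T.read then some (Sum.inr P.start) else none)
    (T.act (idle T.read)) (n + m) T''
  rw [act_idle, hp]
  exact key h h'

end Prog

end Vale.Agent.P338
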