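import Vale.Agent.Lib.P338.Reduct
import Vale.Agent.Lib.P338.MGap

/-!
# P338, modules Reduct, RedO, RedGap: the reduction from transposition to multiplication

`reduction`: from `exists_top` and `exists_wrap` (applied to the program of `exists_top`), with
`transTime B n ≤ C * recCost A (4 ^ L) L + C' * (2 n ^ 2 + 1)` (`TM.time` is the infimum of the
admissible numbers of steps), `4 ^ L ≤ 4 n ^ 2` for `L = Nat.clog 2 n`, and `recCost_le`.

`reduction_o`: `sumS A (Nat.clog 2 n) = o(Nat.clog 2 n)` and `Nat.clog 2 n ≤ 2 * log2 n + 1`.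

`reduction_gap`: apply the hypothesis to `n = 2 ^ L` (`Nat.clog 2 (2 ^ L) = L`): `c * 4 ^ L * (L log 2)
≤ C * 4 ^ L * (1 + sumS A L)`, so `sumS A L ≥ c' L` for large `L`; use `sumS_gap`.

`reduction_Omega`: if `T ≤ F` and `F n / n` is nondecreasing then for large `x` with the `n` of
`reduction_gap`: `F x / x ≥ F n / n ≥ c' log n ≥ c' δ log x`.
-/

namespace Vale.Agent.P338

open Filter

theorem reduction_gap (H : ∀ B : TM, B.Transposes → ∃ c : ℝ, 0 < c ∧ ∀ᶠ n : ℕ in atTop,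
      c * (n : ℝ) ^ 2 * Real.log n ≤ B.transTime n) (A : TM) (hA : A.Multiplies) :
    ∃ δ : ℝ, 0 < δ ∧ ∃ c : ℝ, 0 < c ∧ ∀ᶠ x : ℕ in atTop, ∃ n : ℕ, (x : ℝ) ^ δ ≤ n ∧ n ≤ x ∧
      c * n * Real.log n ≤ A.mulTime n := by
  obtain ⟨B, hB, C, hC⟩ := reduction A hA
  obtain ⟨c, hc, hev⟩ := H B hB
  have hlog : 0 < Real.log 2 := Real.log_pos (by norm_num)
  have hM : 0 < max C 1 := lt_max_of_lt_right one_pos
  have hpos : 0 < c * Real.log 2 / (2 * max C 1) := by positivity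
  refine sumS_gap A hpos ?_
  have htend : Tendsto (fun L : ℕ => 2 ^ L) atTop (atTop : Filter ℕ) :=
    tendsto_pow_atTop_atTop_of_one_lt (by norm_num)
  have hL : ∀ᶠ L : ℕ in atTop, 1 ≤ c * Real.log 2 / (2 * max C 1) * (L : ℝ) := by
    have h1 : Tendsto (fun L : ℕ => c * Real.log 2 / (2 * max C 1) * (L : ℝ)) atTop atTop :=
      Tendsto.const_mul_atTop hpos tendsto_natCast_atTop_atTop
    exact h1.eventually_ge_atTop 1
  filter_upwards [htend.eventually hev, hL] with L h1 h2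
  have h3 := hC (2 ^ L) Nat.one_le_two_pow
  rw [Nat.clog_pow 2 L (by norm_num)] at h3
  have h4 := h1.trans h3
  push_cast at h4
  rw [Real.log_pow] at h4
  have hP : (0 : ℝ) < ((2 : ℝ) ^ L) ^ 2 := by positivity
  have hS := sumS_nonneg A L
  have h5 : C * ((2 : ℝ) ^ L) ^ 2 * (1 + sumS A L) ≤
      max C 1 * ((2 : ℝ) ^ L) ^ 2 * (1 + sumS A L) := by
    gcongr
    exact le_max_left C 1
  have h6 : c * (L * Real.log 2) ≤ max C 1 * (1 + sumS A L) := by
    have h7 : ((2 : ℝ) ^ L) ^ 2 * (c * (L * Real.log 2)) ≤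
        ((2 : ℝ) ^ L) ^ 2 * (max C 1 * (1 + sumS A L)) := by
      calc ((2 : ℝ) ^ L) ^ 2 * (c * (L * Real.log 2)) = c * ((2 : ℝ) ^ L) ^ 2 * (L * Real.log 2) := by
            ring
        _ ≤ C * ((2 : ℝ) ^ L) ^ 2 * (1 + sumS A L) := h4
        _ ≤ max C 1 * ((2 : ℝ) ^ L) ^ 2 * (1 + sumS A L) := h5
        _ = _ := by ring
    exact le_of_mul_le_mul_left h7 hP
  have h8 : 2 * (c * Real.log 2 / (2 * max C 1) * (L : ℝ)) ≤ 1 + sumS A L := by
    have h9 : 2 * (c * Real.log 2 / (2 * max C 1) * (L : ℝ)) = c * (L * Real.log 2) / max C 1 := by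
      field_simp
    rw [h9, div_le_iff₀ hM]
    linarith
  linarith

theorem reduction_Omega (H : ∀ B : TM, B.Transposes → ∃ c : ℝ, 0 < c ∧ ∀ᶠ n : ℕ in atTop,
      c * (n : ℝ) ^ 2 * Real.log n ≤ B.transTime n) (A : TM) (hA : A.Multiplies) (F : ℕ → ℝ)
    (hF : ∀ n, 1 ≤ n → (A.mulTime n : ℝ) ≤ F n)
    (hmono : ∀ m n : ℕ, 1 ≤ m → m ≤ n → F m / m ≤ F n / n) :
    ∃ c : ℝ, 0 < c ∧ ∀ᶠ n : ℕ in atTop, c * n * Real.log n ≤ F n := by
  obtain ⟨δ, hδ, c, hc, hev⟩ := reduction_gap H A hA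
  refine ⟨c * δ, mul_pos hc hδ, ?_⟩
  filter_upwards [hev, eventually_ge_atTop 1] with x hx hx1
  obtain ⟨n, h1, h2, h3⟩ := hx
  have hx1' : (1 : ℝ) ≤ x := by exact_mod_cast hx1
  have hx0 : (0 : ℝ) < x := by linarith
  have hn1' : (1 : ℝ) ≤ n := (Real.one_le_rpow hx1' hδ.le).trans h1
  have hn1 : 1 ≤ n := by exact_mod_cast hn1'
  have hn0 : (0 : ℝ) < n := by linarith
  have h4 : δ * Real.log x ≤ Real.log n := by
    rw [← Real.log_rpow hx0]
    exact Real.log_le_log (Real.rpow_pos_of_pos hx0 _) h1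
  have h5 : c * Real.log n ≤ F n / n := by
    rw [le_div_iff₀ hn0]
    have h6 := hF n hn1
    nlinarith
  have h7 := hmono n x hn1 h2
  have h8 : c * (δ * Real.log x) ≤ F x / x :=
    ((mul_le_mul_of_nonneg_left h4 hc.le).trans h5).trans h7
  rw [le_div_iff₀ hx0] at h8
  nlinarith

end Vale.Agent.P338
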