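import Vale.Agent.Lib.P338.Reduct
import Vale.Agent.Lib.P338.MAsym

/-!
# P338, modules Reduct, RedO, RedGap: the reduction from transposition to multiplication

`reduction`: from `exists_top` and `exists_wrap` (applied to the program of `exists_top`), with
`transTime B n ≤ C * recCost A (4 ^ L) L + C' * (2 n ^ 2 + 1)` (`TM.time` is the infimum of the
admissible numbers of steps), `4 ^ L ≤ 4 n ^ 2` for `L = Nat.clog 2 n`, and `recCost_le`.

`reduction_o`: `sumS A (Nat.clog 2 n) = o(Nat.clog 2 n)` and `Nat.clog 2 n ≤ 2 * log2 n + 1`.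

`reduction_gap`: apply the hypothesis to `n = 2 ^ L` (`Nat.clog 2 (2 ^ L) = L`): `c * 4 ^ L * (L log 2)
≤ C * 4 ^ L * (1 + sumS A L)`, so `sumS A L ≥ c' L` for large `L`; use `sumS_gap`.

`reduction_Omega`: if `T ≤ F` and `F n / n` is nondecreasing then for large `x` with the `n` of
`reduction_gap`: `F x / x ≥ F n / n ≥ c' log n ≥ c' δ log x`.
-/

namespace Vale.Agent.P338

open Filter Asymptotics

private theorem tendsto_clog2 : Tendsto (fun n : ℕ => Nat.clog 2 n) atTop atTop := by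
  rw [tendsto_atTop]
  intro b
  filter_upwards [eventually_ge_atTop (2 ^ b)] with n hn
  have h := Nat.clog_mono_right 2 hn
  rwa [Nat.clog_pow 2 b (by norm_num)] at h

private theorem clog2_isBigO :
    (fun n : ℕ => ((Nat.clog 2 n : ℕ) : ℝ)) =O[atTop] (fun n : ℕ => Real.log n) := by
  rw [isBigO_iff]
  refine ⟨2 / Real.log 2, ?_⟩
  filter_upwards [eventually_ge_atTop 2] with n hn
  have hn' : (2 : ℝ) ≤ n := by exact_mod_cast hn
  have h2 : 0 < Real.log 2 := Real.log_pos (by norm_num)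
  have h3 : Real.log 2 ≤ Real.log n := Real.log_le_log (by norm_num) hn'
  have h4 : Nat.clog 2 n ≤ Nat.log 2 n + 1 := by
    refine Nat.clog_le_of_le_pow ?_
    exact (Nat.lt_pow_succ_log_self (by norm_num) n).le
  have h5 : ((Nat.clog 2 n : ℕ) : ℝ) ≤ Nat.log 2 n + 1 := by exact_mod_cast h4
  have h6 : ((Nat.log 2 n : ℕ) : ℝ) ≤ Real.logb 2 n := by
    have h7 := Real.natLog_le_logb n 2
    exact_mod_cast h7
  have h8 : Real.logb 2 n = Real.log n / Real.log 2 := rfl
  rw [Real.norm_of_nonneg (Nat.cast_nonneg _), Real.norm_of_nonneg (by linarith)]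
  have h9 : 1 ≤ Real.log n / Real.log 2 := by
    rw [le_div_iff₀ h2]
    linarith
  have h10 : 2 / Real.log 2 * Real.log n = 2 * (Real.log n / Real.log 2) := by ring
  rw [h10]
  rw [h8] at h6
  linarith

private theorem one_isLittleO_log :
    (fun _ : ℕ => (1 : ℝ)) =o[atTop] (fun n : ℕ => Real.log n) := by
  rw [isLittleO_one_left_iff]
  have h1 : Tendsto (fun n : ℕ => Real.log (n : ℝ)) atTop atTop :=
    Real.tendsto_log_atTop.comp tendsto_natCast_atTop_atTop
  exact tendsto_norm_atTop_atTop.comp h1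

theorem reduction_o (A : TM) (hA : A.Multiplies)
    (h : (fun n : ℕ => (A.mulTime n : ℝ)) =o[atTop] (fun n : ℕ => (n : ℝ) * Real.log n)) :
    ∃ B : TM, B.Transposes ∧ (fun n : ℕ => (B.transTime n : ℝ)) =o[atTop]
      (fun n : ℕ => (n : ℝ) ^ 2 * Real.log n) := by
  obtain ⟨B, hB, C, hC⟩ := reduction A hA
  refine ⟨B, hB, ?_⟩
  have h1 : (fun n : ℕ => sumS A (Nat.clog 2 n)) =o[atTop] (fun n : ℕ => Real.log n) :=
    ((sumS_isLittleO A h).comp_tendsto tendsto_clog2).trans_isBigO clog2_isBigO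
  have h2 : (fun n : ℕ => 1 + sumS A (Nat.clog 2 n)) =o[atTop] (fun n : ℕ => Real.log n) :=
    one_isLittleO_log.add h1
  have h3 : (fun n : ℕ => (n : ℝ) ^ 2 * (1 + sumS A (Nat.clog 2 n))) =o[atTop]
      (fun n : ℕ => (n : ℝ) ^ 2 * Real.log n) := (isBigO_refl _ _).mul_isLittleO h2
  refine IsBigO.trans_isLittleO ?_ h3
  rw [isBigO_iff]
  refine ⟨C, ?_⟩
  filter_upwards [eventually_ge_atTop 1] with n hn
  have h4 := hC n hn
  have h5 := sumS_nonneg A (Nat.clog 2 n)
  rw [Real.norm_of_nonneg (Nat.cast_nonneg _), Real.norm_of_nonneg (by positivity)]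
  linarith

end Vale.Agent.P338
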