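import Vale.Agent.Lib.P338.FrontDefs

/-!
# P338, module Wrap: from a stack program to a Turing machine

Given a program `P : BProg A` build the machine `B`: tapes `BK A`, symbols `BSym A`
(`bit b = .bit b`, `blank = .blank`, `sep = .sep`), first tape `.inp`, output tape `.out`, states
`Option F.Q` where `F : BProg A` is the program
```
prim: on all tapes `.tp i` write mk and move right
loop (the tape .inp scans .bit b) ( if b push GO true else push GO false ; move right on .inp )
mvAll GO GD
P
whileNE GD ( ifTrue GD (pop GD ; write bit true on .out and move right) (pop GD ; write bit false ...) )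
```
and `δ none _ = none`, `δ (some q) r = some (F.δ q r)`. The initial tapes are, after the first
step, of the form `enc base (fun _ => [])` with `Ready base` (all stack tapes are blank with the head
on cell `0`); the word `w` is on the tape `.inp`. `GO = x.reverse` after the first loop, so `GD = x`.
`Sat P (only x) n (only y)` is applied to the current `base` (the head of `.inp` has moved, the
contents of `.inp` are unchanged, `.out` is blank). At the end the tape `.out` contains the bits of
`y` in the cells `0, 1, ...` and is blank elsewhere.

A run `F.Run T n T'` gives `B.run n ⟨some F.start, T⟩ = ⟨none, T'⟩` (up to the format of the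
configurations): induction on `Prog.Exec`.
-/

namespace Vale.Agent.P338

namespace Wrap

variable {A : TM}

/-- the machine of a program -/
def mach (F : BProg A) : TM where
  Q := Option F.Q
  Γ := BSym A
  K := BK A
  finQ := by
    have := F.fin
    infer_instance
  finΓ := BSym.finite A
  finK := by
    have := A.finK
    infer_instance
  blank := .blank
  bit := .bit
  sep := .sep
  bit_inj := by simp
  blank_ne := by simp
  sep_ne := by simp
  inp := .inp
  out := .out
  start := some F.start
  δ := fun q r => match q with
    | none => none
    | some q => some (F.δ q r)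

/-- a configuration from tapes -/
def toCfg (F : BProg A) (q : Option F.Q) (T : BTapes A) : (mach F).Cfg where
  q := q
  tape := T.tape
  head := T.head

theorem step_none (F : BProg A) (T : BTapes A) : (mach F).step (toCfg F none T) = none := rfl

theorem step_some (F : BProg A) (q : F.Q) (T : BTapes A) :
    (mach F).step (toCfg F (some q) T) =
      some (toCfg F (F.δ q T.read).1 (T.act (F.δ q T.read).2)) := rfl

theorem run_exec (F : BProg A) {q : Option F.Q} {T : BTapes A} {n : ℕ} {T' : BTapes A}
    (h : F.Exec q T n T') : (mach F).run n (toCfg F q T) = toCfg F none T' := by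
  induction h with
  | done T => rfl
  | @step q T n T' _ ih =>
    unfold TM.run
    rw [Function.iterate_succ_apply]
    rw [step_some, Option.getD_some]
    exact ih

/-- the other tapes, with the input tape `u`, the output tape `v` and their heads -/
def bs (u v : ℕ → BSym A) (a b : ℕ) : BTapes A where
  tape := fun k => match k with
    | Sum.inl _ => fun _ => .blank
    | Sum.inr (Sum.inl _) => fun p => if p = 0 then .mk else .blank
    | Sum.inr (Sum.inr j) => if j = 0 then fun _ => .blank else if j = 1 then u else v
  head := fun k => match k with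
    | Sum.inl _ => 0
    | Sum.inr (Sum.inl _) => 1
    | Sum.inr (Sum.inr j) => if j = 0 then 0 else if j = 1 then a else b

theorem ready_bs (u v : ℕ → BSym A) (a b : ℕ) : Ready (bs u v a b) where
  tape := fun _ => rfl
  head := fun _ => rfl
  sta := rfl
  stah := rfl

/-- the first step -/
def first : BProg A := Prog.prim fun r k => match k with
  | Sum.inl x => (r (Sum.inl x), .stay)
  | Sum.inr (Sum.inl _) => (.mk, .right)
  | Sum.inr (Sum.inr j) => (r (Sum.inr (Sum.inr j)), .stay)

/-- move right on the input tape -/
def mvInp : BProg A := Prog.prim fun r k => match k with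
  | Sum.inl x => (r (Sum.inl x), .stay)
  | Sum.inr (Sum.inl i) => (r (Sum.inr (Sum.inl i)), .stay)
  | Sum.inr (Sum.inr j) => (r (Sum.inr (Sum.inr j)), if j = 1 then .right else .stay)

/-- write the bit `c` on the output tape and move right -/
def wr (c : Bool) : BProg A := Prog.prim fun r k => match k with
  | Sum.inl x => (r (Sum.inl x), .stay)
  | Sum.inr (Sum.inl i) => (r (Sum.inr (Sum.inl i)), .stay)
  | Sum.inr (Sum.inr j) => if j = 2 then (.bit c, .right) else (r (Sum.inr (Sum.inr j)), .stay)

theorem tr_of_eq {P : BProg A} {b b' : BTapes A} {s s' : St} {n : ℕ} {T : BTapes A}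
    (h : P.Run (enc b s) n T) (e : T = enc b' s') : Tr P b s n b' s' := by
  subst e
  exact ⟨n, le_rfl, h⟩

theorem tr_mvInp (u v : ℕ → BSym A) (a b : ℕ) (s : St) :
    Tr (mvInp : BProg A) (bs u v a b) s 1 (bs u v (a + 1) b) s := by
  refine tr_of_eq (Prog.run_prim _ _) ?_
  ext k p
  · rcases k with x | i | j
    · simp [Tapes.act, Tapes.read]
      rfl
    · simp [Tapes.act, Tapes.read]
      rfl
    · simp [Tapes.act, Tapes.read]
      rfl
  · rcases k with x | i | j
    · rfl
    · rfl
    · fin_cases j <;> rfl

theorem tr_wr (c : Bool) (u v : ℕ → BSym A) (a b : ℕ) (s : St) :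
    Tr (wr c : BProg A) (bs u v a b) s 1 (bs u (Function.update v b (.bit c)) a (b + 1)) s := by
  refine tr_of_eq (Prog.run_prim _ _) ?_
  ext k p
  · rcases k with x | i | j
    · simp [Tapes.act, Tapes.read]
      rfl
    · simp [Tapes.act, Tapes.read]
      rfl
    · fin_cases j
      · simp [Tapes.act, Tapes.read]
        rfl
      · simp [Tapes.act, Tapes.read]
        rfl
      · rfl
  · rcases k with x | i | j
    · rfl
    · rfl
    · fin_cases j <;> rfl

/-- the input loop -/
def inLoop : BProg A := Prog.loop (fun r => isBit (r .inp))
  (Prog.cond (fun r => isTrue (r .inp)) (Prog.seq (push .GO true) mvInp)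
    (Prog.seq (push .GO false) mvInp))

theorem read_inp (u v : ℕ → BSym A) (a b : ℕ) (s : St) :
    (enc (bs u v a b) s).read .inp = u a := rfl

theorem tr_inLoop (u v : ℕ → BSym A) (b : ℕ) (l : List Bool) : ∀ (a : ℕ) (s : St),
    (∀ i, u (a + i) = (l.map BSym.bit).getD i .blank) →
    Tr (inLoop : BProg A) (bs u v a b) s (5 * l.length + 1) (bs u v (a + l.length) b)
      (up s .GO (l.reverse ++ s .GO)) := by
  induction l with
  | nil =>
    intro a s hu
    have h0 : u a = .blank := by
      have := hu 0
      simpa using this
    have h1 : Tr (inLoop : BProg A) (bs u v a b) s 1 (bs u v a b) s := by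
      apply tr_loop_false
      rw [read_inp, h0]
      rfl
    simpa [up_id] using h1
  | cons c l ih =>
    intro a s hu
    have h0 : u a = .bit c := by
      have := hu 0
      simpa using this
    have hu' : ∀ i, u (a + 1 + i) = (l.map BSym.bit).getD i .blank := by
      intro i
      have := hu (i + 1)
      have e : a + (i + 1) = a + 1 + i := by omega
      rw [e] at this
      simpa using this
    have hbody : Tr (Prog.cond (fun r => isTrue (r .inp)) (Prog.seq (push .GO true) mvInp)
        (Prog.seq (push .GO false) mvInp) : BProg A) (bs u v a b) s (2 + 1 + 1)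
        (bs u v (a + 1) b) (up s .GO (c :: s .GO)) := by
      cases c with
      | true =>
        apply tr_cond_true
        · rw [read_inp, h0]
          rfl
        · exact (tr_push .GO true _ s).seq (tr_mvInp u v a b _)
      | false =>
        apply tr_cond_false
        · rw [read_inp, h0]
          rfl
        · exact (tr_push .GO false _ s).seq (tr_mvInp u v a b _)
    have hrest := ih (a + 1) (up s .GO (c :: s .GO)) hu'
    have h3 : Tr (inLoop : BProg A) (bs u v a b) s (2 + 1 + 1 + (5 * l.length + 1) + 1)
        (bs u v (a + 1 + l.length) b)
        (up (up s .GO (c :: s .GO)) .GO (l.reverse ++ (up s .GO (c :: s .GO)) .GO)) := by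
      apply tr_loop_true _ hbody hrest
      rw [read_inp, h0]
      rfl
    have e1 : a + 1 + l.length = a + (c :: l).length := by
      simp only [List.length_cons]
      omega
    have e2 : up (up s .GO (c :: s .GO)) .GO (l.reverse ++ (up s .GO (c :: s .GO)) .GO) =
        up s .GO ((c :: l).reverse ++ s .GO) := by
      rw [up_up, up_self]
      simp
    rw [e1, e2] at h3
    refine h3.mono ?_
    simp only [List.length_cons]
    omega

/-- the output loop -/
def outLoop : BProg A := whileNE .GD (ifTrue .GD (Prog.seq (wr true) (pop .GD))
    (Prog.seq (wr false) (pop .GD)))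

theorem tr_outLoop (u : ℕ → BSym A) (a : ℕ) (l : List Bool) : ∀ (v : ℕ → BSym A) (b : ℕ) (s : St),
    s .GD = l →
    Tr (outLoop : BProg A) (bs u v a b) s (4 * l.length + 1)
      (bs u (fun p => if p < b then v p else (l.map BSym.bit).getD (p - b) (v p)) a
        (b + l.length)) (up s .GD []) := by
  induction l with
  | nil =>
    intro v b s hs
    have h1 : Tr (outLoop : BProg A) (bs u v a b) s 1 (bs u v a b) s := by
      apply tr_loop_false
      exact read_nil hs _
    have e : (fun p => if p < b then v p else (([] : List Bool).map BSym.bit).getD (p - b) (v p)) =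
        v := by
      funext p
      simp
    rw [e, ← hs, up_id]
    simpa [hs] using h1
  | cons c l ih =>
    intro v b s hs
    have hbody : Tr (ifTrue .GD (Prog.seq (wr true) (pop .GD))
        (Prog.seq (wr false) (pop .GD)) : BProg A) (bs u v a b) s (1 + 1 + 1)
        (bs u (Function.update v b (.bit c)) a (b + 1)) (up s .GD l) := by
      have e : up s .GD l = up s .GD (s .GD).tail := by rw [hs]; rfl
      rw [e]
      cases c with
      | true =>
        apply tr_cond_true
        · exact read_true hs _
        · exact (tr_wr true u v a b s).seq (tr_pop .GD _ s)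
      | false =>
        apply tr_cond_false
        · apply read_not_true
          rw [hs]
          simp
        · exact (tr_wr false u v a b s).seq (tr_pop .GD _ s)
    have hrest := ih (Function.update v b (.bit c)) (b + 1) (up s .GD l) (by rw [up_self])
    have h3 := tr_loop_true (p := fun r : BK A → BSym A => isBit (r (.st .GD)))
      (read_ne (by rw [hs]; simp) (bs u v a b)) hbody hrest
    have e1 : b + 1 + l.length = b + (c :: l).length := by
      simp only [List.length_cons]
      omega
    have e2 : (fun p => if p < b + 1 then Function.update v b (BSym.bit c) p else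
        (l.map BSym.bit).getD (p - (b + 1)) (Function.update v b (BSym.bit c) p)) =
        (fun p => if p < b then v p else ((c :: l).map BSym.bit).getD (p - b) (v p)) := by
      funext p
      rcases lt_trichotomy p b with hp | hp | hp
      · rw [if_pos (by omega), if_pos hp, Function.update_of_ne (by omega)]
      · subst hp
        simp
      · rw [if_neg (by omega), if_neg (by omega), Function.update_of_ne (by omega)]
        have e : p - b = (p - (b + 1)) + 1 := by omega
        rw [e]
        simp
    rw [e1, e2, up_up] at h3
    refine Tr.mono h3 ?_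
    simp only [List.length_cons]
    omega

/-- the whole program -/
def prog (P : BProg A) : BProg A :=
  Prog.seq first (Prog.seq inLoop (Prog.seq (mvAll .GO .GD) (Prog.seq P outLoop)))

theorem run_first (x : List Bool) (F : BProg A) :
    (first : BProg A).Run ⟨((mach F).init (x.map BSym.bit)).tape,
      ((mach F).init (x.map BSym.bit)).head⟩ 1
      (enc (bs (fun p => (x.map BSym.bit).getD p .blank) (fun _ => .blank) 0 0) fun _ => []) := by
  have h := Prog.run_prim (fun (r : BK A → BSym A) (k : BK A) => match k with
    | Sum.inl x => (r (Sum.inl x), Move.stay)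
    | Sum.inr (Sum.inl _) => (BSym.mk, Move.right)
    | Sum.inr (Sum.inr j) => (r (Sum.inr (Sum.inr j)), Move.stay))
    (⟨((mach F).init (x.map BSym.bit)).tape,
      ((mach F).init (x.map BSym.bit)).head⟩ : BTapes A)
  have e : ∀ T T' : BTapes A, T = T' → (first : BProg A).Run
      ⟨((mach F).init (x.map BSym.bit)).tape, ((mach F).init (x.map BSym.bit)).head⟩ 1 T →
      (first : BProg A).Run
      ⟨((mach F).init (x.map BSym.bit)).tape, ((mach F).init (x.map BSym.bit)).head⟩ 1 T' := by
    intro T T' h
    rw [h]
    exact id
  refine e _ _ ?_ h
  have hne : ∀ k : BK A, k ≠ .inp → ((mach F).init (x.map BSym.bit)).tape k =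
      fun _ => BSym.blank := by
    intro k hk
    funext p
    exact if_neg hk
  have heq : ((mach F).init (x.map BSym.bit)).tape (BK.inp : BK A) =
      fun p => (x.map BSym.bit).getD p BSym.blank := by
    funext p
    exact if_pos rfl
  have hupd : ∀ (k : BK A) (p : ℕ), Function.update (((mach F).init (x.map BSym.bit)).tape k) 0
      (((mach F).init (x.map BSym.bit)).tape k 0) p =
      ((mach F).init (x.map BSym.bit)).tape k p := by
    intro k p
    rw [Function.update_eq_self]
  ext k p
  · rcases k with z | i | j
    · refine (hupd (Sum.inl z) p).trans ?_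
      rw [hne (Sum.inl z) (by simp)]
      show BSym.blank = stk [] p
      simp [stk]
    · show Function.update (((mach F).init (x.map BSym.bit)).tape (Sum.inr (Sum.inl i))) 0
        BSym.mk p = if p = 0 then BSym.mk else BSym.blank
      rw [hne (Sum.inr (Sum.inl i)) (by simp)]
      by_cases hp : p = 0
      · subst hp
        exact (Function.update_self (0 : ℕ) BSym.mk (fun _ => (BSym.blank : BSym A)))
      · rw [if_neg hp]
        exact (Function.update_of_ne hp BSym.mk (fun _ => (BSym.blank : BSym A)))
    · refine (hupd (Sum.inr (Sum.inr j)) p).trans ?_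
      fin_cases j
      · exact congrFun (hne (Sum.inr (Sum.inr 0)) (by simp)) p
      · exact congrFun heq p
      · exact congrFun (hne (Sum.inr (Sum.inr 2)) (by simp)) p
  · rcases k with z | i | j
    · rfl
    · rfl
    · fin_cases j <;> rfl

end Wrap

theorem exists_wrap (A : TM) (P : BProg A) : ∃ (B : TM) (C : ℕ), ∀ (x y : List Bool) (n : ℕ),
    Sat P (only x) n (only y) → ∃ t ≤ n + C * (x.length + y.length + 1), ∃ c,
      B.HaltsWithin (x.map B.bit) t c ∧ B.Outputs c (y.map B.bit) := by
  refine ⟨Wrap.mach (Wrap.prog P), 10, ?_⟩
  intro x y n hP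
  set u : ℕ → BSym A := fun p => (x.map BSym.bit).getD p .blank with hu
  have h1 := Wrap.run_first x (Wrap.prog P)
  have h2 := Wrap.tr_inLoop u (fun _ => .blank) 0 x 0 (fun _ => [])
    (by intro i; rw [Nat.zero_add])
  have h3 := (sat_mvAll (A := A) (x := .GO) (y := .GD) (by decide)
    (up (fun _ => []) .GO (x.reverse ++ []))) _
    (Wrap.ready_bs u (fun _ => .blank) (0 + x.length) 0)
  have e3 : up (up (up (fun _ => []) .GO (x.reverse ++ [])) .GO []) .GD
      ((up (fun _ => []) .GO (x.reverse ++ []) .GO).reverse ++
        (up (fun _ => []) .GO (x.reverse ++ [])) .GD) = only x := by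
    unfold only
    rw [up_self, up_of_ne _ (by decide), up_up]
    funext z
    simp only [up]
    split_ifs <;> simp_all
  rw [e3, up_self] at h3
  have h4 := hP _ (Wrap.ready_bs u (fun _ => .blank) (0 + x.length) 0)
  have h5 := Wrap.tr_outLoop u (0 + x.length) y (fun _ => .blank) 0 (only y) (up_self _ _ _)
  obtain ⟨m, hm, hr⟩ := h2.seq (h3.seq (h4.seq h5))
  have hrun := Prog.run_seq h1 hr
  have hfin := Wrap.run_exec (Wrap.prog P) hrun
  refine ⟨1 + m, ?_, _, ⟨hfin, rfl⟩, ?_⟩
  · have hl : (x.reverse ++ []).length = x.length := by simp
    rw [hl] at hm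
    omega
  · intro p
    show (if p < 0 then BSym.blank else (y.map BSym.bit).getD (p - 0) BSym.blank) = _
    rw [if_neg (Nat.not_lt_zero p), Nat.sub_zero]
    rfl

end Vale.Agent.P338
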