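import Vale.Agent.Lib.P338.PTop
import Vale.Agent.Lib.P338.Wrap
import Vale.Agent.Lib.P338.MCost

/-!
# P338, modules Reduct, RedO, RedGap: the reduction from transposition to multiplication

`reduction`: from `exists_top` and `exists_wrap` (applied to the program of `exists_top`), with
`transTime B n ≤ C * recCost A (4 ^ L) L + C' * (2 n ^ 2 + 1)` (`TM.time` is the infimum of the
admissible numbers of steps), `4 ^ L ≤ 4 n ^ 2` for `L = Nat.clog 2 n`, and `recCost_le`.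

`reduction_o`: `sumS A (Nat.clog 2 n) = o(Nat.clog 2 n)` and `Nat.clog 2 n ≤ 2 * log2 n + 1`.

`reduction_gap`: apply the hypothesis to `n = 2 ^ L` (`Nat.clog 2 (2 ^ L) = L`): `c * 4 ^ L * (L log 2)
≤ C * 4 ^ L * (1 + sumS A L)`, so `sumS A L ≥ c' L` for large `L`; use `sumS_gap`.

`reduction_Omega`: if `T ≤ F` and `F n / n` is nondecreasing then for large `x` with the `n` of
`reduction_gap`: `F x / x ≥ F n / n ≥ c' log n ≥ c' δ log x`.
-/

namespace Vale.Agent.P338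

theorem two_pow_clog_le {n : ℕ} (hn : 1 ≤ n) : 2 ^ Nat.clog 2 n ≤ 2 * n := by
  rcases Nat.lt_or_ge 1 n with h | h
  · have h1 : 2 ^ (Nat.clog 2 n).pred < n := Nat.pow_pred_clog_lt_self (by norm_num) h
    have h2 : 0 < Nat.clog 2 n := Nat.clog_pos (by norm_num) h
    have h3 : Nat.clog 2 n = (Nat.clog 2 n).pred + 1 := (Nat.succ_pred_eq_of_pos h2).symm
    rw [h3, pow_succ]
    omega
  · have : n = 1 := by omega
    subst this
    simp

theorem reduction (A : TM) (hA : A.Multiplies) : ∃ B : TM, B.Transposes ∧ ∃ C : ℝ, ∀ n : ℕ, 1 ≤ n →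
    (B.transTime n : ℝ) ≤ C * (n : ℝ) ^ 2 * (1 + sumS A (Nat.clog 2 n)) := by
  obtain ⟨P, C0, hP⟩ := exists_top A hA
  obtain ⟨B, C1, hB⟩ := exists_wrap A P
  have key : ∀ (n : ℕ) (x : List Bool), 1 ≤ n → x.length = n * n →
      ∃ t ≤ C0 * recCost A (4 ^ Nat.clog 2 n) (Nat.clog 2 n) + C1 * (2 * (n * n) + 1), ∃ c,
        B.HaltsWithin (x.map B.bit) t c ∧ B.Outputs c ((transpose n x).map B.bit) := by
    intro n x hn hx
    obtain ⟨t, ht, c, hc⟩ := hB x (transpose n x) _ (hP n x hn hx)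
    refine ⟨t, ?_, c, hc⟩
    rw [hx, show (transpose n x).length = n * n by simp [transpose]] at ht
    have e : n * n + n * n + 1 = 2 * (n * n) + 1 := by ring
    rw [e] at ht
    exact ht
  refine ⟨B, ?_, (C0 : ℝ) * 56 + C1 * 3, ?_⟩
  · intro n hn x hx
    obtain ⟨t, _, c, hc⟩ := key n x hn hx
    exact ⟨t, c, hc⟩
  · intro n hn
    have h1 : B.transTime n ≤
        C0 * recCost A (4 ^ Nat.clog 2 n) (Nat.clog 2 n) + C1 * (2 * (n * n) + 1) := by
      unfold TM.transTime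
      refine Finset.sup_le fun x _ => ?_
      obtain ⟨t, ht, c, hc⟩ := key n (List.ofFn x) hn (by simp)
      exact (Nat.sInf_le (s := {t | ∃ c, B.HaltsWithin ((List.ofFn x).map B.bit) t c})
        ⟨c, hc.1⟩).trans ht
    have h2 : (B.transTime n : ℝ) ≤
        C0 * (recCost A (4 ^ Nat.clog 2 n) (Nat.clog 2 n) : ℝ) + C1 * (2 * ((n : ℝ) * n) + 1) := by
      exact_mod_cast h1
    have hW : 1 ≤ 4 ^ Nat.clog 2 n := Nat.one_le_pow _ _ (by norm_num)
    have h3 := recCost_le A (L := Nat.clog 2 n) hW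
    have h4 : ((4 ^ Nat.clog 2 n : ℕ) : ℝ) ≤ 4 * (n : ℝ) ^ 2 := by
      have h5 := two_pow_clog_le hn
      have h6 : 4 ^ Nat.clog 2 n ≤ (2 * n) ^ 2 := by
        have e : 4 ^ Nat.clog 2 n = (2 ^ Nat.clog 2 n) ^ 2 := by
          rw [← pow_mul, mul_comm, pow_mul]
          norm_num
        rw [e]
        exact Nat.pow_le_pow_left h5 2
      have h7 : ((4 ^ Nat.clog 2 n : ℕ) : ℝ) ≤ (((2 * n) ^ 2 : ℕ) : ℝ) := by exact_mod_cast h6
      refine h7.trans ?_
      push_cast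
      nlinarith
    have hS := sumS_nonneg A (Nat.clog 2 n)
    set S := sumS A (Nat.clog 2 n) with hSd
    have hn1 : (1 : ℝ) ≤ n := by exact_mod_cast hn
    have hC0 : (0 : ℝ) ≤ C0 := Nat.cast_nonneg _
    have hC1 : (0 : ℝ) ≤ C1 := Nat.cast_nonneg _
    have h8 : (recCost A (4 ^ Nat.clog 2 n) (Nat.clog 2 n) : ℝ) ≤ 56 * (n : ℝ) ^ 2 * (1 + S) := by
      refine h3.trans ?_
      have h9 : 0 ≤ 1 + S := by linarith
      have h10 := mul_le_mul_of_nonneg_right h4 h9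
      nlinarith
    have h11 : 2 * ((n : ℝ) * n) + 1 ≤ 3 * (n : ℝ) ^ 2 * (1 + S) := by
      have h12 : 1 ≤ (n : ℝ) ^ 2 := one_le_pow₀ hn1
      have h13 : 0 ≤ (n : ℝ) ^ 2 * S := by positivity
      nlinarith
    calc (B.transTime n : ℝ) ≤ C0 * (recCost A (4 ^ Nat.clog 2 n) (Nat.clog 2 n) : ℝ) +
          C1 * (2 * ((n : ℝ) * n) + 1) := h2
      _ ≤ C0 * (56 * (n : ℝ) ^ 2 * (1 + S)) + C1 * (3 * (n : ℝ) ^ 2 * (1 + S)) := by
          gcongr
      _ = ((C0 : ℝ) * 56 + C1 * 3) * (n : ℝ) ^ 2 * (1 + S) := by ring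

end Vale.Agent.P338
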