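import Vale.Agent.Lib.P338.Macro

/-!
# P338: the simulated machine on the tapes of the machine to be constructed

`simT base c st`: the tapes `base`, but with the configuration `c` of `A` on the tapes of `A`
(cell `p` of `A` is cell `p + 1`, cell `0` contains the left end marker, the head position is
shifted by one) and with the symbol `st` in cell `0` of the state tape.
-/

namespace Vale.Agent.P338

variable {A : TM}

open Classical in
/-- embedding of the tape symbols of `A` -/
noncomputable def emb (γ : A.Γ) : BSym A := if γ = A.blank then .blank else .a γ

/-- the symbol of `A` that is represented -/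
def ext (x : BSym A) : A.Γ := match x with
  | .a γ => γ
  | _ => A.blank

theorem ext_emb (γ : A.Γ) : ext (emb γ) = γ := by
  unfold emb
  split_ifs with h
  · rw [h]
    rfl
  · rfl

theorem emb_ne_mk (γ : A.Γ) : emb γ ≠ .mk := by
  unfold emb
  split_ifs <;> simp

/-- the tapes with the configuration `c` of `A` and the symbol `st` on the state tape -/
noncomputable def simT (base : BTapes A) (c : A.Cfg) (st : BSym A) : BTapes A where
  tape := fun k => match k with
    | Sum.inl x => base.tape (Sum.inl x)
    | Sum.inr (Sum.inl i) => fun p => if p = 0 then .mk else emb (c.tape i (p - 1))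
    | Sum.inr (Sum.inr j) => if j = 0 then (fun p => if p = 0 then st else .blank)
        else base.tape (Sum.inr (Sum.inr j))
  head := fun k => match k with
    | Sum.inl x => base.head (Sum.inl x)
    | Sum.inr (Sum.inl i) => c.head i + 1
    | Sum.inr (Sum.inr j) => if j = 0 then 0 else base.head (Sum.inr (Sum.inr j))

/-- `MemOut`: all heads are at positions `≤ k`, the cells `k, k + 1, ...` are blank -/
def Within (c : A.Cfg) (k : ℕ) : Prop :=
  (∀ i, c.head i ≤ k) ∧ ∀ i p, k ≤ p → c.tape i p = A.blank

end Vale.Agent.P338
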