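import Vale.Agent.Lib.P338.Prog

/-!
# P338: stack programs

The machine to be constructed has one tape for each stack name, the tapes of the multiplying
machine `A`, a tape that stores the state of `A`, an input tape and an output tape. A stack with
the contents `l` (top first) is written bottom up in the cells `1, 2, ...` of its tape, cell `0` is
blank, the head is on the top symbol (on cell `0` if the stack is empty).

`Tr P base s n base' s'`: the program `P` transforms the stacks `s` to `s'` and the other tapes
`base` to `base'` in at most `n` steps.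

`Sat P s n s'`: the same when the tapes of `A` are ready before and after.
-/

namespace Vale.Agent.P338

/-- names of the stacks -/
inductive SName
  | GD | GO | LS | LV | HS | HSk | LN | LP | D | Y | O | OUT | SV | CK
  | TA | TB | T2 | T12 | TQ | TE | TF
  | RT | RTc | RD | RDc | RK | RKc | RC | RCc | RE | RL
  | WA | WB
  | X0 | X1 | X2 | X3
  | Z0 | Z1 | Z2 | Z3 | Z4 | Z5
  deriving DecidableEq

instance : Fintype SName := Fintype.ofList
  [.GD, .GO, .LS, .LV, .HS, .HSk, .LN, .LP, .D, .Y, .O, .OUT, .SV, .CK,
   .TA, .TB, .T2, .T12, .TQ, .TE, .TF,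
   .RT, .RTc, .RD, .RDc, .RK, .RKc, .RC, .RCc, .RE, .RL,
   .WA, .WB,
   .X0, .X1, .X2, .X3,
   .Z0, .Z1, .Z2, .Z3, .Z4, .Z5]
  (by intro x; cases x <;> simp)

/-- states of the stacks; the head of the list is the top -/
abbrev St : Type := SName → List Bool

/-- replace the stack `x` by `l` -/
def up (s : St) (x : SName) (l : List Bool) : St := fun y => if y = x then l else s y

@[simp] theorem up_self (s : St) (x : SName) (l : List Bool) : up s x l x = l := by
  simp [up]

theorem up_of_ne (s : St) {x y : SName} (h : y ≠ x) (l : List Bool) : up s x l y = s y := by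
  simp [up, h]

theorem up_id (s : St) (x : SName) : up s x (s x) = s := by
  funext y
  by_cases h : y = x
  · subst h
    simp
  · rw [up_of_ne _ h]

theorem up_up (s : St) (x : SName) (l l' : List Bool) : up (up s x l) x l' = up s x l' := by
  funext y
  by_cases h : y = x
  · subst h
    simp
  · rw [up_of_ne _ h, up_of_ne _ h, up_of_ne _ h]

theorem up_comm (s : St) {x y : SName} (h : x ≠ y) (l l' : List Bool) :
    up (up s x l) y l' = up (up s y l') x l := by
  funext z
  by_cases hx : z = x
  · subst hx
    rw [up_of_ne _ h, up_self, up_self]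
  · by_cases hy : z = y
    · subst hy
      rw [up_self, up_of_ne _ hx, up_self]
    · rw [up_of_ne _ hx, up_of_ne _ hy, up_of_ne _ hy, up_of_ne _ hx]

/-- symbols of the machine to be constructed; `a γ` stands for the symbols of `A` and `st q` for
its states -/
inductive BSym (A : TM)
  | blank
  | mk
  | sep
  | bit (b : Bool)
  | a (γ : A.Γ)
  | st (q : A.Q)

theorem BSym.finite (A : TM) : Finite (BSym A) := by
  have := A.finΓ
  have := A.finQ
  let f : BSym A → (A.Γ ⊕ A.Q) ⊕ (Bool ⊕ Fin 3) := fun x => match x with
    | .blank => Sum.inr (Sum.inr 0)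
    | .mk => Sum.inr (Sum.inr 1)
    | .sep => Sum.inr (Sum.inr 2)
    | .bit b => Sum.inr (Sum.inl b)
    | .a γ => Sum.inl (Sum.inl γ)
    | .st q => Sum.inl (Sum.inr q)
  apply Finite.of_injective f
  intro x y h
  cases x <;> cases y <;> simp_all [f]

/-- the tapes of the machine to be constructed -/
abbrev BK (A : TM) : Type := SName ⊕ (A.K ⊕ Fin 3)

/-- stack tape -/
abbrev BK.st {A : TM} (x : SName) : BK A := Sum.inl x
/-- tape of `A` -/
abbrev BK.tp {A : TM} (i : A.K) : BK A := Sum.inr (Sum.inl i)
/-- tape for the state of `A` -/
abbrev BK.sta {A : TM} : BK A := Sum.inr (Sum.inr 0)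
/-- input tape -/
abbrev BK.inp {A : TM} : BK A := Sum.inr (Sum.inr 1)
/-- output tape -/
abbrev BK.out {A : TM} : BK A := Sum.inr (Sum.inr 2)

/-- programs on the tapes of the machine to be constructed -/
abbrev BProg (A : TM) : Type 1 := Prog (BK A) (BSym A)

/-- tapes of the machine to be constructed -/
abbrev BTapes (A : TM) : Type := Tapes (BK A) (BSym A)

/-- the contents of a stack tape -/
def stk {A : TM} (l : List Bool) : ℕ → BSym A := fun p =>
  if p = 0 then .blank else (l.reverse[p - 1]?).elim .blank .bit

/-- `base` with the stacks `s` -/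
def enc {A : TM} (base : BTapes A) (s : St) : BTapes A where
  tape := fun k => k.elim (fun x => stk (s x)) (fun i => base.tape (Sum.inr i))
  head := fun k => k.elim (fun x => (s x).length) (fun i => base.head (Sum.inr i))

/-- The tapes of `A` are blank (apart from the left end marker), the heads are on cell `1`; the
state tape is blank. -/
structure Ready {A : TM} (base : BTapes A) : Prop where
  tape : ∀ i : A.K, base.tape (.tp i) = fun p => if p = 0 then BSym.mk else BSym.blank
  head : ∀ i : A.K, base.head (.tp i) = 1
  sta : base.tape .sta = fun _ => BSym.blank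
  stah : base.head .sta = 0

/-- `P` transforms the stacks `s` to `s'` and the other tapes `base` to `base'` in at most `n`
steps -/
def Tr {A : TM} (P : BProg A) (base : BTapes A) (s : St) (n : ℕ) (base' : BTapes A) (s' : St) :
    Prop := ∃ m ≤ n, P.Run (enc base s) m (enc base' s')

/-- `P` transforms the stacks `s` to `s'` in at most `n` steps -/
def Sat {A : TM} (P : BProg A) (s : St) (n : ℕ) (s' : St) : Prop :=
  ∀ base : BTapes A, Ready base → Tr P base s n base s'

section rules

variable {A : TM}

theorem Tr.mono {P : BProg A} {b b' : BTapes A} {s s' : St} {n n' : ℕ} (h : Tr P b s n b' s')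
    (hn : n ≤ n') : Tr P b s n' b' s' := by
  obtain ⟨m, hm, hr⟩ := h
  exact ⟨m, hm.trans hn, hr⟩

theorem Tr.seq {P R : BProg A} {b b' b'' : BTapes A} {s s' s'' : St} {n n' : ℕ}
    (h : Tr P b s n b' s') (h' : Tr R b' s' n' b'' s'') :
    Tr (Prog.seq P R) b s (n + n') b'' s'' := by
  obtain ⟨m, hm, hr⟩ := h
  obtain ⟨m', hm', hr'⟩ := h'
  exact ⟨m + m', add_le_add hm hm', Prog.run_seq hr hr'⟩

theorem Sat.mono {P : BProg A} {s s' : St} {n n' : ℕ} (h : Sat P s n s') (hn : n ≤ n') :
    Sat P s n' s' := fun base hb => (h base hb).mono hn

/-- change the bound for the time and the final state -/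
theorem Sat.congr {P : BProg A} {s s' s'' : St} {n n' : ℕ} (h : Sat P s n s') (hn : n ≤ n')
    (hs : s' = s'') : Sat P s n' s'' := by
  subst hs
  exact h.mono hn

theorem Sat.seq {P R : BProg A} {s s' s'' : St} {n n' : ℕ} (h : Sat P s n s')
    (h' : Sat R s' n' s'') : Sat (Prog.seq P R) s (n + n') s'' :=
  fun base hb => (h base hb).seq (h' base hb)

/-- is the symbol a bit -/
def isBit : BSym A → Bool
  | .bit _ => true
  | _ => false

/-- is the symbol the bit `true` -/
def isTrue : BSym A → Bool
  | .bit b => b
  | _ => false

theorem enc_read (base : BTapes A) (s : St) (x : SName) :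
    (enc base s).read (.st x) = ((s x).head?).elim .blank .bit := by
  show stk (s x) ((s x).length) = _
  unfold stk
  cases h : s x with
  | nil => simp
  | cons b l => simp

theorem enc_read_base (base : BTapes A) (s : St) (k : A.K ⊕ Fin 3) :
    (enc base s).read (Sum.inr k) = base.read (Sum.inr k) := rfl

/-- no change -/
def skip : BProg A := Prog.prim Prog.idle

theorem tr_skip (b : BTapes A) (s : St) : Tr (skip : BProg A) b s 1 b s := by
  refine ⟨1, le_rfl, ?_⟩
  have h := Prog.run_prim Prog.idle (enc b s)
  rw [Prog.act_idle] at h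
  exact h

theorem sat_skip (s : St) : Sat (skip : BProg A) s 1 s := fun b _ => tr_skip b s

/-- act on the tape of the stack `x` only -/
def onSt (x : SName) (f : BSym A → BSym A × Move) (r : BK A → BSym A) :
    BK A → BSym A × Move
  | Sum.inl y => if y = x then f (r (.st x)) else (r (.st y), .stay)
  | Sum.inr k => (r (Sum.inr k), .stay)

theorem act_onSt (x : SName) (f : BSym A → BSym A × Move) (T : BTapes A) :
    T.act (onSt x f T.read) =
      { tape := fun k => k.elim (fun y => if y = x then
            Function.update (T.tape (.st x)) (T.head (.st x)) (f (T.read (.st x))).1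
            else T.tape (.st y)) (fun k => T.tape (Sum.inr k))
        head := fun k => k.elim (fun y => if y = x then
            (f (T.read (.st x))).2.apply (T.head (.st x)) else T.head (.st y))
            (fun k => T.head (Sum.inr k)) } := by
  ext k p
  · rcases k with y | k
    · by_cases hy : y = x
      · subst hy
        simp [Tapes.act, onSt]
      · simp [Tapes.act, onSt, hy, Tapes.read]
    · simp [Tapes.act, onSt, Tapes.read]
  · rcases k with y | k
    · by_cases hy : y = x
      · subst hy
        simp [Tapes.act, onSt]
      · simp [Tapes.act, onSt, hy, Move.apply]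
    · simp [Tapes.act, onSt, Move.apply]

/-- push the bit `b` on the stack `x` -/
def push (x : SName) (b : Bool) : BProg A :=
  Prog.seq (Prog.prim (onSt x fun r => (r, .right))) (Prog.prim (onSt x fun _ => (.bit b, .stay)))

theorem stk_push (l : List Bool) (b : Bool) :
    Function.update (stk (A := A) l) (l.length + 1) (.bit b) = stk (b :: l) := by
  funext p
  by_cases hp : p = l.length + 1
  · subst hp
    simp [stk]
  · rw [Function.update_of_ne hp]
    unfold stk
    by_cases hp0 : p = 0
    · simp [hp0]
    · rw [if_neg hp0, if_neg hp0, List.reverse_cons]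
      by_cases hlt : p - 1 < l.length
      · rw [List.getElem?_append_left (by simpa using hlt)]
      · have h1 : l.reverse[p - 1]? = none := by
          rw [List.getElem?_eq_none_iff]
          simp
          omega
        have h2 : (l.reverse ++ [b])[p - 1]? = none := by
          rw [List.getElem?_eq_none_iff]
          simp
          omega
        rw [h1, h2]

theorem stk_pop (l : List Bool) :
    Function.update (stk (A := A) l) l.length .blank = stk l.tail := by
  cases l with
  | nil =>
    funext p
    by_cases hp : p = 0
    · subst hp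
      simp [stk]
    · simp [stk, hp]
  | cons b l =>
    rw [List.length_cons, ← stk_push l b, Function.update_idem]
    funext p
    by_cases hp : p = l.length + 1
    · subst hp
      simp [stk]
    · rw [Function.update_of_ne hp, List.tail_cons]

theorem tr_push (x : SName) (b : Bool) (base : BTapes A) (s : St) :
    Tr (push x b : BProg A) base s 2 base (up s x (b :: s x)) := by
  refine ⟨1 + 1, le_rfl, ?_⟩
  have h3 := Prog.run_seq (Prog.run_prim (onSt x fun r => (r, Move.right)) (enc base s))
    (Prog.run_prim (onSt x fun _ => (BSym.bit b, Move.stay)) _)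
  rw [act_onSt, act_onSt] at h3
  have e : ∀ T T' : BTapes A, T = T' → (push x b : BProg A).Run (enc base s) (1 + 1) T →
      (push x b : BProg A).Run (enc base s) (1 + 1) T' := by
    intro T T' h
    rw [h]
    exact id
  refine e _ _ ?_ h3
  symm
  ext k p
  · rcases k with y | k
    · by_cases hy : y = x
      · subst hy
        simp only [enc, Sum.elim_inl, if_true, up_self, Tapes.read, Move.apply,
          Function.update_eq_self]
        rw [stk_push]
      · simp [enc, hy, up]
    · simp [enc]
  · rcases k with y | k
    · by_cases hy : y = x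
      · subst hy
        simp [enc, Move.apply]
      · simp [enc, hy, up]
    · simp [enc]

theorem sat_push (x : SName) (b : Bool) (s : St) :
    Sat (push x b : BProg A) s 2 (up s x (b :: s x)) := fun base _ => tr_push x b base s

/-- pop the stack `x` -/
def pop (x : SName) : BProg A := Prog.prim (onSt x fun _ => (.blank, .left))

theorem tr_pop (x : SName) (base : BTapes A) (s : St) :
    Tr (pop x : BProg A) base s 1 base (up s x (s x).tail) := by
  refine ⟨1, le_rfl, ?_⟩
  have h1 := Prog.run_prim (onSt x fun _ => (BSym.blank, Move.left)) (enc base s)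
  rw [act_onSt] at h1
  have e : ∀ T T' : BTapes A, T = T' → (pop x : BProg A).Run (enc base s) 1 T →
      (pop x : BProg A).Run (enc base s) 1 T' := by
    intro T T' h
    rw [h]
    exact id
  refine e _ _ ?_ h1
  symm
  ext k p
  · rcases k with y | k
    · by_cases hy : y = x
      · subst hy
        simp only [enc, Sum.elim_inl, if_true, up_self]
        rw [stk_pop]
      · simp [enc, hy, up]
    · simp [enc]
  · rcases k with y | k
    · by_cases hy : y = x
      · subst hy
        simp [enc, Move.apply]
      · simp [enc, hy, up]
    · simp [enc]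

theorem sat_pop (x : SName) (s : St) :
    Sat (pop x : BProg A) s 1 (up s x (s x).tail) := fun base _ => tr_pop x base s

/-- branch: is the top of `x` the bit `true`? -/
def ifTrue (x : SName) (P R : BProg A) : BProg A := Prog.cond (fun r => isTrue (r (.st x))) P R

theorem read_true {x : SName} {s : St} {l : List Bool} (hs : s x = true :: l) (b : BTapes A) :
    isTrue ((enc b s).read (.st x)) = true := by
  rw [enc_read, hs]
  rfl

theorem read_not_true {x : SName} {s : St} (hs : (s x).head? ≠ some true) (b : BTapes A) :
    isTrue ((enc b s).read (.st x)) = false := by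
  rw [enc_read]
  cases h0 : s x with
  | nil => rfl
  | cons b l =>
    rw [h0] at hs
    cases b
    · rfl
    · exact absurd rfl hs

theorem read_ne {x : SName} {s : St} (hs : s x ≠ []) (b : BTapes A) :
    isBit ((enc b s).read (.st x)) = true := by
  rw [enc_read]
  cases h0 : s x with
  | nil => exact absurd h0 hs
  | cons b l => rfl

theorem read_nil {x : SName} {s : St} (hs : s x = []) (b : BTapes A) :
    isBit ((enc b s).read (.st x)) = false := by
  rw [enc_read, hs]
  rfl

theorem tr_cond_true {p : (BK A → BSym A) → Bool} {P R : BProg A} {b b' : BTapes A} {s s' : St}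
    {n : ℕ} (hp : p (enc b s).read = true) (h : Tr P b s n b' s') :
    Tr (Prog.cond p P R) b s (n + 1) b' s' := by
  obtain ⟨m, hm, hr⟩ := h
  exact ⟨m + 1, by omega, Prog.run_cond_true hp hr⟩

theorem tr_cond_false {p : (BK A → BSym A) → Bool} {P R : BProg A} {b b' : BTapes A} {s s' : St}
    {n : ℕ} (hp : p (enc b s).read = false) (h : Tr R b s n b' s') :
    Tr (Prog.cond p P R) b s (n + 1) b' s' := by
  obtain ⟨m, hm, hr⟩ := h
  exact ⟨m + 1, by omega, Prog.run_cond_false hp hr⟩

theorem tr_loop_false {p : (BK A → BSym A) → Bool} {P : BProg A} {b : BTapes A} {s : St}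
    (hp : p (enc b s).read = false) : Tr (Prog.loop p P) b s 1 b s :=
  ⟨1, le_rfl, Prog.run_loop_false hp⟩

theorem tr_loop_true {p : (BK A → BSym A) → Bool} {P : BProg A} {b b' b'' : BTapes A}
    {s s' s'' : St} {n m : ℕ} (hp : p (enc b s).read = true) (h : Tr P b s n b' s')
    (h' : Tr (Prog.loop p P) b' s' m b'' s'') : Tr (Prog.loop p P) b s (n + m + 1) b'' s'' := by
  obtain ⟨k, hk, hr⟩ := h
  obtain ⟨k', hk', hr'⟩ := h'
  exact ⟨k + k' + 1, by omega, Prog.run_loop_true hp hr hr'⟩

theorem sat_ifTrue_true {x : SName} {P R : BProg A} {s s' : St} {n : ℕ} {l : List Bool}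
    (hs : s x = true :: l) (h : Sat P s n s') : Sat (ifTrue x P R) s (n + 1) s' :=
  fun b hb => tr_cond_true (read_true hs b) (h b hb)

theorem sat_ifTrue_false {x : SName} {P R : BProg A} {s s' : St} {n : ℕ}
    (hs : (s x).head? ≠ some true) (h : Sat R s n s') : Sat (ifTrue x P R) s (n + 1) s' :=
  fun b hb => tr_cond_false (read_not_true hs b) (h b hb)

/-- branch: is `x` nonempty? -/
def ifNE (x : SName) (P R : BProg A) : BProg A := Prog.cond (fun r => isBit (r (.st x))) P R

theorem sat_ifNE_cons {x : SName} {P R : BProg A} {s s' : St} {n : ℕ}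
    (hs : s x ≠ []) (h : Sat P s n s') : Sat (ifNE x P R) s (n + 1) s' :=
  fun b hb => tr_cond_true (read_ne hs b) (h b hb)

theorem sat_ifNE_nil {x : SName} {P R : BProg A} {s s' : St} {n : ℕ}
    (hs : s x = []) (h : Sat R s n s') : Sat (ifNE x P R) s (n + 1) s' :=
  fun b hb => tr_cond_false (read_nil hs b) (h b hb)

/-- loop while `x` is nonempty -/
def whileNE (x : SName) (P : BProg A) : BProg A := Prog.loop (fun r => isBit (r (.st x))) P

theorem sat_whileNE_nil {x : SName} {P : BProg A} {s : St} (hs : s x = []) :
    Sat (whileNE x P) s 1 s := fun b _ => tr_loop_false (read_nil hs b)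

theorem sat_whileNE_cons {x : SName} {P : BProg A} {s s' s'' : St} {n m : ℕ}
    (hs : s x ≠ []) (h : Sat P s n s') (h' : Sat (whileNE x P) s' m s'') :
    Sat (whileNE x P) s (n + m + 1) s'' :=
  fun b hb => tr_loop_true (read_ne hs b) (h b hb) (h' b hb)

/-- loop while the top of `x` is `true` -/
def whileTrue (x : SName) (P : BProg A) : BProg A := Prog.loop (fun r => isTrue (r (.st x))) P

theorem sat_whileTrue_stop {x : SName} {P : BProg A} {s : St} (hs : (s x).head? ≠ some true) :
    Sat (whileTrue x P) s 1 s := fun b _ => tr_loop_false (read_not_true hs b)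

theorem sat_whileTrue_cons {x : SName} {P : BProg A} {s s' s'' : St} {n m : ℕ} {l : List Bool}
    (hs : s x = true :: l) (h : Sat P s n s') (h' : Sat (whileTrue x P) s' m s'') :
    Sat (whileTrue x P) s (n + m + 1) s'' :=
  fun b hb => tr_loop_true (read_true hs b) (h b hb) (h' b hb)

end rules

end Vale.Agent.P338
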