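import Vale.Agent.Lib.P338.Defs

/-!
# P338, module V2Asym: asymptotic consequences of the bound

Only real analysis: `T n` stands for the transposition time, `M n` for the multiplication time, and
`T n ≤ C (n ^ 2 (1 + log2 L + L / 2 ^ r) + r M (112 n ^ 2))` for all `r`, `L = Nat.clog 2 n`.

`boundV_o`: given `ε > 0` choose `r` with `C * 4 / 2 ^ r ≤ ε`; `L ≤ 4 log n` for `n ≥ 2`,
`1 + log2 L = o(log n)`, `r M (112 n ^ 2) = o(n ^ 2 log n)`.

`boundV_Omega`: if `c n ^ 2 log n ≤ T n` for large `n` choose `r` with `C * L / 2 ^ r ≤ c / 4 * log n`,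
for large `n` also `C (1 + log2 L) ≤ c / 4 * log n`; hence `C r M (112 n ^ 2) ≥ c / 2 * n ^ 2 log n`.

`mono_Omega`: for large `x` put `n = Nat.sqrt (x / 112)`; `112 n ^ 2 ≤ x < 112 (n + 1) ^ 2`,
`F x ≥ F (112 n ^ 2) ≥ c n ^ 2 log n ≥ c' x log x`.
-/

namespace Vale.Agent.P338

open Filter Asymptotics

private theorem v2_tendsto_clog : Tendsto (fun n : ℕ => Nat.clog 2 n) atTop atTop := by
  rw [tendsto_atTop]
  intro b
  filter_upwards [eventually_ge_atTop (2 ^ b)] with n hn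
  have h := Nat.clog_mono_right 2 hn
  rwa [Nat.clog_pow 2 b (by norm_num)] at h

private theorem v2_clog_le {n : ℕ} (hn : 2 ≤ n) : ((Nat.clog 2 n : ℕ) : ℝ) ≤ 3 * Real.log n := by
  have hn' : (2 : ℝ) ≤ n := by exact_mod_cast hn
  have h2 : 0 < Real.log 2 := Real.log_pos (by norm_num)
  have h3 : Real.log 2 ≤ Real.log n := Real.log_le_log (by norm_num) hn'
  have h4 : Nat.clog 2 n ≤ Nat.log 2 n + 1 := by
    refine Nat.clog_le_of_le_pow ?_
    exact (Nat.lt_pow_succ_log_self (by norm_num) n).le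
  have h5 : ((Nat.clog 2 n : ℕ) : ℝ) ≤ Nat.log 2 n + 1 := by exact_mod_cast h4
  have h6 : ((Nat.log 2 n : ℕ) : ℝ) ≤ Real.logb 2 n := by
    have h7 := Real.natLog_le_logb n 2
    exact_mod_cast h7
  have h8 : Real.logb 2 n = Real.log n / Real.log 2 := rfl
  have h9 : 1 ≤ Real.log n / Real.log 2 := by
    rw [le_div_iff₀ h2]
    linarith
  have h10 : 2 * (Real.log n / Real.log 2) ≤ 3 * Real.log n := by
    have h11 : 0.6931 < Real.log 2 := by
      have := Real.log_two_gt_d9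
      linarith
    have h12 : Real.log n / Real.log 2 ≤ Real.log n / 0.6931 :=
      div_le_div_of_nonneg_left (by linarith) (by norm_num) h11.le
    have h13 : Real.log n / 0.6931 ≤ 1.5 * Real.log n := by
      rw [div_le_iff₀ (by norm_num)]
      nlinarith
    linarith
  rw [h8] at h6
  linarith

private theorem v2_log_isLittleO :
    (fun n : ℕ => (1 : ℝ) + Nat.log 2 (Nat.clog 2 n)) =o[atTop] (fun n : ℕ => Real.log n) := by
  have h1 : (fun n : ℕ => (n : ℝ)) =O[atTop] (fun n : ℕ => (n : ℝ)) := isBigO_refl _ _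
  have hid : Tendsto (fun n : ℕ => (n : ℝ)) atTop atTop := tendsto_natCast_atTop_atTop
  have h2 : (fun L : ℕ => Real.log (L : ℝ)) =o[atTop] (fun L : ℕ => (L : ℝ)) :=
    Real.isLittleO_log_id_atTop.comp_tendsto hid
  have h3 : (fun L : ℕ => ((Nat.log 2 L : ℕ) : ℝ)) =O[atTop] (fun L : ℕ => Real.log (L : ℝ)) := by
    rw [isBigO_iff]
    refine ⟨1 / Real.log 2, ?_⟩
    filter_upwards [eventually_ge_atTop 1] with L hL
    have hL' : (1 : ℝ) ≤ L := by exact_mod_cast hL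
    have h4 := Real.natLog_le_logb L 2
    rw [Real.norm_of_nonneg (Nat.cast_nonneg _), Real.norm_of_nonneg (Real.log_nonneg hL')]
    have h5 : Real.logb ((2 : ℕ) : ℝ) L = 1 / Real.log 2 * Real.log L := by
      rw [Real.logb]
      push_cast
      ring
    rw [← h5]
    exact h4
  have h4 : (fun _ : ℕ => (1 : ℝ)) =o[atTop] (fun L : ℕ => (L : ℝ)) := by
    rw [isLittleO_one_left_iff]
    exact tendsto_norm_atTop_atTop.comp hid
  have h5 : (fun L : ℕ => (1 : ℝ) + Nat.log 2 L) =o[atTop] (fun L : ℕ => (L : ℝ)) :=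
    h4.add (h3.trans_isLittleO h2)
  have h6 : (fun n : ℕ => ((Nat.clog 2 n : ℕ) : ℝ)) =O[atTop] (fun n : ℕ => Real.log n) := by
    rw [isBigO_iff]
    refine ⟨3, ?_⟩
    filter_upwards [eventually_ge_atTop 2] with n hn
    have hn' : (1 : ℝ) ≤ n := by exact_mod_cast (by omega : 1 ≤ n)
    rw [Real.norm_of_nonneg (Nat.cast_nonneg _), Real.norm_of_nonneg (Real.log_nonneg hn')]
    exact v2_clog_le hn
  exact (h5.comp_tendsto v2_tendsto_clog).trans_isBigO h6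

/-- the term `1 + log2 L` is eventually small -/
private theorem v2_small {δ : ℝ} (hδ : 0 < δ) :
    ∀ᶠ n : ℕ in atTop, (1 : ℝ) + Nat.log 2 (Nat.clog 2 n) ≤ δ * Real.log n := by
  filter_upwards [v2_log_isLittleO.def hδ, eventually_ge_atTop 1] with n h hn
  have hn' : (1 : ℝ) ≤ n := by exact_mod_cast hn
  rw [Real.norm_of_nonneg (by positivity), Real.norm_of_nonneg (Real.log_nonneg hn')] at h
  exact h

private theorem v2_pow {δ : ℝ} (hδ : 0 < δ) : ∃ r : ℕ, 1 ≤ r ∧ 3 / (2 : ℝ) ^ r ≤ δ := by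
  obtain ⟨r, hr⟩ := exists_pow_lt_of_lt_one (show 0 < δ / 3 by positivity)
    (show (1 / 2 : ℝ) < 1 by norm_num)
  refine ⟨r + 1, by omega, ?_⟩
  have h1 : (1 / 2 : ℝ) ^ (r + 1) ≤ (1 / 2 : ℝ) ^ r :=
    pow_le_pow_of_le_one (by norm_num) (by norm_num) (by omega)
  have h2 : 3 / (2 : ℝ) ^ (r + 1) = 3 * (1 / 2 : ℝ) ^ (r + 1) := by
    rw [one_div, inv_pow]
    rfl
  rw [h2]
  linarith

/-- the main splitting -/
private theorem v2_split {T M : ℕ → ℝ} {C : ℝ} (hC : 0 < C)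
    (hT : ∀ n : ℕ, 1 ≤ n → ∀ r : ℕ, T n ≤
      C * ((n : ℝ) ^ 2 * (1 + Nat.log 2 (Nat.clog 2 n) + Nat.clog 2 n / 2 ^ r) +
        r * M (112 * n ^ 2))) {δ : ℝ} (hδ : 0 < δ) : ∃ r : ℕ, 1 ≤ r ∧ ∀ᶠ n : ℕ in atTop,
      T n ≤ C * (2 * δ * ((n : ℝ) ^ 2 * Real.log n) + r * M (112 * n ^ 2)) := by
  obtain ⟨r, hr1, hr⟩ := v2_pow hδ
  refine ⟨r, hr1, ?_⟩
  filter_upwards [v2_small hδ, eventually_ge_atTop 2] with n h1 hn
  have hn' : (2 : ℝ) ≤ n := by exact_mod_cast hn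
  have hlog : 0 ≤ Real.log n := Real.log_nonneg (by linarith)
  refine (hT n (by omega) r).trans (mul_le_mul_of_nonneg_left ?_ hC.le)
  have h2 : ((Nat.clog 2 n : ℕ) : ℝ) / 2 ^ r ≤ δ * Real.log n := by
    have h3 := div_le_div_of_nonneg_right (v2_clog_le hn) (show (0 : ℝ) ≤ 2 ^ r by positivity)
    refine h3.trans ?_
    have h4 : 3 * Real.log n / 2 ^ r = 3 / 2 ^ r * Real.log n := by ring
    rw [h4]
    exact mul_le_mul_of_nonneg_right hr hlog
  have h3 : (n : ℝ) ^ 2 * (1 + Nat.log 2 (Nat.clog 2 n) + Nat.clog 2 n / 2 ^ r) ≤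
      (n : ℝ) ^ 2 * (2 * δ * Real.log n) :=
    mul_le_mul_of_nonneg_left (by linarith) (by positivity)
  linarith

theorem boundV_o {T M : ℕ → ℝ} {C : ℝ} (hC : 0 < C) (hT0 : ∀ n, 0 ≤ T n)
    (hT : ∀ n : ℕ, 1 ≤ n → ∀ r : ℕ, T n ≤
      C * ((n : ℝ) ^ 2 * (1 + Nat.log 2 (Nat.clog 2 n) + Nat.clog 2 n / 2 ^ r) +
        r * M (112 * n ^ 2)))
    (hM : M =o[atTop] (fun n : ℕ => (n : ℝ) * Real.log n)) :
    T =o[atTop] (fun n : ℕ => (n : ℝ) ^ 2 * Real.log n) := by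
  have htend : Tendsto (fun n : ℕ => 112 * n ^ 2) atTop atTop := by
    refine tendsto_atTop_mono (fun n => ?_) tendsto_id
    show n ≤ 112 * n ^ 2
    nlinarith [sq_nonneg n]
  have hM1 : (fun n : ℕ => M (112 * n ^ 2)) =o[atTop]
      (fun n : ℕ => (((112 * n ^ 2 : ℕ)) : ℝ) * Real.log ((112 * n ^ 2 : ℕ))) :=
    hM.comp_tendsto htend
  have hM2 : (fun n : ℕ => (((112 * n ^ 2 : ℕ)) : ℝ) * Real.log ((112 * n ^ 2 : ℕ))) =O[atTop]
      (fun n : ℕ => (n : ℝ) ^ 2 * Real.log n) := by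
    rw [isBigO_iff]
    refine ⟨112 * 3, ?_⟩
    filter_upwards [eventually_ge_atTop 112] with n hn
    have hn' : (112 : ℝ) ≤ n := by exact_mod_cast hn
    have hlog : 0 ≤ Real.log n := Real.log_nonneg (by linarith)
    have h1 : Real.log ((112 * n ^ 2 : ℕ)) = Real.log 112 + 2 * Real.log n := by
      push_cast
      rw [Real.log_mul (by norm_num) (by positivity), Real.log_pow]
      push_cast
      ring
    have h2 : Real.log 112 ≤ Real.log n := Real.log_le_log (by norm_num) hn'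
    have h3 : 0 ≤ Real.log 112 := Real.log_nonneg (by norm_num)
    rw [h1, Real.norm_of_nonneg (by positivity), Real.norm_of_nonneg (by positivity)]
    push_cast
    have h4 : Real.log 112 + 2 * Real.log n ≤ 3 * Real.log n := by linarith
    calc 112 * (n : ℝ) ^ 2 * (Real.log 112 + 2 * Real.log n) ≤
        112 * (n : ℝ) ^ 2 * (3 * Real.log n) := mul_le_mul_of_nonneg_left h4 (by positivity)
      _ = 112 * 3 * ((n : ℝ) ^ 2 * Real.log n) := by ring
  have hM3 := hM1.trans_isBigO hM2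
  rw [isLittleO_iff]
  intro ε hε
  obtain ⟨r, hr1, hr⟩ := v2_split hC hT (δ := ε / (4 * C)) (by positivity)
  have hr0 : (0 : ℝ) < r := by exact_mod_cast hr1
  filter_upwards [hr, hM3.def (show 0 < ε / (2 * C * r) by positivity),
    eventually_ge_atTop 1] with n h1 h2 hn
  have hn' : (1 : ℝ) ≤ n := by exact_mod_cast hn
  have hlog : 0 ≤ Real.log n := Real.log_nonneg hn'
  rw [Real.norm_of_nonneg (hT0 n), Real.norm_of_nonneg (by positivity)]
  have hg : ‖(n : ℝ) ^ 2 * Real.log n‖ = (n : ℝ) ^ 2 * Real.log n :=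
    Real.norm_of_nonneg (by positivity)
  rw [hg, Real.norm_eq_abs] at h2
  have h3 : M (112 * n ^ 2) ≤ ε / (2 * C * r) * ((n : ℝ) ^ 2 * Real.log n) :=
    (le_abs_self _).trans h2
  obtain ⟨g, hgdef⟩ : ∃ g : ℝ, g = (n : ℝ) ^ 2 * Real.log n := ⟨_, rfl⟩
  rw [← hgdef] at h1 h3 ⊢
  calc T n ≤ C * (2 * (ε / (4 * C)) * g + r * M (112 * n ^ 2)) := h1
    _ ≤ C * (2 * (ε / (4 * C)) * g + r * (ε / (2 * C * r) * g)) :=
        mul_le_mul_of_nonneg_left (by
          have := mul_le_mul_of_nonneg_left h3 hr0.le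
          linarith) hC.le
    _ = ε * g := by
        field_simp
        ring

theorem boundV_Omega {T M : ℕ → ℝ} {C c : ℝ} (hC : 0 < C) (hc : 0 < c)
    (hT : ∀ n : ℕ, 1 ≤ n → ∀ r : ℕ, T n ≤
      C * ((n : ℝ) ^ 2 * (1 + Nat.log 2 (Nat.clog 2 n) + Nat.clog 2 n / 2 ^ r) +
        r * M (112 * n ^ 2)))
    (hΩ : ∀ᶠ n : ℕ in atTop, c * (n : ℝ) ^ 2 * Real.log n ≤ T n) :
    ∃ c' : ℝ, 0 < c' ∧ ∀ᶠ n : ℕ in atTop, c' * (n : ℝ) ^ 2 * Real.log n ≤ M (112 * n ^ 2) := by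
  obtain ⟨r, hr1, hr⟩ := v2_split hC hT (δ := c / (4 * C)) (by positivity)
  have hr0 : (0 : ℝ) < r := by exact_mod_cast hr1
  refine ⟨c / (2 * C * r), by positivity, ?_⟩
  filter_upwards [hr, hΩ] with n h1 h2
  obtain ⟨g, hgdef⟩ : ∃ g : ℝ, g = (n : ℝ) ^ 2 * Real.log n := ⟨_, rfl⟩
  rw [mul_assoc, ← hgdef] at h2 ⊢
  rw [← hgdef] at h1
  have h3 : C * (2 * (c / (4 * C)) * g) = c / 2 * g := by
    field_simp
    ring
  have h4 : c / 2 * g ≤ C * r * M (112 * n ^ 2) := by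
    have h5 := h2.trans h1
    rw [mul_add, h3] at h5
    linarith
  have h5 : c / (2 * C * r) * g = (c / 2 * g) / (C * r) := by
    field_simp
  rw [h5, div_le_iff₀ (by positivity)]
  linarith

theorem mono_Omega {M F : ℕ → ℝ} {c : ℝ} (hc : 0 < c)
    (h : ∀ᶠ n : ℕ in atTop, c * (n : ℝ) ^ 2 * Real.log n ≤ M (112 * n ^ 2))
    (hF : ∀ n, 1 ≤ n → M n ≤ F n) (hmono : ∀ m n : ℕ, 1 ≤ m → m ≤ n → F m ≤ F n) :
    ∃ c' : ℝ, 0 < c' ∧ ∀ᶠ n : ℕ in atTop, c' * n * Real.log n ≤ F n := by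
  refine ⟨c / 1344, by positivity, ?_⟩
  have htend : Tendsto (fun x : ℕ => Nat.sqrt (x / 112)) atTop atTop := by
    rw [tendsto_atTop]
    intro b
    filter_upwards [eventually_ge_atTop (112 * b ^ 2)] with x hx
    rw [Nat.le_sqrt']
    rw [Nat.le_div_iff_mul_le (by norm_num)]
    linarith
  filter_upwards [htend.eventually h, htend.eventually (eventually_ge_atTop 448)] with x h1 h2
  obtain ⟨n, hn⟩ : ∃ n : ℕ, n = Nat.sqrt (x / 112) := ⟨_, rfl⟩
  rw [← hn] at h1 h2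
  have h3 : n ^ 2 ≤ x / 112 := by
    rw [hn]
    exact Nat.sqrt_le' _
  have h4 : x / 112 < (n + 1) ^ 2 := by
    rw [hn]
    exact Nat.lt_succ_sqrt' _
  have h5 : 112 * n ^ 2 ≤ x := by omega
  have h6 : x < 112 * (n + 1) ^ 2 := by omega
  have hn1 : 1 ≤ n := by omega
  have h7 : 1 ≤ 112 * n ^ 2 := by nlinarith
  have h8 : c * (n : ℝ) ^ 2 * Real.log n ≤ F x :=
    h1.trans ((hF _ h7).trans (hmono _ _ h7 h5))
  have hnR : (448 : ℝ) ≤ n := by exact_mod_cast h2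
  have hx1 : (x : ℝ) ≤ 448 * (n : ℝ) ^ 2 := by
    have h9 : x ≤ 448 * n ^ 2 := by nlinarith
    exact_mod_cast h9
  have hx0 : (0 : ℝ) < x := by
    have h9 : 0 < x := by omega
    exact_mod_cast h9
  have hlogn : 0 ≤ Real.log n := Real.log_nonneg (by linarith)
  have hlog : Real.log x ≤ 3 * Real.log n := by
    have h9 := Real.log_le_log hx0 hx1
    rw [Real.log_mul (by norm_num) (by positivity), Real.log_pow] at h9
    have h10 : Real.log 448 ≤ Real.log n := Real.log_le_log (by norm_num) hnR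
    push_cast at h9
    linarith
  refine le_trans ?_ h8
  have h9 : (x : ℝ) * Real.log x ≤ (448 * (n : ℝ) ^ 2) * (3 * Real.log n) :=
    (mul_le_mul_of_nonneg_left hlog hx0.le).trans
      (mul_le_mul_of_nonneg_right hx1 (by positivity))
  calc c / 1344 * x * Real.log x = c / 1344 * (x * Real.log x) := by ring
    _ ≤ c / 1344 * ((448 * (n : ℝ) ^ 2) * (3 * Real.log n)) :=
        mul_le_mul_of_nonneg_left h9 (by positivity)
    _ = c * (n : ℝ) ^ 2 * Real.log n := by ring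

end Vale.Agent.P338
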