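import Vale.Agent.Lib.P338.V2Defs
import Vale.Agent.Lib.P338.MDig

/-!
# P338, module V2Batch: the product of a batch

`val (padL M l) = val l = ∑ b < K, v b * 2 ^ (2 N * (K - 1 - b))` (`val_append`,
`val_replicate_false`, `cat_blk`, `val_cat`), with `v b = val (blk (2 N) l b) =
val ((blk (2 N) l b).drop N) < 2 ^ N` because the first half is zero. So the product is
`∑ b < K, (v b * val y) * 2 ^ (2 N * (K - 1 - b))` with digits `< 2 ^ (2 N)`, it is
`< 2 ^ (K * (2 N))`, and its string with `2 M` digits consists of `2 M - K * (2 N)` zeros and the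
blocks `bin (2 N) (v b * val y)` (compare the values with `val_inj`, `val_bin`, `val_cat`,
`sum_digits_lt`).
-/

namespace Vale.Agent.P338

theorem v2batch_val_padL (M : ℕ) (x : List Bool) : val (padL M x) = val x := by
  unfold padL
  rw [val_append, val_replicate_false, zero_mul, zero_add]

theorem batch_eq {N K M : ℕ} {l y : List Bool} (hl : l.length = K * (2 * N))
    (hz : ∀ b < K, (blk (2 * N) l b).take N = List.replicate N false) (hy : y.length = N)
    (hM : K * (2 * N) ≤ M) (hNM : N ≤ M) :
    bin (2 * M) (val (padL M l) * val (padL M y)) =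
      List.replicate (2 * M - K * (2 * N)) false ++
        cat K fun b => bin (2 * N) (val ((blk (2 * N) l b).drop N) * val y) := by
  have hlen : ∀ b < K, (blk (2 * N) l b).length = 2 * N := by
    intro b hb
    refine length_blk ?_
    rw [hl]
    exact Nat.mul_le_mul_right _ hb
  have hv : ∀ b < K, val (blk (2 * N) l b) = val ((blk (2 * N) l b).drop N) := by
    intro b hb
    have h1 : val (blk (2 * N) l b) =
        val ((blk (2 * N) l b).take N ++ (blk (2 * N) l b).drop N) := by
      rw [List.take_append_drop]
    rw [h1, val_append, hz b hb, val_replicate_false, zero_mul, zero_add]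
  have hlt : ∀ b < K, val ((blk (2 * N) l b).drop N) * val y < 2 ^ (2 * N) := by
    intro b hb
    have h1 := val_lt ((blk (2 * N) l b).drop N)
    have h2 := val_lt y
    rw [List.length_drop, hlen b hb] at h1
    rw [hy] at h2
    have e : 2 * N - N = N := by omega
    rw [e] at h1
    have e2 : (2:ℕ) ^ (2 * N) = 2 ^ N * 2 ^ N := by
      rw [← pow_add, two_mul]
    rw [e2]
    exact Nat.mul_lt_mul'' h1 h2
  have hsum : val l * val y =
      ∑ b ∈ Finset.range K, (val ((blk (2 * N) l b).drop N) * val y) *
        2 ^ (2 * N * (K - 1 - b)) := by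
    have h1 : val l = ∑ b ∈ Finset.range K, val (blk (2 * N) l b) * 2 ^ (2 * N * (K - 1 - b)) := by
      rw [← val_cat hlen, cat_blk hl]
    rw [h1, Finset.sum_mul]
    refine Finset.sum_congr rfl fun b hb => ?_
    rw [hv b (Finset.mem_range.mp hb)]
    ring
  rw [v2batch_val_padL, v2batch_val_padL]
  refine val_inj ?_ ?_
  · rw [length_bin, List.length_append, List.length_replicate,
      length_cat (w := 2 * N) fun b _ => length_bin _ _]
    omega
  · have h1 : val l * val y < 2 ^ (2 * M) := by
      rw [hsum]
      refine lt_of_lt_of_le (sum_digits_lt hlt) ?_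
      exact Nat.pow_le_pow_right (by norm_num) (by omega)
    rw [val_bin h1, val_append, val_replicate_false, zero_mul, zero_add,
      val_cat (w := 2 * N) fun b _ => length_bin _ _, hsum]
    refine Finset.sum_congr rfl fun b hb => ?_
    rw [val_bin (hlt b (Finset.mem_range.mp hb))]

theorem length_padL {M : ℕ} {x : List Bool} (h : x.length ≤ M) : (padL M x).length = M := by
  unfold padL
  rw [List.length_append, List.length_replicate]
  omega

theorem length_mulBatch (N K : ℕ) (l y : List Bool) : (mulBatch N K l y).length = K * N := by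
  unfold mulBatch
  exact length_cat fun b _ => length_mulFold N _ _

end Vale.Agent.P338
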