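import Vale.Agent.Lib.P338.V2Defs

/-!
# P338, module V2Cost: the total cost of version 2

`recCostV_le`: `recCostV A n L = n ^ 2 + ∑ over the levels h = L / 2, L / 4, ... ≥ 1 of
(n ^ 2 + min T (112 n ^ 2 h))`, there are `Nat.log 2 L` levels; the first `r` levels are estimated by
`T`, and the others by `112 n ^ 2 h`, whose sum is at most `112 n ^ 2 * (L / 2 ^ r)` (real
division). Induction on `L` (strong), for all `r`: for `r = 0` use the second estimate, for
`r + 1` the first one and the induction hypothesis for `L / 2` and `r` (natural division: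
`((L / 2 : ℕ) : ℝ) ≤ L / 2`). `h + (h / 1 ...) `: for `r = 0`: `h + h' ≤ L` with `h = L / 2` and the
induction hypothesis `sum ≤ h`, i.e. `112 n ^ 2 * (h + h) ≤ 112 n ^ 2 * L`.
-/

namespace Vale.Agent.P338

theorem recCostV_le (A : TM) {n : ℕ} (hn : 1 ≤ n) (L r : ℕ) :
    (recCostV A n L : ℝ) ≤ (n : ℝ) ^ 2 * (1 + Nat.log 2 L + 112 * (L / 2 ^ r)) +
      r * A.mulTime (112 * n ^ 2) := by
  have hn2 : (0 : ℝ) ≤ (n : ℝ) ^ 2 := by positivity
  induction L using Nat.strong_induction_on generalizing r with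
  | _ L ih =>
    by_cases hL : L < 2
    · rw [recCostV, if_pos hL]
      have h1 : (0 : ℝ) ≤ (Nat.log 2 L : ℝ) + 112 * ((L : ℝ) / 2 ^ r) := by positivity
      have h2 : (0 : ℝ) ≤ (r : ℝ) * (A.mulTime (112 * n ^ 2) : ℝ) := by positivity
      push_cast
      nlinarith [mul_nonneg hn2 h1]
    · have hL2 : 2 ≤ L := not_lt.mp hL
      have hlog : Nat.log 2 L = Nat.log 2 (L / 2) + 1 := Nat.log_of_one_lt_of_le (by norm_num) hL2
      have hlogR : (Nat.log 2 L : ℝ) = (Nat.log 2 (L / 2) : ℝ) + 1 := by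
        rw [hlog]; push_cast; ring
      have hh : ((L / 2 : ℕ) : ℝ) ≤ (L : ℝ) / 2 := Nat.cast_div_le
      rw [recCostV, if_neg hL, lvlV, tV]
      push_cast
      rw [hlogR]
      cases r with
      | zero =>
        have h1 := ih (L / 2) (by omega) 0
        have h2 : min (A.mulTime (112 * n ^ 2) : ℝ) (((L / 2 : ℕ) : ℝ) * (112 * (n : ℝ) ^ 2)) ≤
            ((L / 2 : ℕ) : ℝ) * (112 * (n : ℝ) ^ 2) := min_le_right _ _
        rw [pow_zero, div_one, Nat.cast_zero, zero_mul, add_zero] at h1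
        rw [pow_zero, div_one, Nat.cast_zero, zero_mul, add_zero]
        have h3 := mul_le_mul_of_nonneg_left hh hn2
        nlinarith
      | succ r =>
        have h1 := ih (L / 2) (by omega) r
        have h2 : min (A.mulTime (112 * n ^ 2) : ℝ) (((L / 2 : ℕ) : ℝ) * (112 * (n : ℝ) ^ 2)) ≤
            (A.mulTime (112 * n ^ 2) : ℝ) := min_le_left _ _
        have h4 : ((L / 2 : ℕ) : ℝ) / 2 ^ r ≤ (L : ℝ) / 2 ^ (r + 1) := by
          calc ((L / 2 : ℕ) : ℝ) / 2 ^ r ≤ ((L : ℝ) / 2) / 2 ^ r :=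
                div_le_div_of_nonneg_right hh (by positivity)
            _ = (L : ℝ) / 2 ^ (r + 1) := by rw [pow_succ]; field_simp
        have h3 := mul_le_mul_of_nonneg_left h4 hn2
        push_cast
        nlinarith

end Vale.Agent.P338
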