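import Vale.Agent.Lib.P338.Fun
import Vale.Agent.Lib.P338.LvlDefs

/-!
# P338, version 2: the products of all chunks are computed with one multiplication

In version 2 all multiplications have the length `112 * n ^ 2` (for `n × n` matrices).
-/

namespace Vale.Agent.P338

/-- leading zeros, up to the length `M` -/
def padL (M : ℕ) (x : List Bool) : List Bool := List.replicate (M - x.length) false ++ x

/-- `l` consists of `K` blocks of `2 * N` bits, the first halves of the blocks are `0`; each block
is replaced by the folded product of its second half with `y` (`N` bits) -/
def mulBatch (N K : ℕ) (l y : List Bool) : List Bool :=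
  cat K fun b => mulFold N ((blk (2 * N) l b).drop N) y

open Classical in
/-- the result, if the machine `A` needs less than `h * M` steps for the product of the strings,
padded to `M` bits; otherwise `[]` -/
noncomputable def mbRes (A : TM) (h M N K : ℕ) (l y : List Bool) : List Bool :=
  if A.time (A.mulInput (padL M l) (padL M y)) < h * M then mulBatch N K l y else []

/-- the time for a multiplication of length `112 * n ^ 2`, with the clock -/
noncomputable def tV (A : TM) (n h : ℕ) : ℕ := min (A.mulTime (112 * n ^ 2)) (h * (112 * n ^ 2))

/-- the cost of a level -/
noncomputable def lvlV (A : TM) (n h : ℕ) : ℕ := n ^ 2 + tV A n h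

/-- the cost of the recursion -/
noncomputable def recCostV (A : TM) (n L : ℕ) : ℕ :=
  if L < 2 then n ^ 2 else lvlV A n (L / 2) + recCostV A n (L / 2)
termination_by L
decreasing_by omega

end Vale.Agent.P338
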