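import Vale.Agent.Lib.P338.V2Pass12
import Vale.Agent.Lib.P338.PUnrifPass
import Vale.Agent.Lib.P338.PRifPass
import Vale.Agent.Lib.P338.PHalve

/-!
# P338, module V2Level: one level of the recursion (compare PDown, PUp)

The same programs as in `PDown`, `PUp`, with `exists_passV1`, `exists_passV2` instead of
`exists_pass1`, `exists_pass2`; the data have `k * 4 ^ L ≤ 4 * n ^ 2` bits.
-/

namespace Vale.Agent.P338

theorem v2l_pow_dvd (L m : ℕ) (hm : m ≤ 4) : (2 ^ (L / 2)) ^ m ∣ 4 ^ L := by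
  rw [← pow_mul]
  have h4 : (4 : ℕ) ^ L = 2 ^ (2 * L) := by
    rw [pow_mul]
    norm_num
  rw [h4]
  refine pow_dvd_pow 2 ?_
  have h1 : L / 2 * m ≤ L / 2 * 4 := Nat.mul_le_mul_left _ hm
  omega

theorem v2l_four_pow_odd {L : ℕ} (hL : L % 2 = 1) : 4 ^ L = 4 * (2 ^ (L / 2)) ^ 4 := by
  rw [← pow_mul]
  have h4 : (4 : ℕ) ^ L = 2 ^ (2 * L) := by
    rw [pow_mul]
    norm_num
  have h3 : 2 * L = 2 + L / 2 * 4 := by omega
  rw [h4, h3, pow_add]
  norm_num

theorem v2l_state (s : St) (h : ℕ) (v l : List Bool) (hHS : s .HS = []) :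
    up (up (up (up (up (up s .LS []) .HS (un h)) .LV v) .GD l) .HS []) .LS (un h) =
      up (up (up s .LS (un h)) .LV v) .GD l := by
  funext x
  simp only [up]
  split_ifs <;> simp_all

theorem v2l_length_chunk {c : ℕ} {f : List Bool → List Bool} {l : List Bool} (hc : 0 < c)
    (hf : ∀ x : List Bool, x.length = c → (f x).length = x.length) (hl : c ∣ l.length) :
    (chunkF c f l).length = l.length :=
  length_chunkF hc (fun x hx => (hf x hx).trans hx) hl

theorem exists_downV (A : TM) (hA : A.Multiplies) : ∃ (P : BProg A) (C : ℕ), ∀ (s : St)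
    (L k n : ℕ), 2 ≤ L → 1 ≤ k → AllNil rest s → s .HS = [] → s .LS = un L → s .LN = un n →
    (s .GD).length = k * 4 ^ L → k * 4 ^ L ≤ 4 * n ^ 2 →
    Sat P s (C * lvlV A n (L / 2))
      (up (up (up s .LS (un (L / 2))) .LV (decide (L % 2 = 1) :: s .LV)) .GD
        (downF L (s .GD))) := by
  obtain ⟨Ph, Ch, hh⟩ := exists_halve A
  obtain ⟨Pu, Cu, hu⟩ := exists_unrifPass A
  obtain ⟨P1, C1, h1⟩ := exists_passV1 A hA
  obtain ⟨P2, C2, h2⟩ := exists_passV2 A hA
  refine ⟨Prog.seq Ph (Prog.seq (ifTrue .LV Pu skip) (Prog.seq P1 (Prog.seq P2 (mvAll .HS .LS)))),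
    8 * Ch + 4 * Cu + C1 + C2 + 80, fun s L k n hL hk hnil hHS hLS hLN hGD hWn => ?_⟩
  obtain ⟨h, hdef⟩ : ∃ h, h = L / 2 := ⟨_, rfl⟩
  obtain ⟨a, ha⟩ : ∃ a, a = 2 ^ h := ⟨_, rfl⟩
  have hh1 : 1 ≤ h := by omega
  have ha1 : 1 ≤ a := by
    rw [ha]
    exact Nat.one_le_two_pow
  have hd3 : a ^ 3 ∣ 4 ^ L := by
    rw [ha, hdef]
    exact v2l_pow_dvd L 3 (by norm_num)
  have hd4 : a ^ 4 ∣ 4 ^ L := by
    rw [ha, hdef]
    exact v2l_pow_dvd L 4 (by norm_num)
  have h4L : L + 1 ≤ 4 ^ L := by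
    have : L < 4 ^ L := Nat.lt_pow_self (by norm_num)
    omega
  have hW : 4 ^ L ≤ k * 4 ^ L := Nat.le_mul_of_pos_left _ hk
  obtain ⟨W, hWdef⟩ : ∃ W, W = k * 4 ^ L := ⟨_, rfl⟩
  have hW3 : W / a ^ 3 * a ^ 3 = W := by
    rw [hWdef]
    exact Nat.div_mul_cancel (Dvd.dvd.mul_left hd3 k)
  have hW4 : W / a ^ 4 * a ^ 4 = W := by
    rw [hWdef]
    exact Nat.div_mul_cancel (Dvd.dvd.mul_left hd4 k)
  have hWpos : 1 ≤ W := by omega
  have hk3 : 1 ≤ W / a ^ 3 := by
    rcases Nat.eq_zero_or_pos (W / a ^ 3) with h0 | h0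
    · rw [h0] at hW3
      omega
    · exact h0
  have hk4 : 1 ≤ W / a ^ 4 := by
    rcases Nat.eq_zero_or_pos (W / a ^ 4) with h0 | h0
    · rw [h0] at hW4
      omega
    · exact h0
  rw [← hWdef] at hGD hWn
  rw [← hdef]
  -- after halving
  obtain ⟨s1, hs1⟩ : ∃ s1, s1 = up (up (up s .LS []) .HS (un h)) .LV (decide (L % 2 = 1) :: s .LV) :=
    ⟨_, rfl⟩
  have e1 := hh s L hLS hHS
  rw [← hdef, ← hs1] at e1
  have n1 : AllNil rest s1 := by
    rw [hs1]
    exact ((hnil.up (by decide) _).up (by decide) _).up (by decide) _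
  have g1 : s1 .GD = s .GD := by
    rw [hs1, up_of_ne _ (by decide), up_of_ne _ (by decide), up_of_ne _ (by decide)]
  have k1 : s1 .HS = un h := by
    rw [hs1, up_of_ne _ (by decide), up_self]
  have ln1 : s1 .LN = un n := by
    rw [hs1, up_of_ne _ (by decide), up_of_ne _ (by decide), up_of_ne _ (by decide), hLN]
  have v1 : s1 .LV = decide (L % 2 = 1) :: s .LV := by
    rw [hs1, up_self]
  -- the unriffle pass
  obtain ⟨l1, hl1⟩ : ∃ l1, l1 = if L % 2 = 1 then chunkF (4 * a ^ 4)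
      (unrifF (2 * a ^ 2) (a ^ 2)) (s .GD) else s .GD := ⟨_, rfl⟩
  have e2 : Sat (ifTrue .LV Pu skip) s1 (Cu * W + 2) (up s1 .GD l1) := by
    by_cases hodd : L % 2 = 1
    · rw [decide_eq_true hodd] at v1
      refine sat_ifTrue_true (n := Cu * W + 1) v1 ?_
      have h4 := v2l_four_pow_odd hodd
      rw [← hdef, ← ha] at h4
      have e3 := hu s1 a h k ha hk n1 k1 (by rw [g1, hGD, hWdef, h4])
      refine e3.congr ?_ ?_
      · have : k * a ^ 4 ≤ W := by
          rw [hWdef, h4]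
          exact Nat.mul_le_mul_left _ (by omega)
        have := Nat.mul_le_mul_left Cu this
        omega
      · rw [g1, hl1, if_pos hodd]
    · rw [decide_eq_false hodd] at v1
      refine sat_ifTrue_false (n := Cu * W + 1) (by rw [v1]; simp) ?_
      refine (sat_skip s1).congr (by omega) ?_
      rw [hl1, if_neg hodd, ← g1, up_id]
  have len1 : l1.length = W := by
    rw [hl1]
    split_ifs with hodd
    · have h4 := v2l_four_pow_odd hodd
      rw [← hdef, ← ha] at h4
      rw [v2l_length_chunk (by positivity) ?_ ?_, hGD]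
      · intro x hx
        exact length_unrifF (by rw [hx]; ring)
      · rw [hGD, hWdef, h4]
        exact Dvd.intro_left k rfl
    · exact hGD
  -- first pass
  obtain ⟨l2, hl2⟩ : ∃ l2, l2 = chunkF (a ^ 3) (swapF a a) l1 := ⟨_, rfl⟩
  have e3 := h1 (up s1 .GD l1) a h (W / a ^ 3) n hh1 ha hk3 (n1.up (by decide) _)
    (by rw [up_of_ne _ (by decide), k1]) (by rw [up_of_ne _ (by decide), ln1])
    (by rw [up_self, len1, hW3]) (by rw [hW3]; exact hWn)
  rw [up_self, up_up, ← hl2] at e3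
  have len2 : l2.length = W := by
    rw [hl2, v2l_length_chunk (by positivity) ?_ ?_, len1]
    · intro x hx
      exact length_swapF (by rw [hx]; ring)
    · rw [len1]
      exact Dvd.intro_left _ hW3
  -- second pass
  obtain ⟨l3, hl3⟩ : ∃ l3, l3 = chunkF (a ^ 4) (swapF a (a ^ 2)) l2 := ⟨_, rfl⟩
  have e4 := h2 (up s1 .GD l2) a h (W / a ^ 4) n hh1 ha hk4 (n1.up (by decide) _)
    (by rw [up_of_ne _ (by decide), k1]) (by rw [up_of_ne _ (by decide), ln1])
    (by rw [up_self, len2, hW4]) (by rw [hW4]; exact hWn)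
  rw [up_self, up_up, ← hl3] at e4
  -- move back the counter
  have e5 := sat_mvAll (A := A) (x := .HS) (y := .LS) (by decide) (up s1 .GD l3)
  have k5 : (up s1 .GD l3) .HS = un h := by rw [up_of_ne _ (by decide), k1]
  have k6 : (up s1 .GD l3) .LS = [] := by
    rw [up_of_ne _ (by decide), hs1, up_of_ne _ (by decide), up_of_ne _ (by decide), up_self]
  rw [k5, k6, un_reverse, List.append_nil, List.length_replicate] at e5
  have hdown : downF L (s .GD) = l3 := by
    unfold downF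
    rw [hl3, hl2, hl1, ← hdef, ← ha]
  refine (e1.seq (e2.seq (e3.seq (e4.seq e5)))).congr ?_ ?_
  · have hl : n ^ 2 ≤ lvlV A n h := by
      unfold lvlV
      omega
    obtain ⟨Z, hZ⟩ : ∃ Z, Z = lvlV A n h := ⟨_, rfl⟩
    rw [← hZ] at hl ⊢
    have i1 : Ch * (L + 1) ≤ Ch * (8 * Z) := Nat.mul_le_mul_left _ (by omega)
    have i2 : Cu * W ≤ Cu * (4 * Z) := Nat.mul_le_mul_left _ (by omega)
    have i3 : (8 * Ch + 4 * Cu + C1 + C2 + 80) * Z =
        Ch * (8 * Z) + Cu * (4 * Z) + C1 * Z + C2 * Z + 80 * Z := by ring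
    rw [i3]
    have i4 : h ≤ 4 * Z := by omega
    omega
  · rw [hdown, hs1]
    exact v2l_state s h _ l3 hHS

theorem v2l_pow_four (a h : ℕ) (ha : a = 2 ^ h) (p : Bool) :
    4 ^ (2 * h + p.toNat) = 4 ^ p.toNat * a ^ 4 := by
  subst ha
  have e : (4 : ℕ) ^ (2 * h) = (2 ^ h) ^ 4 := by
    calc (4 : ℕ) ^ (2 * h) = (2 ^ 2) ^ (2 * h) := by norm_num
      _ = 2 ^ (2 * (2 * h)) := (pow_mul 2 2 (2 * h)).symm
      _ = 2 ^ (h * 4) := by
        congr 1
        ring
      _ = (2 ^ h) ^ 4 := pow_mul 2 h 4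
  rw [pow_add, e, mul_comm]

theorem exists_upV (A : TM) (hA : A.Multiplies) : ∃ (P : BProg A) (C : ℕ), ∀ (s : St)
    (h k n : ℕ) (p : Bool) (v : List Bool), 1 ≤ h → 1 ≤ k → AllNil rest s → s .HS = [] →
    s .LS = un h → s .LV = p :: v → s .LN = un n → (s .GD).length = k * 4 ^ (2 * h + p.toNat) →
    k * 4 ^ (2 * h + p.toNat) ≤ 4 * n ^ 2 →
    Sat P s (C * lvlV A n h)
      (up (up (up s .LS (un (2 * h + p.toNat))) .LV v) .GD
        (upF (2 * h + p.toNat) (s .GD))) := by
  obtain ⟨P1, C1, h1⟩ := exists_passV1 A hA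
  obtain ⟨P2, C2, h2⟩ := exists_rifPass A
  obtain ⟨P3, C3, h3⟩ := exists_double A
  refine ⟨Prog.seq (mvAll .LS .HS) (Prog.seq P1 (Prog.seq (ifTrue .LV P2 skip) P3)),
    C1 + 4 * C2 + 4 * C3 + 80, ?_⟩
  intro s h k n p v hh hk hrest hHS hLS hLV hLN hGD hWn
  obtain ⟨a, ha⟩ : ∃ a, a = 2 ^ h := ⟨_, rfl⟩
  have hapos : 0 < a := by rw [ha]; positivity
  have h4 := v2l_pow_four a h ha p
  have hW : k * 4 ^ (2 * h + p.toNat) = (k * 4 ^ p.toNat * a) * a ^ 3 := by
    rw [h4]; ring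
  -- first step
  have e1 := sat_mvAll (A := A) (x := .LS) (y := .HS) (by decide) s
  rw [hLS, hHS, List.append_nil, un_reverse] at e1
  have hrest1 : AllNil rest (up (up s .LS []) .HS (un h)) :=
    (hrest.up (by decide) _).up (by decide) _
  have hGD1 : (up (up s .LS []) .HS (un h)) .GD = s .GD := by
    rw [up_of_ne _ (by decide), up_of_ne _ (by decide)]
  have e2 := h1 (up (up s .LS []) .HS (un h)) a h (k * 4 ^ p.toNat * a) n hh ha
    (Nat.mul_pos (Nat.mul_pos hk (by positivity)) hapos) hrest1 (up_self _ _ _)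
    (by rw [up_of_ne _ (by decide), up_of_ne _ (by decide), hLN])
    (by rw [hGD1, hGD, hW]) (by rw [← hW]; exact hWn)
  rw [hGD1] at e2
  have hlen : (chunkF (a ^ 3) (swapF a a) (s .GD)).length = (s .GD).length := by
    apply length_chunkF (by positivity)
    · intro x hx
      rw [length_swapF (by rw [hx]; ring), hx]
    · rw [hGD, hW]
      exact Dvd.intro_left _ rfl
  have hrest2 : AllNil rest (up (up (up s .LS []) .HS (un h)) .GD
      (chunkF (a ^ 3) (swapF a a) (s .GD))) := hrest1.up (by decide) _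
  have hhalf : (2 * h + p.toNat) / 2 = h := by
    cases p <;> simp <;> omega
  -- third step
  have e3 : Sat (ifTrue .LV P2 skip) (up (up (up s .LS []) .HS (un h)) .GD
      (chunkF (a ^ 3) (swapF a a) (s .GD))) (C2 * (k * 4 ^ (2 * h + p.toNat)) + 2)
      (up (up (up s .LS []) .HS (un h)) .GD (upF (2 * h + p.toNat) (s .GD))) := by
    have hLV' : (up (up (up s .LS []) .HS (un h)) .GD
      (chunkF (a ^ 3) (swapF a a) (s .GD))) .LV = p :: v := by
      rw [up_of_ne _ (by decide), up_of_ne _ (by decide), up_of_ne _ (by decide), hLV]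
    cases p with
    | true =>
      have hl2 : ((up (up (up s .LS []) .HS (un h)) .GD
          (chunkF (a ^ 3) (swapF a a) (s .GD))) .GD).length = (2 * k) * (2 * a ^ 4) := by
        rw [up_self, hlen, hGD, h4]
        simp only [Bool.toNat_true]
        ring
      have e := h2 _ a h (2 * k) ha (by omega) hrest2
        (by rw [up_of_ne _ (by decide), up_self]) hl2
      refine (sat_ifTrue_true hLV' e).congr ?_ ?_
      · have : 2 * k * a ^ 4 ≤ k * 4 ^ (2 * h + true.toNat) := by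
          rw [h4]
          simp only [Bool.toNat_true]
          have : 2 * (k * a ^ 4) ≤ 4 * (k * a ^ 4) := Nat.mul_le_mul_right _ (by norm_num)
          calc 2 * k * a ^ 4 = 2 * (k * a ^ 4) := by ring
            _ ≤ 4 * (k * a ^ 4) := this
            _ = k * (4 ^ 1 * a ^ 4) := by ring
        have := Nat.mul_le_mul_left C2 this
        omega
      · rw [up_self, up_up]
        congr 1
        unfold upF
        rw [if_pos (by simp), hhalf, ← ha]
    | false =>
      refine (sat_ifTrue_false ?_ (sat_skip _)).congr ?_ ?_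
      · rw [hLV']; simp
      · omega
      · congr 1
        unfold upF
        rw [if_neg (by simp), hhalf, ← ha]
  -- fourth step
  have e4 := h3 (up (up (up s .LS []) .HS (un h)) .GD (upF (2 * h + p.toNat) (s .GD))) h p v
    (by rw [up_of_ne _ (by decide), up_self])
    (by rw [up_of_ne _ (by decide), up_of_ne _ (by decide), up_self])
    (by rw [up_of_ne _ (by decide), up_of_ne _ (by decide), up_of_ne _ (by decide), hLV])
  refine (e1.seq (e2.seq (e3.seq e4))).congr ?_ ?_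
  · -- cost
    have hh1 : h + 1 ≤ k * 4 ^ (2 * h + p.toNat) := by
      have i1 : h + 1 ≤ 4 ^ (2 * h + p.toNat) := by
        calc h + 1 ≤ 2 * h + p.toNat + 1 := by omega
          _ ≤ 4 ^ (2 * h + p.toNat) := Nat.lt_pow_self (by norm_num)
      exact i1.trans (Nat.le_mul_of_pos_left _ hk)
    have hl : n ^ 2 ≤ lvlV A n h := by
      unfold lvlV
      omega
    simp only [un, List.length_replicate]
    generalize hLd : lvlV A n h = Lv at hl ⊢
    generalize hWd : k * 4 ^ (2 * h + p.toNat) = W at hWn hh1 ⊢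
    have j2 : C2 * W ≤ C2 * (4 * Lv) := Nat.mul_le_mul_left _ (by omega)
    have j3 : C3 * (h + 1) ≤ C3 * (4 * Lv) := Nat.mul_le_mul_left _ (by omega)
    have j4 : h + 1 ≤ 4 * Lv := by omega
    have j5 : (C1 + 4 * C2 + 4 * C3 + 80) * Lv =
        C1 * Lv + C2 * (4 * Lv) + C3 * (4 * Lv) + 80 * Lv := by ring
    rw [j5]
    omega
  · funext x
    simp only [up]
    split_ifs <;> simp_all

end Vale.Agent.P338
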