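import Vale.Agent.Lib.P338.Macro
import Vale.Agent.Lib.P338.MLists

/-!
# P338, module V2Map: apply a program to all chunks

`P` transforms the stack `D` from `x` (of length `c`) to `f x` (of length `m`), and this is known
for all states `t` that agree with `s` outside `GD`, `GO`, `D`. Program for `exists_map1`
(`c = q * a ^ 3`):
```
whileNE GD (
  forC TA Z0 ( forC TB Z1 ( mvLen TE Z2 GD X0 ) )      -- a chunk, last bit on top
  mvAll X0 D
  P
  mvAll D GO )
mvAll GO GD
```
and for `exists_map2` (`c = 14 * (q * a ^ 3)`) the extraction is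
`forC TA Z0 ( forC TB Z1 ( forC TQ Z2 ( mvLen T12 Z3 GD X0 ; mvLen T2 Z3 GD X0 ) ) )`.
After `j` iterations: `GD = l.drop (j * c)`, `GO = (cat j (fun i => f (blk c l i))).reverse`. One
iteration costs `≤ C * (q * a ^ 3) + n + 5 * m + 2`, where `n` is the cost of `P`.
Note that the program `P` is given first, the new program depends only on `P`.
-/

namespace Vale.Agent.P338

private theorem v2map_for {A : TM} {c c' : SName} {P : BProg A} {w q m : ℕ} {s : St}
    (hd : [c, c', .GD, .X0].Nodup) (hs : s c = un m) (hs' : s c' = [])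
    (hl : m * w ≤ (s .GD).length)
    (h : ∀ t : St, (∀ z, z ≠ c → z ≠ c' → z ≠ .GD → z ≠ .X0 → t z = s z) →
      w ≤ (t .GD).length →
      Sat P t q (up (up t .GD ((t .GD).drop w)) .X0 (((t .GD).take w).reverse ++ t .X0))) :
    Sat (forC c c' P) s (m * (q + 9) + 2)
      (up (up s .GD ((s .GD).drop (m * w))) .X0 (((s .GD).take (m * w)).reverse ++ s .X0)) := by
  refine sat_for2 hd hs hs' (fun k => (s .GD).drop (k * w))
    (fun k => ((s .GD).take (k * w)).reverse ++ s .X0) (by simp) (by simp) ?_
  intro k hk t h1 h2 h3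
  have hkw : (k + 1) * w ≤ m * w := Nat.mul_le_mul_right w hk
  have hw : w ≤ (t .GD).length := by
    rw [h1, List.length_drop]
    have : (k + 1) * w = k * w + w := by ring
    omega
  refine (h t h3 hw).congr le_rfl ?_
  have e1 : (k + 1) * w = k * w + w := by ring
  show _ = up (up t .GD ((s .GD).drop ((k + 1) * w))) .X0
    (((s .GD).take ((k + 1) * w)).reverse ++ s .X0)
  rw [h1, h2, e1, List.drop_drop, List.take_add, List.reverse_append, List.append_assoc]

/-- load one chunk of `q * a ^ 3` bits -/
private def v2map_load1 (A : TM) : BProg A := forC .TA .Z0 (forC .TB .Z1 (mvLen .TE .Z2 .GD .X0))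

/-- load one chunk of `14 * (q * a ^ 3)` bits -/
private def v2map_load2 (A : TM) : BProg A :=
  forC .TA .Z0 (forC .TB .Z1 (forC .TQ .Z2
    (Prog.seq (mvLen .T12 .Z3 .GD .X0) (mvLen .T2 .Z3 .GD .X0))))

private theorem v2map_sat_load1 {A : TM} {s : St} {a q : ℕ} (hTA : s .TA = un a)
    (hTB : s .TB = un a) (hTE : s .TE = un (q * a)) (h0 : s .Z0 = []) (h1 : s .Z1 = [])
    (h2 : s .Z2 = []) (hl : a * (a * (q * a)) ≤ (s .GD).length) :
    Sat (v2map_load1 A) s (a * ((a * ((13 * (q * a) + 2) + 9) + 2) + 9) + 2)
      (up (up s .GD ((s .GD).drop (a * (a * (q * a))))) .X0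
        (((s .GD).take (a * (a * (q * a)))).reverse ++ s .X0)) := by
  refine v2map_for (by decide) hTA h0 hl ?_
  intro t ht hw
  refine v2map_for (by decide) ?_ ?_ hw ?_
  · rw [ht _ (by decide) (by decide) (by decide) (by decide)]; exact hTB
  · rw [ht _ (by decide) (by decide) (by decide) (by decide)]; exact h1
  intro t' ht' hw'
  refine sat_mvLen (by decide) ?_ ?_ hw'
  · rw [ht' _ (by decide) (by decide) (by decide) (by decide),
      ht _ (by decide) (by decide) (by decide) (by decide)]; exact hTE
  · rw [ht' _ (by decide) (by decide) (by decide) (by decide),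
      ht _ (by decide) (by decide) (by decide) (by decide)]; exact h2

private theorem v2map_sat_slot {A : TM} {s : St} {a : ℕ} (hT12 : s .T12 = un (12 * a))
    (hT2 : s .T2 = un (2 * a)) (h3 : s .Z3 = []) (hl : 14 * a ≤ (s .GD).length) :
    Sat (Prog.seq (mvLen .T12 .Z3 .GD .X0) (mvLen .T2 .Z3 .GD .X0) : BProg A) s
      ((13 * (12 * a) + 2) + (13 * (2 * a) + 2))
      (up (up s .GD ((s .GD).drop (14 * a))) .X0
        (((s .GD).take (14 * a)).reverse ++ s .X0)) := by
  have g1 := sat_mvLen (A := A) (c := .T12) (c' := .Z3) (x := .GD) (y := .X0) (by decide)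
    hT12 h3 (by omega)
  have g2 := sat_mvLen (A := A) (c := .T2) (c' := .Z3) (x := .GD) (y := .X0) (by decide)
    (s := up (up s .GD ((s .GD).drop (12 * a))) .X0 (((s .GD).take (12 * a)).reverse ++ s .X0))
    (m := 2 * a)
    (by rw [up_of_ne _ (by decide), up_of_ne _ (by decide)]; exact hT2)
    (by rw [up_of_ne _ (by decide), up_of_ne _ (by decide)]; exact h3)
    (by
      rw [up_of_ne _ (by decide), up_self, List.length_drop]
      omega)
  refine (g1.seq g2).congr le_rfl ?_
  have e1 : 14 * a = 12 * a + 2 * a := by ring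
  rw [up_of_ne _ (show SName.GD ≠ .X0 by decide), up_self, up_self,
    up_comm _ (show SName.X0 ≠ .GD by decide), up_up, up_up, e1, List.drop_drop,
    List.take_add, List.reverse_append, List.append_assoc]

private theorem v2map_sat_load2 {A : TM} {s : St} {a q : ℕ} (hTA : s .TA = un a)
    (hTB : s .TB = un a) (hTQ : s .TQ = un q) (hT12 : s .T12 = un (12 * a))
    (hT2 : s .T2 = un (2 * a)) (h0 : s .Z0 = []) (h1 : s .Z1 = [])
    (h2 : s .Z2 = []) (h3 : s .Z3 = []) (hl : a * (a * (q * (14 * a))) ≤ (s .GD).length) :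
    Sat (v2map_load2 A) s
      (a * ((a * ((q * (((13 * (12 * a) + 2) + (13 * (2 * a) + 2)) + 9) + 2) + 9) + 2) + 9) + 2)
      (up (up s .GD ((s .GD).drop (a * (a * (q * (14 * a)))))) .X0
        (((s .GD).take (a * (a * (q * (14 * a))))).reverse ++ s .X0)) := by
  refine v2map_for (by decide) hTA h0 hl ?_
  intro t ht hw
  refine v2map_for (by decide) ?_ ?_ hw ?_
  · rw [ht _ (by decide) (by decide) (by decide) (by decide)]; exact hTB
  · rw [ht _ (by decide) (by decide) (by decide) (by decide)]; exact h1
  intro t' ht' hw'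
  refine v2map_for (by decide) ?_ ?_ hw' ?_
  · rw [ht' _ (by decide) (by decide) (by decide) (by decide),
      ht _ (by decide) (by decide) (by decide) (by decide)]; exact hTQ
  · rw [ht' _ (by decide) (by decide) (by decide) (by decide),
      ht _ (by decide) (by decide) (by decide) (by decide)]; exact h2
  intro t'' ht'' hw''
  refine v2map_sat_slot ?_ ?_ ?_ hw''
  · rw [ht'' _ (by decide) (by decide) (by decide) (by decide),
      ht' _ (by decide) (by decide) (by decide) (by decide),
      ht _ (by decide) (by decide) (by decide) (by decide)]; exact hT12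
  · rw [ht'' _ (by decide) (by decide) (by decide) (by decide),
      ht' _ (by decide) (by decide) (by decide) (by decide),
      ht _ (by decide) (by decide) (by decide) (by decide)]; exact hT2
  · rw [ht'' _ (by decide) (by decide) (by decide) (by decide),
      ht' _ (by decide) (by decide) (by decide) (by decide),
      ht _ (by decide) (by decide) (by decide) (by decide)]; exact h3

/-- the body of the main loop -/
private def v2map_body {A : TM} (L P : BProg A) : BProg A :=
  Prog.seq L (Prog.seq (mvAll .X0 .D) (Prog.seq P (mvAll .D .GO)))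

/-- the whole program -/
private def v2map_prog {A : TM} (L P : BProg A) : BProg A :=
  Prog.seq (whileNE .GD (v2map_body L P)) (mvAll .GO .GD)

private theorem v2map_sat_body {A : TM} {L P : BProg A} {t : St} {c n m ld : ℕ}
    {f : List Bool → List Bool} (hX0 : t .X0 = []) (hD : t .D = [])
    (hl : c ≤ (t .GD).length)
    (hL : Sat L t ld (up (up t .GD ((t .GD).drop c)) .X0 (((t .GD).take c).reverse ++ t .X0)))
    (hP : Sat P (up (up t .GD ((t .GD).drop c)) .D ((t .GD).take c)) n
      (up (up (up t .GD ((t .GD).drop c)) .D ((t .GD).take c)) .D (f ((t .GD).take c))))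
    (hf : (f ((t .GD).take c)).length = m) :
    Sat (v2map_body L P) t (ld + (5 * c + 1) + n + (5 * m + 1))
      (up (up t .GD ((t .GD).drop c)) .GO ((f ((t .GD).take c)).reverse ++ t .GO)) := by
  rw [hX0, List.append_nil] at hL
  set t1 : St := up (up t .GD ((t .GD).drop c)) .X0 ((t .GD).take c).reverse with ht1
  have h2 := sat_mvAll (A := A) (x := .X0) (y := .D) (by decide) t1
  have e2 : up (up t1 .X0 []) .D ((t1 .X0).reverse ++ t1 .D) =
      up (up t .GD ((t .GD).drop c)) .D ((t .GD).take c) := by
    funext x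
    have e3 : t1 .X0 = ((t .GD).take c).reverse := by rw [ht1, up_self]
    have e4 : t1 .D = [] := by
      rw [ht1, up_of_ne _ (by decide), up_of_ne _ (by decide)]; exact hD
    rw [e3, e4, ht1, List.reverse_reverse, List.append_nil, up_up]
    simp only [up]
    split_ifs <;> simp_all
  rw [e2] at h2
  have hlen : ((t .GD).take c).length = c := by
    rw [List.length_take]; omega
  have hl1 : (t1 .X0).length = c := by
    rw [ht1, up_self, List.length_reverse, hlen]
  rw [hl1] at h2
  rw [up_up] at hP
  set t3 : St := up (up t .GD ((t .GD).drop c)) .D (f ((t .GD).take c)) with ht3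
  have h4 := sat_mvAll (A := A) (x := .D) (y := .GO) (by decide) t3
  have ht3D : t3 .D = f ((t .GD).take c) := by rw [ht3, up_self]
  rw [ht3D, hf] at h4
  refine (hL.seq (h2.seq (hP.seq h4))).congr (by omega) ?_
  have e5 : t3 .GO = t .GO := by
    rw [ht3, up_of_ne _ (by decide), up_of_ne _ (by decide)]
  rw [e5, ht3, up_up]
  funext x
  simp only [up]
  split_ifs <;> simp_all

private theorem v2map_gen {A : TM} {L P : BProg A} {s : St} {c k n m ld : ℕ}
    {f : List Bool → List Bool} (hc : 1 ≤ c) (hX0 : s .X0 = []) (hD : s .D = [])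
    (hGO : s .GO = []) (hlen : (s .GD).length = k * c)
    (hL : ∀ t : St, (∀ z, z ≠ .GD → z ≠ .GO → t z = s z) → c ≤ (t .GD).length →
      Sat L t ld (up (up t .GD ((t .GD).drop c)) .X0 (((t .GD).take c).reverse ++ t .X0)))
    (hP : ∀ (t : St), (t .D).length = c →
      (∀ z, z ≠ .GD → z ≠ .GO → z ≠ .D → t z = s z) → Sat P t n (up t .D (f (t .D))))
    (hf : ∀ x : List Bool, x.length = c → (f x).length = m) :
    Sat (v2map_prog L P) s (k * (ld + (5 * c + 1) + n + (5 * m + 1) + 1) + 1 + (5 * (k * m) + 1))
      (up s .GD (cat k fun i => f (blk c (s .GD) i))) := by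
  obtain ⟨l, hl⟩ : ∃ l, l = s .GD := ⟨_, rfl⟩
  have hlc : l.length = k * c := by rw [hl, hlen]
  set st : ℕ → St := fun j => up (up s .GD (l.drop (j * c))) .GO
    (cat j (fun i => f (blk c l i))).reverse with hst
  have e0 : st 0 = s := by
    show up (up s .GD (l.drop (0 * c))) .GO (cat 0 (fun i => f (blk c l i))).reverse = _
    rw [cat_zero, zero_mul, List.drop_zero, hl, List.reverse_nil, up_id, ← hGO, up_id]
  have stGD : ∀ j, st j .GD = l.drop (j * c) := by
    intro j
    show up (up s .GD (l.drop (j * c))) .GO _ .GD = _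
    rw [up_of_ne _ (by decide), up_self]
  have stGO : ∀ j, st j .GO = (cat j (fun i => f (blk c l i))).reverse := by
    intro j
    show up (up s .GD (l.drop (j * c))) .GO _ .GO = _
    rw [up_self]
  have stz : ∀ j z, z ≠ SName.GD → z ≠ SName.GO → st j z = s z := by
    intro j z h1 h2
    show up (up s .GD (l.drop (j * c))) .GO _ z = _
    rw [up_of_ne _ h2, up_of_ne _ h1]
  have hw := sat_while' (A := A) .GD (v2map_body L P) st (ld + (5 * c + 1) + n + (5 * m + 1)) k
    (by
      intro j hj
      rw [stGD j]
      intro h0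
      have h1 := congrArg List.length h0
      rw [List.length_drop, hlc, List.length_nil] at h1
      have h2 : (j + 1) * c ≤ k * c := Nat.mul_le_mul_right c hj
      have h3 : (j + 1) * c = j * c + c := by ring
      omega)
    (by
      rw [stGD k, List.drop_eq_nil_iff, hlc])
    (by
      intro j hj
      have h2 : (j + 1) * c ≤ k * c := Nat.mul_le_mul_right c hj
      have h3 : (j + 1) * c = j * c + c := by ring
      have hlj : c ≤ (st j .GD).length := by
        rw [stGD j, List.length_drop, hlc]
        omega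
      have hlt : ((st j .GD).take c).length = c := by
        rw [List.length_take]; omega
      have hb := v2map_sat_body (A := A) (L := L) (P := P) (t := st j) (c := c) (n := n)
        (m := m) (ld := ld) (f := f)
        (by rw [stz j _ (by decide) (by decide)]; exact hX0)
        (by rw [stz j _ (by decide) (by decide)]; exact hD) hlj
        (hL (st j) (stz j) hlj)
        (by
          have h5 := hP (up (up (st j) .GD ((st j .GD).drop c)) .D ((st j .GD).take c))
            (by rw [up_self]; exact hlt)
            (by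
              intro z h6 h7 h8
              rw [up_of_ne _ h8, up_of_ne _ h6, stz j z h6 h7])
          rw [up_self] at h5
          exact h5)
        (hf _ hlt)
      refine hb.congr le_rfl ?_
      rw [stGD j, stGO j]
      show _ = up (up s .GD (l.drop ((j + 1) * c))) .GO
        (cat (j + 1) (fun i => f (blk c l i))).reverse
      rw [cat_succ, List.drop_drop, ← h3]
      show up (up (up (up s .GD (l.drop (j * c))) .GO _) .GD _) .GO _ = _
      have e2 : (l.drop (j * c)).take c = blk c l j := rfl
      rw [e2, up_comm _ (show SName.GO ≠ .GD by decide), up_up, up_up, List.reverse_append])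
  rw [e0] at hw
  have hlencat : (cat k fun i => f (blk c l i)).length = k * m := by
    refine length_cat fun i hi => hf _ ?_
    apply length_blk
    rw [hlc]
    exact Nat.mul_le_mul_right c hi
  have h5 := sat_mvAll (A := A) (x := .GO) (y := .GD) (by decide) (st k)
  have stGDk : st k .GD = [] := by rw [stGD k, List.drop_eq_nil_iff, hlc]
  rw [stGO, List.reverse_reverse, List.length_reverse, hlencat, stGDk, List.append_nil] at h5
  refine (hw.seq h5).congr le_rfl ?_
  rw [← hl]
  show up (up (up (up s .GD (l.drop (k * c))) .GO _) .GO []) .GD _ = _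
  funext x
  cases x <;> first | rfl | exact hGO.symm

theorem exists_map1 (A : TM) (P : BProg A) : ∃ (Q : BProg A) (C : ℕ), ∀ (s : St)
    (a q k n m : ℕ) (f : List Bool → List Bool), 1 ≤ a → 1 ≤ q → AllNil temps s → Par a q s →
    s .D = [] → s .GO = [] → (s .GD).length = k * (q * a ^ 3) →
    (∀ (t : St), (t .D).length = q * a ^ 3 →
      (∀ z, z ≠ .GD → z ≠ .GO → z ≠ .D → t z = s z) → Sat P t n (up t .D (f (t .D)))) →
    (∀ x : List Bool, x.length = q * a ^ 3 → (f x).length = m) →
    Sat Q s (C * (k * (q * a ^ 3 + n + m) + 1))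
      (up s .GD (cat k fun i => f (blk (q * a ^ 3) (s .GD) i))) := by
  refine ⟨v2map_prog (v2map_load1 A) P, 50, ?_⟩
  intro s a q k n m f ha hq hT hP hD hGO hlen hPP hf
  have hc : a * (a * (q * a)) = q * a ^ 3 := by ring
  have hcpos : 1 ≤ q * a ^ 3 := Nat.mul_pos hq (pow_pos (by omega) 3)
  have hld : a * ((a * ((13 * (q * a) + 2) + 9) + 2) + 9) + 2 ≤ 37 * (q * a ^ 3) := by
    have h1 : a * ((a * ((13 * (q * a) + 2) + 9) + 2) + 9) + 2 =
        13 * (q * a ^ 3) + 11 * a ^ 2 + 11 * a + 2 := by ring
    have h2 : a ^ 2 ≤ q * a ^ 3 := by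
      calc a ^ 2 = 1 * a ^ 2 := by ring
        _ ≤ (q * a) * a ^ 2 := Nat.mul_le_mul_right _ (Nat.mul_pos hq (by omega))
        _ = q * a ^ 3 := by ring
    have h3 : a ≤ a ^ 2 := by nlinarith
    rw [h1]
    omega
  have h := v2map_gen (A := A) (L := v2map_load1 A) (P := P) (s := s) (c := q * a ^ 3) (k := k)
    (n := n) (m := m) (ld := 37 * (q * a ^ 3)) (f := f) hcpos (hT.get (by decide)) hD hGO hlen
    (by
      intro t ht hl
      have g := v2map_sat_load1 (A := A) (s := t) (a := a) (q := q)
        (by rw [ht _ (by decide) (by decide)]; exact hP.TA)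
        (by rw [ht _ (by decide) (by decide)]; exact hP.TB)
        (by rw [ht _ (by decide) (by decide)]; exact hP.TE)
        (by rw [ht _ (by decide) (by decide)]; exact hT.get (by decide))
        (by rw [ht _ (by decide) (by decide)]; exact hT.get (by decide))
        (by rw [ht _ (by decide) (by decide)]; exact hT.get (by decide))
        (by rw [hc]; exact hl)
      rw [hc] at g
      exact g.mono hld)
    hPP hf
  refine h.mono ?_
  generalize q * a ^ 3 = c at *
  have k1 : k ≤ k * c := Nat.le_mul_of_pos_right k (by omega)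
  have k2 : k * (37 * c + (5 * c + 1) + n + (5 * m + 1) + 1) + 1 + (5 * (k * m) + 1) =
      42 * (k * c) + k * n + 10 * (k * m) + 3 * k + 2 := by ring
  have k3 : 50 * (k * (c + n + m) + 1) = 50 * (k * c) + 50 * (k * n) + 50 * (k * m) + 50 := by
    ring
  rw [k2, k3]
  omega

theorem exists_map2 (A : TM) (P : BProg A) : ∃ (Q : BProg A) (C : ℕ), ∀ (s : St)
    (a q k n m : ℕ) (f : List Bool → List Bool), 1 ≤ a → 1 ≤ q → AllNil temps s → Par a q s →
    s .D = [] → s .GO = [] → (s .GD).length = k * (14 * (q * a ^ 3)) →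
    (∀ (t : St), (t .D).length = 14 * (q * a ^ 3) →
      (∀ z, z ≠ .GD → z ≠ .GO → z ≠ .D → t z = s z) → Sat P t n (up t .D (f (t .D)))) →
    (∀ x : List Bool, x.length = 14 * (q * a ^ 3) → (f x).length = m) →
    Sat Q s (C * (k * (q * a ^ 3 + n + m) + 1))
      (up s .GD (cat k fun i => f (blk (14 * (q * a ^ 3)) (s .GD) i))) := by
  refine ⟨v2map_prog (v2map_load2 A) P, 300, ?_⟩
  intro s a q k n m f ha hq hT hP hD hGO hlen hPP hf
  have hc : a * (a * (q * (14 * a))) = 14 * (q * a ^ 3) := by ring
  have hcpos : 1 ≤ q * a ^ 3 := Nat.mul_pos hq (pow_pos (by omega) 3)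
  have hld : a * ((a * ((q * (((13 * (12 * a) + 2) + (13 * (2 * a) + 2)) + 9) + 2) + 9) + 2) + 9)
      + 2 ≤ 219 * (q * a ^ 3) := by
    have h1 : a * ((a * ((q * (((13 * (12 * a) + 2) + (13 * (2 * a) + 2)) + 9) + 2) + 9) + 2) + 9)
        + 2 = 182 * (q * a ^ 3) + 13 * (q * a ^ 2) + 11 * a ^ 2 + 11 * a + 2 := by ring
    have h2 : a ^ 2 ≤ q * a ^ 3 := by
      calc a ^ 2 = 1 * a ^ 2 := by ring
        _ ≤ (q * a) * a ^ 2 := Nat.mul_le_mul_right _ (Nat.mul_pos hq (by omega))
        _ = q * a ^ 3 := by ring
    have h2' : q * a ^ 2 ≤ q * a ^ 3 :=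
      Nat.mul_le_mul_left q (Nat.pow_le_pow_right (by omega) (by norm_num))
    have h3 : a ≤ a ^ 2 := by nlinarith
    rw [h1]
    omega
  have h := v2map_gen (A := A) (L := v2map_load2 A) (P := P) (s := s) (c := 14 * (q * a ^ 3))
    (k := k) (n := n) (m := m) (ld := 219 * (q * a ^ 3)) (f := f) (by omega)
    (hT.get (by decide)) hD hGO hlen
    (by
      intro t ht hl
      have g := v2map_sat_load2 (A := A) (s := t) (a := a) (q := q)
        (by rw [ht _ (by decide) (by decide)]; exact hP.TA)
        (by rw [ht _ (by decide) (by decide)]; exact hP.TB)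
        (by rw [ht _ (by decide) (by decide)]; exact hP.TQ)
        (by rw [ht _ (by decide) (by decide)]; exact hP.T12)
        (by rw [ht _ (by decide) (by decide)]; exact hP.T2)
        (by rw [ht _ (by decide) (by decide)]; exact hT.get (by decide))
        (by rw [ht _ (by decide) (by decide)]; exact hT.get (by decide))
        (by rw [ht _ (by decide) (by decide)]; exact hT.get (by decide))
        (by rw [ht _ (by decide) (by decide)]; exact hT.get (by decide))
        (by rw [hc]; exact hl)
      rw [hc] at g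
      exact g.mono hld)
    hPP hf
  refine h.mono ?_
  generalize q * a ^ 3 = c at *
  have k1 : k ≤ k * c := Nat.le_mul_of_pos_right k (by omega)
  have k2 : k * (219 * c + (5 * (14 * c) + 1) + n + (5 * m + 1) + 1) + 1 + (5 * (k * m) + 1) =
      289 * (k * c) + k * n + 10 * (k * m) + 3 * k + 2 := by ring
  have k3 : 300 * (k * (c + n + m) + 1) =
      300 * (k * c) + 300 * (k * n) + 300 * (k * m) + 300 := by ring
  rw [k2, k3]
  omega

end Vale.Agent.P338
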