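import Vale.Agent.Lib.P338.V2Batch
import Vale.Agent.Lib.P338.CallMain
import Vale.Agent.Lib.P338.PAddBits
import Vale.Agent.Lib.P338.PMulFold

/-!
# P338, module V2MulBatch: the program for `mbRes`

`D` consists of `K` blocks of `2 N` bits (first halves zero), `Y` has `N` bits and is preserved,
`LN = un n`, `M = 112 * n ^ 2 ≥ K * (2 N)`. Program:
```
pushLen LN Z0 X2 true
forC X2 Z1 ( forC LN Z0 (pushN X3 true 112) ) ; clear X2      -- X3 = un M
copyAll X3 WA Z0                                              -- WA = un M, the clock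
mvAll D Z0
whileNE Z0 ( mv Z0 X0 ; pop X3 ; push Z2 true )               -- X0 = l, X3 = un (M - |l|), Z2 = un |l|
whileNE X3 ( pop X3 ; push X0 false )                         -- X0 = padL M l
copyAll Y X1 Z0 ; copyAll Y Z3 Z0 ; copyAll WA X3 Z0
whileNE Z3 ( pop Z3 ; pop X3 ; push Z4 true )                 -- Z4 = un N, X3 = un (M - N)
whileNE X3 ( pop X3 ; push X1 false )                         -- X1 = padL M y
call                                                          -- OUT = reversed product, or []
ifNE OUT (
  whileNE Z2 (                                                -- the last block first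
    mvLen Z4 Z5 OUT X0 ; dropLen Z4 Z5 Z2                     -- low half, most significant bit on top
    mvLen Z4 Z5 OUT X1 ; dropLen Z4 Z5 Z2                     -- high half
    mvAll X0 X2 ; mvAll X1 X3                                 -- least significant bits on top
    push WB false ; addBits X2 X3 WB D ; pop WB )             -- D = folded block ++ D
  clear OUT ) (skip)
clear WA ; clear Z4 ; clear Z2
```
By `batch_eq` the reversed product is, from the top: for `b = K - 1, ..., 0` the reversed string
`bin (2 N) (v b * val y)` (low half first), then zeros. The addition gives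
`bin N ((lo + hi) % 2 ^ N) = foldF N _` (compare `PMulFold`). `call` (`exists_call`) changes only
`X0, X1, OUT`; it needs `WB = CK = HSk = []`, `|WA| = M`. Total cost
`≤ C * (M + h + min (A.mulTime M) (h * M))` and `K ≤ M` (`N ≥ 1`).
(A failed call is only detected by `OUT = []`; a successful one has `2 M ≥ 2` bits.)
-/

namespace Vale.Agent.P338

namespace MulBatch

variable {A : TM}

/-- move the contents of `z` to `x`, decrement the counter `c`, increment the counter `e` -/
def padLoop1 (z x c e : SName) : BProg A :=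
  whileNE z (Prog.seq (mv z x) (Prog.seq (pop c) (push e true)))

theorem sat_padLoop1 {z x c e : SName} (hd : [z, x, c, e].Nodup) (r : List Bool) (s : St)
    (hz : s z = r) : Sat (padLoop1 z x c e : BProg A) s (8 * r.length + 1)
      (up (up (up (up s z []) x (r.reverse ++ s x)) c ((s c).drop r.length)) e
        (un r.length ++ s e)) := by
  have hd' := hd
  simp only [List.nodup_cons, List.mem_cons, List.not_mem_nil, or_false, not_or,
    not_false_eq_true, List.nodup_nil, and_true] at hd'
  obtain ⟨⟨hzx, hzc, hze⟩, ⟨hxc, hxe⟩, hce⟩ := hd'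
  induction r generalizing s with
  | nil =>
    refine (sat_whileNE_nil hz).congr (by simp) ?_
    have e1 : un ([] : List Bool).length ++ s e = s e := rfl
    rw [e1, List.reverse_nil, List.nil_append, List.length_nil, List.drop_zero, ← hz]
    rw [up_id, up_id, up_id, up_id]
  | cons b r ih =>
    have h1 := sat_mv (A := A) hzx hz
    have h2 := sat_pop (A := A) c (up (up s z r) x (b :: s x))
    rw [up_of_ne _ (Ne.symm hxc), up_of_ne _ (Ne.symm hzc)] at h2
    have h3 := sat_push (A := A) e true (up (up (up s z r) x (b :: s x)) c (s c).tail)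
    rw [up_of_ne _ (Ne.symm hce), up_of_ne _ (Ne.symm hxe), up_of_ne _ (Ne.symm hze)] at h3
    have h4 := ih (up (up (up (up s z r) x (b :: s x)) c (s c).tail) e (true :: s e)) (by
      rw [up_of_ne _ hze, up_of_ne _ hzc, up_of_ne _ hzx, up_self])
    rw [up_self, up_of_ne (x := e) (y := c) _ hce, up_self, up_of_ne (x := e) (y := x) _ hxe,
      up_of_ne (x := c) (y := x) _ hxc, up_self] at h4
    refine (sat_whileNE_cons (by rw [hz]; simp) (h1.seq (h2.seq h3)) h4).congr ?_ ?_
    · simp only [List.length_cons]
      omega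
    · have e1 : un (b :: r).length ++ s e = un r.length ++ true :: s e := by
        rw [List.length_cons]
        have e2 : un (r.length + 1) = un r.length ++ [true] := List.replicate_succ'
        rw [e2, List.append_assoc]
        rfl
      have e3 : (s c).drop (b :: r).length = (s c).tail.drop r.length := by
        rw [List.length_cons, List.drop_tail]
      rw [e1, e3, List.reverse_cons, List.append_assoc, List.singleton_append]
      clear h1 h2 h3 h4 ih e1 e3
      generalize un r.length ++ true :: s e = u1
      generalize (s c).tail.drop r.length = u2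
      generalize r.reverse ++ b :: s x = u3
      funext w
      simp only [up]
      split_ifs <;> simp_all

/-- push zeros, as many as the length of the counter `c` -/
def padLoop2 (c x : SName) : BProg A := whileNE c (Prog.seq (pop c) (push x false))

theorem sat_padLoop2 {c x : SName} (hcx : c ≠ x) (r : List Bool) (s : St) (hc : s c = r) :
    Sat (padLoop2 c x : BProg A) s (4 * r.length + 1)
      (up (up s c []) x (List.replicate r.length false ++ s x)) := by
  induction r generalizing s with
  | nil =>
    refine (sat_whileNE_nil hc).congr (by simp) ?_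
    have e1 : List.replicate ([] : List Bool).length false ++ s x = s x := rfl
    rw [e1, ← hc, up_id, up_id]
  | cons b r ih =>
    have h2 := sat_pop (A := A) c s
    rw [hc, List.tail_cons] at h2
    have h3 := sat_push (A := A) x false (up s c r)
    rw [up_of_ne _ hcx.symm] at h3
    have h4 := ih (up (up s c r) x (false :: s x)) (by rw [up_of_ne _ hcx, up_self])
    rw [up_self] at h4
    refine (sat_whileNE_cons (by rw [hc]; simp) (h2.seq h3) h4).congr ?_ ?_
    · simp only [List.length_cons]
      omega
    · have e1 : List.replicate (b :: r).length false ++ s x =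
          List.replicate r.length false ++ false :: s x := by
        rw [List.length_cons, List.replicate_succ', List.append_assoc]
        rfl
      rw [e1, up_comm _ hcx.symm, up_up, up_up]

/-- the padding program -/
def padP (z x c e : SName) : BProg A := Prog.seq (padLoop1 z x c e) (padLoop2 c x)

theorem sat_padP {z x c e : SName} (hd : [z, x, c, e].Nodup) {s : St} {l : List Bool} {M : ℕ}
    (hz : s z = l.reverse) (hx : s x = []) (hc : s c = un M) (he : s e = [])
    (hl : l.length ≤ M) : Sat (padP z x c e : BProg A) s (8 * M + 2)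
      (up (up (up (up s z []) x (padL M l)) c []) e (un l.length)) := by
  have hd' := hd
  simp only [List.nodup_cons, List.mem_cons, List.not_mem_nil, or_false, not_or,
    not_false_eq_true, List.nodup_nil, and_true] at hd'
  obtain ⟨⟨hzx, hzc, hze⟩, ⟨hxc, hxe⟩, hce⟩ := hd'
  have h1 := sat_padLoop1 (A := A) hd l.reverse s hz
  have e1 : (un M).drop l.length = un (M - l.length) := by
    simp [un]
  rw [List.reverse_reverse, hx, hc, he, List.append_nil, List.append_nil, List.length_reverse,
    e1] at h1
  have h2 := sat_padLoop2 (A := A) (Ne.symm hxc) (un (M - l.length))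
    (up (up (up (up s z []) x l) c (un (M - l.length))) e (un l.length))
    (by rw [up_of_ne _ hce, up_self])
  have e2 : (un (M - l.length)).length = M - l.length := by
    simp [un]
  rw [e2, up_of_ne (x := e) (y := x) _ hxe, up_of_ne (x := c) (y := x) _ hxc, up_self] at h2
  refine (h1.seq h2).congr (by omega) ?_
  have e3 : List.replicate (M - l.length) false ++ l = padL M l := rfl
  rw [e3]
  generalize padL M l = u1
  generalize un l.length = u2
  generalize un (M - l.length) = u3
  clear h1 h2 e1 e2 e3
  funext w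
  simp only [up]
  split_ifs <;> simp_all

/-- first program: the clock -/
def progA : BProg A := Prog.seq (pushLen .LN .Z0 .X2 true)
  (Prog.seq (forC .X2 .Z1 (forC .LN .Z0 (pushN .WA true 112))) (clear .X2))

theorem sat_progA {s : St} {n : ℕ} (hn : 1 ≤ n) (hLN : s .LN = un n) (h0 : s .Z0 = [])
    (h1 : s .Z1 = []) (h2 : s .X2 = []) (hWA : s .WA = []) :
    Sat (progA : BProg A) s (300 * n ^ 2) (up s .WA (un (112 * n ^ 2))) := by
  have a1 := sat_pushLen (A := A) (c := .LN) (c' := .Z0) (x := .X2) (by decide) true hLN h0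
  rw [h2, List.append_nil] at a1
  have a2 := sat_for1 (A := A) (c := .X2) (c' := .Z1) (x := .WA)
    (P := forC .LN .Z0 (pushN .WA true 112)) (s := up s .X2 (un n)) (m := n)
    (q := n * (2 * 112 + 1 + 9) + 2)
    (by decide) (by rw [up_self]) (by rw [up_of_ne _ (by decide), h1])
    (fun i => un (i * (112 * n))) (by
      show un (0 * (112 * n)) = _
      rw [Nat.zero_mul, up_of_ne _ (by decide), hWA]
      rfl) ?_
  · have a3 := sat_clear (A := A) .X2 (up (up s .X2 (un n)) .WA (un (n * (112 * n))))
    have e1 : up (up s .X2 (un n)) .WA (un (n * (112 * n))) .X2 = un n := by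
      rw [up_of_ne _ (by decide), up_self]
    rw [e1, List.length_replicate] at a3
    refine (a1.seq (a2.seq a3)).congr ?_ ?_
    · have hnn : n ≤ n ^ 2 := by
        rw [pow_two]
        exact Nat.le_mul_of_pos_left n hn
      have e2 : n * (n * (2 * 112 + 1 + 9) + 2 + 9) = 234 * n ^ 2 + 11 * n := by ring
      have h1n : 1 ≤ n ^ 2 := hn.trans hnn
      omega
    · have e2 : n * (112 * n) = 112 * n ^ 2 := by ring
      rw [e2, up_comm _ (show SName.WA ≠ .X2 by decide), up_up, pmf_up_nil h2]
  · intro k hk t ht ht'
    have b1 := sat_for1 (A := A) (c := .LN) (c' := .Z0) (x := .WA)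
      (P := pushN .WA true 112) (s := t) (m := n) (q := 2 * 112 + 1)
      (by decide)
      (by rw [ht' _ (by decide) (by decide) (by decide), up_of_ne _ (by decide), hLN])
      (by rw [ht' _ (by decide) (by decide) (by decide), up_of_ne _ (by decide), h0])
      (fun i => un (i * 112) ++ t .WA) (by
        show un (0 * 112) ++ t .WA = _
        rw [Nat.zero_mul]
        rfl) ?_
    · refine b1.congr le_rfl ?_
      show up t .WA (un (n * 112) ++ t .WA) = up t .WA (un ((k + 1) * (112 * n)))
      rw [ht]
      show up t .WA (un (n * 112) ++ un (k * (112 * n))) = _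
      rw [un_append]
      congr 2
      ring
    · intro i hi u hu hu'
      refine (sat_pushN .WA true 112 u).congr le_rfl ?_
      rw [hu]
      show up u .WA (un 112 ++ (un (i * 112) ++ t .WA)) = up u .WA (un ((i + 1) * 112) ++ t .WA)
      rw [← List.append_assoc, un_append]
      congr 3
      ring

/-- second program: the padded string `D` -/
def progB : BProg A := Prog.seq (copyAll .WA .X3 .Z0)
  (Prog.seq (mvAll .D .Z0) (padP .Z0 .X0 .X3 .Z2))

theorem sat_progB {s : St} {M : ℕ} {l : List Bool} (hWA : s .WA = un M) (hD : s .D = l)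
    (h3 : s .X3 = []) (h0 : s .Z0 = []) (hX0 : s .X0 = []) (hZ2 : s .Z2 = [])
    (hl : l.length ≤ M) : Sat (progB : BProg A) s (25 * M + 5)
      (up (up (up s .D []) .X0 (padL M l)) .Z2 (un l.length)) := by
  have a1 := sat_copyAll (A := A) (x := .WA) (y := .X3) (z := .Z0) (by decide) s h0
  rw [hWA, h3, List.append_nil, List.length_replicate] at a1
  have a2 := sat_mvAll (A := A) (x := .D) (y := .Z0) (by decide) (up s .X3 (un M))
  rw [up_of_ne (x := .X3) (y := .D) _ (by decide), up_of_ne (x := .X3) (y := .Z0) _ (by decide),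
    hD, h0, List.append_nil] at a2
  have a3 := sat_padP (A := A) (z := .Z0) (x := .X0) (c := .X3) (e := .Z2) (by decide)
    (s := up (up (up s .X3 (un M)) .D []) .Z0 l.reverse) (l := l) (M := M) (by rw [up_self])
    (by rw [up_of_ne _ (by decide), up_of_ne _ (by decide), up_of_ne _ (by decide), hX0])
    (by rw [up_of_ne _ (by decide), up_of_ne _ (by decide), up_self])
    (by rw [up_of_ne _ (by decide), up_of_ne _ (by decide), up_of_ne _ (by decide), hZ2]) hl
  refine (a1.seq (a2.seq a3)).congr (by omega) ?_
  clear a1 a2 a3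
  generalize padL M l = u1
  generalize un l.length = u2
  funext w
  simp only [up]
  split_ifs <;> simp_all

/-- third program: the padded string `Y` -/
def progC : BProg A := Prog.seq (copyAll .WA .X3 .Z0)
  (Prog.seq (copyAll .Y .Z3 .Z0) (Prog.seq (mvAll .Z3 .Z0) (padP .Z0 .X1 .X3 .Z4)))

theorem sat_progC {s : St} {M : ℕ} {y : List Bool} (hWA : s .WA = un M) (hY : s .Y = y)
    (h3 : s .X3 = []) (h0 : s .Z0 = []) (hZ3 : s .Z3 = []) (hX1 : s .X1 = []) (hZ4 : s .Z4 = [])
    (hl : y.length ≤ M) : Sat (progC : BProg A) s (37 * M + 7)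
      (up (up s .X1 (padL M y)) .Z4 (un y.length)) := by
  have a1 := sat_copyAll (A := A) (x := .WA) (y := .X3) (z := .Z0) (by decide) s h0
  rw [hWA, h3, List.append_nil, List.length_replicate] at a1
  have a2 := sat_copyAll (A := A) (x := .Y) (y := .Z3) (z := .Z0) (by decide) (up s .X3 (un M))
    (by rw [up_of_ne _ (by decide), h0])
  rw [up_of_ne (x := .X3) (y := .Y) _ (by decide), up_of_ne (x := .X3) (y := .Z3) _ (by decide),
    hY, hZ3, List.append_nil] at a2
  have a3 := sat_mvAll (A := A) (x := .Z3) (y := .Z0) (by decide) (up (up s .X3 (un M)) .Z3 y)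
  rw [up_self, up_of_ne (x := .Z3) (y := .Z0) _ (by decide),
    up_of_ne (x := .X3) (y := .Z0) _ (by decide), h0, List.append_nil] at a3
  have a4 := sat_padP (A := A) (z := .Z0) (x := .X1) (c := .X3) (e := .Z4) (by decide)
    (s := up (up (up (up s .X3 (un M)) .Z3 y) .Z3 []) .Z0 y.reverse) (l := y) (M := M)
    (by rw [up_self])
    (by
      rw [up_of_ne _ (by decide), up_of_ne _ (by decide), up_of_ne _ (by decide),
        up_of_ne _ (by decide), hX1])
    (by rw [up_of_ne _ (by decide), up_of_ne _ (by decide), up_of_ne _ (by decide), up_self])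
    (by
      rw [up_of_ne _ (by decide), up_of_ne _ (by decide), up_of_ne _ (by decide),
        up_of_ne _ (by decide), hZ4]) hl
  refine (a1.seq (a2.seq (a3.seq a4))).congr (by omega) ?_
  clear a1 a2 a3 a4
  generalize padL M y = u1
  generalize un y.length = u2
  funext w
  simp only [up]
  split_ifs <;> simp_all

/-- half a block -/
def half (x : SName) : BProg A := Prog.seq (mvLen .Z4 .Z5 .OUT x) (dropLen .Z4 .Z5 .Z2)

/-- the body of the loop over the blocks -/
def bodyE (Pa : BProg A) : BProg A :=
  Prog.seq (half .X0) (Prog.seq (half .X1) (Prog.seq (mvAll .X0 .X2) (Prog.seq (mvAll .X1 .X3)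
    (Prog.seq (push .WB false) (Prog.seq Pa (pop .WB))))))

/-- the specification of the adder -/
def Adds (Pa : BProg A) (Ca : ℕ) : Prop := ∀ (s : St) (n : ℕ) (b : Bool), (s .X2).length = n →
  (s .X3).length = n → s .WB = [b] →
  Sat Pa s (Ca * (n + 1)) (up (up (up (up s .X2 []) .X3 []) .D
    (bin n ((val (s .X2).reverse + val (s .X3).reverse + b.toNat) % 2 ^ n) ++ s .D)) .WB
    [decide (2 ^ n ≤ val (s .X2).reverse + val (s .X3).reverse + b.toNat)])

/-- the temporary stacks used in the loop are empty -/
structure NE (s : St) : Prop where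
  X0 : s .X0 = []
  X1 : s .X1 = []
  X2 : s .X2 = []
  X3 : s .X3 = []
  WB : s .WB = []
  Z5 : s .Z5 = []

theorem sat_half {s : St} {N : ℕ} {x : SName} (hx : x = .X0 ∨ x = .X1) {lo r z2 : List Bool}
    (hZ4 : s .Z4 = un N) (hZ5 : s .Z5 = []) (hX : s x = []) (hO : s .OUT = lo.reverse ++ r)
    (hlo : lo.length = N) (hZ2 : s .Z2 = un N ++ z2) :
    Sat (half x : BProg A) s (23 * N + 4)
      (up (up (up s .OUT r) x lo) .Z2 z2) := by
  have hd : [SName.Z4, .Z5, .OUT, x].Nodup := by
    rcases hx with rfl | rfl <;> decide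
  have n1 : SName.Z4 ≠ x := by rcases hx with rfl | rfl <;> decide
  have n2 : SName.Z5 ≠ x := by rcases hx with rfl | rfl <;> decide
  have n3 : SName.Z2 ≠ x := by rcases hx with rfl | rfl <;> decide
  have a1 := sat_mvLen (A := A) hd hZ4 hZ5 (by
    rw [hO, List.length_append, List.length_reverse, hlo]
    omega)
  have hl : lo.reverse.length = N := by rw [List.length_reverse, hlo]
  rw [hO, hX, List.append_nil] at a1
  have e1 : (lo.reverse ++ r).drop N = r := by
    rw [← hl, List.drop_left]
  have e2 : (lo.reverse ++ r).take N = lo.reverse := by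
    rw [← hl, List.take_left]
  rw [e1, e2, List.reverse_reverse] at a1
  have a2 := sat_dropLen (A := A) (c := .Z4) (c' := .Z5) (x := .Z2) (by decide)
    (s := up (up s .OUT r) x lo) (m := N)
    (by rw [up_of_ne _ n1, up_of_ne _ (by decide), hZ4])
    (by rw [up_of_ne _ n2, up_of_ne _ (by decide), hZ5])
  have hl2 : (un N).length = N := by simp [un]
  have e3 : (un N ++ z2).drop N = z2 := by
    conv_lhs => rw [show N = (un N).length from hl2.symm]
    rw [List.length_replicate, List.drop_append]
    simp [un]
  rw [up_of_ne (x := x) (y := .Z2) _ n3, up_of_ne (x := .OUT) (y := .Z2) _ (by decide), hZ2,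
    e3] at a2
  exact (a1.seq a2).congr (by omega) rfl

theorem sat_bodyE {Pa : BProg A} {Ca : ℕ} (ha : Adds Pa Ca) {s : St} (hn : NE s) {N : ℕ}
    {g r z2 : List Bool} (hZ4 : s .Z4 = un N) (hg : g.length = 2 * N)
    (hO : s .OUT = g.reverse ++ r) (hZ2 : s .Z2 = un (2 * N) ++ z2) :
    Sat (bodyE Pa) s (56 * N + 13 + Ca * (N + 1))
      (up (up (up s .OUT r) .Z2 z2) .D (foldF N g ++ s .D)) := by
  obtain ⟨hi, hhi⟩ : ∃ hi, g.take N = hi := ⟨_, rfl⟩
  obtain ⟨lo, hlo⟩ : ∃ lo, g.drop N = lo := ⟨_, rfl⟩
  have hhil : hi.length = N := by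
    rw [← hhi, List.length_take, hg]
    omega
  have hlol : lo.length = N := by
    rw [← hlo, List.length_drop, hg]
    omega
  have hgg : g = hi ++ lo := by rw [← hhi, ← hlo, List.take_append_drop]
  have hF : foldF N g = bin N (val hi + val lo) := by
    unfold foldF
    rw [hhi, hlo]
  rw [hF]
  rw [hgg, List.reverse_append, List.append_assoc] at hO
  have hZ2' : s .Z2 = un N ++ (un N ++ z2) := by
    rw [hZ2, ← List.append_assoc, un_append]
    congr 2
    ring
  have a1 := sat_half (A := A) (x := .X0) (Or.inl rfl) hZ4 hn.Z5 hn.X0 hO hlol hZ2'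
  have a2 := sat_half (A := A) (x := .X1) (Or.inr rfl)
    (s := up (up (up s .OUT (hi.reverse ++ r)) .X0 lo) .Z2 (un N ++ z2)) (N := N) (lo := hi)
    (r := r) (z2 := z2)
    (by rw [up_of_ne _ (by decide), up_of_ne _ (by decide), up_of_ne _ (by decide), hZ4])
    (by rw [up_of_ne _ (by decide), up_of_ne _ (by decide), up_of_ne _ (by decide), hn.Z5])
    (by rw [up_of_ne _ (by decide), up_of_ne _ (by decide), up_of_ne _ (by decide), hn.X1])
    (by rw [up_of_ne _ (by decide), up_of_ne _ (by decide), up_self])
    hhil (by rw [up_self])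
  have e1 : up (up (up (up (up (up s .OUT (hi.reverse ++ r)) .X0 lo) .Z2 (un N ++ z2)) .OUT r)
      .X1 hi) .Z2 z2 = up (up (up (up s .OUT r) .Z2 z2) .X0 lo) .X1 hi := by
    clear a1 a2
    funext w
    simp only [up]
    split_ifs <;> simp_all
  rw [e1] at a2
  obtain ⟨t, ht⟩ : ∃ t, up (up s .OUT r) .Z2 z2 = t := ⟨_, rfl⟩
  rw [ht] at a2 ⊢
  have k1 : t .X2 = [] := by
    rw [← ht, up_of_ne _ (by decide), up_of_ne _ (by decide), hn.X2]
  have k2 : t .X3 = [] := by
    rw [← ht, up_of_ne _ (by decide), up_of_ne _ (by decide), hn.X3]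
  have k3 : t .WB = [] := by
    rw [← ht, up_of_ne _ (by decide), up_of_ne _ (by decide), hn.WB]
  have k4 : t .D = s .D := by
    rw [← ht, up_of_ne _ (by decide), up_of_ne _ (by decide)]
  have k5 : t .X0 = [] := by
    rw [← ht, up_of_ne _ (by decide), up_of_ne _ (by decide), hn.X0]
  have k6 : t .X1 = [] := by
    rw [← ht, up_of_ne _ (by decide), up_of_ne _ (by decide), hn.X1]
  have a3 := sat_mvAll (A := A) (x := .X0) (y := .X2) (by decide) (up (up t .X0 lo) .X1 hi)
  rw [up_of_ne (x := .X1) (y := .X0) _ (by decide), up_self,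
    up_of_ne (x := .X1) (y := .X2) _ (by decide), up_of_ne (x := .X0) (y := .X2) _ (by decide), k1,
    List.append_nil, hlol] at a3
  have e2 : up (up (up (up t .X0 lo) .X1 hi) .X0 []) .X2 lo.reverse =
      up (up t .X1 hi) .X2 lo.reverse := by
    funext w
    simp only [up]
    split_ifs <;> simp_all
  rw [e2] at a3
  have a4 := sat_mvAll (A := A) (x := .X1) (y := .X3) (by decide)
    (up (up t .X1 hi) .X2 lo.reverse)
  rw [up_of_ne (x := .X2) (y := .X1) _ (by decide), up_self,
    up_of_ne (x := .X2) (y := .X3) _ (by decide), up_of_ne (x := .X1) (y := .X3) _ (by decide), k2,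
    List.append_nil, hhil] at a4
  have e3 : up (up (up (up t .X1 hi) .X2 lo.reverse) .X1 []) .X3 hi.reverse =
      up (up t .X2 lo.reverse) .X3 hi.reverse := by
    funext w
    simp only [up]
    split_ifs <;> simp_all
  rw [e3] at a4
  have a5 := sat_push (A := A) .WB false (up (up t .X2 lo.reverse) .X3 hi.reverse)
  rw [up_of_ne (x := .X3) (y := .WB) _ (by decide), up_of_ne (x := .X2) (y := .WB) _ (by decide),
    k3] at a5
  have a6 := ha (up (up (up t .X2 lo.reverse) .X3 hi.reverse) .WB [false]) N false
    (by
      rw [up_of_ne _ (by decide), up_of_ne _ (by decide), up_self, List.length_reverse, hlol])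
    (by rw [up_of_ne _ (by decide), up_self, List.length_reverse, hhil])
    (by rw [up_self])
  rw [up_of_ne (x := .WB) (y := .X2) _ (by decide), up_of_ne (x := .X3) (y := .X2) _ (by decide),
    up_self, up_of_ne (x := .WB) (y := .X3) _ (by decide), up_self,
    up_of_ne (x := .WB) (y := .D) _ (by decide), up_of_ne (x := .X3) (y := .D) _ (by decide),
    up_of_ne (x := .X2) (y := .D) _ (by decide), k4, List.reverse_reverse, List.reverse_reverse,
    Bool.toNat_false, Nat.add_zero, pmf_bin_mod, Nat.add_comm (val lo)] at a6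
  have a7 := sat_pop (A := A) .WB (up (up (up (up (up (up (up t .X2 lo.reverse) .X3 hi.reverse)
    .WB [false]) .X2 []) .X3 []) .D (bin N (val hi + val lo) ++ s .D)) .WB
    [decide (2 ^ N ≤ val hi + val lo)])
  rw [up_self, List.tail_cons] at a7
  refine (a1.seq (a2.seq (a3.seq (a4.seq (a5.seq (a6.seq a7)))))).congr (by omega) ?_
  clear a1 a2 a3 a4 a5 a6 a7
  generalize bin N (val hi + val lo) ++ s .D = u1
  generalize decide (2 ^ N ≤ val hi + val lo) = u2
  funext w
  simp only [up]
  split_ifs <;> simp_all

/-- the loop over the blocks -/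
theorem sat_loopE {Pa : BProg A} {Ca : ℕ} (ha : Adds Pa Ca) (K : ℕ) {s : St} (hn : NE s)
    {N : ℕ} (hN : 1 ≤ N) {g : ℕ → List Bool} {r : List Bool} (hZ4 : s .Z4 = un N)
    (hg : ∀ b < K, (g b).length = 2 * N) (hO : s .OUT = (cat K g).reverse ++ r)
    (hZ2 : s .Z2 = un (K * (2 * N))) :
    Sat (whileNE .Z2 (bodyE Pa)) s (K * (56 * N + 14 + Ca * (N + 1)) + 1)
      (up (up (up s .OUT r) .Z2 []) .D (cat K (fun b => foldF N (g b)) ++ s .D)) := by
  induction K generalizing s with
  | zero =>
    rw [Nat.zero_mul] at hZ2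
    rw [cat_zero, List.reverse_nil, List.nil_append] at hO
    refine (sat_whileNE_nil hZ2).congr (by omega) ?_
    have hZ2' : s .Z2 = [] := hZ2
    rw [cat_zero, List.nil_append, ← hO, ← hZ2', up_id, up_id, up_id]
  | succ K ih =>
    have hO' : s .OUT = (g K).reverse ++ ((cat K g).reverse ++ r) := by
      rw [hO, cat_succ, List.reverse_append, List.append_assoc]
    have hZ2' : s .Z2 = un (2 * N) ++ un (K * (2 * N)) := by
      rw [hZ2, un_append]
      congr 1
      ring
    have a1 := sat_bodyE ha hn hZ4 (hg K (Nat.lt_succ_self K)) hO' hZ2'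
    have hn' : NE (up (up (up s .OUT ((cat K g).reverse ++ r)) .Z2 (un (K * (2 * N)))) .D
        (foldF N (g K) ++ s .D)) := by
      constructor
      · rw [up_of_ne _ (by decide), up_of_ne _ (by decide), up_of_ne _ (by decide), hn.X0]
      · rw [up_of_ne _ (by decide), up_of_ne _ (by decide), up_of_ne _ (by decide), hn.X1]
      · rw [up_of_ne _ (by decide), up_of_ne _ (by decide), up_of_ne _ (by decide), hn.X2]
      · rw [up_of_ne _ (by decide), up_of_ne _ (by decide), up_of_ne _ (by decide), hn.X3]
      · rw [up_of_ne _ (by decide), up_of_ne _ (by decide), up_of_ne _ (by decide), hn.WB]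
      · rw [up_of_ne _ (by decide), up_of_ne _ (by decide), up_of_ne _ (by decide), hn.Z5]
    have a2 := ih hn'
      (by rw [up_of_ne _ (by decide), up_of_ne _ (by decide), up_of_ne _ (by decide), hZ4])
      (fun b hb => hg b (Nat.lt_succ_of_lt hb))
      (by rw [up_of_ne _ (by decide), up_of_ne _ (by decide), up_self])
      (by rw [up_of_ne _ (by decide), up_self])
    rw [up_self] at a2
    refine (sat_whileNE_cons ?_ a1 a2).congr ?_ ?_
    · rw [hZ2]
      intro h0
      have := congrArg List.length h0
      rw [List.length_replicate, List.length_nil] at this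
      have h1 : 0 < (K + 1) * (2 * N) := Nat.mul_pos (Nat.succ_pos K) (by omega)
      omega
    · have e : (K + 1) * (56 * N + 14 + Ca * (N + 1)) =
          K * (56 * N + 14 + Ca * (N + 1)) + (56 * N + 14 + Ca * (N + 1)) := by ring
      rw [e]
      omega
    · rw [cat_succ, List.append_assoc]
      clear a1 a2 hn' hO' hZ2' hO hZ2 ih hn
      generalize cat K (fun b => foldF N (g b)) ++ (foldF N (g K) ++ s .D) = u1
      generalize (cat K g).reverse ++ r = u2
      generalize un (K * (2 * N)) = u3
      generalize foldF N (g K) ++ s .D = u4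
      funext w
      simp only [up]
      split_ifs <;> simp_all

/-- the last programs -/
def progF : BProg A := Prog.seq (clear .WA) (Prog.seq (clear .Z4) (clear .Z2))

theorem sat_progF {s t : St} {u v w z : List Bool} {D : List Bool}
    (ht : t = up (up (up (up (up s .WA u) .Z2 v) .Z4 w) .OUT z) .D D) (hu : s .WA = [])
    (hv : s .Z2 = []) (hw : s .Z4 = []) (hz : s .OUT = z) :
    Sat (progF : BProg A) t (2 * u.length + 1 + (2 * w.length + 1 + (2 * v.length + 1)))
      (up s .D D) := by
  have a1 := sat_clear (A := A) .WA t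
  have e1 : t .WA = u := by
    rw [ht, up_of_ne _ (by decide), up_of_ne _ (by decide), up_of_ne _ (by decide),
      up_of_ne _ (by decide), up_self]
  rw [e1] at a1
  have a2 := sat_clear (A := A) .Z4 (up t .WA [])
  have e2 : up t .WA [] .Z4 = w := by
    rw [ht, up_of_ne _ (by decide), up_of_ne _ (by decide), up_of_ne _ (by decide), up_self]
  rw [e2] at a2
  have a3 := sat_clear (A := A) .Z2 (up (up t .WA []) .Z4 [])
  have e3 : up (up t .WA []) .Z4 [] .Z2 = v := by
    rw [ht, up_of_ne _ (by decide), up_of_ne _ (by decide), up_of_ne _ (by decide),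
      up_of_ne _ (by decide), up_of_ne _ (by decide), up_self]
  rw [e3] at a3
  refine (a1.seq (a2.seq a3)).congr le_rfl ?_
  rw [ht]
  clear a1 a2 a3 e1 e2 e3 ht
  funext w
  simp only [up]
  split_ifs <;> simp_all

/-- the state after the call -/
theorem state4 {s : St} {M : ℕ} {l y z : List Bool} (h0 : s .X0 = []) (h1 : s .X1 = []) :
    up (up (up (up (up (up (up (up (up s .WA (un M)) .D []) .X0 (padL M l)) .Z2 (un l.length)) .X1
      (padL M y)) .Z4 (un y.length)) .X0 []) .X1 []) .OUT z =
    up (up (up (up (up s .WA (un M)) .Z2 (un l.length)) .Z4 (un y.length)) .OUT z) .D [] := by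
  generalize padL M l = u1
  generalize padL M y = u2
  generalize un l.length = u3
  generalize un y.length = u4
  generalize un M = u5
  funext w
  simp only [up]
  split_ifs <;> simp_all

end MulBatch

open MulBatch in
theorem exists_mulBatch (A : TM) (hA : A.Multiplies) : ∃ (P : BProg A) (C : ℕ), ∀ (s : St)
    (N K n h : ℕ), 1 ≤ K → 1 ≤ N → AllNil temps s → (s .D).length = K * (2 * N) →
    (∀ b < K, (blk (2 * N) (s .D) b).take N = List.replicate N false) → (s .Y).length = N →
    s .LN = un n → K * (2 * N) ≤ 112 * n ^ 2 → s .HS = un h →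
    Sat P s (C * (n ^ 2 + h + tV A n h)) (up s .D (mbRes A h (112 * n ^ 2) N K (s .D) (s .Y))) := by
  obtain ⟨Pc, Cc, hc⟩ := exists_call A hA
  obtain ⟨Pa, Ca, ha⟩ := exists_addBits A (x := .X2) (y := .X3) (c := .WB) (z := .D) (by decide)
  refine ⟨Prog.seq progA (Prog.seq progB (Prog.seq progC (Prog.seq Pc (Prog.seq
    (ifNE .OUT (Prog.seq (whileNE .Z2 (bodyE Pa)) (clear .OUT)) skip) progF)))),
    112 * (2 * Ca + Cc) + 20000, ?_⟩
  intro s N K n h hK hN hnil hDl hz hYl hLN hM hHS
  have nX0 : s .X0 = [] := hnil.get (by decide)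
  have nX1 : s .X1 = [] := hnil.get (by decide)
  have nX2 : s .X2 = [] := hnil.get (by decide)
  have nX3 : s .X3 = [] := hnil.get (by decide)
  have nZ0 : s .Z0 = [] := hnil.get (by decide)
  have nZ1 : s .Z1 = [] := hnil.get (by decide)
  have nZ2 : s .Z2 = [] := hnil.get (by decide)
  have nZ3 : s .Z3 = [] := hnil.get (by decide)
  have nZ4 : s .Z4 = [] := hnil.get (by decide)
  have nZ5 : s .Z5 = [] := hnil.get (by decide)
  have nWA : s .WA = [] := hnil.get (by decide)
  have nWB : s .WB = [] := hnil.get (by decide)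
  have nO : s .OUT = [] := hnil.get (by decide)
  have nH : s .HSk = [] := hnil.get (by decide)
  have nC : s .CK = [] := hnil.get (by decide)
  clear hnil
  obtain ⟨l, hl⟩ : ∃ l, s .D = l := ⟨_, rfl⟩
  obtain ⟨y, hy⟩ : ∃ y, s .Y = y := ⟨_, rfl⟩
  rw [hl] at hDl hz
  rw [hy] at hYl
  rw [hl, hy]
  have hKN : N ≤ K * (2 * N) := by
    calc N ≤ 2 * N := by omega
      _ = 1 * (2 * N) := (Nat.one_mul _).symm
      _ ≤ K * (2 * N) := Nat.mul_le_mul_right _ hK
  have hn1 : 1 ≤ n := by
    rcases Nat.eq_zero_or_pos n with h0 | h0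
    · rw [h0] at hM
      omega
    · exact h0
  obtain ⟨M, hMM⟩ : ∃ M, 112 * n ^ 2 = M := ⟨_, rfl⟩
  have a1 := sat_progA (A := A) hn1 hLN nZ0 nZ1 nX2 nWA
  unfold tV
  rw [hMM] at a1 hM ⊢
  have hNM : N ≤ M := hKN.trans hM
  have hlM : l.length ≤ M := by rw [hDl]; exact hM
  have hyM : y.length ≤ M := by rw [hYl]; exact hNM
  have a2 := sat_progB (A := A) (s := up s .WA (un M)) (M := M) (l := l) (by rw [up_self])
    (by rw [up_of_ne _ (by decide), hl]) (by rw [up_of_ne _ (by decide), nX3])
    (by rw [up_of_ne _ (by decide), nZ0]) (by rw [up_of_ne _ (by decide), nX0])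
    (by rw [up_of_ne _ (by decide), nZ2]) hlM
  have a3 := sat_progC (A := A) (s := up (up (up (up s .WA (un M)) .D []) .X0 (padL M l)) .Z2
    (un l.length)) (M := M) (y := y)
    (by rw [up_of_ne _ (by decide), up_of_ne _ (by decide), up_of_ne _ (by decide), up_self])
    (by
      rw [up_of_ne _ (by decide), up_of_ne _ (by decide), up_of_ne _ (by decide),
        up_of_ne _ (by decide), hy])
    (by
      rw [up_of_ne _ (by decide), up_of_ne _ (by decide), up_of_ne _ (by decide),
        up_of_ne _ (by decide), nX3])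
    (by
      rw [up_of_ne _ (by decide), up_of_ne _ (by decide), up_of_ne _ (by decide),
        up_of_ne _ (by decide), nZ0])
    (by
      rw [up_of_ne _ (by decide), up_of_ne _ (by decide), up_of_ne _ (by decide),
        up_of_ne _ (by decide), nZ3])
    (by
      rw [up_of_ne _ (by decide), up_of_ne _ (by decide), up_of_ne _ (by decide),
        up_of_ne _ (by decide), nX1])
    (by
      rw [up_of_ne _ (by decide), up_of_ne _ (by decide), up_of_ne _ (by decide),
        up_of_ne _ (by decide), nZ4]) hyM
  have key : ∀ z : SName, z ≠ .WA → z ≠ .D → z ≠ .X0 → z ≠ .Z2 → z ≠ .X1 → z ≠ .Z4 →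
      up (up (up (up (up (up s .WA (un M)) .D []) .X0 (padL M l)) .Z2 (un l.length)) .X1
        (padL M y)) .Z4 (un y.length) z = s z := by
    intro z h1 h2 h3 h4 h5 h6
    rw [up_of_ne _ h6, up_of_ne _ h5, up_of_ne _ h4, up_of_ne _ h3, up_of_ne _ h2, up_of_ne _ h1]
  have v0 : up (up (up (up (up (up s .WA (un M)) .D []) .X0 (padL M l)) .Z2 (un l.length)) .X1
        (padL M y)) .Z4 (un y.length) .X0 = padL M l := by
    rw [up_of_ne _ (by decide), up_of_ne _ (by decide), up_of_ne _ (by decide), up_self]
  have v1 : up (up (up (up (up (up s .WA (un M)) .D []) .X0 (padL M l)) .Z2 (un l.length)) .X1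
        (padL M y)) .Z4 (un y.length) .X1 = padL M y := by
    rw [up_of_ne _ (by decide), up_self]
  have v2 : up (up (up (up (up (up s .WA (un M)) .D []) .X0 (padL M l)) .Z2 (un l.length)) .X1
        (padL M y)) .Z4 (un y.length) .WA = un M := by
    rw [up_of_ne _ (by decide), up_of_ne _ (by decide), up_of_ne _ (by decide),
      up_of_ne _ (by decide), up_of_ne _ (by decide), up_self]
  have a4 := hc (up (up (up (up (up (up s .WA (un M)) .D []) .X0 (padL M l)) .Z2 (un l.length)) .X1
        (padL M y)) .Z4 (un y.length)) M h (hN.trans hNM)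
    (by rw [v0, length_padL hlM]) (by rw [v1, length_padL hyM])
    (by rw [v2, List.length_replicate])
    (by
      rw [key _ (by decide) (by decide) (by decide) (by decide) (by decide) (by decide), hHS])
    (by
      rw [key _ (by decide) (by decide) (by decide) (by decide) (by decide) (by decide), nH])
    (by
      rw [key _ (by decide) (by decide) (by decide) (by decide) (by decide) (by decide), nWB])
    (by
      rw [key _ (by decide) (by decide) (by decide) (by decide) (by decide) (by decide), nC])
    (by
      rw [key _ (by decide) (by decide) (by decide) (by decide) (by decide) (by decide), nO])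
  rw [v0, v1, state4 nX0 nX1, hDl, hYl] at a4
  rw [hDl] at a3
  rw [hDl] at a2
  rw [hYl] at a3
  clear key v0 v1 v2
  obtain ⟨m, hm⟩ : ∃ m, min (A.mulTime M) (h * M) = m := ⟨_, rfl⟩
  rw [hm] at a4 ⊢
  -- the cost
  have cost : ∀ k1 k2 : ℕ, k1 ≤ (70 + 2 * Ca) * M + 4 * M + 3 → k2 ≤ 6 * M + 3 →
      300 * n ^ 2 + (25 * M + 5 + (37 * M + 7 + (Cc * (M + h + m) + (k1 + k2)))) ≤
        (112 * (2 * Ca + Cc) + 20000) * (n ^ 2 + h + m) := by
    intro k1 k2 h1 h2
    have hnn : 1 ≤ n ^ 2 := Nat.one_le_pow _ _ hn1
    have e1 : (112 * (2 * Ca + Cc) + 20000) * (n ^ 2 + h + m) =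
        112 * (Cc * (n ^ 2 + h + m)) + 2 * (Ca * (112 * n ^ 2)) + 2 * (Ca * (112 * (h + m))) +
          20000 * n ^ 2 + 20000 * (h + m) := by ring
    have e2 : Cc * (M + h + m) ≤ 112 * (Cc * (n ^ 2 + h + m)) := by
      calc Cc * (M + h + m) ≤ Cc * (112 * (n ^ 2 + h + m)) :=
            Nat.mul_le_mul_left _ (by omega)
        _ = 112 * (Cc * (n ^ 2 + h + m)) := by ring
    have e3 : (70 + 2 * Ca) * M = 70 * M + 2 * (Ca * M) := by ring
    rw [e3] at h1
    rw [e1, hMM]
    omega
  have hloop : K * (56 * N + 14 + Ca * (N + 1)) ≤ (70 + 2 * Ca) * M := by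
    have e1 : 56 * N + 14 + Ca * (N + 1) ≤ (70 + 2 * Ca) * N := by
      have e2 : (70 + 2 * Ca) * N = 70 * N + Ca * (2 * N) := by ring
      have e3 : Ca * (N + 1) ≤ Ca * (2 * N) := Nat.mul_le_mul_left _ (by omega)
      omega
    calc K * (56 * N + 14 + Ca * (N + 1)) ≤ K * ((70 + 2 * Ca) * N) := Nat.mul_le_mul_left _ e1
      _ = (70 + 2 * Ca) * (K * N) := by ring
      _ ≤ (70 + 2 * Ca) * M := by
        refine Nat.mul_le_mul_left _ (le_trans ?_ hM)
        have : K * (2 * N) = K * N + K * N := by ring
        omega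
  by_cases ht : A.time (A.mulInput (padL M l) (padL M y)) < h * M
  · -- success
    have hres : mbRes A h M N K l y = mulBatch N K l y := by
      unfold mbRes
      rw [if_pos ht]
    rw [if_pos ht, batch_eq hDl hz hYl hM hNM, List.reverse_append] at a4
    rw [hres]
    obtain ⟨r, hr⟩ : ∃ r, (List.replicate (2 * M - K * (2 * N)) false).reverse = r := ⟨_, rfl⟩
    have hrl : r.length ≤ 2 * M := by
      rw [← hr, List.length_reverse, List.length_replicate]
      omega
    rw [hr] at a4
    obtain ⟨g, hg⟩ : ∃ g : ℕ → List Bool, g = fun b => bin (2 * N)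
        (val ((blk (2 * N) l b).drop N) * val y) := ⟨_, rfl⟩
    have hgl : ∀ b < K, (g b).length = 2 * N := by
      intro b _
      rw [hg]
      exact length_bin _ _
    have hmb : cat K (fun b => foldF N (g b)) = mulBatch N K l y := by
      rw [hg]
      rfl
    rw [← hg] at a4
    have hne : NE (up (up (up (up (up s .WA (un M)) .Z2 (un (K * (2 * N)))) .Z4 (un N)) .OUT
        ((cat K g).reverse ++ r)) .D []) := by
      constructor
      · rw [up_of_ne _ (by decide), up_of_ne _ (by decide), up_of_ne _ (by decide),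
          up_of_ne _ (by decide), up_of_ne _ (by decide), nX0]
      · rw [up_of_ne _ (by decide), up_of_ne _ (by decide), up_of_ne _ (by decide),
          up_of_ne _ (by decide), up_of_ne _ (by decide), nX1]
      · rw [up_of_ne _ (by decide), up_of_ne _ (by decide), up_of_ne _ (by decide),
          up_of_ne _ (by decide), up_of_ne _ (by decide), nX2]
      · rw [up_of_ne _ (by decide), up_of_ne _ (by decide), up_of_ne _ (by decide),
          up_of_ne _ (by decide), up_of_ne _ (by decide), nX3]
      · rw [up_of_ne _ (by decide), up_of_ne _ (by decide), up_of_ne _ (by decide),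
          up_of_ne _ (by decide), up_of_ne _ (by decide), nWB]
      · rw [up_of_ne _ (by decide), up_of_ne _ (by decide), up_of_ne _ (by decide),
          up_of_ne _ (by decide), up_of_ne _ (by decide), nZ5]
    have hO : up (up (up (up (up s .WA (un M)) .Z2 (un (K * (2 * N)))) .Z4 (un N)) .OUT
        ((cat K g).reverse ++ r)) .D [] .OUT = (cat K g).reverse ++ r := by
      rw [up_of_ne _ (by decide), up_self]
    have hOne : up (up (up (up (up s .WA (un M)) .Z2 (un (K * (2 * N)))) .Z4 (un N)) .OUT
        ((cat K g).reverse ++ r)) .D [] .OUT ≠ [] := by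
      rw [hO]
      intro h0
      have := congrArg List.length h0
      rw [List.length_append, List.length_reverse, length_cat hgl, List.length_nil] at this
      omega
    have a5 := sat_loopE (A := A) ha K hne hN (g := g) (r := r)
      (by rw [up_of_ne _ (by decide), up_of_ne _ (by decide), up_self]) hgl hO
      (by
        rw [up_of_ne _ (by decide), up_of_ne _ (by decide), up_of_ne _ (by decide), up_self])
    rw [hmb, up_self, List.append_nil] at a5
    have e1 : up (up (up (up (up (up (up (up s .WA (un M)) .Z2 (un (K * (2 * N)))) .Z4 (un N)) .OUT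
        ((cat K g).reverse ++ r)) .D []) .OUT r) .Z2 []) .D (mulBatch N K l y) =
        up (up (up (up (up s .WA (un M)) .Z2 []) .Z4 (un N)) .OUT r) .D (mulBatch N K l y) := by
      clear a1 a2 a3 a4 a5 hne hO hOne cost hloop ht hres hmb
      generalize mulBatch N K l y = u1
      generalize (cat K g).reverse ++ r = u2
      generalize un (K * (2 * N)) = u3
      generalize un M = u4
      generalize un N = u5
      clear hz hM hMM hlM hyM hKN hNM hrl hgl hr hg hLN hHS hDl hYl hl hy
      funext w
      simp only [up]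
      split_ifs <;> simp_all
    rw [e1] at a5
    have a6 := sat_clear (A := A) .OUT
      (up (up (up (up (up s .WA (un M)) .Z2 []) .Z4 (un N)) .OUT r) .D (mulBatch N K l y))
    have e2 : up (up (up (up (up s .WA (un M)) .Z2 []) .Z4 (un N)) .OUT r) .D (mulBatch N K l y)
        .OUT = r := by
      rw [up_of_ne _ (by decide), up_self]
    rw [e2, up_comm _ (show SName.D ≠ .OUT by decide), up_up] at a6
    have a7 := sat_progF (A := A) (s := s) (u := un M) (v := []) (w := un N) (z := [])
      (D := mulBatch N K l y) rfl nWA nZ2 nZ4 nO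
    refine (a1.seq (a2.seq (a3.seq (a4.seq ((sat_ifNE_cons hOne (a5.seq a6)).seq a7))))).congr
      (cost _ _ ?_ ?_) rfl
    · omega
    · rw [List.length_replicate, List.length_replicate, List.length_nil]
      omega
  · -- failure
    have hres : mbRes A h M N K l y = [] := by
      unfold mbRes
      rw [if_neg ht]
    rw [if_neg ht] at a4
    rw [hres]
    have hO : up (up (up (up (up s .WA (un M)) .Z2 (un (K * (2 * N)))) .Z4 (un N)) .OUT
        []) .D [] .OUT = [] := by
      rw [up_of_ne _ (by decide), up_self]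
    have a5 := sat_skip (A := A) (up (up (up (up (up s .WA (un M)) .Z2 (un (K * (2 * N)))) .Z4
      (un N)) .OUT []) .D [])
    have a7 := sat_progF (A := A) (s := s) (u := un M) (v := un (K * (2 * N))) (w := un N)
      (z := []) (D := []) rfl nWA nZ2 nZ4 nO
    refine (a1.seq (a2.seq (a3.seq (a4.seq ((sat_ifNE_nil hO a5).seq a7))))).congr
      (cost _ _ ?_ ?_) rfl
    · omega
    · rw [List.length_replicate, List.length_replicate, List.length_replicate]
      omega

/-- the clock bound -/
theorem mulTime_of_fail2 (A : TM) (hA : A.Multiplies) {h M : ℕ} {x y : List Bool}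
    (hM : 1 ≤ M) (hx : x.length ≤ M) (hy : y.length ≤ M)
    (h' : ¬ A.time (A.mulInput (padL M x) (padL M y)) < h * M) : h * M ≤ A.mulTime M :=
  (not_lt.1 h').trans (time_spec A hA hM (length_padL hx) (length_padL hy)).2.2.2

end Vale.Agent.P338
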