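import Vale.Agent.Lib.P338.V2MulBatch
import Vale.Agent.Lib.P338.V2Map
import Vale.Agent.Lib.P338.PShear
import Vale.Agent.Lib.P338.PEncode
import Vale.Agent.Lib.P338.PDecode
import Vale.Agent.Lib.P338.PStages
import Vale.Agent.Lib.P338.PGenG
import Vale.Agent.Lib.P338.PNaive
import Vale.Agent.Lib.P338.MOp

/-!
# P338, module V2Pass: transposition of all chunks with two multiplications of length `112 n ^ 2`

`exists_pad`: `forC TA Z0 ( forC TB Z1 ( forC TQ Z2 ( pushLen T12 Z3 D false ; pushLen T2 Z3 D false ) ) )`.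

`exists_passV`, with `c = q * a ^ 3`, `N = 14 * c`, `l = s .GD` of length `k * c`:
```
copyAll GD SV Z0                                   -- backup
genG                                               -- Y = GF a q
map1 ( shearP ; encode ; stage0 ; pad )            -- GD = blocks of 2 N bits
mvAll GD Z0 ; mvAll Z0 D ; mulBatch
ifNE D (
  mvAll D Z0 ; mvAll Z0 GD
  map2 ( stage1 ; pad )
  mvAll GD Z0 ; mvAll Z0 D ; mulBatch
  ifNE D (
    mvAll D Z0 ; mvAll Z0 GD
    map2 ( stage2 ; decode ; shearM ) ) skip ) skip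
ifNE GD (clear SV) ( mvAll SV Z0 ; mvAll Z0 GD ; map1 naive )
clear Y
```
If both multiplications succeed, `GD` is `cat k (fun b => opF a q h (blk c l b))` (`blk_cat` for the
intermediate strings, `mulBatch` of the padded blocks is `cat k (fun b => mulFold N _ (GF a q))`),
and `opF_eq` gives `chunkF c (swapF a (q * a)) l` (`l.length / c = k`). It is not empty
(`k ≥ 1`). Otherwise one of the calls failed and `h * (112 * n ^ 2) ≤ A.mulTime (112 * n ^ 2)`
(`mulTime_of_fail2`), and the cost `C * (k * (h * c))` of the naive transposition is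
`≤ C * tV A n h`. All other costs are `≤ C * (n ^ 2 + h + tV A n h)`, and `h ≤ 2 ^ h = a ≤ k * c ≤ 4 * n ^ 2`
(`28 * (k * c) ≤ 112 * n ^ 2`).
-/

namespace Vale.Agent.P338

private theorem padV_for {A : TM} {c c' : SName} {P : BProg A} {w q m : ℕ} {s : St}
    (hd : [c, c', .D].Nodup) (hs : s c = un m) (hs' : s c' = [])
    (h : ∀ t : St, (∀ z, z ≠ c → z ≠ c' → z ≠ .D → t z = s z) →
      Sat P t q (up t .D (List.replicate w false ++ t .D))) :
    Sat (forC c c' P) s (m * (q + 9) + 2) (up s .D (List.replicate (m * w) false ++ s .D)) := by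
  refine sat_for1 hd hs hs' (fun k => List.replicate (k * w) false ++ s .D) (by simp) ?_
  intro k hk t h1 h2
  refine (h t h2).congr le_rfl ?_
  have e : List.replicate ((k + 1) * w) false =
      List.replicate w false ++ List.replicate (k * w) false := by
    rw [List.replicate_append_replicate]
    congr 1
    ring
  show _ = up t .D (List.replicate ((k + 1) * w) false ++ s .D)
  rw [h1, e, List.append_assoc]

private def padVProg (A : TM) : BProg A :=
  forC .TA .Z0 (forC .TB .Z1 (forC .TQ .Z2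
    (Prog.seq (pushLen .T12 .Z3 .D false) (pushLen .T2 .Z3 .D false))))

theorem exists_pad (A : TM) : ∃ (P : BProg A) (C : ℕ), ∀ (s : St) (a q : ℕ), 1 ≤ a → 1 ≤ q →
    AllNil temps s → Par a q s →
    Sat P s (C * (q * a ^ 3)) (up s .D (List.replicate (14 * (q * a ^ 3)) false ++ s .D)) := by
  refine ⟨padVProg A, 191, ?_⟩
  intro s a q ha hq hT hP
  have h1 : Sat (padVProg A) s
      (a * ((a * ((q * ((11 * (12 * a) + 2 + (11 * (2 * a) + 2)) + 9) + 2) + 9) + 2) + 9) + 2)
      (up s .D (List.replicate (a * (a * (q * (12 * a + 2 * a)))) false ++ s .D)) := by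
    refine padV_for (by decide) hP.TA (hT.get (by decide)) ?_
    intro t1 ht1
    refine padV_for (by decide) ?_ ?_ ?_
    · rw [ht1 _ (by decide) (by decide) (by decide)]; exact hP.TB
    · rw [ht1 _ (by decide) (by decide) (by decide)]; exact hT.get (by decide)
    intro t2 ht2
    refine padV_for (by decide) ?_ ?_ ?_
    · rw [ht2 _ (by decide) (by decide) (by decide), ht1 _ (by decide) (by decide) (by decide)]
      exact hP.TQ
    · rw [ht2 _ (by decide) (by decide) (by decide), ht1 _ (by decide) (by decide) (by decide)]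
      exact hT.get (by decide)
    intro t3 ht3
    have e12 : t3 .T12 = un (12 * a) := by
      rw [ht3 _ (by decide) (by decide) (by decide), ht2 _ (by decide) (by decide) (by decide),
        ht1 _ (by decide) (by decide) (by decide)]
      exact hP.T12
    have e2 : t3 .T2 = un (2 * a) := by
      rw [ht3 _ (by decide) (by decide) (by decide), ht2 _ (by decide) (by decide) (by decide),
        ht1 _ (by decide) (by decide) (by decide)]
      exact hP.T2
    have e3 : t3 .Z3 = [] := by
      rw [ht3 _ (by decide) (by decide) (by decide), ht2 _ (by decide) (by decide) (by decide),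
        ht1 _ (by decide) (by decide) (by decide)]
      exact hT.get (by decide)
    have p1 := sat_pushLen (A := A) (c := .T12) (c' := .Z3) (x := .D) (by decide) false e12 e3
    have p2 := sat_pushLen (A := A) (c := .T2) (c' := .Z3) (x := .D) (by decide) false
      (s := up t3 .D (List.replicate (12 * a) false ++ t3 .D)) (m := 2 * a)
      (by rw [up_of_ne _ (by decide)]; exact e2) (by rw [up_of_ne _ (by decide)]; exact e3)
    refine (p1.seq p2).congr le_rfl ?_
    rw [up_up, up_self, ← List.append_assoc, List.replicate_append_replicate,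
      Nat.add_comm (2 * a)]
  refine h1.congr ?_ ?_
  · have e1 : a * ((a * ((q * ((11 * (12 * a) + 2 + (11 * (2 * a) + 2)) + 9) + 2) + 9) + 2) + 9) + 2
        = 154 * (q * a ^ 3) + 13 * (q * a ^ 2) + 11 * a ^ 2 + 11 * a + 2 := by ring
    have h2 : q * a ^ 2 ≤ q * a ^ 3 :=
      Nat.mul_le_mul_left _ (Nat.pow_le_pow_right ha (by norm_num))
    have h3 : a ^ 2 ≤ q * a ^ 2 := Nat.le_mul_of_pos_left _ hq
    have h4 : a ≤ a ^ 2 := Nat.le_self_pow (by norm_num) a
    rw [e1]
    omega
  · have e1 : a * (a * (q * (12 * a + 2 * a))) = 14 * (q * a ^ 3) := by ring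
    rw [e1]

private theorem passV_move {A : TM} {x y z : SName} (hxy : x ≠ y) (hxz : x ≠ z) (hyz : y ≠ z)
    (s : St) (hz : s z = []) (hy : s y = []) :
    Sat (Prog.seq (mvAll x z) (mvAll z y) : BProg A) s (10 * (s x).length + 2)
      (up (up s x []) y (s x)) := by
  have h1 := sat_mvAll (A := A) hxz s
  have h2 := sat_mvAll (A := A) (Ne.symm hyz) (up (up s x []) z ((s x).reverse ++ s z))
  refine (h1.seq h2).congr ?_ ?_
  · rw [up_self, hz, List.append_nil, List.length_reverse]
    omega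
  · funext w
    simp only [up]
    split_ifs <;> simp_all

/-- states of the pass -/
private def stV (t : St) (g d : List Bool) : St := up (up t .GD g) .D d

private theorem stV_GD (t : St) (g d : List Bool) : stV t g d .GD = g := by
  simp [stV, up]

private theorem stV_D (t : St) (g d : List Bool) : stV t g d .D = d := by
  simp [stV, up]

private theorem stV_ne (t : St) (g d : List Bool) {z : SName} (h1 : z ≠ .GD) (h2 : z ≠ .D) :
    stV t g d z = t z := by
  simp [stV, up, h1, h2]

private theorem stV_upG (t : St) (g d g' : List Bool) :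
    up (stV t g d) .GD g' = stV t g' d := by
  funext z
  simp only [stV, up]
  split_ifs <;> simp_all

private theorem stV_upD (t : St) (g d d' : List Bool) :
    up (stV t g d) .D d' = stV t g d' := by
  funext z
  simp only [stV, up]
  split_ifs <;> simp_all

private theorem passV_toD {A : TM} (t : St) (g : List Bool) (hz : t .Z0 = []) :
    Sat (Prog.seq (mvAll .GD .Z0) (mvAll .Z0 .D) : BProg A) (stV t g []) (10 * g.length + 2)
      (stV t [] g) := by
  have h := passV_move (A := A) (x := .GD) (y := .D) (z := .Z0) (by decide) (by decide) (by decide)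
    (stV t g []) (by rw [stV_ne _ _ _ (by decide) (by decide), hz]) (stV_D _ _ _)
  rw [stV_GD, stV_upG, stV_upD] at h
  exact h

private theorem passV_toG {A : TM} (t : St) (d : List Bool) (hz : t .Z0 = []) :
    Sat (Prog.seq (mvAll .D .Z0) (mvAll .Z0 .GD) : BProg A) (stV t [] d) (10 * d.length + 2)
      (stV t d []) := by
  have h := passV_move (A := A) (x := .D) (y := .GD) (z := .Z0) (by decide) (by decide) (by decide)
    (stV t [] d) (by rw [stV_ne _ _ _ (by decide) (by decide), hz]) (stV_GD _ _ _)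
  rw [stV_D, stV_upD, stV_upG] at h
  exact h

private def vF1 (a q : ℕ) (x : List Bool) : List Bool :=
  List.replicate (14 * (q * a ^ 3)) false ++
    shiftF a q (tau0 a) (encodeF a (q * a ^ 2) (shearP a (q * a) x))

private def vF2 (a q : ℕ) (x : List Bool) : List Bool :=
  List.replicate (14 * (q * a ^ 3)) false ++ shiftF a q (tau1 a) x

private def vF3 (a q h : ℕ) (x : List Bool) : List Bool :=
  shearM a (q * a) (decodeF a (q * a ^ 2) (shiftF a q (tau2 a h) x))

private theorem length_decV {a q : ℕ} {x : List Bool} (hx : x.length = 14 * (q * a ^ 3)) :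
    (decodeF a (q * a ^ 2) x).length = q * a ^ 3 := by
  unfold decodeF
  rw [length_cat (w := a)]
  · ring
  · intro k hk
    apply length_decode1
    apply length_blk
    rw [hx]
    calc (k + 1) * (14 * a) ≤ (q * a ^ 2) * (14 * a) := Nat.mul_le_mul_right _ hk
      _ = 14 * (q * a ^ 3) := by ring

private theorem length_s0 {a q : ℕ} (ha2 : 2 ≤ a) {x : List Bool} (hx : x.length = q * a ^ 3) :
    (shiftF a q (tau0 a) (encodeF a (q * a ^ 2) (shearP a (q * a) x))).length =
      14 * (q * a ^ 3) := by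
  refine length_shiftF (fun i _ j _ => (tau0_le ha2 i j).trans
    (Nat.mul_le_mul_right _ (by norm_num))) ?_
  rw [length_encodeF]
  · ring
  · rw [length_shearP (by rw [hx]; ring), hx]
    ring

private theorem length_s1 {a q : ℕ} (ha2 : 2 ≤ a) {x : List Bool}
    (hx : x.length = 14 * (q * a ^ 3)) :
    (shiftF a q (tau1 a) x).length = 14 * (q * a ^ 3) :=
  length_shiftF (fun i _ j _ => (tau1_le ha2 i j).trans
    (Nat.mul_le_mul_right _ (by norm_num))) hx

private theorem length_s2 {a q h : ℕ} (ha2 : 2 ≤ a) (hh : h ≤ 2 * a) {x : List Bool}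
    (hx : x.length = 14 * (q * a ^ 3)) :
    (shiftF a q (tau2 a h) x).length = 14 * (q * a ^ 3) :=
  length_shiftF (fun i _ j _ => (tau2_le ha2 hh i j).trans
    (Nat.mul_le_mul_right _ (by norm_num))) hx

private theorem length_vF1 {a q : ℕ} (ha2 : 2 ≤ a) {x : List Bool} (hx : x.length = q * a ^ 3) :
    (vF1 a q x).length = 2 * (14 * (q * a ^ 3)) := by
  unfold vF1
  rw [List.length_append, length_s0 ha2 hx, List.length_replicate]
  ring

private theorem length_vF2 {a q : ℕ} (ha2 : 2 ≤ a) {x : List Bool}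
    (hx : x.length = 14 * (q * a ^ 3)) : (vF2 a q x).length = 2 * (14 * (q * a ^ 3)) := by
  unfold vF2
  rw [List.length_append, length_s1 ha2 hx, List.length_replicate]
  ring

private theorem length_vF3 {a q h : ℕ} (ha2 : 2 ≤ a) (hh : h ≤ 2 * a) {x : List Bool}
    (hx : x.length = 14 * (q * a ^ 3)) : (vF3 a q h x).length = q * a ^ 3 := by
  unfold vF3
  have h1 := length_decV (length_s2 ha2 hh hx)
  rw [length_shearM (by rw [h1]; ring), h1]

private theorem blk_mulBatch {N k b : ℕ} {l y : List Bool} (hb : b < k) :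
    blk N (mulBatch N k l y) b = mulFold N ((blk (2 * N) l b).drop N) y :=
  blk_cat (g := fun b => mulFold N ((blk (2 * N) l b).drop N) y)
    (fun _ _ => length_mulFold _ _ _) hb

private theorem length_mb (N k : ℕ) (l y : List Bool) : (mulBatch N k l y).length = k * N :=
  length_cat fun _ _ => length_mulFold _ _ _

private theorem blk_len_of {w k b : ℕ} {l : List Bool} (hl : l.length = k * w) (hb : b < k) :
    (blk w l b).length = w := by
  apply length_blk
  rw [hl]
  exact Nat.mul_le_mul_right _ hb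

private theorem vF1_drop (a q : ℕ) (x : List Bool) : (vF1 a q x).drop (14 * (q * a ^ 3)) =
    shiftF a q (tau0 a) (encodeF a (q * a ^ 2) (shearP a (q * a) x)) := by
  unfold vF1
  rw [List.drop_left' (List.length_replicate)]

private theorem vF2_drop (a q : ℕ) (x : List Bool) : (vF2 a q x).drop (14 * (q * a ^ 3)) =
    shiftF a q (tau1 a) x := by
  unfold vF2
  rw [List.drop_left' (List.length_replicate)]

private theorem vF1_take (a q : ℕ) (x : List Bool) : (vF1 a q x).take (14 * (q * a ^ 3)) =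
    List.replicate (14 * (q * a ^ 3)) false := by
  unfold vF1
  rw [List.take_left' (List.length_replicate)]

private theorem vF2_take (a q : ℕ) (x : List Bool) : (vF2 a q x).take (14 * (q * a ^ 3)) =
    List.replicate (14 * (q * a ^ 3)) false := by
  unfold vF2
  rw [List.take_left' (List.length_replicate)]

/-- the string after the first map -/
private def vG1 (a q k : ℕ) (l : List Bool) : List Bool :=
  cat k fun i => vF1 a q (blk (q * a ^ 3) l i)

/-- the string after the first multiplication -/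
private def vR1 (a q k : ℕ) (l : List Bool) : List Bool :=
  mulBatch (14 * (q * a ^ 3)) k (vG1 a q k l) (GF a q)

/-- the string after the second map -/
private def vG2 (a q k : ℕ) (l : List Bool) : List Bool :=
  cat k fun i => vF2 a q (blk (14 * (q * a ^ 3)) (vR1 a q k l) i)

/-- the string after the second multiplication -/
private def vR2 (a q k : ℕ) (l : List Bool) : List Bool :=
  mulBatch (14 * (q * a ^ 3)) k (vG2 a q k l) (GF a q)

private theorem length_vG1 {a q k : ℕ} (ha2 : 2 ≤ a) {l : List Bool}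
    (hl : l.length = k * (q * a ^ 3)) :
    (vG1 a q k l).length = k * (2 * (14 * (q * a ^ 3))) :=
  length_cat fun _ hi => length_vF1 ha2 (blk_len_of hl hi)

private theorem length_vR1 (a q k : ℕ) (l : List Bool) :
    (vR1 a q k l).length = k * (14 * (q * a ^ 3)) := length_mb _ _ _ _

private theorem length_vR2 (a q k : ℕ) (l : List Bool) :
    (vR2 a q k l).length = k * (14 * (q * a ^ 3)) := length_mb _ _ _ _

private theorem length_vG2 {a q k : ℕ} (ha2 : 2 ≤ a) (l : List Bool) :
    (vG2 a q k l).length = k * (2 * (14 * (q * a ^ 3))) :=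
  length_cat fun _ hi => length_vF2 ha2 (blk_len_of (length_vR1 a q k l) hi)

private theorem blk_vG1 {a q k b : ℕ} (ha2 : 2 ≤ a) {l : List Bool}
    (hl : l.length = k * (q * a ^ 3)) (hb : b < k) :
    blk (2 * (14 * (q * a ^ 3))) (vG1 a q k l) b = vF1 a q (blk (q * a ^ 3) l b) :=
  blk_cat (g := fun i => vF1 a q (blk (q * a ^ 3) l i))
    (fun _ hi => length_vF1 ha2 (blk_len_of hl hi)) hb

private theorem blk_vG2 {a q k b : ℕ} (ha2 : 2 ≤ a) (l : List Bool) (hb : b < k) :
    blk (2 * (14 * (q * a ^ 3))) (vG2 a q k l) b =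
      vF2 a q (blk (14 * (q * a ^ 3)) (vR1 a q k l) b) :=
  blk_cat (g := fun i => vF2 a q (blk (14 * (q * a ^ 3)) (vR1 a q k l) i))
    (fun _ hi => length_vF2 ha2 (blk_len_of (length_vR1 a q k l) hi)) hb

/-- the result, if both multiplications succeed -/
private theorem passV_list {a q h k : ℕ} (hh : 1 ≤ h) (ha : a = 2 ^ h) (ha2 : 2 ≤ a) (hq : 1 ≤ q)
    {l : List Bool} (hl : l.length = k * (q * a ^ 3)) :
    (cat k fun i => vF3 a q h (blk (14 * (q * a ^ 3)) (vR2 a q k l) i)) =
      cat k fun i => swapF a (q * a) (blk (q * a ^ 3) l i) := by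
  refine cat_congr fun i hi => ?_
  have hb := blk_len_of hl hi
  rw [← opF_eq hh ha hq hb]
  unfold opF vF3
  have e2 : blk (14 * (q * a ^ 3)) (vR2 a q k l) i = mulFold (14 * (q * a ^ 3))
      (shiftF a q (tau1 a) (blk (14 * (q * a ^ 3)) (vR1 a q k l) i)) (GF a q) := by
    unfold vR2
    rw [blk_mulBatch hi, blk_vG2 ha2 l hi, vF2_drop]
  have e1 : blk (14 * (q * a ^ 3)) (vR1 a q k l) i = mulFold (14 * (q * a ^ 3))
      (shiftF a q (tau0 a) (encodeF a (q * a ^ 2) (shearP a (q * a) (blk (q * a ^ 3) l i))))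
      (GF a q) := by
    unfold vR1
    rw [blk_mulBatch hi, blk_vG1 ha2 hl hi, vF1_drop]
  rw [e2, e1]

private theorem passV_chunk {a q k : ℕ} (ha : 1 ≤ a) (hq : 1 ≤ q) {l : List Bool}
    (hl : l.length = k * (q * a ^ 3)) :
    (cat k fun i => swapF a (q * a) (blk (q * a ^ 3) l i)) =
      chunkF (q * a ^ 3) (swapF a (q * a)) l := by
  have h1 : l.length / (q * a ^ 3) = k := by
    rw [hl]
    exact Nat.mul_div_cancel k (Nat.mul_pos hq (pow_pos ha 3))
  rw [chunkF, h1]

private theorem passV_cost {K w L : ℕ} (hw : w ≤ 4 * L) (hL : 1 ≤ L) :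
    K * w + 1 ≤ (4 * K + 1) * L := by
  have h1 : K * w ≤ K * (4 * L) := Nat.mul_le_mul_left _ hw
  have h2 : (4 * K + 1) * L = K * (4 * L) + L := by ring
  omega

private theorem passV_sum1 {L CG CB E1 E2 E3 E4 : ℕ} (hL : 1 ≤ L) :
    50 * L + (4 * CG * L + (E1 * L + (1122 * L + (5 * CB * L + ((562 * L + (E2 * L + (1122 * L +
      (5 * CB * L + (562 * L + E3 * L + 1))))) + 1 + (10 * L + 113 * L)))))) ≤
    (50 + 4 * CG + E1 + 1122 + 5 * CB + 1 + 562 + E2 + 1122 + 5 * CB + 1 + 562 + E3 +
      10 + 50 + E4 + 1 + 113) * L := by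
  have h1 : (50 + 4 * CG + E1 + 1122 + 5 * CB + 1 + 562 + E2 + 1122 + 5 * CB + 1 + 562 + E3 +
      10 + 50 + E4 + 1 + 113) * L = 50 * L + (4 * CG * L + (E1 * L + (1122 * L + (5 * CB * L +
      ((562 * L + (E2 * L + (1122 * L +
      (5 * CB * L + (562 * L + E3 * L + L))))) + L + (10 * L + 113 * L)))))) + 51 * L + E4 * L := by
    ring
  rw [h1]
  omega

private theorem passV_sum2 {L CG CB E1 E2 E3 E4 : ℕ} (hL : 1 ≤ L) :
    50 * L + (4 * CG * L + (E1 * L + (1122 * L + (5 * CB * L + ((562 * L + (E2 * L + (1122 * L +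
      (5 * CB * L + (1 + 1))))) + 1 + ((42 * L + E4 * L + 1) + 113 * L)))))) ≤
    (50 + 4 * CG + E1 + 1122 + 5 * CB + 1 + 562 + E2 + 1122 + 5 * CB + 1 + 562 + E3 +
      10 + 50 + E4 + 1 + 113) * L := by
  have h1 : (50 + 4 * CG + E1 + 1122 + 5 * CB + 1 + 562 + E2 + 1122 + 5 * CB + 1 + 562 + E3 +
      10 + 50 + E4 + 1 + 113) * L = 50 * L + (4 * CG * L + (E1 * L + (1122 * L + (5 * CB * L +
      ((562 * L + (E2 * L + (1122 * L +
      (5 * CB * L + (562 * L + E3 * L + L))))) + L + (10 * L + 113 * L)))))) + 51 * L + E4 * L := by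
    ring
  rw [h1]
  have h2 := Nat.zero_le (E3 * L)
  omega

private theorem passV_sum3 {L CG CB E1 E2 E3 E4 : ℕ} (hL : 1 ≤ L) :
    50 * L + (4 * CG * L + (E1 * L + (1122 * L + (5 * CB * L + ((1 + 1) +
      ((42 * L + E4 * L + 1) + 113 * L)))))) ≤
    (50 + 4 * CG + E1 + 1122 + 5 * CB + 1 + 562 + E2 + 1122 + 5 * CB + 1 + 562 + E3 +
      10 + 50 + E4 + 1 + 113) * L := by
  refine le_trans ?_ (passV_sum2 (CG := CG) (CB := CB) (E1 := E1) (E2 := E2) (E3 := E3)
    (E4 := E4) hL)
  have h2 := Nat.zero_le (E2 * L)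
  have h3 := Nat.zero_le (5 * CB * L)
  omega

private theorem passV_G1 {A : TM} {a q : ℕ} {P1 P2 P3 PP : BProg A} {C1 C2 C3 CP : ℕ}
    (h1 : ∀ u : St, AllNil temps u → Par a q u → (u .D).length = q * a ^ 3 →
      Sat P1 u (C1 * (q * a ^ 3)) (up u .D (shearP a (q * a) (u .D))))
    (h2 : ∀ u : St, AllNil temps u → Par a q u → (u .D).length = q * a ^ 3 →
      Sat P2 u (C2 * (q * a ^ 3)) (up u .D (encodeF a (q * a ^ 2) (u .D))))
    (h3 : ∀ u : St, AllNil temps u → Par a q u → (u .D).length = 14 * (q * a ^ 3) →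
      Sat P3 u (C3 * (q * a ^ 3)) (up u .D (shiftF a q (tau0 a) (u .D))))
    (hPP : ∀ u : St, AllNil temps u → Par a q u →
      Sat PP u (CP * (q * a ^ 3)) (up u .D (List.replicate (14 * (q * a ^ 3)) false ++ u .D)))
    (u : St) (hn : AllNil temps u) (hp : Par a q u) (hl : (u .D).length = q * a ^ 3) :
    Sat (Prog.seq P1 (Prog.seq P2 (Prog.seq P3 PP))) u
      (C1 * (q * a ^ 3) + (C2 * (q * a ^ 3) + (C3 * (q * a ^ 3) + CP * (q * a ^ 3))))
      (up u .D (vF1 a q (u .D))) := by
  have e1 := h1 u hn hp hl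
  have n1 : (shearP a (q * a) (u .D)).length = q * a ^ 3 := by
    rw [length_shearP (by rw [hl]; ring), hl]
  have e2 := h2 (up u .D (shearP a (q * a) (u .D))) (hn.up (by decide) _)
    (hp.up (by decide) _) (by rw [up_self, n1])
  rw [up_self, up_up] at e2
  have n2 : (encodeF a (q * a ^ 2) (shearP a (q * a) (u .D))).length = 14 * (q * a ^ 3) := by
    rw [length_encodeF (by rw [n1]; ring)]
    ring
  have e3 := h3 (up u .D (encodeF a (q * a ^ 2) (shearP a (q * a) (u .D))))
    (hn.up (by decide) _) (hp.up (by decide) _) (by rw [up_self, n2])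
  rw [up_self, up_up] at e3
  have e4 := hPP (up u .D (shiftF a q (tau0 a) (encodeF a (q * a ^ 2)
    (shearP a (q * a) (u .D))))) (hn.up (by decide) _) (hp.up (by decide) _)
  rw [up_self, up_up] at e4
  exact e1.seq (e2.seq (e3.seq e4))

private theorem passV_G2 {A : TM} {a q : ℕ} {P5 PP : BProg A} {C5 CP : ℕ}
    (h5 : ∀ u : St, AllNil temps u → Par a q u → (u .D).length = 14 * (q * a ^ 3) →
      Sat P5 u (C5 * (q * a ^ 3)) (up u .D (shiftF a q (tau1 a) (u .D))))
    (hPP : ∀ u : St, AllNil temps u → Par a q u →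
      Sat PP u (CP * (q * a ^ 3)) (up u .D (List.replicate (14 * (q * a ^ 3)) false ++ u .D)))
    (u : St) (hn : AllNil temps u) (hp : Par a q u) (hl : (u .D).length = 14 * (q * a ^ 3)) :
    Sat (Prog.seq P5 PP) u (C5 * (q * a ^ 3) + CP * (q * a ^ 3))
      (up u .D (vF2 a q (u .D))) := by
  have e1 := h5 u hn hp hl
  have e4 := hPP (up u .D (shiftF a q (tau1 a) (u .D))) (hn.up (by decide) _)
    (hp.up (by decide) _)
  rw [up_self, up_up] at e4
  exact e1.seq e4

private theorem passV_G3 {A : TM} {a q h : ℕ} (ha2 : 2 ≤ a) (hh2 : h ≤ 2 * a)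
    {P6 P7 P8 : BProg A} {C6 C7 C8 : ℕ}
    (h6 : ∀ u : St, AllNil temps u → Par a q u → u .HS = un h →
      (u .D).length = 14 * (q * a ^ 3) →
      Sat P6 u (C6 * (q * a ^ 3)) (up u .D (shiftF a q (tau2 a h) (u .D))))
    (h7 : ∀ u : St, AllNil temps u → Par a q u → (u .D).length = 14 * (q * a ^ 3) →
      Sat P7 u (C7 * (q * a ^ 3)) (up u .D (decodeF a (q * a ^ 2) (u .D))))
    (h8 : ∀ u : St, AllNil temps u → Par a q u → (u .D).length = q * a ^ 3 →
      Sat P8 u (C8 * (q * a ^ 3)) (up u .D (shearM a (q * a) (u .D))))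
    (u : St) (hn : AllNil temps u) (hp : Par a q u) (hu : u .HS = un h)
    (hl : (u .D).length = 14 * (q * a ^ 3)) :
    Sat (Prog.seq P6 (Prog.seq P7 P8)) u
      (C6 * (q * a ^ 3) + (C7 * (q * a ^ 3) + C8 * (q * a ^ 3)))
      (up u .D (vF3 a q h (u .D))) := by
  have e1 := h6 u hn hp hu hl
  have n1 : (shiftF a q (tau2 a h) (u .D)).length = 14 * (q * a ^ 3) := length_s2 ha2 hh2 hl
  have e2 := h7 (up u .D (shiftF a q (tau2 a h) (u .D))) (hn.up (by decide) _)
    (hp.up (by decide) _) (by rw [up_self, n1])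
  rw [up_self, up_up] at e2
  have n2 := length_decV n1
  have e3 := h8 (up u .D (decodeF a (q * a ^ 2) (shiftF a q (tau2 a h) (u .D))))
    (hn.up (by decide) _) (hp.up (by decide) _) (by rw [up_self, n2])
  rw [up_self, up_up] at e3
  exact e1.seq (e2.seq e3)

private theorem passV_agn {u v : St} (hv : AllNil temps v)
    (huv : ∀ z, z ≠ .GD → z ≠ .GO → z ≠ .D → u z = v z) : AllNil temps u := by
  intro z hz
  have hz' : ∀ y ∈ temps, y ≠ .GD ∧ y ≠ .GO ∧ y ≠ .D := by decide
  obtain ⟨z1, z2, z3⟩ := hz' z hz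
  rw [huv z z1 z2 z3]
  exact hv z hz

private theorem passV_agp {a q : ℕ} {u v : St} (hv : Par a q v)
    (huv : ∀ z, z ≠ .GD → z ≠ .GO → z ≠ .D → u z = v z) : Par a q u := by
  constructor
  · rw [huv _ (by decide) (by decide) (by decide)]; exact hv.TA
  · rw [huv _ (by decide) (by decide) (by decide)]; exact hv.TB
  · rw [huv _ (by decide) (by decide) (by decide)]; exact hv.T2
  · rw [huv _ (by decide) (by decide) (by decide)]; exact hv.T12
  · rw [huv _ (by decide) (by decide) (by decide)]; exact hv.TQ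
  · rw [huv _ (by decide) (by decide) (by decide)]; exact hv.TE
  · rw [huv _ (by decide) (by decide) (by decide)]; exact hv.TF

private theorem passV_tup {t : St} (hD : t .D = []) (g : List Bool) :
    up t .GD g = stV t g [] := by
  funext z
  simp only [stV, up]
  split_ifs <;> simp_all

private theorem passV_end1 {s : St} (hSV : s .SV = []) (hY : s .Y = []) (hD : s .D = [])
    (l0 y g : List Bool) :
    up (up (stV (up (up s .SV l0) .Y y) g []) .SV []) .Y [] = up s .GD g := by
  funext z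
  simp only [stV, up]
  split_ifs <;> simp_all

private theorem passV_end2 {s : St} (hSV : s .SV = []) (hY : s .Y = []) (hD : s .D = [])
    (l0 y g : List Bool) :
    up (up (up (up (stV (up (up s .SV l0) .Y y) [] []) .SV []) .GD l0) .GD g) .Y [] =
      up s .GD g := by
  funext z
  simp only [stV, up]
  split_ifs <;> simp_all

private theorem passV_f1 {A : TM} {Q4 : BProg A} {s : St} (hSV : s .SV = []) (hY : s .Y = [])
    (hD : s .D = []) {l0 y g : List Bool} (hg : g ≠ []) {L : ℕ} (hl0 : l0.length ≤ 4 * L)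
    (hy : y.length ≤ 56 * L) (hL : 1 ≤ L) :
    Sat (Prog.seq (ifNE .GD (clear .SV) (Prog.seq (Prog.seq (mvAll .SV .Z0) (mvAll .Z0 .GD))
      Q4)) (clear .Y)) (stV (up (up s .SV l0) .Y y) g []) (10 * L + 113 * L) (up s .GD g) := by
  obtain ⟨t, ht⟩ : ∃ t, t = up (up s .SV l0) .Y y := ⟨_, rfl⟩
  have tY : t .Y = y := by rw [ht, up_self]
  have tSV : t .SV = l0 := by rw [ht, up_of_ne _ (by decide), up_self]
  have d1 : Sat (ifNE .GD (clear .SV) (Prog.seq (Prog.seq (mvAll .SV .Z0) (mvAll .Z0 .GD))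
      Q4)) (stV t g []) (10 * L) (up (stV t g []) .SV []) := by
    refine (sat_ifNE_cons (by rw [stV_GD]; exact hg) (sat_clear .SV (stV t g []))).congr ?_ rfl
    rw [stV_ne _ _ _ (by decide) (by decide), tSV]
    omega
  have d2 := sat_clear (A := A) .Y (up (stV t g []) .SV [])
  rw [up_of_ne _ (by decide), stV_ne _ _ _ (by decide) (by decide), tY] at d2
  rw [← ht]
  refine (d1.seq d2).congr (by omega) ?_
  rw [ht]
  exact passV_end1 hSV hY hD l0 y g

private theorem passV_f2 {A : TM} {Q4 : BProg A} {s : St} (hSV : s .SV = []) (hY : s .Y = [])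
    (hD : s .D = []) (hZ : s .Z0 = []) {l0 y r : List Bool} {L E m : ℕ}
    (hl0 : l0.length ≤ 4 * L)
    (hy : y.length ≤ 56 * L) (hL : 1 ≤ L) (hm : m ≤ E * L)
    (hQ : Sat Q4 (up (up (stV (up (up s .SV l0) .Y y) [] []) .SV []) .GD l0) m
      (up (up (up (stV (up (up s .SV l0) .Y y) [] []) .SV []) .GD l0) .GD r)) :
    Sat (Prog.seq (ifNE .GD (clear .SV) (Prog.seq (Prog.seq (mvAll .SV .Z0) (mvAll .Z0 .GD))
      Q4)) (clear .Y)) (stV (up (up s .SV l0) .Y y) [] []) ((42 * L + E * L + 1) + 113 * L)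
        (up s .GD r) := by
  obtain ⟨t, ht⟩ : ∃ t, t = up (up s .SV l0) .Y y := ⟨_, rfl⟩
  have tY : t .Y = y := by rw [ht, up_self]
  have tSV : t .SV = l0 := by rw [ht, up_of_ne _ (by decide), up_self]
  have tZ0 : t .Z0 = [] := by rw [ht, up_of_ne _ (by decide), up_of_ne _ (by decide), hZ]
  rw [← ht] at hQ ⊢
  have d0 := passV_move (A := A) (x := .SV) (y := .GD) (z := .Z0) (by decide) (by decide)
    (by decide) (stV t [] []) (by rw [stV_ne _ _ _ (by decide) (by decide), tZ0]) (stV_GD _ _ _)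
  rw [stV_ne _ _ _ (by decide) (by decide), tSV] at d0
  have d2 : Sat (ifNE .GD (clear .SV) (Prog.seq (Prog.seq (mvAll .SV .Z0) (mvAll .Z0 .GD))
      Q4)) (stV t [] []) (42 * L + E * L + 1)
      (up (up (up (stV t [] []) .SV []) .GD l0) .GD r) := by
    refine (sat_ifNE_nil (stV_GD _ _ _) (d0.seq hQ)).congr ?_ rfl
    omega
  have d3 := sat_clear (A := A) .Y (up (up (up (stV t [] []) .SV []) .GD l0) .GD r)
  have uY : (up (up (up (stV t [] []) .SV []) .GD l0) .GD r) .Y = y := by
    rw [up_of_ne _ (by decide), up_of_ne _ (by decide), up_of_ne _ (by decide),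
      stV_ne _ _ _ (by decide) (by decide), tY]
  rw [uY] at d3
  refine (d2.seq d3).congr (by omega) ?_
  rw [ht]
  exact passV_end2 hSV hY hD l0 y r

theorem exists_passV (A : TM) (hA : A.Multiplies) : ∃ (P : BProg A) (C : ℕ), ∀ (s : St)
    (a q h k n : ℕ), 1 ≤ h → a = 2 ^ h → 1 ≤ q → 1 ≤ k → AllNil temps s → Par a q s →
    s .HS = un h → s .D = [] → s .Y = [] → s .GO = [] → s .SV = [] → s .LN = un n →
    (s .GD).length = k * (q * a ^ 3) → k * (q * a ^ 3) ≤ 4 * n ^ 2 →
    Sat P s (C * lvlV A n h) (up s .GD (chunkF (q * a ^ 3) (swapF a (q * a)) (s .GD))) := by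
  obtain ⟨PG, CG, hG⟩ := exists_genG A
  obtain ⟨PB, CB, hB⟩ := exists_mulBatch A hA
  obtain ⟨PP, CP, hPP⟩ := exists_pad A
  obtain ⟨P1, C1, h1⟩ := exists_shearP A
  obtain ⟨P2, C2, h2⟩ := exists_encode A
  obtain ⟨P3, C3, h3⟩ := exists_stage0 A
  obtain ⟨P5, C5, h5⟩ := exists_stage1 A
  obtain ⟨P6, C6, h6⟩ := exists_stage2 A
  obtain ⟨P7, C7, h7⟩ := exists_decode A
  obtain ⟨P8, C8, h8⟩ := exists_shearM A
  obtain ⟨P9, C9, h9⟩ := exists_naive A
  obtain ⟨Q1, D1, g1⟩ := exists_map1 A (Prog.seq P1 (Prog.seq P2 (Prog.seq P3 PP)))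
  obtain ⟨Q2, D2, g2⟩ := exists_map2 A (Prog.seq P5 PP)
  obtain ⟨Q3, D3, g3⟩ := exists_map2 A (Prog.seq P6 (Prog.seq P7 P8))
  obtain ⟨Q4, D4, g4⟩ := exists_map1 A P9
  obtain ⟨toD, htoD⟩ : ∃ R : BProg A, R = Prog.seq (mvAll .GD .Z0) (mvAll .Z0 .D) := ⟨_, rfl⟩
  obtain ⟨toG, htoG⟩ : ∃ R : BProg A, R = Prog.seq (mvAll .D .Z0) (mvAll .Z0 .GD) := ⟨_, rfl⟩
  refine ⟨Prog.seq (copyAll .GD .SV .Z0) (Prog.seq PG (Prog.seq Q1 (Prog.seq toD (Prog.seq PB
    (Prog.seq (ifNE .D (Prog.seq toG (Prog.seq Q2 (Prog.seq toD (Prog.seq PB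
      (ifNE .D (Prog.seq toG Q3) skip))))) skip)
    (Prog.seq (ifNE .GD (clear .SV) (Prog.seq (Prog.seq (mvAll .SV .Z0) (mvAll .Z0 .GD)) Q4))
      (clear .Y))))))),
    50 + 4 * CG + D1 * (4 * (C1 + C2 + C3 + CP) + 117) + 1122 + 5 * CB + 1 + 562 +
      D2 * (4 * (C5 + CP) + 117) + 1122 + 5 * CB + 1 + 562 + D3 * (4 * (C6 + C7 + C8) + 9) +
      10 + 50 + D4 * (C9 + 9) + 1 + 113, ?_⟩
  intro s a q h k n hh ha hq hk hnil hpar hHS hD0 hY0 hGO hSV hLN hlen hsize
  -- sizes
  have ha2 : 2 ≤ a := by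
    rw [ha]
    calc 2 = 2 ^ 1 := rfl
      _ ≤ 2 ^ h := Nat.pow_le_pow_right (by norm_num) hh
  have ha1 : 1 ≤ a := le_trans (by norm_num) ha2
  have hha : h ≤ a := by
    rw [ha]
    exact Nat.lt_two_pow_self.le
  have hh2 : h ≤ 2 * a := hha.trans (Nat.le_mul_of_pos_left _ (by norm_num))
  obtain ⟨l0, hl0⟩ : ∃ l0, l0 = s .GD := ⟨_, rfl⟩
  have hl0n : l0.length = k * (q * a ^ 3) := by rw [hl0, hlen]
  have hcpos : 1 ≤ q * a ^ 3 := Nat.mul_pos hq (pow_pos (by omega) 3)
  have hac : a ≤ q * a ^ 3 := by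
    calc a ≤ a ^ 3 := Nat.le_self_pow (by norm_num) a
      _ ≤ q * a ^ 3 := Nat.le_mul_of_pos_left _ hq
  have hcw : q * a ^ 3 ≤ k * (q * a ^ 3) := Nat.le_mul_of_pos_left _ hk
  obtain ⟨L, hLdef⟩ : ∃ L, L = lvlV A n h := ⟨_, rfl⟩
  have hLsum : L = n ^ 2 + tV A n h := by rw [hLdef]; rfl
  have hw4 : k * (q * a ^ 3) ≤ 4 * L := by omega
  have hL1 : 1 ≤ L := by omega
  have hh4 : h ≤ 4 * L := by omega
  rw [← hLdef, ← hl0]
  -- the base state
  obtain ⟨t, ht⟩ : ∃ t, t = up (up s .SV l0) .Y (GF a q) := ⟨_, rfl⟩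
  have tne : ∀ z, z ≠ .SV → z ≠ .Y → t z = s z := by
    intro z hz1 hz2
    rw [ht, up_of_ne _ hz2, up_of_ne _ hz1]
  have tnil : AllNil temps t := by
    rw [ht]
    exact (hnil.up (by decide) _).up (by decide) _
  have tpar : Par a q t := by
    rw [ht]
    exact (hpar.up (by decide) _).up (by decide) _
  have tHS : t .HS = un h := by rw [tne _ (by decide) (by decide), hHS]
  have tLN : t .LN = un n := by rw [tne _ (by decide) (by decide), hLN]
  have tY : t .Y = GF a q := by rw [ht, up_self]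
  have tSV : t .SV = l0 := by rw [ht, up_of_ne _ (by decide), up_self]
  have tD : t .D = [] := by rw [tne _ (by decide) (by decide), hD0]
  have tGO : t .GO = [] := by rw [tne _ (by decide) (by decide), hGO]
  have tGD : t .GD = l0 := by rw [tne _ (by decide) (by decide), hl0]
  have tZ0 : t .Z0 = [] := tnil.get (by decide)
  have snil : ∀ g d, AllNil temps (stV t g d) := fun g d =>
    (tnil.up (by decide) _).up (by decide) _
  have spar : ∀ g d, Par a q (stV t g d) := fun g d =>
    (tpar.up (by decide) _).up (by decide) _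
  have sne : ∀ g d z, z ≠ .GD → z ≠ .D → stV t g d z = t z := fun g d z hz1 hz2 =>
    stV_ne t g d hz1 hz2
  -- programs for one chunk
  have G1 := passV_G1 (fun u => h1 u a q ha1 hq) (fun u => h2 u a q ha1 hq)
    (fun u => h3 u a q ha2 hq) (fun u => hPP u a q ha1 hq)
  have G2 := passV_G2 (fun u => h5 u a q ha2 hq) (fun u => hPP u a q ha1 hq)
  have G3 := passV_G3 ha2 hh2 (fun u => h6 u a q h ha2 hq hh2) (fun u => h7 u a q ha1 hq)
    (fun u => h8 u a q ha1 hq)
  -- backup and second factor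
  have c0 : Sat (copyAll .GD .SV .Z0 : BProg A) s (50 * L) (up s .SV l0) := by
    refine (sat_copyAll (A := A) (by decide) s (hnil.get (by decide))).congr ?_ ?_
    · rw [← hl0, hl0n]
      omega
    · rw [← hl0, hSV, List.append_nil]
  have c1 : Sat PG (up s .SV l0) (4 * CG * L) t := by
    refine (hG (up s .SV l0) a q ha2 hq (hnil.up (by decide) _) (hpar.up (by decide) _)
      (by rw [up_of_ne _ (by decide), hD0]) (by rw [up_of_ne _ (by decide), hY0])).congr ?_ ?_
    · calc CG * (q * a ^ 3) ≤ CG * (4 * L) := Nat.mul_le_mul_left _ (hcw.trans hw4)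
        _ = 4 * CG * L := by ring
    · rw [ht]
  -- the first map
  have c2 : Sat Q1 t ((D1 * (4 * (C1 + C2 + C3 + CP) + 117)) * L)
      (stV t (vG1 a q k l0) []) := by
    have e := g1 t a q k _ (2 * (14 * (q * a ^ 3))) (vF1 a q) ha1 hq tnil tpar tD tGO
      (by rw [tGD, hl0n])
      (fun u hu1 hu2 => G1 u (passV_agn tnil hu2) (passV_agp tpar hu2) hu1)
      (fun x hx => length_vF1 ha2 hx)
    refine e.congr ?_ ?_
    · have e1 : k * (q * a ^ 3 + (C1 * (q * a ^ 3) + (C2 * (q * a ^ 3) + (C3 * (q * a ^ 3) +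
          CP * (q * a ^ 3)))) + 2 * (14 * (q * a ^ 3))) =
          (29 + C1 + C2 + C3 + CP) * (k * (q * a ^ 3)) := by ring
      rw [e1, mul_assoc]
      refine Nat.mul_le_mul_left _ ((passV_cost hw4 hL1).trans (le_of_eq ?_))
      ring
    · rw [tGD, passV_tup tD]
      rfl
  have c3 : Sat toD (stV t (vG1 a q k l0) []) (1122 * L) (stV t [] (vG1 a q k l0)) := by
    rw [htoD]
    refine (passV_toD t (vG1 a q k l0) tZ0).congr ?_ rfl
    rw [length_vG1 ha2 hl0n]
    have e1 : 10 * (k * (2 * (14 * (q * a ^ 3)))) = 280 * (k * (q * a ^ 3)) := by ring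
    rw [e1]
    omega
  -- the multiplication
  have hbb : ∀ g : List Bool, g.length = k * (2 * (14 * (q * a ^ 3))) →
      (∀ b < k, (blk (2 * (14 * (q * a ^ 3))) g b).take (14 * (q * a ^ 3)) =
        List.replicate (14 * (q * a ^ 3)) false) →
      Sat PB (stV t [] g) (5 * CB * L) (stV t [] (mbRes A h (112 * n ^ 2) (14 * (q * a ^ 3)) k g
        (GF a q))) := by
    intro g hg hz
    have e := hB (stV t [] g) (14 * (q * a ^ 3)) k n h hk (by omega) (snil _ _)
      (by rw [stV_D, hg]) (by rw [stV_D]; exact hz)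
      (by rw [sne _ _ _ (by decide) (by decide), tY, length_GF ha2 hq])
      (by rw [sne _ _ _ (by decide) (by decide), tLN])
      (by
        have e1 : k * (2 * (14 * (q * a ^ 3))) = 28 * (k * (q * a ^ 3)) := by ring
        rw [e1]
        omega)
      (by rw [sne _ _ _ (by decide) (by decide), tHS])
    rw [stV_D, stV_upD, sne _ _ _ (by decide) (by decide), tY] at e
    refine e.congr ?_ rfl
    have e1 : n ^ 2 + h + tV A n h ≤ 5 * L := by omega
    calc CB * (n ^ 2 + h + tV A n h) ≤ CB * (5 * L) := Nat.mul_le_mul_left _ e1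
      _ = 5 * CB * L := by ring
  have hfail : ∀ g : List Bool, g.length = k * (2 * (14 * (q * a ^ 3))) →
      ¬ A.time (A.mulInput (padL (112 * n ^ 2) g) (padL (112 * n ^ 2) (GF a q))) <
        h * (112 * n ^ 2) → h * (k * (q * a ^ 3)) ≤ L := by
    intro g hg hf
    have e1 : k * (2 * (14 * (q * a ^ 3))) = 28 * (k * (q * a ^ 3)) := by ring
    have e2 : (GF a q).length = 14 * (q * a ^ 3) := length_GF ha2 hq
    have e3 := mulTime_of_fail2 A hA (by omega) (by rw [hg, e1]; omega) (by rw [e2]; omega) hf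
    have e4 : h * (k * (q * a ^ 3)) ≤ h * (112 * n ^ 2) := Nat.mul_le_mul_left _ (by omega)
    have e5 : h * (112 * n ^ 2) ≤ tV A n h := le_min e3 le_rfl
    omega
  have c4 := hbb (vG1 a q k l0) (length_vG1 ha2 hl0n) (fun b hb => by
    rw [blk_vG1 ha2 hl0n hb, vF1_take])
  have hne : ∀ (l : List Bool) (m : ℕ), l.length = m → 1 ≤ m → l ≠ [] := by
    intro l m e1 e2 e3
    rw [e3, List.length_nil] at e1
    omega
  -- the end
  have ny : (GF a q).length ≤ 56 * L := by
    rw [length_GF ha2 hq]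
    omega
  have f1 : ∀ g : List Bool, g ≠ [] →
      Sat (Prog.seq (ifNE .GD (clear .SV) (Prog.seq (Prog.seq (mvAll .SV .Z0) (mvAll .Z0 .GD))
        Q4)) (clear .Y)) (stV t g []) (10 * L + 113 * L) (up s .GD g) := by
    intro g hg
    rw [ht]
    exact passV_f1 hSV hY0 hD0 hg (by omega) ny hL1
  have f2 : h * (k * (q * a ^ 3)) ≤ L →
      Sat (Prog.seq (ifNE .GD (clear .SV) (Prog.seq (Prog.seq (mvAll .SV .Z0) (mvAll .Z0 .GD))
        Q4)) (clear .Y)) (stV t [] []) ((42 * L + (D4 * (C9 + 9)) * L + 1) + 113 * L)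
        (up s .GD (chunkF (q * a ^ 3) (swapF a (q * a)) l0)) := by
    intro hhw
    obtain ⟨u, hu⟩ : ∃ u, u = up (up (stV t [] []) .SV []) .GD l0 := ⟨_, rfl⟩
    have unil : AllNil temps u := by
      rw [hu]
      exact ((snil _ _).up (by decide) _).up (by decide) _
    have upar : Par a q u := by
      rw [hu]
      exact ((spar _ _).up (by decide) _).up (by decide) _
    have uHS : u .HS = un h := by
      rw [hu, up_of_ne _ (by decide), up_of_ne _ (by decide), sne _ _ _ (by decide) (by decide),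
        tHS]
    have d1 := g4 u a q k (C9 * (h * (q * a ^ 3))) (q * a ^ 3) (swapF a (q * a)) ha1 hq unil upar
      (by rw [hu, up_of_ne _ (by decide), up_of_ne _ (by decide), stV_D])
      (by rw [hu, up_of_ne _ (by decide), up_of_ne _ (by decide),
        sne _ _ _ (by decide) (by decide), tGO])
      (by rw [hu, up_self, hl0n])
      (fun v hv1 hv2 => h9 v a q h hh ha hq (passV_agn unil hv2) (passV_agp upar hv2)
        (by rw [hv2 _ (by decide) (by decide) (by decide), uHS]) hv1)
      (fun x hx => by rw [length_swapF (by rw [hx]; ring), hx])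
    have uGD : u .GD = l0 := by rw [hu, up_self]
    rw [uGD, passV_chunk ha1 hq hl0n, hu, ht] at d1
    rw [ht]
    refine passV_f2 hSV hY0 hD0 (hnil.get (by decide)) (by omega) ny hL1 ?_ d1
    have e1 : k * (q * a ^ 3 + C9 * (h * (q * a ^ 3)) + q * a ^ 3) + 1 ≤ (C9 + 9) * L := by
      have e2 : k * (q * a ^ 3 + C9 * (h * (q * a ^ 3)) + q * a ^ 3) + 1 =
          C9 * (h * (k * (q * a ^ 3))) + 2 * (k * (q * a ^ 3)) + 1 := by ring
      have e3 : C9 * (h * (k * (q * a ^ 3))) ≤ C9 * L := Nat.mul_le_mul_left _ hhw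
      have e4 : (C9 + 9) * L = C9 * L + 9 * L := by ring
      rw [e2, e4]
      omega
    rw [mul_assoc]
    exact Nat.mul_le_mul_left _ e1
  by_cases hA1 : A.time (A.mulInput (padL (112 * n ^ 2) (vG1 a q k l0))
      (padL (112 * n ^ 2) (GF a q))) < h * (112 * n ^ 2)
  · -- the first multiplication succeeds
    have r1 : mbRes A h (112 * n ^ 2) (14 * (q * a ^ 3)) k (vG1 a q k l0) (GF a q) =
        vR1 a q k l0 := by
      unfold mbRes
      rw [if_pos hA1]
      rfl
    rw [r1] at c4
    have r1ne : vR1 a q k l0 ≠ [] := hne _ _ (length_vR1 a q k l0) (by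
      exact Nat.mul_pos hk (by omega))
    have mv : ∀ g : List Bool, g.length = k * (14 * (q * a ^ 3)) →
        Sat toG (stV t [] g) (562 * L) (stV t g []) := by
      intro g hg
      rw [htoG]
      refine (passV_toG t g tZ0).congr ?_ rfl
      rw [hg]
      have e1 : 10 * (k * (14 * (q * a ^ 3))) = 140 * (k * (q * a ^ 3)) := by ring
      rw [e1]
      omega
    have c5 := mv _ (length_vR1 a q k l0)
    have c6 : Sat Q2 (stV t (vR1 a q k l0) []) ((D2 * (4 * (C5 + CP) + 117)) * L)
        (stV t (vG2 a q k l0) []) := by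
      have e := g2 (stV t (vR1 a q k l0) []) a q k _ (2 * (14 * (q * a ^ 3))) (vF2 a q) ha1 hq
        (snil _ _) (spar _ _) (stV_D _ _ _)
        (by rw [sne _ _ _ (by decide) (by decide), tGO])
        (by rw [stV_GD, length_vR1])
        (fun u hu1 hu2 => G2 u (passV_agn (snil _ _) hu2) (passV_agp (spar _ _) hu2) hu1)
        (fun x hx => length_vF2 ha2 hx)
      refine e.congr ?_ ?_
      · have e1 : k * (q * a ^ 3 + (C5 * (q * a ^ 3) + CP * (q * a ^ 3)) +
            2 * (14 * (q * a ^ 3))) = (29 + C5 + CP) * (k * (q * a ^ 3)) := by ring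
        rw [e1, mul_assoc]
        refine Nat.mul_le_mul_left _ ((passV_cost hw4 hL1).trans (le_of_eq ?_))
        ring
      · rw [stV_GD, stV_upG]
        rfl
    have c7 : Sat toD (stV t (vG2 a q k l0) []) (1122 * L) (stV t [] (vG2 a q k l0)) := by
      rw [htoD]
      refine (passV_toD t (vG2 a q k l0) tZ0).congr ?_ rfl
      rw [length_vG2 ha2]
      have e1 : 10 * (k * (2 * (14 * (q * a ^ 3)))) = 280 * (k * (q * a ^ 3)) := by ring
      rw [e1]
      omega
    have c8 := hbb (vG2 a q k l0) (length_vG2 ha2 _) (fun b hb => by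
      rw [blk_vG2 ha2 l0 hb, vF2_take])
    by_cases hA2 : A.time (A.mulInput (padL (112 * n ^ 2) (vG2 a q k l0))
        (padL (112 * n ^ 2) (GF a q))) < h * (112 * n ^ 2)
    · -- both succeed
      have r2 : mbRes A h (112 * n ^ 2) (14 * (q * a ^ 3)) k (vG2 a q k l0) (GF a q) =
          vR2 a q k l0 := by
        unfold mbRes
        rw [if_pos hA2]
        rfl
      rw [r2] at c8
      have r2ne : vR2 a q k l0 ≠ [] := hne _ _ (length_vR2 a q k l0) (by
        exact Nat.mul_pos hk (by omega))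
      have c9 := mv _ (length_vR2 a q k l0)
      have c10 : Sat Q3 (stV t (vR2 a q k l0) []) ((D3 * (4 * (C6 + C7 + C8) + 9)) * L)
          (stV t (chunkF (q * a ^ 3) (swapF a (q * a)) l0) []) := by
        have e := g3 (stV t (vR2 a q k l0) []) a q k _ (q * a ^ 3) (vF3 a q h) ha1 hq
          (snil _ _) (spar _ _) (stV_D _ _ _)
          (by rw [sne _ _ _ (by decide) (by decide), tGO])
          (by rw [stV_GD, length_vR2])
          (fun u hu1 hu2 => G3 u (passV_agn (snil _ _) hu2) (passV_agp (spar _ _) hu2)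
            (by rw [hu2 _ (by decide) (by decide) (by decide), sne _ _ _ (by decide) (by decide),
              tHS]) hu1)
          (fun x hx => length_vF3 ha2 hh2 hx)
        refine e.congr ?_ ?_
        · have e1 : k * (q * a ^ 3 + (C6 * (q * a ^ 3) + (C7 * (q * a ^ 3) +
              C8 * (q * a ^ 3))) + q * a ^ 3) = (2 + C6 + C7 + C8) * (k * (q * a ^ 3)) := by ring
          rw [e1, mul_assoc]
          refine Nat.mul_le_mul_left _ ((passV_cost hw4 hL1).trans (le_of_eq ?_))
          ring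
        · rw [stV_GD, stV_upG, passV_list hh ha ha2 hq hl0n, passV_chunk ha1 hq hl0n]
      have rne : chunkF (q * a ^ 3) (swapF a (q * a)) l0 ≠ [] := by
        refine hne _ (k * (q * a ^ 3)) ?_ (by omega)
        rw [← passV_chunk ha1 hq hl0n]
        refine length_cat fun i hi => ?_
        have e1 := blk_len_of hl0n hi
        rw [length_swapF (by rw [e1]; ring), e1]
      have d1 : Sat (ifNE .D (Prog.seq toG Q3) skip) (stV t [] (vR2 a q k l0))
          (562 * L + (D3 * (4 * (C6 + C7 + C8) + 9)) * L + 1)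
          (stV t (chunkF (q * a ^ 3) (swapF a (q * a)) l0) []) :=
        sat_ifNE_cons (by rw [stV_D]; exact r2ne) (c9.seq c10)
      have d2 : Sat (ifNE .D (Prog.seq toG (Prog.seq Q2 (Prog.seq toD (Prog.seq PB
          (ifNE .D (Prog.seq toG Q3) skip))))) skip) (stV t [] (vR1 a q k l0))
          ((562 * L + ((D2 * (4 * (C5 + CP) + 117)) * L + (1122 * L + (5 * CB * L +
            (562 * L + (D3 * (4 * (C6 + C7 + C8) + 9)) * L + 1))))) + 1)
          (stV t (chunkF (q * a ^ 3) (swapF a (q * a)) l0) []) :=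
        sat_ifNE_cons (by rw [stV_D]; exact r1ne) (c5.seq (c6.seq (c7.seq (c8.seq d1))))
      exact (c0.seq (c1.seq (c2.seq (c3.seq (c4.seq (d2.seq (f1 _ rne))))))).congr
        (passV_sum1 hL1) rfl
    · -- the second fails
      have r2 : mbRes A h (112 * n ^ 2) (14 * (q * a ^ 3)) k (vG2 a q k l0) (GF a q) = [] := by
        unfold mbRes
        rw [if_neg hA2]
      rw [r2] at c8
      have d1 : Sat (ifNE .D (Prog.seq toG Q3) skip) (stV t [] []) (1 + 1) (stV t [] []) :=
        sat_ifNE_nil (stV_D _ _ _) (sat_skip _)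
      have d2 : Sat (ifNE .D (Prog.seq toG (Prog.seq Q2 (Prog.seq toD (Prog.seq PB
          (ifNE .D (Prog.seq toG Q3) skip))))) skip) (stV t [] (vR1 a q k l0))
          ((562 * L + ((D2 * (4 * (C5 + CP) + 117)) * L + (1122 * L + (5 * CB * L +
            (1 + 1))))) + 1) (stV t [] []) :=
        sat_ifNE_cons (by rw [stV_D]; exact r1ne) (c5.seq (c6.seq (c7.seq (c8.seq d1))))
      exact (c0.seq (c1.seq (c2.seq (c3.seq (c4.seq (d2.seq
        (f2 (hfail _ (length_vG2 ha2 _) hA2)))))))).congr (passV_sum2 hL1) rfl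
  · -- the first fails
    have r1 : mbRes A h (112 * n ^ 2) (14 * (q * a ^ 3)) k (vG1 a q k l0) (GF a q) = [] := by
      unfold mbRes
      rw [if_neg hA1]
    rw [r1] at c4
    have d2 : Sat (ifNE .D (Prog.seq toG (Prog.seq Q2 (Prog.seq toD (Prog.seq PB
        (ifNE .D (Prog.seq toG Q3) skip))))) skip) (stV t [] []) (1 + 1) (stV t [] []) :=
      sat_ifNE_nil (stV_D _ _ _) (sat_skip _)
    exact (c0.seq (c1.seq (c2.seq (c3.seq (c4.seq (d2.seq
      (f2 (hfail _ (length_vG1 ha2 hl0n) hA1)))))))).congr (passV_sum3 hL1) rfl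

end Vale.Agent.P338
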