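import Vale.Agent.Lib.P338.V2Pass
import Vale.Agent.Lib.P338.PTempl

/-!
# P338, module V2Pass12: the two transposition passes (compare PPass12)

templ1 (resp. templ2) ; passV ; clearPar. `setPar s a q` satisfies `Par a q` (`par_setPar`) and
`AllNil temps`; after `passV` the state is `up (setPar s a q) .GD l' = setPar (up s .GD l') a q`.
The templates cost `≤ C * a ^ 2 ≤ C * (k * a ^ 3) ≤ 4 * C * n ^ 2`.
-/

namespace Vale.Agent.P338

private theorem V2Pass12_of_ne (s : St) (a q : ℕ) {x : SName} (hx : x ∉ params) :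
    setPar s a q x = s x := by
  have h : ∀ y ∈ params, x ≠ y := fun y hy e => hx (e ▸ hy)
  unfold setPar
  rw [up_of_ne _ (h .TE (by decide)), up_of_ne _ (h .TQ (by decide)),
    up_of_ne _ (h .T12 (by decide)), up_of_ne _ (h .T2 (by decide)),
    up_of_ne _ (h .TB (by decide)), up_of_ne _ (h .TA (by decide))]

private theorem V2Pass12_GD (s : St) (a q : ℕ) (l : List Bool) :
    up (setPar s a q) .GD l = setPar (up s .GD l) a q := by
  unfold setPar
  rw [up_comm _ (show SName.TE ≠ SName.GD by decide), up_comm _ (show SName.TQ ≠ SName.GD by decide),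
    up_comm _ (show SName.T12 ≠ SName.GD by decide), up_comm _ (show SName.T2 ≠ SName.GD by decide),
    up_comm _ (show SName.TB ≠ SName.GD by decide), up_comm _ (show SName.TA ≠ SName.GD by decide)]

private theorem V2Pass12_temps {s : St} (h : AllNil rest s) (a q : ℕ) :
    AllNil temps (setPar s a q) := by
  intro x hx
  have h1 : ∀ y ∈ temps, y ∉ params := by decide
  rw [V2Pass12_of_ne s a q (h1 x hx)]
  apply h
  unfold rest
  exact List.mem_append_right _ hx

private theorem V2Pass12_sq (A : TM) (n h : ℕ) : n ^ 2 ≤ lvlV A n h := by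
  unfold lvlV
  exact Nat.le_add_right _ _

/-- passV and clearPar, after the templates have been set -/
private theorem V2Pass12_clear (A : TM) (hA : A.Multiplies) : ∃ (P : BProg A) (C : ℕ),
    ∀ (s : St) (a q h k n : ℕ), 1 ≤ h → a = 2 ^ h → 1 ≤ q → 1 ≤ k → AllNil rest s →
    s .HS = un h → s .LN = un n → (s .GD).length = k * (q * a ^ 3) →
    k * (q * a ^ 3) ≤ 4 * n ^ 2 →
    Sat P (setPar s a q) (C * lvlV A n h)
      (up s .GD (chunkF (q * a ^ 3) (swapF a (q * a)) (s .GD))) := by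
  obtain ⟨P, C, hP⟩ := exists_passV A hA
  obtain ⟨R, C', hR⟩ := exists_clearPar A
  refine ⟨Prog.seq P R, C + 4 * C', ?_⟩
  intro s a q h k n hh ha hq hk hnil hHS hLN hGD hle
  have hget : ∀ x ∈ rest, s x = [] := hnil
  have ha1 : 1 ≤ a := by
    rw [ha]
    exact Nat.one_le_two_pow
  have h1 := hP (setPar s a q) a q h k n hh ha hq hk (V2Pass12_temps hnil a q)
    (par_setPar (hget .TF (by decide)) a q)
    (by rw [V2Pass12_of_ne _ _ _ (by decide)]; exact hHS)
    (by rw [V2Pass12_of_ne _ _ _ (by decide)]; exact hget .D (by decide))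
    (by rw [V2Pass12_of_ne _ _ _ (by decide)]; exact hget .Y (by decide))
    (by rw [V2Pass12_of_ne _ _ _ (by decide)]; exact hget .GO (by decide))
    (by rw [V2Pass12_of_ne _ _ _ (by decide)]; exact hget .SV (by decide))
    (by rw [V2Pass12_of_ne _ _ _ (by decide)]; exact hLN)
    (by rw [V2Pass12_of_ne _ _ _ (by decide)]; exact hGD) hle
  have hG : setPar s a q .GD = s .GD := V2Pass12_of_ne s a q (by decide)
  rw [V2Pass12_GD, hG] at h1
  have hnil' : AllNil rest (up s .GD (chunkF (q * a ^ 3) (swapF a (q * a)) (s .GD))) :=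
    hnil.up (by decide) _
  have h2 := hR (up s .GD (chunkF (q * a ^ 3) (swapF a (q * a)) (s .GD))) a q ha1 hq hnil'
  refine (h1.seq h2).congr ?_ rfl
  have h3 : q * a ≤ 4 * lvlV A n h := by
    have h4 : q * a ≤ q * a ^ 3 := by
      apply Nat.mul_le_mul_left
      calc a = a ^ 1 := (pow_one a).symm
        _ ≤ a ^ 3 := Nat.pow_le_pow_right ha1 (by omega)
    have h5 : q * a ^ 3 ≤ k * (q * a ^ 3) := Nat.le_mul_of_pos_left _ (by omega)
    have h6 := V2Pass12_sq A n h
    omega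
  have h5 := Nat.mul_le_mul_left C' h3
  have h6 : (C + 4 * C') * lvlV A n h = C * lvlV A n h + C' * (4 * lvlV A n h) := by ring
  rw [h6]
  omega

/-- `q = 1` -/
theorem exists_passV1 (A : TM) (hA : A.Multiplies) : ∃ (P : BProg A) (C : ℕ), ∀ (s : St)
    (a h k n : ℕ), 1 ≤ h → a = 2 ^ h → 1 ≤ k → AllNil rest s → s .HS = un h → s .LN = un n →
    (s .GD).length = k * a ^ 3 → k * a ^ 3 ≤ 4 * n ^ 2 →
    Sat P s (C * lvlV A n h) (up s .GD (chunkF (a ^ 3) (swapF a a) (s .GD))) := by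
  obtain ⟨P, C, hP⟩ := exists_templ1 A
  obtain ⟨R, C', hR⟩ := V2Pass12_clear A hA
  refine ⟨Prog.seq P R, 4 * C + C', ?_⟩
  intro s a h k n hh ha hk hnil hHS hLN hGD hle
  have ha1 : 1 ≤ a := by
    rw [ha]
    exact Nat.one_le_two_pow
  have h1 := hP s h hnil hHS
  rw [← ha] at h1
  have h2 := hR s a 1 h k n hh ha le_rfl hk hnil hHS hLN (by rw [one_mul]; exact hGD)
    (by rw [one_mul]; exact hle)
  rw [one_mul, one_mul] at h2
  refine (h1.seq h2).congr ?_ rfl
  have h3 : a ≤ 4 * lvlV A n h := by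
    have h4 : a ≤ a ^ 3 := by
      calc a = a ^ 1 := (pow_one a).symm
        _ ≤ a ^ 3 := Nat.pow_le_pow_right ha1 (by omega)
    have h5 : a ^ 3 ≤ k * a ^ 3 := Nat.le_mul_of_pos_left _ (by omega)
    have h6 := V2Pass12_sq A n h
    omega
  have h5 := Nat.mul_le_mul_left C h3
  have h6 : (4 * C + C') * lvlV A n h = C * (4 * lvlV A n h) + C' * lvlV A n h := by ring
  rw [h6]
  omega

/-- `q = a` -/
theorem exists_passV2 (A : TM) (hA : A.Multiplies) : ∃ (P : BProg A) (C : ℕ), ∀ (s : St)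
    (a h k n : ℕ), 1 ≤ h → a = 2 ^ h → 1 ≤ k → AllNil rest s → s .HS = un h → s .LN = un n →
    (s .GD).length = k * a ^ 4 → k * a ^ 4 ≤ 4 * n ^ 2 →
    Sat P s (C * lvlV A n h) (up s .GD (chunkF (a ^ 4) (swapF a (a ^ 2)) (s .GD))) := by
  obtain ⟨P, C, hP⟩ := exists_templ2 A
  obtain ⟨R, C', hR⟩ := V2Pass12_clear A hA
  refine ⟨Prog.seq P R, 4 * C + C', ?_⟩
  intro s a h k n hh ha hk hnil hHS hLN hGD hle
  have ha1 : 1 ≤ a := by
    rw [ha]
    exact Nat.one_le_two_pow
  have h1 := hP s h hnil hHS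
  rw [← ha] at h1
  have e4 : a * a ^ 3 = a ^ 4 := by ring
  have e2 : a * a = a ^ 2 := by ring
  have h2 := hR s a a h k n hh ha ha1 hk hnil hHS hLN (by rw [e4]; exact hGD)
    (by rw [e4]; exact hle)
  rw [e4, e2] at h2
  refine (h1.seq h2).congr ?_ rfl
  have h3 : a ^ 2 ≤ 4 * lvlV A n h := by
    have h4 : a ^ 2 ≤ a ^ 4 := Nat.pow_le_pow_right ha1 (by omega)
    have h5 : a ^ 4 ≤ k * a ^ 4 := Nat.le_mul_of_pos_left _ (by omega)
    have h6 := V2Pass12_sq A n h
    omega
  have h5 := Nat.mul_le_mul_left C h3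
  have h6 : (4 * C + C') * lvlV A n h = C * (4 * lvlV A n h) + C' * lvlV A n h := by ring
  rw [h6]
  omega

end Vale.Agent.P338
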