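import Vale.Agent.Lib.P338.V2Top
import Vale.Agent.Lib.P338.V2Cost
import Vale.Agent.Lib.P338.Wrap

/-!
# P338, module V2Reduct: the reduction, version 2 (compare Reduct)
-/

namespace Vale.Agent.P338

theorem reductionV (A : TM) (hA : A.Multiplies) : ∃ B : TM, B.Transposes ∧ ∃ C : ℝ, 0 < C ∧
    ∀ n : ℕ, 1 ≤ n → ∀ r : ℕ, (B.transTime n : ℝ) ≤
      C * ((n : ℝ) ^ 2 * (1 + Nat.log 2 (Nat.clog 2 n) + Nat.clog 2 n / 2 ^ r) +
        r * A.mulTime (112 * n ^ 2)) := by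
  obtain ⟨P, C0, hP⟩ := exists_topV A hA
  obtain ⟨B, C1, hB⟩ := exists_wrap A P
  have key : ∀ (n : ℕ) (x : List Bool), 1 ≤ n → x.length = n * n →
      ∃ t ≤ C0 * recCostV A n (Nat.clog 2 n) + C1 * (2 * (n * n) + 1), ∃ c,
        B.HaltsWithin (x.map B.bit) t c ∧ B.Outputs c ((transpose n x).map B.bit) := by
    intro n x hn hx
    obtain ⟨t, ht, c, hc⟩ := hB x (transpose n x) _ (hP n x hn hx)
    refine ⟨t, ?_, c, hc⟩
    rw [hx, show (transpose n x).length = n * n by simp [transpose]] at ht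
    have e : n * n + n * n + 1 = 2 * (n * n) + 1 := by ring
    rw [e] at ht
    exact ht
  have hC0 : (0 : ℝ) ≤ C0 := Nat.cast_nonneg _
  have hC1 : (0 : ℝ) ≤ C1 := Nat.cast_nonneg _
  refine ⟨B, ?_, (C0 : ℝ) * 112 + C1 * 3 + 1, by positivity, ?_⟩
  · intro n hn x hx
    obtain ⟨t, _, c, hc⟩ := key n x hn hx
    exact ⟨t, c, hc⟩
  · intro n hn r
    have h1 : B.transTime n ≤ C0 * recCostV A n (Nat.clog 2 n) + C1 * (2 * (n * n) + 1) := by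
      unfold TM.transTime
      refine Finset.sup_le fun x _ => ?_
      obtain ⟨t, ht, c, hc⟩ := key n (List.ofFn x) hn (by simp)
      exact (Nat.sInf_le (s := {t | ∃ c, B.HaltsWithin ((List.ofFn x).map B.bit) t c})
        ⟨c, hc.1⟩).trans ht
    have h2 : (B.transTime n : ℝ) ≤
        C0 * (recCostV A n (Nat.clog 2 n) : ℝ) + C1 * (2 * ((n : ℝ) * n) + 1) := by
      exact_mod_cast h1
    have h3 := recCostV_le A hn (Nat.clog 2 n) r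
    have hn1 : (1 : ℝ) ≤ n := by exact_mod_cast hn
    have hn2 : 1 ≤ (n : ℝ) ^ 2 := one_le_pow₀ hn1
    obtain ⟨lg, hlg, hlg0⟩ : ∃ lg : ℝ, (Nat.log 2 (Nat.clog 2 n) : ℝ) = lg ∧ 0 ≤ lg :=
      ⟨_, rfl, Nat.cast_nonneg _⟩
    obtain ⟨q, hq, hq0⟩ : ∃ q : ℝ, (Nat.clog 2 n : ℝ) / 2 ^ r = q ∧ 0 ≤ q :=
      ⟨_, rfl, by positivity⟩
    obtain ⟨M, hM, hM0⟩ : ∃ M : ℝ, (r : ℝ) * (A.mulTime (112 * n ^ 2) : ℝ) = M ∧ 0 ≤ M :=
      ⟨_, rfl, by positivity⟩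
    rw [hlg, hq, hM] at h3 ⊢
    have h5 : (n : ℝ) ^ 2 * (1 + lg + 112 * q) + M ≤
        112 * ((n : ℝ) ^ 2 * (1 + lg + q) + M) := by
      have h6 : 0 ≤ (n : ℝ) ^ 2 * (1 + lg) := by positivity
      nlinarith
    have h7 : (n : ℝ) ^ 2 ≤ (n : ℝ) ^ 2 * (1 + lg + q) + M := by
      have h8 : 0 ≤ (n : ℝ) ^ 2 * (lg + q) := by positivity
      nlinarith
    have h9 : 2 * ((n : ℝ) * n) + 1 ≤ 3 * ((n : ℝ) ^ 2 * (1 + lg + q) + M) := by
      nlinarith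
    set Z : ℝ := (n : ℝ) ^ 2 * (1 + lg + q) + M with hZ
    have hZ0 : 0 ≤ Z := by linarith
    calc (B.transTime n : ℝ) ≤ C0 * (recCostV A n (Nat.clog 2 n) : ℝ) +
          C1 * (2 * ((n : ℝ) * n) + 1) := h2
      _ ≤ C0 * (112 * Z) + C1 * (3 * Z) :=
          add_le_add (mul_le_mul_of_nonneg_left (h3.trans h5) hC0)
            (mul_le_mul_of_nonneg_left h9 hC1)
      _ ≤ ((C0 : ℝ) * 112 + C1 * 3 + 1) * Z := by nlinarith

end Vale.Agent.P338
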