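import Vale.Agent.Lib.P338.V2Main
import Vale.Agent.Lib.P338.PFront
import Vale.Agent.Lib.P338.PBack

/-!
# P338, module V2Top: the whole stack program (compare PTop)

front ; recV ; back, with `L = Nat.clog 2 n`, `k = 1`. `4 ^ L ≤ 4 * n ^ 2` because
`2 ^ L ≤ 2 * n`.
-/

namespace Vale.Agent.P338

theorem v2top_le_recCostV (A : TM) (n L : ℕ) : n ^ 2 ≤ recCostV A n L := by
  rw [recCostV]
  split_ifs with h
  · exact le_rfl
  · unfold lvlV
    omega

theorem v2top_pow (L : ℕ) : 2 ^ L * 2 ^ L = 4 ^ L := by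
  rw [← mul_pow]
  norm_num

theorem v2top_sq {n : ℕ} (hn : 1 ≤ n) : 4 ^ Nat.clog 2 n ≤ 4 * n ^ 2 := by
  have h : 2 ^ Nat.clog 2 n ≤ 2 * n := pback_m_le hn
  calc 4 ^ Nat.clog 2 n = 2 ^ Nat.clog 2 n * 2 ^ Nat.clog 2 n := (v2top_pow _).symm
    _ ≤ (2 * n) * (2 * n) := Nat.mul_le_mul h h
    _ = 4 * n ^ 2 := by ring

theorem v2top_rest (n : ℕ) (x : List Bool) : AllNil rest (mid n x) := by
  intro y hy
  cases y <;> first | rfl | exact absurd hy (by decide)

theorem exists_topV (A : TM) (hA : A.Multiplies) : ∃ (P : BProg A) (C : ℕ), ∀ (n : ℕ)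
    (x : List Bool), 1 ≤ n → x.length = n * n →
    Sat P (only x) (C * recCostV A n (Nat.clog 2 n)) (only (transpose n x)) := by
  obtain ⟨P1, C1, h1⟩ := exists_front A
  obtain ⟨P2, C2, h2⟩ := exists_recV A hA
  obtain ⟨P3, C3, h3⟩ := exists_back A
  refine ⟨Prog.seq P1 (Prog.seq P2 P3), C1 + C2 + C3, fun n x hn hx => ?_⟩
  have hnm : n ≤ 2 ^ Nat.clog 2 n := Nat.le_pow_clog (by norm_num) n
  have hsq := v2top_sq hn
  set L := Nat.clog 2 n with hL
  have hlen : (padF n (2 ^ L) x).length = 4 ^ L := by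
    rw [length_padF hnm hx, v2top_pow]
  have g1 := h1 n x hn hx
  have hGD : mid n (padF n (2 ^ L) x) .GD = padF n (2 ^ L) x := rfl
  have g2 := h2 (mid n (padF n (2 ^ L) x)) L 1 n hn le_rfl (v2top_rest n _) rfl rfl rfl rfl (by
    rw [hGD, hlen, one_mul]) (by rw [one_mul]; exact hsq)
  rw [hGD, recF_eq_transpose L hlen] at g2
  have hlen2 : (transpose (2 ^ L) (padF n (2 ^ L) x)).length = 2 ^ L * 2 ^ L := by
    unfold transpose
    rw [List.length_map, List.length_range]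
  have g3 := h3 n (transpose (2 ^ L) (padF n (2 ^ L) x)) hn hlen2
  rw [← hL, unpad_transpose_pad hnm hx] at g3
  have hmid : up (mid n (padF n (2 ^ L) x)) .GD (transpose (2 ^ L) (padF n (2 ^ L) x)) =
      mid n (transpose (2 ^ L) (padF n (2 ^ L) x)) := by
    funext y
    cases y <;> rfl
  rw [hmid] at g2
  refine (g1.seq (g2.seq g3)).mono ?_
  have c1 : n ^ 2 ≤ recCostV A n L := v2top_le_recCostV A n L
  have c2 := Nat.mul_le_mul_left C1 c1
  have c3 := Nat.mul_le_mul_left C3 c1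
  calc C1 * n ^ 2 + (C2 * recCostV A n L + C3 * n ^ 2)
      ≤ C1 * recCostV A n L + (C2 * recCostV A n L + C3 * recCostV A n L) := by
        omega
    _ = (C1 + C2 + C3) * recCostV A n L := by ring

end Vale.Agent.P338
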